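import Vale.Agent.P338.TM.SpecPow2

namespace Vale.Agent.P338.TM

open Vale.Agent.P338

section aux

variable {ι Γ : Type} [TapeAlpha Γ] [DecidableEq ι]

theorem un_append (m n : ℕ) : (un m ++ un n : List Γ) = un (m + n) :=
  (List.replicate_add m n _).symm

theorem un_append_rep (m n : ℕ) : (un m ++ List.replicate n (bit true) : List Γ) = un (m + n) :=
  (List.replicate_add m n _).symm

theorem un_length (c : ℕ) : (un c : List Γ).length = c := List.length_replicate

theorem un_zero : (un 0 : List Γ) = [] := rfl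

theorem un_succ (n : ℕ) : (un (n + 1) : List Γ) = bit true :: un n := List.replicate_succ

theorem un_succ' (n : ℕ) : (un (n + 1) : List Γ) = un n ++ [bit true] := List.replicate_succ'

theorem blank_notMem_un (c : ℕ) : (blank : Γ) ∉ (un c : List Γ) := by
  intro h
  have := List.eq_of_mem_replicate h
  exact TapeAlpha.bit_ne_blank true this.symm

theorem mv_right_spec (x : ι) (s : St ι Γ) (d : List Γ) (y : Γ) (r : List Γ)
    (hx : s x = Z d (y :: r)) :
    (mv x Move.right).SRuns s 1 (Function.update s x (Z (d ++ [y]) r)) true := by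
  have h := mv_right_update x s d y r
  rwa [← hx, Function.update_eq_self] at h

theorem wr_stay_spec (x : ι) (w : Γ) (s : St ι Γ) (d t : List Γ) (hx : s x = Z d t) :
    (wr x w Move.stay).SRuns s 1 (Function.update s x (Z d (w :: t.tail))) true := by
  have h := prim_sruns (fun _ => (Instr.nil : Instr ι Γ).set x w Move.stay) s
  rw [Instr.sapp_set, Instr.sapp_nil, hx, Z_act_stay] at h
  exact h

theorem update_update_self_of (s : St ι Γ) (x p : ι) (hpx : p ≠ x) (z zp : Zip Γ)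
    (hp : s p = zp) :
    Function.update (Function.update s x z) p zp = Function.update s x z :=
  Function.update_eq_self_iff.2 (by rw [Function.update_of_ne hpx, hp])

end aux

variable {Γ : Type} [TapeAlpha Γ]

/-- The state `s` with the unary parameter tapes filled in. -/
def withUn (P : Par) (s : St Own Γ) : St Own Γ :=
  fun x => if x.isUn = true then Z [] (un (P.uval x)) else s x

theorem setUn_spec (σ lo up : ℕ) (hlo : 1 ≤ lo) (hup : 1 ≤ up) (hs : lo + up ≤ σ + 2)
    (s : St Own Γ) (h1 : s Own.d1 = Z [] (un σ)) (h2 : s Own.d2 = Z [] (un lo))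
    (h3 : s Own.d3 = Z [] (un up))
    (hE : ∀ x, x.isUn = true ∨ x = Own.d4 ∨ x = Own.d5 ∨ x = Own.d6 → s x = Z [] []) :
    (setUn : Prog Own Γ).SRuns s
      (300 * (2 ^ lo * 2 ^ up + 2 ^ σ + 2 ^ (σ + 5 - lo - up) + σ + 10))
      (withUn (parOf σ lo up) s) true := by
  have eta : s Own.ta = Z [] [] := hE _ (Or.inl rfl)
  have etb : s Own.tb = Z [] [] := hE _ (Or.inl rfl)
  have etg : s Own.tg = Z [] [] := hE _ (Or.inl rfl)
  have ete : s Own.te = Z [] [] := hE _ (Or.inl rfl)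
  have etm : s Own.tm = Z [] [] := hE _ (Or.inl rfl)
  have etN : s Own.tN = Z [] [] := hE _ (Or.inl rfl)
  have etb1 : s Own.tb1 = Z [] [] := hE _ (Or.inl rfl)
  have et1 : s Own.t1 = Z [] [] := hE _ (Or.inl rfl)
  have et0 : s Own.t0 = Z [] [] := hE _ (Or.inl rfl)
  have etf : s Own.tf = Z [] [] := hE _ (Or.inl rfl)
  have ed4 : s Own.d4 = Z [] [] := hE _ (Or.inr (Or.inl rfl))
  have ed5 : s Own.d5 = Z [] [] := hE _ (Or.inr (Or.inr (Or.inl rfl)))
  have ed6 : s Own.d6 = Z [] [] := hE _ (Or.inr (Or.inr (Or.inr rfl)))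
  have he1 : 1 ≤ 2 ^ σ := Nat.one_le_two_pow
  have hb1 : 1 ≤ 2 ^ up := Nat.one_le_two_pow
  have ha1 : 1 ≤ 2 ^ lo := Nat.one_le_two_pow
  obtain ⟨q, hq⟩ : ∃ q, q = σ + 5 - lo - up := ⟨_, rfl⟩
  rw [← hq]
  -- the states
  obtain ⟨s1, hs1⟩ : ∃ t, t = Function.update s Own.ta (Z [] (un (2 ^ lo))) := ⟨_, rfl⟩
  obtain ⟨s2, hs2⟩ : ∃ t, t = Function.update s1 Own.tb (Z [] (un (2 ^ up))) := ⟨_, rfl⟩
  obtain ⟨s3, hs3⟩ : ∃ t, t = Function.update s2 Own.te (Z [] (un (2 ^ σ))) := ⟨_, rfl⟩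
  obtain ⟨s4, hs4⟩ : ∃ t, t = Function.update s3 Own.tm (Z (un (16 * 2 ^ σ)) []) := ⟨_, rfl⟩
  obtain ⟨s5, hs5⟩ : ∃ t, t = Function.update s4 Own.tm (Z [] (un (16 * 2 ^ σ))) := ⟨_, rfl⟩
  obtain ⟨s6, hs6⟩ : ∃ t, t = Function.update s5 Own.d4 (Z (un σ) []) := ⟨_, rfl⟩
  obtain ⟨s7, hs7⟩ : ∃ t, t = Function.update s6 Own.d4 (Z (un (σ + 5)) []) := ⟨_, rfl⟩
  obtain ⟨s8, hs8⟩ : ∃ t, t = Function.update s7 Own.d4 (Z [] (un (σ + 5))) := ⟨_, rfl⟩
  obtain ⟨s9, hs9⟩ : ∃ t, t = Function.update s8 Own.d4 (Z (un lo) (un (up + q))) := ⟨_, rfl⟩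
  obtain ⟨s10, hs10⟩ : ∃ t, t = Function.update s9 Own.d4 (Z (un (lo + up)) (un q)) := ⟨_, rfl⟩
  obtain ⟨s11, hs11⟩ : ∃ t, t = Function.update (Function.update s10 Own.d4 (Z (un (σ + 5)) []))
    Own.d6 (Z (un q) []) := ⟨_, rfl⟩
  obtain ⟨s12, hs12⟩ : ∃ t, t = Function.update s11 Own.d6 (Z [] (un q)) := ⟨_, rfl⟩
  obtain ⟨s13, hs13⟩ : ∃ t, t = Function.update s12 Own.d4 (Z [] []) := ⟨_, rfl⟩
  obtain ⟨s14, hs14⟩ : ∃ t, t = Function.update s13 Own.tg (Z [] (un (2 ^ q))) := ⟨_, rfl⟩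
  obtain ⟨s15, hs15⟩ : ∃ t, t = Function.update s14 Own.d6 (Z [] []) := ⟨_, rfl⟩
  obtain ⟨s16, hs16⟩ : ∃ t, t = Function.update s15 Own.tN (Z (un (2 ^ lo * 2 ^ up)) []) :=
    ⟨_, rfl⟩
  obtain ⟨s17, hs17⟩ : ∃ t, t = Function.update s16 Own.tN (Z [] (un (2 ^ lo * 2 ^ up))) :=
    ⟨_, rfl⟩
  obtain ⟨s18, hs18⟩ : ∃ t, t = Function.update s17 Own.tb (Z (un 1) (un (2 ^ up - 1))) :=
    ⟨_, rfl⟩
  obtain ⟨s19, hs19⟩ : ∃ t, t = Function.update (Function.update s18 Own.tb (Z (un (2 ^ up)) []))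
    Own.tb1 (Z (un (2 ^ up - 1)) []) := ⟨_, rfl⟩
  obtain ⟨s20, hs20⟩ : ∃ t, t = Function.update s19 Own.tb (Z [] (un (2 ^ up))) := ⟨_, rfl⟩
  obtain ⟨s21, hs21⟩ : ∃ t, t = Function.update s20 Own.tb1 (Z [] (un (2 ^ up - 1))) := ⟨_, rfl⟩
  obtain ⟨s22, hs22⟩ : ∃ t, t = Function.update s21 Own.t1 (Z [] (un 1)) := ⟨_, rfl⟩
  obtain ⟨s23, hs23⟩ : ∃ t, t = Function.update s22 Own.tm (Z (un (2 ^ σ)) (un (15 * 2 ^ σ))) :=
    ⟨_, rfl⟩
  obtain ⟨s24, hs24⟩ : ∃ t, t = Function.update s23 Own.tm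
    (Z (un (2 ^ σ + 7)) (un (16 * 2 ^ σ - 7 - 2 ^ σ))) := ⟨_, rfl⟩
  obtain ⟨s25, hs25⟩ : ∃ t, t = Function.update (Function.update s24 Own.tm
    (Z (un (16 * 2 ^ σ)) [])) Own.tf (Z (un (16 * 2 ^ σ - 7 - 2 ^ σ)) []) := ⟨_, rfl⟩
  obtain ⟨s26, hs26⟩ : ∃ t, t = Function.update s25 Own.tm (Z [] (un (16 * 2 ^ σ))) := ⟨_, rfl⟩
  obtain ⟨s27, hs27⟩ : ∃ t, t = Function.update s26 Own.tf (Z [] (un (16 * 2 ^ σ - 7 - 2 ^ σ))) :=
    ⟨_, rfl⟩
  -- the steps
  have r1 : (pow2 Own.d2 Own.ta Own.d5).SRuns s (6 * 2 ^ lo + 21 * lo + 10) s1 true := by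
    rw [hs1]
    exact pow2_spec Own.d2 Own.ta Own.d5 (by decide) (by decide) (by decide) s lo h2 eta ed5
  have r2 : (pow2 Own.d3 Own.tb Own.d5).SRuns s1 (6 * 2 ^ up + 21 * up + 10) s2 true := by
    rw [hs2]
    exact pow2_spec Own.d3 Own.tb Own.d5 (by decide) (by decide) (by decide) s1 up
      (by simp [hs1, h3]) (by simp [hs1, etb]) (by simp [hs1, ed5])
  have r3 : (pow2 Own.d1 Own.te Own.d5).SRuns s2 (6 * 2 ^ σ + 21 * σ + 10) s3 true := by
    rw [hs3]
    exact pow2_spec Own.d1 Own.te Own.d5 (by decide) (by decide) (by decide) s2 σ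
      (by simp [hs2, hs1, h1]) (by simp [hs2, hs1, ete]) (by simp [hs2, hs1, ed5])
  have r4 : (rep 16 (onesU Own.te Own.tm)).SRuns s3 (16 * (7 * 2 ^ σ + 6 + 1)) s4 true := by
    have h := rep_fun (onesU Own.te Own.tm) 16 (7 * 2 ^ σ + 6)
      (fun k => Function.update s3 Own.tm (Z (un (k * 2 ^ σ)) [])) (by
        intro k _
        refine ⟨true, ?_⟩
        have h := onesU_spec Own.te Own.tm (by decide)
          (Function.update s3 Own.tm (Z (un (k * 2 ^ σ)) [])) (2 ^ σ) (un (k * 2 ^ σ))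
          (by simp [hs3]) (by simp)
        rw [Function.update_idem, un_append_rep] at h
        have e : (k + 1) * 2 ^ σ = k * 2 ^ σ + 2 ^ σ := by ring
        simp only [e]
        exact h)
    have e0 : Function.update s3 Own.tm (Z (un (0 * 2 ^ σ)) []) = s3 :=
      Function.update_eq_self_iff.2 (by simp [hs3, hs2, hs1, etm, un_zero])
    simp only [e0] at h
    rw [hs4]
    exact h
  have r5 : (rewind Own.tm).SRuns s4 (16 * 2 ^ σ + 3) s5 true := by
    have h := rewind_spec Own.tm s4 (un (16 * 2 ^ σ)) [] (by simp [hs4]) (lend_notMem_un _)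
      (by simp)
    rw [List.append_nil, un_length] at h
    rw [hs5]
    exact h
  have r6 : (onesU Own.d1 Own.d4).SRuns s5 (7 * σ + 6) s6 true := by
    have h := onesU_spec Own.d1 Own.d4 (by decide) s5 σ []
      (by simp [hs5, hs4, hs3, hs2, hs1, h1]) (by simp [hs5, hs4, hs3, hs2, hs1, ed4])
    rw [List.nil_append] at h
    rw [hs6]
    exact h
  have r7 : (wrs Own.d4 (un 5)).SRuns s6 10 s7 true := by
    have h := wrs_spec Own.d4 (un 5) s6 (un σ) (by simp [hs6])
    rw [un_append, un_length] at h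
    rw [hs7]
    exact h
  have r8 : (rewind Own.d4).SRuns s7 (σ + 5 + 3) s8 true := by
    have h := rewind_spec Own.d4 s7 (un (σ + 5)) [] (by simp [hs7]) (lend_notMem_un _)
      (by simp)
    rw [List.append_nil, un_length] at h
    rw [hs8]
    exact h
  have r9 : (mvU Own.d2 Own.d4 Move.right).SRuns s8 (7 * lo + 6) s9 true := by
    have h := mvU_right_spec Own.d2 Own.d4 (by decide) s8 lo [] (un lo) (un (up + q))
      (un_length _) (by simp [hs8, hs7, hs6, hs5, hs4, hs3, hs2, hs1, h2])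
      (by
        rw [un_append, show lo + (up + q) = σ + 5 by omega]
        simp [hs8])
    rw [List.nil_append] at h
    rw [hs9]
    exact h
  have r10 : (mvU Own.d3 Own.d4 Move.right).SRuns s9 (7 * up + 6) s10 true := by
    have h := mvU_right_spec Own.d3 Own.d4 (by decide) s9 up (un lo) (un up) (un q)
      (un_length _) (by simp [hs9, hs8, hs7, hs6, hs5, hs4, hs3, hs2, hs1, h3])
      (by
        rw [un_append]
        simp [hs9])
    rw [un_append] at h
    rw [hs10]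
    exact h
  have r11 : (appendAll Own.d4 Own.d6).SRuns s10 q s11 true := by
    have h := appendAll_spec Own.d4 Own.d6 (by decide) s10 (un (lo + up)) (un q) []
      (blank_notMem_un _) (by simp [hs10])
      (by simp [hs10, hs9, hs8, hs7, hs6, hs5, hs4, hs3, hs2, hs1, ed6])
    rw [un_append, List.nil_append, un_length, show lo + up + q = σ + 5 by omega] at h
    rw [hs11]
    exact h
  have r12 : (rewind Own.d6).SRuns s11 (q + 3) s12 true := by
    have h := rewind_spec Own.d6 s11 (un q) [] (by simp [hs11]) (lend_notMem_un _)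
      (by simp)
    rw [List.append_nil, un_length] at h
    rw [hs12]
    exact h
  have r13 : (erase Own.d4).SRuns s12 (σ + 5 + 5) s13 true := by
    have h := erase_spec Own.d4 s12 (un (σ + 5)) [] (by simp [hs12, hs11]) (lend_notMem_un _)
      (by simp) (by simp)
    rw [un_length] at h
    rw [hs13]
    exact h
  have r14 : (pow2 Own.d6 Own.tg Own.d5).SRuns s13 (6 * 2 ^ q + 21 * q + 10) s14 true := by
    rw [hs14]
    exact pow2_spec Own.d6 Own.tg Own.d5 (by decide) (by decide) (by decide) s13 q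
      (by simp [hs13, hs12])
      (by simp [hs13, hs12, hs11, hs10, hs9, hs8, hs7, hs6, hs5, hs4, hs3, hs2, hs1, etg])
      (by simp [hs13, hs12, hs11, hs10, hs9, hs8, hs7, hs6, hs5, hs4, hs3, hs2, hs1, ed5])
  have r15 : (erase Own.d6).SRuns s14 (2 * q + 5) s15 true := by
    have h := erase_spec Own.d6 s14 [] (un q) (by simp [hs14, hs13, hs12]) (by simp)
      (lend_notMem_un _) (blank_notMem_un _)
    rw [un_length] at h
    rw [hs15]
    exact h.mono (by simp)
  have v15a : s15 Own.ta = Z [] (un (2 ^ lo)) := by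
    simp [hs15, hs14, hs13, hs12, hs11, hs10, hs9, hs8, hs7, hs6, hs5, hs4, hs3, hs2, hs1]
  have v15b : s15 Own.tb = Z [] (un (2 ^ up)) := by
    simp [hs15, hs14, hs13, hs12, hs11, hs10, hs9, hs8, hs7, hs6, hs5, hs4, hs3, hs2, hs1]
  have v15N : s15 Own.tN = Z [] [] := by
    simp [hs15, hs14, hs13, hs12, hs11, hs10, hs9, hs8, hs7, hs6, hs5, hs4, hs3, hs2, hs1, etN]
  have r16 : (forU Own.ta (onesU Own.tb Own.tN)).SRuns s15
      (2 ^ lo * (7 * 2 ^ up + 6 + 6) + 6) s16 true := by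
    have h := forU_fun Own.ta (onesU Own.tb Own.tN) (2 ^ lo) (7 * 2 ^ up + 6)
      (fun k => Function.update s15 Own.tN (Z (un (k * 2 ^ up)) [])) (by
        intro k _
        refine ⟨true, ?_⟩
        have h := onesU_spec Own.tb Own.tN (by decide)
          (Function.update (Function.update s15 Own.tN (Z (un (k * 2 ^ up)) [])) Own.ta
            (Z (un k) (un (2 ^ lo - k)))) (2 ^ up) (un (k * 2 ^ up))
          (by simp [v15b]) (by simp)
        rw [Function.update_comm (by decide : Own.ta ≠ Own.tN), Function.update_idem,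
          un_append_rep] at h
        have e : (k + 1) * 2 ^ up = k * 2 ^ up + 2 ^ up := by ring
        simp only [e]
        exact h)
    have e0 : Function.update s15 Own.tN (Z (un (0 * 2 ^ up)) []) = s15 :=
      Function.update_eq_self_iff.2 (by simp [v15N, un_zero])
    simp only [e0] at h
    rw [Function.update_eq_self_iff.2 v15a.symm,
      update_update_self_of s15 Own.tN Own.ta (by decide) _ _ v15a] at h
    rw [hs16]
    exact h
  have r17 : (rewind Own.tN).SRuns s16 (2 ^ lo * 2 ^ up + 3) s17 true := by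
    have h := rewind_spec Own.tN s16 (un (2 ^ lo * 2 ^ up)) [] (by simp [hs16]) (lend_notMem_un _)
      (by simp)
    rw [List.append_nil, un_length] at h
    rw [hs17]
    exact h
  have r18 : (mv Own.tb Move.right).SRuns s17 1 s18 true := by
    have h := mv_right_spec Own.tb s17 [] (bit true) (un (2 ^ up - 1)) (by
      rw [← un_succ, show 2 ^ up - 1 + 1 = 2 ^ up by omega]
      simp [hs17, hs16, v15b])
    rw [hs18]
    exact h
  have r19 : (appendAll Own.tb Own.tb1).SRuns s18 (2 ^ up - 1) s19 true := by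
    have h := appendAll_spec Own.tb Own.tb1 (by decide) s18 (un 1) (un (2 ^ up - 1)) []
      (blank_notMem_un _) (by simp [hs18])
      (by simp [hs18, hs17, hs16, hs15, hs14, hs13, hs12, hs11, hs10, hs9, hs8, hs7, hs6, hs5,
        hs4, hs3, hs2, hs1, etb1])
    rw [un_append, List.nil_append, un_length, show 1 + (2 ^ up - 1) = 2 ^ up by omega] at h
    rw [hs19]
    exact h
  have r20 : (rewind Own.tb).SRuns s19 (2 ^ up + 3) s20 true := by
    have h := rewind_spec Own.tb s19 (un (2 ^ up)) [] (by simp [hs19]) (lend_notMem_un _)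
      (by simp)
    rw [List.append_nil, un_length] at h
    rw [hs20]
    exact h
  have r21 : (rewind Own.tb1).SRuns s20 (2 ^ up - 1 + 3) s21 true := by
    have h := rewind_spec Own.tb1 s20 (un (2 ^ up - 1)) [] (by simp [hs20, hs19])
      (lend_notMem_un _) (by simp)
    rw [List.append_nil, un_length] at h
    rw [hs21]
    exact h
  have r22 : (wr Own.t1 (bit true) Move.stay).SRuns s21 1 s22 true := by
    have h := wr_stay_spec Own.t1 (bit true) s21 [] []
      (by simp [hs21, hs20, hs19, hs18, hs17, hs16, hs15, hs14, hs13, hs12, hs11, hs10, hs9, hs8,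
        hs7, hs6, hs5, hs4, hs3, hs2, hs1, et1])
    rw [hs22]
    exact h
  have r23 : (mvU Own.te Own.tm Move.right).SRuns s22 (7 * 2 ^ σ + 6) s23 true := by
    have h := mvU_right_spec Own.te Own.tm (by decide) s22 (2 ^ σ) [] (un (2 ^ σ))
      (un (15 * 2 ^ σ)) (un_length _)
      (by simp [hs22, hs21, hs20, hs19, hs18, hs17, hs16, hs15, hs14, hs13, hs12, hs11, hs10, hs9,
        hs8, hs7, hs6, hs5, hs4, hs3])
      (by
        rw [un_append, show 2 ^ σ + 15 * 2 ^ σ = 16 * 2 ^ σ by omega]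
        simp [hs22, hs21, hs20, hs19, hs18, hs17, hs16, hs15, hs14, hs13, hs12, hs11, hs10, hs9,
          hs8, hs7, hs6, hs5])
    rw [List.nil_append] at h
    rw [hs23]
    exact h
  have r24 : (rep 7 (mv Own.tm Move.right)).SRuns s23 (7 * (1 + 1)) s24 true := by
    have h := rep_fun (mv Own.tm Move.right) 7 1
      (fun k => Function.update s22 Own.tm (Z (un (2 ^ σ + k)) (un (15 * 2 ^ σ - k)))) (by
        intro k hk
        refine ⟨true, ?_⟩
        have h := mv_right_update Own.tm s22 (un (2 ^ σ + k)) (bit true)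
          (un (15 * 2 ^ σ - (k + 1)))
        rw [← un_succ, ← un_succ', show 15 * 2 ^ σ - (k + 1) + 1 = 15 * 2 ^ σ - k by omega] at h
        exact h)
    simp only [Nat.add_zero, Nat.sub_zero] at h
    rw [hs24, hs23, Function.update_idem, show 16 * 2 ^ σ - 7 - 2 ^ σ = 15 * 2 ^ σ - 7 by omega]
    exact h
  have r25 : (appendAll Own.tm Own.tf).SRuns s24 (16 * 2 ^ σ - 7 - 2 ^ σ) s25 true := by
    have h := appendAll_spec Own.tm Own.tf (by decide) s24 (un (2 ^ σ + 7))
      (un (16 * 2 ^ σ - 7 - 2 ^ σ)) [] (blank_notMem_un _) (by simp [hs24])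
      (by simp [hs24, hs23, hs22, hs21, hs20, hs19, hs18, hs17, hs16, hs15, hs14, hs13, hs12, hs11,
        hs10, hs9, hs8, hs7, hs6, hs5, hs4, hs3, hs2, hs1, etf])
    rw [un_append, List.nil_append, un_length,
      show 2 ^ σ + 7 + (16 * 2 ^ σ - 7 - 2 ^ σ) = 16 * 2 ^ σ by omega] at h
    rw [hs25]
    exact h
  have r26 : (rewind Own.tm).SRuns s25 (16 * 2 ^ σ + 3) s26 true := by
    have h := rewind_spec Own.tm s25 (un (16 * 2 ^ σ)) [] (by simp [hs25]) (lend_notMem_un _)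
      (by simp)
    rw [List.append_nil, un_length] at h
    rw [hs26]
    exact h
  have r27 : (rewind Own.tf).SRuns s26 (16 * 2 ^ σ - 7 - 2 ^ σ + 3) s27 true := by
    have h := rewind_spec Own.tf s26 (un (16 * 2 ^ σ - 7 - 2 ^ σ)) [] (by simp [hs26, hs25])
      (lend_notMem_un _) (by simp)
    rw [List.append_nil, un_length] at h
    rw [hs27]
    exact h
  have efin : withUn (parOf σ lo up) s = s27 := by
    funext x
    cases x <;>
      simp [withUn, Own.isUn, Par.uval, parOf, hs27, hs26, hs25, hs24, hs23, hs22, hs21, hs20,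
        hs19, hs18, hs17, hs16, hs15, hs14, hs13, hs12, hs11, hs10, hs9, hs8, hs7, hs6, hs5, hs4,
        hs3, hs2, hs1, ed4, ed6, et0, un_zero, hq]
  rw [efin]
  have R := seqs_cons r1 (seqs_cons r2 (seqs_cons r3 (seqs_cons r4 (seqs_cons r5 (seqs_cons r6
    (seqs_cons r7 (seqs_cons r8 (seqs_cons r9 (seqs_cons r10 (seqs_cons r11 (seqs_cons r12
    (seqs_cons r13 (seqs_cons r14 (seqs_cons r15 (seqs_cons r16 (seqs_cons r17 (seqs_cons r18
    (seqs_cons r19 (seqs_cons r20 (seqs_cons r21 (seqs_cons r22 (seqs_cons r23 (seqs_cons r24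
    (seqs_cons r25 (seqs_cons r26 (seqs_cons r27 (seqs_nil s27)))))))))))))))))))))))))))
  refine Prog.SRuns.mono R ?_
  have hab : 2 ^ lo ≤ 2 ^ lo * 2 ^ up := Nat.le_mul_of_pos_right _ (by omega)
  have hba : 2 ^ up ≤ 2 ^ lo * 2 ^ up := Nat.le_mul_of_pos_left _ (by omega)
  have hmul : 2 ^ lo * (7 * 2 ^ up + 6 + 6) = 7 * (2 ^ lo * 2 ^ up) + 12 * 2 ^ lo := by ring
  rw [hmul]
  generalize 2 ^ lo * 2 ^ up = ab at *
  generalize 2 ^ lo = a at *
  generalize 2 ^ up = b at *
  generalize 2 ^ σ = e at *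
  generalize 2 ^ q = g at *
  omega

end Vale.Agent.P338.TM
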