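import Vale.Agent.P338.TM.SpecMatPipe

namespace Vale.Agent.P338.TM

open Vale.Agent.P338

variable {k : ℕ} [NeZero k]

theorem lend_notMem_bits_fo {Γ : Type} [TapeAlpha Γ] (w : List Bool) :
    (lend : Γ) ∉ (bits w : List Γ) := by
  intro h
  obtain ⟨b, _, hb⟩ := List.mem_map.1 h
  exact TapeAlpha.bit_ne_lend b hb

theorem blank_notMem_bits_fo {Γ : Type} [TapeAlpha Γ] (w : List Bool) :
    (blank : Γ) ∉ (bits w : List Γ) := by
  intro h
  obtain ⟨b, _, hb⟩ := List.mem_map.1 h
  exact TapeAlpha.bit_ne_blank b hb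

theorem bits_length_fo {Γ : Type} [TapeAlpha Γ] (w : List Bool) :
    (bits w : List Γ).length = w.length := by
  simp [bits]

theorem bits_append_fo {Γ : Type} [TapeAlpha Γ] (u v : List Bool) :
    (bits (u ++ v) : List Γ) = bits u ++ bits v := by
  simp [bits]

theorem cat_add_fo (f : ℕ → List Bool) (i k l : ℕ) :
    cat f i (k + l) = cat f i k ++ cat f (i + k) l := by
  unfold cat
  rw [List.range_add, List.flatMap_append, List.flatMap_map]
  simp only [Nat.add_assoc]

theorem cat_shift_fo (f : ℕ → List Bool) (i k : ℕ) :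
    cat f i k = cat (fun j => f (i + j)) 0 k := by
  unfold cat
  simp only [Nat.zero_add]

theorem cat_split_fo (f : ℕ → List Bool) (N r : ℕ) :
    cat f 0 ((r + 1) * N) = cat f 0 N ++ cat (fun j => f (N + j)) 0 (r * N) := by
  rw [show (r + 1) * N = N + r * N by ring, cat_add_fo, Nat.zero_add, cat_shift_fo f N]

theorem cat_congr_fo (f g : ℕ → List Bool) (k : ℕ) (h : ∀ j < k, f j = g j) :
    cat f 0 k = cat g 0 k := by
  unfold cat
  rw [List.flatMap_def, List.flatMap_def]
  congr 1
  apply List.map_congr_left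
  intro j hj
  simp only [Nat.zero_add]
  exact h j (List.mem_range.1 hj)

theorem cat_length_fo (f : ℕ → List Bool) (e : ℕ) (hf : ∀ j, (f j).length = e) (k : ℕ) :
    (cat f 0 k).length = k * e := by
  induction k with
  | zero => simp [cat]
  | succ k ih =>
    rw [cat_add_fo, List.length_append, ih]
    simp only [cat, List.range_one, List.flatMap_cons, List.flatMap_nil, List.append_nil, hf]
    ring

theorem copyBack_spec {Γ : Type} [TapeAlpha Γ] (s : St Own Γ) (x y : List Bool)
    (hl : y.length = x.length)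
    (hX : s Own.X = Z (bits x) []) (hY : s Own.Y = Z (bits y) []) :
    (copyBack : Prog Own Γ).SRuns s (8 * x.length + 30)
      (Function.update (Function.update s Own.X (Z [] (bits y))) Own.Y (Z [] [])) true := by
  have hXY : Own.X ≠ Own.Y := by decide
  have hnil : (lend : Γ) ∉ ([] : List Γ) := by simp
  have hbnil : (blank : Γ) ∉ ([] : List Γ) := by simp
  have h1 := erase_spec Own.X s (bits x) [] hX (lend_notMem_bits_fo x) hnil hbnil
  set s1 := Function.update s Own.X (Z [] []) with hs1
  have h2 := rewind_spec Own.Y s1 (bits y) []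
    (by rw [hs1, Function.update_of_ne hXY.symm]; exact hY) (lend_notMem_bits_fo y) hnil
  rw [List.append_nil] at h2
  set s2 := Function.update s1 Own.Y (Z [] (bits y)) with hs2
  have h3 := appendAll_spec Own.Y Own.X hXY.symm s2 [] (bits y) [] (blank_notMem_bits_fo y)
    (by rw [hs2, Function.update_self])
    (by rw [hs2, Function.update_of_ne hXY, hs1, Function.update_self])
  simp only [List.nil_append] at h3
  set s3 := Function.update (Function.update s2 Own.Y (Z (bits y) [])) Own.X (Z (bits y) [])
    with hs3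
  have h4 := erase_spec Own.Y s3 (bits y) []
    (by rw [hs3, Function.update_of_ne hXY.symm, Function.update_self])
    (lend_notMem_bits_fo y) hnil hbnil
  set s4 := Function.update s3 Own.Y (Z [] []) with hs4
  have h5 := rewind_spec Own.X s4 (bits y) []
    (by rw [hs4, Function.update_of_ne hXY, hs3, Function.update_self])
    (lend_notMem_bits_fo y) hnil
  rw [List.append_nil] at h5
  have h6 := seq_sruns h1 (seq_sruns h2 (seq_sruns h3 (seq_sruns h4 h5)))
  have e : Function.update s4 Own.X (Z [] (bits y)) =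
      Function.update (Function.update s Own.X (Z [] (bits y))) Own.Y (Z [] []) := by
    funext i
    simp only [hs4, hs3, hs2, hs1, Function.update_apply]
    split_ifs <;> simp_all
  rw [e] at h6
  refine h6.mono ?_
  simp only [bits_length_fo, List.length_nil]
  omega

theorem test_label_fo {Γ : Type} [TapeAlpha Γ] (s : St Own Γ) (b : Bool)
    (p : (Own → Γ) → Bool) (hp : p (sreads s) = b) : (test p).SRuns s 1 s b := by
  rw [← hp]
  exact test_sruns p s

theorem notSym_true_fo {Γ : Type} [TapeAlpha Γ] (x : Own) (w : Γ) (s : St Own Γ)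
    (h : (s x).read ≠ w) : (notSym x w).SRuns s 1 s true := by
  apply test_label_fo
  by_contra hc
  rw [Bool.not_eq_true, decide_eq_false_iff_not] at hc
  exact hc h

theorem notSym_false_fo {Γ : Type} [TapeAlpha Γ] (x : Own) (w : Γ) (s : St Own Γ)
    (h : (s x).read = w) : (notSym x w).SRuns s 1 s false := by
  apply test_label_fo
  rw [decide_eq_false_iff_not]
  exact not_not.mpr h

theorem agree_fo {Γ : Type} [TapeAlpha Γ] (P : Par) (p : Ph) (s : St Own Γ) (zX zY : Zip Γ)
    (x : Own) (h : x ≠ Own.X ∧ x ≠ Own.Y ∧ x ≠ Own.rS ∧ x ≠ Own.rD ∧ x ≠ Own.rF) :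
    setPh P p (Function.update (Function.update s Own.X zX) Own.Y zY) x = s x := by
  obtain ⟨h1, h2, h3, h4, h5⟩ := h
  simp only [setPh, Function.update_of_ne h1, Function.update_of_ne h2, Function.update_of_ne h3,
    Function.update_of_ne h4, Function.update_of_ne h5]

theorem state_fo {Γ : Type} [TapeAlpha Γ] (P : Par) (p1 p2 : Ph) (s : St Own Γ)
    (a b c d : Zip Γ) :
    setPh P p2 (Function.update (Function.update
      (setPh P p1 (Function.update (Function.update s Own.X a) Own.Y b)) Own.X c) Own.Y d) =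
    setPh P p2 (Function.update (Function.update s Own.X c) Own.Y d) := by
  funext i
  simp only [setPh, Function.update_apply]
  split_ifs <;> rfl

theorem hasPh_setPh_fo {Γ : Type} [TapeAlpha Γ] (P : Par) (p : Ph) (s : St Own Γ) :
    HasPh P p (setPh P p s) := by
  refine ⟨?_, ?_, ?_⟩ <;> simp [setPh]

theorem setPh_self_fo {Γ : Type} [TapeAlpha Γ] (P : Par) (p : Ph) (s : St Own Γ)
    (h : HasPh P p s) : setPh P p s = s := by
  obtain ⟨h1, h2, h3⟩ := h
  funext i
  simp only [setPh, Function.update_apply]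
  split_ifs with a b c
  · rw [a, h3]
  · rw [b, h2]
  · rw [c, h1]
  · rfl

theorem allPar_ne_fo : ∀ x ∈ allPar,
    x ≠ Own.X ∧ x ≠ Own.Y ∧ x ≠ Own.rS ∧ x ≠ Own.rD ∧ x ≠ Own.rF := by
  decide

theorem clean_ne_fo : ∀ x ∈ [Own.Bk, Own.U, Own.V, Own.Pd, Own.T0, Own.T1, Own.T2, Own.T3, Own.W,
    Own.clk], x ≠ Own.X ∧ x ≠ Own.Y ∧ x ≠ Own.rS ∧ x ≠ Own.rD ∧ x ≠ Own.rF := by
  decide

theorem fatLoop_fo (A : Machine k) (hA : A.Multiplies) (P : Par) (al be : ℕ) (hF : P.Fat al be)
    (he : 1 ≤ P.e) (r : ℕ) :
    ∀ (sO : St Own (GA A)) (_ : Need P sO allPar) (_ : Clean sO)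
    (p0 : Ph) (_ : p0.lt P.N) (_ : HasPh P p0 sO)
    (dX dY : List (GA A)) (ent : ℕ → List Bool) (_ : ∀ j, (ent j).length = P.e)
    (_ : sO Own.X = Z dX (bits (cat ent 0 (r * P.N)))) (_ : sO Own.Y = Z dY []),
    ∃ p1 : Ph, p1.lt P.N ∧
    (while_ (liftO (notSym Own.X blank)) (matPipe A)).SRuns (glue blankA sO)
      (r * (cMatPipe P (A.worstTime (4 * (P.N * P.w))) + 3) + 2)
      (glue blankA (setPh P p1 (Function.update (Function.update sO
        Own.X (Z (dX ++ bits (cat ent 0 (r * P.N))) []))
        Own.Y (Z (dY ++ bits (cat (fun n => ent (n / P.N * P.N + trIdx P.a P.b (n % P.N))) 0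
          (r * P.N))) [])))) true := by
  induction r with
  | zero =>
    intro sO hN hC p0 hp0 hph dX dY ent hent hX hY
    refine ⟨p0, hp0, ?_⟩
    have hc : ∀ f : ℕ → List Bool, cat f 0 (0 * P.N) = [] := by
      intro f; simp [cat]
    rw [hc] at hX
    have hX' : sO Own.X = Z dX [] := hX
    have ht : (notSym Own.X blank : Prog Own (GA A)).SRuns sO 1 sO false :=
      notSym_false_fo _ _ _ (by rw [hX']; rfl)
    have hw := while_sfalse (R := matPipe A) (liftO_sruns ht (blankA (k := k)))
    have e : setPh P p0 (Function.update (Function.update sO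
        Own.X (Z (dX ++ bits (cat ent 0 (0 * P.N))) []))
        Own.Y (Z (dY ++ bits (cat (fun n => ent (n / P.N * P.N + trIdx P.a P.b (n % P.N))) 0
          (0 * P.N))) [])) = sO := by
      rw [hc, hc]
      have b0 : (bits ([] : List Bool) : List (GA A)) = [] := rfl
      rw [b0, List.append_nil, List.append_nil, ← hX', Function.update_eq_self, ← hY,
        Function.update_eq_self]
      exact setPh_self_fo P p0 sO hph
    rw [e]
    exact hw.mono (by omega)
  | succ r ih =>
    intro sO hN hC p0 hp0 hph dX dY ent hent hX hY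
    have hNpos : 0 < P.N := by
      have h1 := hF.a2
      have h2 := hF.b2
      unfold Par.N
      positivity
    have hX' : sO Own.X = Z dX (bits (cat ent 0 P.N) ++
        bits (cat (fun j => ent (P.N + j)) 0 (r * P.N))) := by
      rw [hX, cat_split_fo, bits_append_fo]
    have hlen : (cat ent 0 P.N).length = P.N * P.e := cat_length_fo ent P.e hent P.N
    have hread : (sO Own.X).read ≠ (blank : GA A) := by
      rw [hX']
      cases hcat : cat ent 0 P.N with
      | nil =>
        rw [hcat] at hlen
        have : 0 < P.N * P.e := Nat.mul_pos hNpos he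
        simp at hlen
        omega
      | cons b0 t =>
        exact TapeAlpha.bit_ne_blank b0
    have ht : (notSym Own.X blank : Prog Own (GA A)).SRuns sO 1 sO true :=
      notSym_true_fo _ _ _ hread
    obtain ⟨p1, hp1, hrun⟩ := matPipe_spec A hA P al be hF sO hN hC p0 hp0 hph dX
      (bits (cat (fun j => ent (P.N + j)) 0 (r * P.N))) dY ent hent hX' hY
    obtain ⟨sO', hsO'⟩ : ∃ sO' : St Own (GA A), sO' = setPh P p1 (Function.update (Function.update sO
        Own.X (Z (dX ++ bits (cat ent 0 P.N)) (bits (cat (fun j => ent (P.N + j)) 0 (r * P.N)))))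
        Own.Y (Z (dY ++ bits (cat (fun j => ent (trIdx P.a P.b j)) 0 P.N)) [])) := ⟨_, rfl⟩
    rw [← hsO'] at hrun
    have hN' : Need P sO' allPar := by
      intro x hx
      have := hN x hx
      unfold Good at this ⊢
      rw [hsO', agree_fo P p1 sO _ _ x (allPar_ne_fo x hx)]
      exact this
    have hC' : Clean sO' := by
      intro x hx
      rw [hsO', agree_fo P p1 sO _ _ x (clean_ne_fo x hx)]
      exact hC x hx
    have hph' : HasPh P p1 sO' := by
      rw [hsO']; exact hasPh_setPh_fo P p1 _
    have hX'' : sO' Own.X = Z (dX ++ bits (cat ent 0 P.N))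
        (bits (cat (fun j => ent (P.N + j)) 0 (r * P.N))) := by
      rw [hsO']
      simp [setPh]
    have hY'' : sO' Own.Y = Z (dY ++ bits (cat (fun j => ent (trIdx P.a P.b j)) 0 P.N)) [] := by
      rw [hsO']
      simp [setPh]
    obtain ⟨p2, hp2, hrun2⟩ := ih sO' hN' hC' p1 hp1 hph' _ _ (fun j => ent (P.N + j))
      (fun j => hent _) hX'' hY''
    refine ⟨p2, hp2, ?_⟩
    have hw := while_strue (liftO_sruns ht (blankA (k := k))) hrun hrun2
    rw [hsO', state_fo] at hw
    have eX : dX ++ bits (cat ent 0 P.N) ++ bits (cat (fun j => ent (P.N + j)) 0 (r * P.N)) =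
        dX ++ (bits (cat ent 0 ((r + 1) * P.N)) : List (GA A)) := by
      rw [cat_split_fo, bits_append_fo, List.append_assoc]
    have eY : dY ++ bits (cat (fun j => ent (trIdx P.a P.b j)) 0 P.N) ++
        bits (cat (fun n => ent (P.N + (n / P.N * P.N + trIdx P.a P.b (n % P.N)))) 0 (r * P.N)) =
        dY ++ (bits (cat (fun n => ent (n / P.N * P.N + trIdx P.a P.b (n % P.N))) 0
          ((r + 1) * P.N)) : List (GA A)) := by
      rw [cat_split_fo, bits_append_fo, List.append_assoc]
      congr 2
      · congr 1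
        apply cat_congr_fo
        intro j hj
        rw [Nat.div_eq_of_lt hj, Nat.mod_eq_of_lt hj, Nat.zero_mul, Nat.zero_add]
      · congr 2
        funext n
        rw [Nat.add_div_left _ hNpos, Nat.add_mod_left]
        congr 1
        ring
    rw [eX, eY] at hw
    exact hw.mono (le_of_eq (by ring))

/-- One fat step: each of the `q` matrices on `X` is transposed. Induction on the number of
remaining matrices with `while_strue`, `while_sfalse`, `matPipe_spec`. -/
theorem fatOp_spec (A : Machine k) (hA : A.Multiplies) (P : Par) (al be : ℕ) (hF : P.Fat al be)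
    (sO : St Own (GA A)) (hN : Need P sO allPar) (hC : Clean sO)
    (p0 : Ph) (hp0 : p0.lt P.N) (hph : HasPh P p0 sO)
    (q : ℕ) (ent : ℕ → List Bool) (hent : ∀ j, (ent j).length = P.e) (he : 1 ≤ P.e)
    (hX : sO Own.X = Z [] (bits (cat ent 0 (q * P.N)))) (hY : sO Own.Y = Z [] []) :
    ∃ p1 : Ph, p1.lt P.N ∧
    (fatOp A).SRuns (glue blankA sO) (cFatOp P (A.worstTime (4 * (P.N * P.w))) q)
      (glue blankA (setPh P p1 (Function.update sO
        Own.X (Z [] (bits (cat (fun n => ent (n / P.N * P.N + trIdx P.a P.b (n % P.N))) 0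
          (q * P.N))))))) true := by
  obtain ⟨p1, hp1, hrun⟩ := fatLoop_fo A hA P al be hF he q sO hN hC p0 hp0 hph [] [] ent hent hX hY
  simp only [List.nil_append] at hrun
  refine ⟨p1, hp1, ?_⟩
  have hl1 := cat_length_fo ent P.e hent (q * P.N)
  have hl2 := cat_length_fo (fun n => ent (n / P.N * P.N + trIdx P.a P.b (n % P.N))) P.e
    (fun j => hent _) (q * P.N)
  have hcb := copyBack_spec (setPh P p1 (Function.update (Function.update sO
        Own.X (Z (bits (cat ent 0 (q * P.N))) []))
        Own.Y (Z (bits (cat (fun n => ent (n / P.N * P.N + trIdx P.a P.b (n % P.N))) 0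
          (q * P.N))) []))) (cat ent 0 (q * P.N))
        (cat (fun n => ent (n / P.N * P.N + trIdx P.a P.b (n % P.N))) 0 (q * P.N))
        (by rw [hl1, hl2]) (by simp [setPh])
        (by simp [setPh])
  have hs := seq_sruns hrun (liftO_sruns hcb (blankA (k := k)))
  have e : ∀ (a b c : Zip (GA A)), Function.update (Function.update (setPh P p1
      (Function.update (Function.update sO Own.X a) Own.Y b)) Own.X c) Own.Y (Z [] []) =
      setPh P p1 (Function.update sO Own.X c) := by
    intro a b c
    funext i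
    simp only [setPh, Function.update_apply]
    split_ifs with h1 h2 h3 h4 h5 h6 h7 h8 <;> simp_all
  rw [e] at hs
  refine hs.mono ?_
  rw [hl1]
  unfold cFatOp
  apply le_of_eq
  ring

end Vale.Agent.P338.TM
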