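import Vale.Agent.P338.TM.SpecSetRegs
import Vale.Agent.P338.TM.SpecFatOp

namespace Vale.Agent.P338.TM

open Vale.Agent.P338

theorem parOf_fat (σ lo up : ℕ) (hlo : 1 ≤ lo) (hup : 1 ≤ up) (hs : lo + up ≤ σ + 2) :
    (parOf σ lo up).Fat lo up := by
  have h2lo : 2 ≤ 2 ^ lo := by
    calc 2 = 2 ^ 1 := rfl
      _ ≤ 2 ^ lo := Nat.pow_le_pow_right (by norm_num) hlo
  have h2up : 2 ≤ 2 ^ up := by
    calc 2 = 2 ^ 1 := rfl
      _ ≤ 2 ^ up := Nat.pow_le_pow_right (by norm_num) hup
  have hσ : σ < 2 ^ σ := Nat.lt_two_pow_self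
  have heven : 2 ∣ 2 ^ lo * 2 ^ up := Dvd.dvd.mul_right (dvd_pow_self 2 (by omega)) _
  refine { a2 := h2lo, b2 := h2up, g1 := Nat.one_le_two_pow, hm := ?_, hf := ?_, hH := ?_,
           ha := rfl, hb := rfl, hH2 := ?_, hnu := ?_ }
  · show 2 * (16 * 2 ^ σ) = 2 ^ lo * 2 ^ up * 2 ^ (σ + 5 - lo - up)
    rw [← pow_add, ← pow_add]
    have : lo + up + (σ + 5 - lo - up) = σ + 5 := by omega
    rw [this, pow_add]
    norm_num
    ring
  · show 16 * 2 ^ σ - 7 - 2 ^ σ + 7 + 2 ^ σ = 16 * 2 ^ σ
    omega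
  · show 2 ^ lo * 2 ^ up / 2 < 2 ^ lo * 2 ^ up
    have : 0 < 2 ^ lo * 2 ^ up := by positivity
    omega
  · show 2 * (2 ^ lo * 2 ^ up / 2) = 2 ^ lo * 2 ^ up
    exact Nat.mul_div_cancel' heven
  · show lo + up ≤ 16 * 2 ^ σ - 7 - 2 ^ σ
    omega

theorem own_class_os (x : Own) : x ∈ parTapes ∨ x = Own.t0 ∨
    (x.isUn = false ∧ x.isConst = false ∧ x ≠ Own.rS ∧ x ≠ Own.rD ∧ x ≠ Own.rF) := by
  cases x <;> simp [parTapes, Own.isUn, Own.isConst]

theorem un_class_os (x : Own) (hx : x.isUn = true) :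
    (x ∈ parTapes ∨ x = Own.t0) ∧ x.isConst = false ∧ x ≠ Own.rS ∧ x ≠ Own.rD ∧ x ≠ Own.rF := by
  cases x <;> simp_all [parTapes, Own.isUn, Own.isConst]

theorem const_class_os (x : Own) (hx : x.isConst = true) :
    x ∈ parTapes ∧ x.isUn = false := by
  cases x <;> simp_all [parTapes, Own.isUn, Own.isConst]

theorem par_class_os (x : Own) (hx : x ∈ parTapes) :
    x.isUn = true ∨ x.isConst = true ∨ x = Own.rS ∨ x = Own.rD ∨ x = Own.rF := by
  cases x <;> simp_all [parTapes, Own.isUn, Own.isConst]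

theorem idle_ne_X_os : ∀ x ∈ parTapes ++ [Own.t0, Own.d4, Own.d5, Own.d6, Own.Y, Own.Bk, Own.U,
    Own.V, Own.Pd, Own.T0, Own.T1, Own.T2, Own.T3, Own.W, Own.clk], x ≠ Own.X := by
  decide

theorem clean_class_os : ∀ x ∈ [Own.Y, Own.X, Own.Bk, Own.U, Own.V, Own.Pd, Own.T0, Own.T1,
    Own.T2, Own.T3, Own.W, Own.clk],
    x.isUn = false ∧ x.isConst = false ∧ x ≠ Own.rS ∧ x ≠ Own.rD ∧ x ≠ Own.rF := by
  decide

section

variable {Γ : Type} [TapeAlpha Γ]

theorem withRegs_un_os (P : Par) (p : Ph) (s : St Own Γ) (x : Own) (hx : x.isUn = true) :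
    withRegs P p (withUn P s) x = Z [] (un (P.uval x)) := by
  obtain ⟨_, h2, h3, h4, h5⟩ := un_class_os x hx
  simp [withRegs, withUn, setPh, hx, h2, Function.update_of_ne h3, Function.update_of_ne h4,
    Function.update_of_ne h5]

theorem withRegs_const_os (P : Par) (p : Ph) (s : St Own Γ) (x : Own) (hx : x.isConst = true) :
    withRegs P p s x = Z [] (oh P.N (P.cval x)) := by
  simp [withRegs, hx]

theorem withRegs_other_os (P : Par) (p : Ph) (s : St Own Γ) (x : Own)
    (h : x.isUn = false ∧ x.isConst = false ∧ x ≠ Own.rS ∧ x ≠ Own.rD ∧ x ≠ Own.rF) :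
    withRegs P p (withUn P s) x = s x := by
  obtain ⟨h1, h2, h3, h4, h5⟩ := h
  simp [withRegs, withUn, setPh, h1, h2, Function.update_of_ne h3, Function.update_of_ne h4,
    Function.update_of_ne h5]

theorem withRegs_hasPh_os (P : Par) (p : Ph) (s : St Own Γ) : HasPh P p (withRegs P p s) := by
  refine ⟨?_, ?_, ?_⟩ <;> simp [withRegs, setPh, Own.isConst]

theorem blank_notMem_un_os (c : ℕ) : (blank : Γ) ∉ (un c : List Γ) := by
  intro h
  have := List.eq_of_mem_replicate h
  exact TapeAlpha.bit_ne_blank true this.symm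

theorem setPar_spec (σ lo up : ℕ) (hlo : 1 ≤ lo) (hup : 1 ≤ up) (hs : lo + up ≤ σ + 2)
    (s : St Own Γ) (h1 : s Own.d1 = Z [] (un σ)) (h2 : s Own.d2 = Z [] (un lo))
    (h3 : s Own.d3 = Z [] (un up)) (hI : Idle s) :
    ∃ p : Ph, p.lt (parOf σ lo up).N ∧
    (setPar : Prog Own Γ).SRuns s (cSetPar σ lo up)
      (withRegs (parOf σ lo up) p (withUn (parOf σ lo up) s)) true := by
  have hF := parOf_fat σ lo up hlo hup hs
  have hun := setUn_spec σ lo up hlo hup hs s h1 h2 h3 (by
    intro x hx
    apply hI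
    rcases hx with hx | rfl | rfl | rfl
    · rcases (un_class_os x hx).1 with h | rfl
      · exact List.mem_append_left _ h
      · simp
    · simp
    · simp
    · simp)
  obtain ⟨p, hp, hreg⟩ := setRegs_spec (parOf σ lo up) hF.toValid
    (dvd_pow_self 2 (by omega)) rfl (withUn (parOf σ lo up) s)
    (by
      intro x hx
      have hxu : x.isUn = true := by
        simp only [List.mem_cons, List.not_mem_nil, or_false] at hx
        rcases hx with rfl | rfl | rfl | rfl <;> rfl
      refine ⟨fun _ => by simp [withUn, hxu], fun hc => ?_⟩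
      rw [(un_class_os x hxu).2.1] at hc
      cases hc)
    (by
      intro x hx
      have hx' : x ∈ parTapes ∧ x.isUn = false := by
        rcases hx with hx | rfl | rfl | rfl
        · exact const_class_os x hx
        · exact ⟨by simp [parTapes], rfl⟩
        · exact ⟨by simp [parTapes], rfl⟩
        · exact ⟨by simp [parTapes], rfl⟩
      simp only [withUn, hx'.2]
      exact hI x (List.mem_append_left _ hx'.1))
  refine ⟨p, hp, (seq_sruns hun hreg).mono ?_⟩
  have hpos : 0 < 2 ^ up := by positivity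
  have hle := Nat.le_mul_of_pos_right (2 ^ lo * 2 ^ up) hpos
  have hpos2 : 0 < 2 ^ σ := by positivity
  have hpos3 : 0 < 2 ^ (σ + 5 - lo - up) := by positivity
  simp only [cSetPar, Par.N, parOf]
  omega

/-- Erasing the tapes of a list. -/
theorem eraseAll_os (l : List Own) : ∀ (s : St Own Γ) (len : Own → ℕ)
    (_ : ∀ x ∈ l, ∃ t, s x = Z [] t ∧ lend ∉ t ∧ blank ∉ t ∧ t.length ≤ len x),
    (seqs (l.map erase) : Prog Own Γ).SRuns s ((l.map fun x => 2 * len x + 6).sum)
      (fun x => if x ∈ l then Z [] [] else s x) true := by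
  induction l with
  | nil =>
    intro s len _
    simpa [seqs] using skip_sruns s
  | cons x l ih =>
    intro s len h
    obtain ⟨t, hx, h1, h2, h3⟩ := h x (by simp)
    have e1 := erase_spec x s [] t hx (by simp) h1 h2
    have e2 := ih (Function.update s x (Z [] [])) len (by
      intro y hy
      by_cases hyx : y = x
      · subst hyx
        exact ⟨[], by simp, by simp, by simp, by simp⟩
      · rw [Function.update_of_ne hyx]
        exact h y (by simp [hy]))
    have e3 := seq_sruns e1 e2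
    have e : (fun y => if y ∈ l then Z [] [] else Function.update s x (Z [] []) y)
        = fun y => if y ∈ x :: l then (Z [] [] : Zip Γ) else s y := by
      funext y
      by_cases hyx : y = x
      · subst hyx; simp
      · simp [hyx]
    rw [e] at e3
    refine Prog.SRuns.mono e3 ?_
    simp only [List.map_cons, List.sum_cons, List.length_nil]
    omega

/-- Clearing: `s0` is any state whose parameter tapes are empty. -/
theorem clearPar_spec (σ lo up : ℕ) (hlo : 1 ≤ lo) (hup : 1 ≤ up) (hs : lo + up ≤ σ + 2)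
    (s0 : St Own Γ) (hI : Idle s0) (p : Ph) (hp : p.lt (parOf σ lo up).N) :
    (clearPar : Prog Own Γ).SRuns (withRegs (parOf σ lo up) p (withUn (parOf σ lo up) s0))
      (cClearPar σ lo up) s0 true := by
  have hF := parOf_fat σ lo up hlo hup hs
  have hV := hF.toValid
  have h := eraseAll_os parTapes (withRegs (parOf σ lo up) p (withUn (parOf σ lo up) s0))
    (fun x => if x.isUn = true then (parOf σ lo up).uval x else (parOf σ lo up).N + 1) (by
      intro x hx
      have hph := withRegs_hasPh_os (parOf σ lo up) p (withUn (parOf σ lo up) s0)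
      rcases par_class_os x hx with hu | hc | rfl | rfl | rfl
      · refine ⟨_, withRegs_un_os _ _ _ x hu, lend_notMem_un _, blank_notMem_un_os _, ?_⟩
        simp [hu, un]
      · refine ⟨_, withRegs_const_os _ _ _ x hc, ls_lend_notMem_oh _ _, ls_blank_notMem_oh _ _, ?_⟩
        rw [ls_length_oh _ _ (hV.cval_lt x)]
        simp [(const_class_os x hc).2]
      · refine ⟨_, hph.1, ls_lend_notMem_oh _ _, ls_blank_notMem_oh _ _, ?_⟩
        rw [ls_length_oh _ _ hp.1]
        simp [Own.isUn]
      · refine ⟨_, hph.2.1, ls_lend_notMem_oh _ _, ls_blank_notMem_oh _ _, ?_⟩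
        rw [ls_length_oh _ _ hp.2.1]
        simp [Own.isUn]
      · refine ⟨_, hph.2.2, ls_lend_notMem_oh _ _, ls_blank_notMem_oh _ _, ?_⟩
        rw [ls_length_oh _ _ hp.2.2]
        simp [Own.isUn])
  have e : (fun x => if x ∈ parTapes then (Z [] [] : Zip Γ)
      else withRegs (parOf σ lo up) p (withUn (parOf σ lo up) s0) x) = s0 := by
    funext x
    by_cases hx : x ∈ parTapes
    · rw [if_pos hx]
      exact (hI x (List.mem_append_left _ hx)).symm
    · rw [if_neg hx]
      rcases own_class_os x with h1 | rfl | h1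
      · exact absurd h1 hx
      · rw [withRegs_un_os _ _ _ _ rfl, hI Own.t0 (by simp)]
        rfl
      · exact withRegs_other_os _ _ _ x h1
  rw [e] at h
  refine Prog.SRuns.mono h ?_
  have hpos1 : 0 < 2 ^ up := by positivity
  have hpos2 : 0 < 2 ^ lo := by positivity
  have hle1 := Nat.le_mul_of_pos_right (2 ^ lo) hpos1
  have hle2 := Nat.le_mul_of_pos_left (2 ^ up) hpos2
  simp only [parTapes, List.map_cons, List.map_nil, List.sum_cons, List.sum_nil, Own.isUn,
    Par.uval, Par.N, parOf, cClearPar, if_true, Bool.false_eq_true, if_false]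
  have hpos3 : 0 < 2 ^ σ := by positivity
  have hpos4 : 0 < 2 ^ (σ + 5 - lo - up) := by positivity
  clear h e hF hV hp hI
  generalize 2 ^ lo * 2 ^ up = N at *
  generalize 2 ^ lo = a at *
  generalize 2 ^ up = b at *
  generalize 2 ^ σ = c at *
  generalize 2 ^ (σ + 5 - lo - up) = g at *
  have s1 : b - 1 ≤ b := Nat.sub_le _ _
  have s2 : 16 * c - 7 - c ≤ 16 * c := by omega
  generalize b - 1 = u at *
  generalize 16 * c - 7 - c = v at *
  linarith

end

variable {k : ℕ} [NeZero k]

/-- One complete step. -/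
theorem opStep_spec (A : Machine k) (hA : A.Multiplies) (σ lo up : ℕ) (hlo : 1 ≤ lo) (hup : 1 ≤ up)
    (hs : lo + up ≤ σ + 2) (sO : St Own (GA A)) (h1 : sO Own.d1 = Z [] (un σ))
    (h2 : sO Own.d2 = Z [] (un lo)) (h3 : sO Own.d3 = Z [] (un up)) (hI : Idle sO)
    (q : ℕ) (D : List Bool) (hD : D.length = q * (2 ^ lo * 2 ^ up * 2 ^ σ))
    (hX : sO Own.X = Z [] (bits D)) :
    (opStep A).SRuns (glue blankA sO) (cOpStep A.worstTime σ lo up q)
      (glue blankA (Function.update sO Own.X (Z [] (bits (opList σ lo up D))))) true := by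
  have hF := parOf_fat σ lo up hlo hup hs
  obtain ⟨p, hp, hset⟩ := setPar_spec σ lo up hlo hup hs sO h1 h2 h3 hI
  have hNeq : (parOf σ lo up).N = 2 ^ lo * 2 ^ up := rfl
  have hcat : cat (slices (2 ^ σ) D) 0 (q * (parOf σ lo up).N) = D :=
    cat_slices (2 ^ σ) (q * (parOf σ lo up).N) D (by rw [hD, hNeq]; ring)
  obtain ⟨p1, hp1, hfat⟩ := fatOp_spec A hA (parOf σ lo up) lo up hF
    (withRegs (parOf σ lo up) p (withUn (parOf σ lo up) sO))
    (fun x _ => ⟨fun hu => withRegs_un_os _ _ _ x hu, fun hc => withRegs_const_os _ _ _ x hc⟩)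
    (by
      intro x hx
      rw [withRegs_other_os _ _ _ x (clean_class_os x (by
        simp only [List.mem_cons, List.not_mem_nil, or_false] at hx ⊢
        tauto))]
      apply hI
      simp only [List.mem_append, List.mem_cons, List.not_mem_nil, or_false] at hx ⊢
      tauto)
    p hp (withRegs_hasPh_os _ _ _) q (slices (2 ^ σ) D) (fun j => slices_length _ _ _)
    Nat.one_le_two_pow
    (by rw [withRegs_other_os _ _ _ Own.X (clean_class_os _ (by simp)), hX, hcat])
    (by rw [withRegs_other_os _ _ _ Own.Y (clean_class_os _ (by simp))]; exact hI _ (by simp))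
  have hlist : cat (fun n => slices (2 ^ σ) D (n / (parOf σ lo up).N * (parOf σ lo up).N
      + trIdx (parOf σ lo up).a (parOf σ lo up).b (n % (parOf σ lo up).N))) 0
      (q * (parOf σ lo up).N) = opList σ lo up D := by
    unfold opList
    have hq : D.length / 2 ^ σ = q * (2 ^ lo * 2 ^ up) := by
      rw [hD, ← Nat.mul_assoc]
      exact Nat.mul_div_cancel _ (by positivity)
    rw [hq]
    rfl
  rw [hlist] at hfat
  have hst : setPh (parOf σ lo up) p1 (Function.update
      (withRegs (parOf σ lo up) p (withUn (parOf σ lo up) sO)) Own.X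
      (Z [] (bits (opList σ lo up D))))
      = withRegs (parOf σ lo up) p1 (withUn (parOf σ lo up)
        (Function.update sO Own.X (Z [] (bits (opList σ lo up D))))) := by
    funext x
    cases x <;> simp [withRegs, withUn, setPh, Own.isConst, Own.isUn]
  rw [hst] at hfat
  have hclear := clearPar_spec σ lo up hlo hup hs
    (Function.update sO Own.X (Z [] (bits (opList σ lo up D))))
    (by
      intro x hx
      rw [Function.update_of_ne (idle_ne_X_os x hx)]
      exact hI x hx) p1 hp1
  have hall := seq_sruns (liftO_sruns hset (blankA (k := k)))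
    (seq_sruns hfat (liftO_sruns hclear (blankA (k := k))))
  refine Prog.SRuns.mono hall ?_
  unfold cOpStep
  omega

end Vale.Agent.P338.TM
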