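import Vale.Agent.P338.TM.SpecSweep

namespace Vale.Agent.P338.TM

open Vale.Agent.P338

variable {ι Γ : Type} [TapeAlpha Γ] [DecidableEq ι]

/-- The copying scan: general form (tape `y` may have contents which get overwritten). -/
theorem copyScan_spec (x y : ι) (hxy : x ≠ y) (w : List Γ) : ∀ (s : St ι Γ) (dx dy ty : List Γ),
    blank ∉ w → s x = Z dx w → s y = Z dy ty →
    (appendAll x y).SRuns s w.length
      (Function.update (Function.update s x (Z (dx ++ w) [])) y
        (Z (dy ++ w) (ty.drop w.length))) true := by
  induction w with
  | nil =>
    intro s dx dy ty _ hx hy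
    have hs : Function.update (Function.update s x (Z (dx ++ []) [])) y
        (Z (dy ++ []) (ty.drop ([] : List Γ).length)) = s := by
      funext i
      by_cases hiy : i = y
      · subst hiy; simp [hy]
      · by_cases hix : i = x
        · subst hix; simp [hx, Function.update_of_ne hiy]
        · simp [Function.update_of_ne hiy, Function.update_of_ne hix]
    rw [hs]
    apply scan_sstop
    simp [hx]
  | cons a w ih =>
    intro s dx dy ty hb hx hy
    have ha : a ≠ blank := fun h => hb (by simp [h])
    have hb' : blank ∉ w := fun h => hb (by simp [h])
    refine scan_sstep _ s ((Instr.nil.set x a Move.right).set y a Move.right) ?_ ?_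
    · simp [hx, ha]
    · have h1 := ih (Function.update (Function.update s x (Z (dx ++ [a]) w)) y
        (Z (dy ++ [a]) ty.tail)) (dx ++ [a]) (dy ++ [a]) ty.tail hb'
        (by simp [Function.update_of_ne hxy]) (by simp)
      have e1 : ((Instr.nil.set x a Move.right).set y a Move.right).sapp s =
          Function.update (Function.update s x (Z (dx ++ [a]) w)) y (Z (dy ++ [a]) ty.tail) := by
        simp [hx, hy]
      rw [e1]
      have e2 : Function.update (Function.update (Function.update (Function.update s x
          (Z (dx ++ [a]) w)) y (Z (dy ++ [a]) ty.tail)) x (Z (dx ++ [a] ++ w) [])) y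
          (Z (dy ++ [a] ++ w) (ty.tail.drop w.length)) =
          Function.update (Function.update s x (Z (dx ++ a :: w) [])) y
            (Z (dy ++ a :: w) (ty.drop (a :: w).length)) := by
        funext i
        by_cases hiy : i = y
        · subst hiy; simp
        · by_cases hix : i = x
          · subst hix; simp [Function.update_of_ne hiy]
          · simp [Function.update_of_ne hiy, Function.update_of_ne hix]
      rw [e2] at h1
      exact h1

theorem appendAll_spec (x y : ι) (hxy : x ≠ y) (s : St ι Γ) (dx w dy : List Γ)
    (hb : blank ∉ w) (hx : s x = Z dx w) (hy : s y = Z dy []) :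
    (appendAll x y).SRuns s w.length
      (Function.update (Function.update s x (Z (dx ++ w) [])) y (Z (dy ++ w) [])) true := by
  have h := copyScan_spec x y hxy w s dx dy [] hb hx hy
  simpa using h

theorem copyOver_spec (x y : ι) (hxy : x ≠ y) (s : St ι Γ) (w w' : List Γ)
    (hl : w'.length = w.length) (hb : blank ∉ w) (hw : lend ∉ w)
    (hx : s x = Z [] w) (hy : s y = Z [] w') :
    (copyOver x y).SRuns s (3 * w.length + 8) (Function.update s y (Z [] w)) true := by
  have h1 := copyScan_spec x y hxy w s [] [] w' hb hx hy
  have hd : w'.drop w.length = [] := by rw [← hl]; simp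
  rw [hd] at h1
  simp only [List.nil_append] at h1
  set s1 := Function.update (Function.update s x (Z w [])) y (Z w []) with hs1
  have h2 := rewind_spec x s1 w [] (by simp [hs1, Function.update_of_ne hxy]) hw (by simp)
  set s2 := Function.update s1 x (Z [] (w ++ [])) with hs2
  have h3 := rewind_spec y s2 w [] (by simp [hs2, hs1, Function.update_of_ne hxy.symm]) hw (by simp)
  have e : Function.update s2 y (Z [] (w ++ [])) = Function.update s y (Z [] w) := by
    funext i
    by_cases hiy : i = y
    · subst hiy; simp
    · by_cases hix : i = x
      · subst hix; simp [hs2, hx, Function.update_of_ne hiy]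
      · simp [hs2, hs1, Function.update_of_ne hiy, Function.update_of_ne hix]
  rw [e] at h3
  have h4 := seq_sruns h1 (seq_sruns h2 h3)
  exact h4.mono (by omega)

theorem oh_eq (N v : ℕ) : (oh N v : List Γ) = List.replicate v (bit false) ++
    (bit true :: (List.replicate (N - v - 1) (bit false) ++ [rend])) := by
  simp [oh]

theorem bit_false_ne_true : (bit false : Γ) ≠ bit true := fun h => by
  simpa using TapeAlpha.bit_injective h

open Classical in
/-- Move right over zeros up to the first one. -/
theorem scanOne_spec (x : ι) (n : ℕ) : ∀ (s : St ι Γ) (d t : List Γ),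
    s x = Z d (List.replicate n (bit false) ++ bit true :: t) →
    (scan fun a : ι → Γ => if a x = bit true then none
      else some (Instr.nil.set x (a x) Move.right)).SRuns s n
      (Function.update s x (Z (d ++ List.replicate n (bit false)) (bit true :: t))) true := by
  induction n with
  | zero =>
    intro s d t hx
    have hs : Function.update s x (Z (d ++ List.replicate 0 (bit false)) (bit true :: t)) = s := by
      funext i
      by_cases hix : i = x
      · subst hix; simp [hx]
      · simp [Function.update_of_ne hix]
    rw [hs]
    apply scan_sstop
    simp [hx]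
  | succ n ih =>
    intro s d t hx
    have hx' : s x = Z d (bit false :: (List.replicate n (bit false) ++ bit true :: t)) := by
      rw [hx, List.replicate_succ]; rfl
    refine scan_sstep _ s (Instr.nil.set x (bit false) Move.right) ?_ ?_
    · simp [hx', bit_false_ne_true]
    · have h1 := ih (Function.update s x (Z (d ++ [bit false])
        (List.replicate n (bit false) ++ bit true :: t))) (d ++ [bit false]) t (by simp)
      have e1 : (Instr.nil.set x (bit false : Γ) Move.right).sapp s =
          Function.update s x (Z (d ++ [bit false])
            (List.replicate n (bit false) ++ bit true :: t)) := by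
        simp [hx']
      rw [e1]
      have e2 : Function.update (Function.update s x (Z (d ++ [bit false])
          (List.replicate n (bit false) ++ bit true :: t))) x
          (Z (d ++ [bit false] ++ List.replicate n (bit false)) (bit true :: t)) =
          Function.update s x (Z (d ++ List.replicate (n + 1) (bit false)) (bit true :: t)) := by
        rw [Function.update_idem, List.replicate_succ]
        simp
      rw [e2] at h1
      exact h1

/-- The all-zero register with the head on slot `j`. -/
def regZ (N j : ℕ) : Zip Γ :=
  Z (List.replicate j (bit false)) (List.replicate (N - j) (bit false) ++ [rend])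

open Classical in
/-- One round of the loop of `addReg`. -/
theorem addReg_round (x : ι) (S : St ι Γ) (N j : ℕ) (hj : j < N) (hx : S x = regZ N j) :
    (seq (mv x Move.right) (ite (isSym x rend) (rewind x) skip)).SRuns S
      (if j + 1 = N then N + 7 else 4)
      (Function.update S x (regZ N (if j + 1 = N then 0 else j + 1))) true := by
  obtain ⟨m, hm⟩ : ∃ m, N - j = m + 1 := ⟨N - j - 1, by omega⟩
  have hx' : S x = Z (List.replicate j (bit false))
      (bit false :: (List.replicate m (bit false) ++ [rend])) := by
    rw [hx, regZ, hm, List.replicate_succ]; rfl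
  have h1 := prim_sruns (fun a : ι → Γ => Instr.nil.set x (a x) Move.right) S
  have e1 : ((fun a : ι → Γ => Instr.nil.set x (a x) Move.right) (sreads S)).sapp S =
      Function.update S x (Z (List.replicate (j + 1) (bit false))
        (List.replicate m (bit false) ++ [rend])) := by
    simp [hx', List.replicate_succ']
  rw [e1] at h1
  set S1 := Function.update S x (Z (List.replicate (j + 1) (bit false))
        (List.replicate m (bit false) ++ [rend])) with hS1
  have hS1x : S1 x = Z (List.replicate (j + 1) (bit false))
        (List.replicate m (bit false) ++ [rend]) := by simp [hS1]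
  by_cases hw : j + 1 = N
  · have hm0 : m = 0 := by omega
    subst hm0
    rw [if_pos hw, if_pos hw]
    have h2 : (isSym x (rend : Γ)).SRuns S1 1 S1 true := by
      have := test_sruns (fun a : ι → Γ => decide (a x = rend)) S1
      simpa [hS1x, isSym] using this
    have h3 := rewind_spec x S1 (List.replicate (j + 1) (bit false)) [rend]
      (by simpa using hS1x)
      (by
        intro h
        exact TapeAlpha.bit_ne_lend false (List.eq_of_mem_replicate h).symm)
      (by simp [TapeAlpha.lend_ne_rend])
    have e3 : Function.update S1 x (Z [] (List.replicate (j + 1) (bit false) ++ [rend])) =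
        Function.update S x (regZ N 0) := by
      rw [hS1, Function.update_idem, regZ, ← hw]
      simp
    rw [e3] at h3
    have h4 := seq_sruns h1 (ite_sruns_true (S := skip) h2 h3)
    refine h4.mono ?_
    simp
    omega
  · rw [if_neg hw, if_neg hw]
    obtain ⟨m', hm'⟩ : ∃ m', m = m' + 1 := ⟨m - 1, by omega⟩
    have h2 : (isSym x (rend : Γ)).SRuns S1 1 S1 false := by
      have := test_sruns (fun a : ι → Γ => decide (a x = rend)) S1
      simpa [hS1x, hm', List.replicate_succ, TapeAlpha.bit_ne_rend, isSym] using this
    have h3 := skip_sruns S1
    have e3 : S1 = Function.update S x (regZ N (j + 1)) := by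
      rw [hS1, regZ]
      have : N - (j + 1) = m := by omega
      rw [this]
    have h4 := seq_sruns h1 (ite_sruns_false (R := rewind x) h2 h3)
    rw [← e3]
    exact h4.mono (by omega)

theorem lend_notMem_replicate (n : ℕ) (b : Bool) : (lend : Γ) ∉ List.replicate n (bit b) := by
  intro h
  exact TapeAlpha.bit_ne_lend b (List.eq_of_mem_replicate h).symm

theorem lend_notMem_ohTail (n : ℕ) :
    (lend : Γ) ∉ bit true :: (List.replicate n (bit false) ++ [rend]) := by
  intro h
  rcases List.mem_cons.1 h with h | h
  · exact TapeAlpha.bit_ne_lend true h.symm
  · rcases List.mem_append.1 h with h | h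
    · exact lend_notMem_replicate n false h
    · exact TapeAlpha.lend_ne_rend (by simpa using h)

open Classical in
/-- The wrap-around (rewind of `x`) happens at most once: use `sweep_fun` with a round-dependent
time bound. -/
theorem addReg_spec (x y : ι) (hxy : x ≠ y) (s : St ι Γ) (N vx vy : ℕ) (hvx : vx < N)
    (hvy : vy < N) (hx : s x = Z [] (oh N vx)) (hy : s y = Z [] (oh N vy)) :
    (addReg x y).SRuns s (20 * N + 40)
      (Function.update s x (Z [] (oh N ((vx + vy) % N)))) true := by
  -- step 1: find the one
  have h1 := scanOne_spec x vx s [] (List.replicate (N - vx - 1) (bit false) ++ [rend])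
    (by rw [hx, oh_eq])
  simp only [List.nil_append] at h1
  set s1 := Function.update s x (Z (List.replicate vx (bit false))
    (bit true :: (List.replicate (N - vx - 1) (bit false) ++ [rend]))) with hs1
  -- step 2: erase it
  have h2 := prim_sruns (fun _ : ι → Γ => Instr.nil.set x (bit false) Move.stay) s1
  have e2 : ((fun _ : ι → Γ => Instr.nil.set x (bit false : Γ) Move.stay) (sreads s1)).sapp s1 =
      Function.update s x (regZ N vx) := by
    obtain ⟨m, hm⟩ : ∃ m, N - vx = m + 1 := ⟨N - vx - 1, by omega⟩
    have hm' : N - vx - 1 = m := by omega
    simp [hs1, regZ, hm, List.replicate_succ]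
  rw [e2] at h2
  -- step 3: the loop
  set jf : ℕ → ℕ := fun k => if vx + k < N then vx + k else vx + k - N with hjf
  have hjlt : ∀ k, k ≤ vy → jf k < N := by
    intro k hk
    simp only [hjf]
    split_ifs <;> omega
  set F : ℕ → St ι Γ := fun k => Function.update s x (regZ N (jf k)) with hF
  set u : List Γ := List.replicate vy (bit false) with hu
  set t : List Γ := bit true :: (List.replicate (N - vy - 1) (bit false) ++ [rend]) with ht
  have h3 := sweep_fun y (fun z : Γ => decide (z = bit false))
    (seq (mv x Move.right) (ite (isSym x rend) (rewind x) skip)) [] u t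
    (by
      intro z hz
      simp [List.eq_of_mem_replicate hz])
    (by simp [ht, bit_false_ne_true.symm]) F (fun k => if jf k + 1 = N then N + 7 else 4)
    (by
      intro k hk
      have hk' : k < vy := by simpa [hu] using hk
      refine ⟨true, ?_⟩
      have h := addReg_round x
        (Function.update (F k) y (Z ([] ++ u.take k) (u.drop k ++ t))) N (jf k)
        (hjlt k hk'.le) (by simp [hF, Function.update_of_ne hxy])
      have e : Function.update (Function.update (F k) y (Z ([] ++ u.take k) (u.drop k ++ t))) x
          (regZ N (if jf k + 1 = N then 0 else jf k + 1)) =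
          Function.update (F (k + 1)) y (Z ([] ++ u.take k) (u.drop k ++ t)) := by
        have hj : (if jf k + 1 = N then 0 else jf k + 1) = jf (k + 1) := by
          simp only [hjf]
          split_ifs <;> omega
        rw [hj]
        funext i
        by_cases hiy : i = y
        · subst hiy; simp [Function.update_of_ne hxy.symm]
        · by_cases hix : i = x
          · subst hix; simp [hF, Function.update_of_ne hiy]
          · simp [hF, Function.update_of_ne hiy, Function.update_of_ne hix]
      rw [e] at h
      exact h)
  have e3 : Function.update (F 0) y (Z [] (u ++ t)) = Function.update s x (regZ N vx) := by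
    have hj0 : jf 0 = vx := by simp [hjf, hvx]
    funext i
    by_cases hiy : i = y
    · subst hiy; simp [Function.update_of_ne hxy.symm, hy, oh_eq, hu, ht]
    · simp [hF, hj0, Function.update_of_ne hiy]
  rw [e3] at h3
  simp only [List.nil_append] at h3
  have hlen : u.length = vy := by simp [hu]
  rw [hlen] at h3
  set j := jf vy with hj
  have hjN : j < N := hjlt vy le_rfl
  set s3 := Function.update (F vy) y (Z u t) with hs3
  have hs3x : s3 x = regZ N j := by simp [hs3, hF, hj, Function.update_of_ne hxy]
  -- step 4: write the one
  have h4 := prim_sruns (fun _ : ι → Γ => Instr.nil.set x (bit true) Move.stay) s3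
  have e4 : ((fun _ : ι → Γ => Instr.nil.set x (bit true : Γ) Move.stay) (sreads s3)).sapp s3 =
      Function.update s3 x (Z (List.replicate j (bit false))
        (bit true :: (List.replicate (N - j - 1) (bit false) ++ [rend]))) := by
    obtain ⟨m, hm⟩ : ∃ m, N - j = m + 1 := ⟨N - j - 1, by omega⟩
    have hm' : N - j - 1 = m := by omega
    simp [hs3x, regZ, hm, List.replicate_succ]
  rw [e4] at h4
  set s4 := Function.update s3 x (Z (List.replicate j (bit false))
        (bit true :: (List.replicate (N - j - 1) (bit false) ++ [rend]))) with hs4
  -- step 5: rewind both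
  have h5 := rewind_spec x s4 (List.replicate j (bit false))
    (bit true :: (List.replicate (N - j - 1) (bit false) ++ [rend])) (by simp [hs4])
    (lend_notMem_replicate j false) (lend_notMem_ohTail _)
  rw [← oh_eq] at h5
  set s5 := Function.update s4 x (Z [] (oh N j)) with hs5
  have h6 := rewind_spec y s5 u t
    (by simp [hs5, hs4, hs3, Function.update_of_ne hxy.symm])
    (lend_notMem_replicate vy false) (lend_notMem_ohTail _)
  have hmod : (vx + vy) % N = j := by
    simp only [hj, hjf]
    split_ifs with h
    · exact Nat.mod_eq_of_lt h
    · rw [Nat.mod_eq_sub_mod (by omega), Nat.mod_eq_of_lt (by omega)]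
  have e6 : Function.update s5 y (Z [] (u ++ t)) =
      Function.update s x (Z [] (oh N ((vx + vy) % N))) := by
    rw [hmod]
    funext i
    by_cases hiy : i = y
    · subst hiy; simp [Function.update_of_ne hxy.symm, hy, oh_eq, hu, ht]
    · by_cases hix : i = x
      · subst hix; simp [hs5, Function.update_of_ne hiy]
      · simp [hs5, hs4, hs3, hF, Function.update_of_ne hiy, Function.update_of_ne hix]
  rw [e6] at h6
  have hsum : ∑ k ∈ Finset.range vy, ((if jf k + 1 = N then N + 7 else 4) + 5) ≤
      9 * vy + (N + 3) := by
    have hterm : ∀ k ∈ Finset.range vy, ((if jf k + 1 = N then N + 7 else 4) + 5) =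
        9 + (if k = N - 1 - vx then N + 3 else 0) := by
      intro k hk
      have hk' : k < vy := Finset.mem_range.1 hk
      simp only [hjf]
      split_ifs <;> omega
    rw [Finset.sum_congr rfl hterm, Finset.sum_add_distrib, Finset.sum_ite_eq']
    simp only [Finset.sum_const, Finset.card_range, smul_eq_mul]
    split_ifs <;> omega
  have hall := seq_sruns h1 (seq_sruns h2 (seq_sruns h3 (seq_sruns h4 (seq_sruns h5 h6))))
  refine Prog.SRuns.mono hall ?_
  simp only [List.length_replicate, hlen]
  omega

end Vale.Agent.P338.TM
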