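import Vale.Agent.P338.TM.Sched1

/-! The schedule on the positions of the address bits. -/

namespace Vale.Agent.P338.TM

open Vale.Agent.P338

theorem sched_zero : sched 0 = [] := by
  simp [sched, downAll, upAll]

theorem sched_one : sched 1 = [(0, 1, 1)] := by
  simp [sched, downAll, upAll]

theorem sched_step (K : ℕ) :
    sched (K + 2) = opsDown (K + 2) ++ sched ((K + 3) / 2) ++ opsUp (K + 2) := by
  unfold sched
  rw [downAll, upAll]
  simp only [List.append_assoc]

/-- The four cases of `swP`. -/
theorem swP_cases (σ lo up i : ℕ) :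
    (i < σ ∧ swP σ lo up i = i) ∨ (σ ≤ i ∧ i < σ + lo ∧ swP σ lo up i = i + up) ∨
      (σ + lo ≤ i ∧ i < σ + lo + up ∧ swP σ lo up i + lo = i) ∨
      (σ + lo + up ≤ i ∧ swP σ lo up i = i) := by
  unfold swP
  split_ifs <;> omega

/-- The three operations of `opsX p q σ` swap the upper group of `p` address bits with the lower
group of `q` address bits above a suffix of `σ` address bits. -/
theorem opsP_opsX (p q σ i : ℕ) : opsP (opsX p q σ) i = swP σ q p i := by
  simp only [opsX, opsP]
  have h1 := swP_cases (σ + (q + 1) / 2) (q / 2) p i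
  generalize swP (σ + (q + 1) / 2) (q / 2) p i = a at h1 ⊢
  have h2 := swP_cases σ ((q + 1) / 2) (p / 2) a
  generalize swP σ ((q + 1) / 2) (p / 2) a = b at h2 ⊢
  have h3 := swP_cases (σ + p / 2) ((q + 1) / 2) ((p + 1) / 2) b
  generalize swP (σ + p / 2) ((q + 1) / 2) ((p + 1) / 2) b = c at h3 ⊢
  have h4 := swP_cases σ q p i
  generalize swP σ q p i = e at h4 ⊢
  omega

/-- The four swaps of one level. -/
theorem swP_level (K1 K2 i : ℕ) (h : K1 = K2 ∨ K1 = K2 + 1) :
    swP K1 K1 K2 (swP (2 * K1) K2 K2 (swP 0 K1 K1 (swP K1 K2 K1 i))) = swP 0 (K1 + K2) (K1 + K2) i := by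
  have h1 := swP_cases K1 K2 K1 i
  generalize swP K1 K2 K1 i = a at h1 ⊢
  have h2 := swP_cases 0 K1 K1 a
  generalize swP 0 K1 K1 a = b at h2 ⊢
  have h3 := swP_cases (2 * K1) K2 K2 b
  generalize swP (2 * K1) K2 K2 b = c at h3 ⊢
  have h4 := swP_cases K1 K1 K2 c
  generalize swP K1 K1 K2 c = e at h4 ⊢
  have h5 := swP_cases 0 (K1 + K2) (K1 + K2) i
  generalize swP 0 (K1 + K2) (K1 + K2) i = f at h5 ⊢
  omega

theorem opsP_sched (K i : ℕ) : opsP (sched K) i = swP 0 K K i := by
  induction K using Nat.strong_induction_on generalizing i with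
  | _ K ih =>
    match K, ih with
    | 0, _ =>
      rw [sched_zero]
      simp only [opsP]
      unfold swP
      split_ifs <;> omega
    | 1, _ =>
      rw [sched_one]
      simp only [opsP]
    | K + 2, ih =>
      rw [sched_step, opsP_append, opsP_append, ih ((K + 3) / 2) (by omega)]
      simp only [opsDown, opsUp, opsP, opsP_opsX]
      have e1 : (K + 2 + 1) / 2 = (K + 3) / 2 := rfl
      rw [e1]
      have h := swP_level ((K + 3) / 2) ((K + 2) / 2) i (by omega)
      have e2 : (K + 3) / 2 + (K + 2) / 2 = K + 2 := by omega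
      rw [e2] at h
      exact h

theorem okOp_mono (T T' : ℕ) (h : T ≤ T') (op : Op) (ho : OkOp T op) : OkOp T' op :=
  ⟨ho.1, le_trans ho.2 h⟩

theorem sched_ok' (κ : ℕ) : ∀ op ∈ sched κ, OkOp (2 * κ) op := by
  induction κ using Nat.strong_induction_on with
  | _ K ih =>
    match K, ih with
    | 0, _ =>
      rw [sched_zero]
      intro op h
      cases h
    | 1, _ =>
      rw [sched_one]
      intro op h
      rw [List.mem_singleton] at h
      subst h
      unfold OkOp
      constructor <;> simp
    | K + 2, ih =>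
      rw [sched_step]
      intro op h
      rw [List.mem_append, List.mem_append] at h
      rcases h with (h | h) | h
      · simp only [opsDown, opsX, List.mem_cons, List.not_mem_nil, or_false] at h
        rcases h with h | h | h <;> subst h <;> unfold OkOp <;> constructor <;> simp only <;> omega
      · exact okOp_mono _ _ (by omega) op (ih ((K + 3) / 2) (by omega) op h)
      · simp only [opsUp, opsX, List.mem_cons, List.not_mem_nil, or_false] at h
        rcases h with h | h | h | h <;> subst h <;> unfold OkOp <;> constructor <;> simp only <;>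
          omega

end Vale.Agent.P338.TM
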