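import Vale.Agent.P338.TM.Timing0
import Vale.Agent.P338.TM.Sched3

/-! Size of the schedule. -/

namespace Vale.Agent.P338.TM

open Vale.Agent.P338

private theorem sched_length_clog (κ : ℕ) : (sched κ).length ≤ 7 * Nat.clog 2 κ + 1 := by
  induction κ using Nat.strong_induction_on with
  | _ K ih =>
    match K, ih with
    | 0, _ => rw [sched_zero]; simp
    | 1, _ => rw [sched_one]; simp
    | K + 2, ih =>
      have h := ih ((K + 3) / 2) (by omega)
      have hc : Nat.clog 2 (K + 2) = Nat.clog 2 ((K + 3) / 2) + 1 := by
        rw [Nat.clog_of_two_le (by norm_num) (by omega)]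
        rfl
      rw [sched_step, hc]
      simp only [List.length_append, opsDown, opsUp, opsX, List.length_cons, List.length_nil]
      omega

theorem sched_length_le (κ : ℕ) : (sched κ).length ≤ 7 * Nat.log 2 κ + 8 := by
  have h := sched_length_clog κ
  have h2 : Nat.clog 2 κ ≤ Nat.log 2 κ + 1 :=
    Nat.clog_le_of_le_pow (Nat.lt_pow_succ_log_self (by norm_num) κ).le
  omega

theorem sched_jj_le (κ : ℕ) : ∀ op ∈ sched κ, jj op ≤ 2 * κ := by
  intro op h
  exact (sched_ok' κ op h).2

theorem sched_wsum_le (κ : ℕ) : ((sched κ).map jj).sum ≤ 42 * κ := by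
  induction κ using Nat.strong_induction_on with
  | _ K ih =>
    match K, ih with
    | 0, _ => rw [sched_zero]; simp
    | 1, _ => rw [sched_one]; simp [jj]
    | 2, _ =>
      rw [sched_step]
      simp [sched_one, opsDown, opsUp, opsX, jj]
    | K + 3, ih =>
      have h := ih ((K + 4) / 2) (by omega)
      rw [sched_step (K + 1)]
      simp only [List.map_append, List.sum_append, opsDown, opsUp, opsX, List.map_cons,
        List.map_nil, List.sum_cons, List.sum_nil, jj]
      have e1 : (K + 1 + 3) / 2 = (K + 4) / 2 := rfl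
      have e2 : (K + 1 + 2 + 1) / 2 = (K + 4) / 2 := rfl
      rw [e1, e2]
      generalize (List.map jj (sched ((K + 4) / 2))).sum = b at h ⊢
      omega

end Vale.Agent.P338.TM
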