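import Vale.Agent.P338.TM.Model3

/-!
Programs on the work tapes `Own` run inside the big machine with tapes `Fin k ⊕ Own`.
-/

namespace Vale.Agent.P338.TM

open Vale.Agent.P338

variable {k : ℕ} {Γ : Type}

/-- A program on the work tapes, as a program on all tapes (the others are not touched). -/
def liftO (P : Prog Own Γ) : Prog (Fin k ⊕ Own) Γ where
  Q := P.Q
  start := P.start
  δ := fun q a => (P.δ q fun x => a (Sum.inr x)).map fun r =>
    (r.1, Sum.elim (fun i => a (Sum.inl i)) r.2.1, Sum.elim (fun _ => Move.stay) r.2.2)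
  lab := P.lab

/-- Put together the states of the two groups of tapes. -/
def glue (sA : St (Fin k) Γ) (sO : St Own Γ) : St (Fin k ⊕ Own) Γ := Sum.elim sA sO

@[simp] theorem glue_inl (sA : St (Fin k) Γ) (sO : St Own Γ) (i : Fin k) :
    glue sA sO (Sum.inl i) = sA i := rfl

@[simp] theorem glue_inr (sA : St (Fin k) Γ) (sO : St Own Γ) (x : Own) :
    glue sA sO (Sum.inr x) = sO x := rfl

@[simp] theorem update_glue_inr (sA : St (Fin k) Γ) (sO : St Own Γ) (x : Own) (z : Zip Γ) :
    Function.update (glue sA sO) (Sum.inr x) z = glue sA (Function.update sO x z) := by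
  funext i
  rcases i with i | y
  · simp [glue]
  · by_cases h : y = x
    · subst h; simp [glue]
    · simp [glue, Function.update_of_ne h]

variable [TapeAlpha Γ]

omit [TapeAlpha Γ] in
theorem liftO_step (P : Prog Own Γ) (q : P.Q) (cA : Conf (Fin k) Γ) (cO : Conf Own Γ) :
    (liftO P : Prog (Fin k ⊕ Own) Γ).step (q, Sum.elim cA cO)
      = (P.step (q, cO)).map fun y => (y.1, Sum.elim cA y.2) := by
  have hr : (fun x => reads (Sum.elim cA cO : Conf (Fin k ⊕ Own) Γ) (Sum.inr x)) = reads cO := rfl
  simp only [Prog.step, liftO, hr]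
  cases P.δ q (reads cO) with
  | none => rfl
  | some r =>
    simp only [Option.map_some, Option.some.injEq, Prod.mk.injEq, true_and]
    funext i
    rcases i with i | x
    · exact Tp.act_read_stay (cA i)
    · rfl

omit [TapeAlpha Γ] in
theorem liftO_reach (P : Prog Own Γ) (cA : Conf (Fin k) Γ) {t : ℕ} {x y : P.Q × Conf Own Γ}
    (h : P.Reach t x y) :
    (liftO P : Prog (Fin k ⊕ Own) Γ).Reach t (x.1, Sum.elim cA x.2) (y.1, Sum.elim cA y.2) := by
  induction h with
  | zero x => exact Prog.Reach.zero _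
  | @succ t x y z hs _ ih =>
    refine Prog.Reach.succ (P := (liftO P : Prog (Fin k ⊕ Own) Γ))
      (y := (y.1, Sum.elim cA y.2)) ?_ ih
    have := liftO_step P x.1 cA x.2
    rw [this]
    have hx : (x.1, x.2) = x := rfl
    rw [hx, hs]
    rfl

theorem conc_glue_elim (sA : St (Fin k) Γ) (sO : St Own Γ) :
    conc (glue sA sO) = Sum.elim (conc sA) (conc sO) := by
  funext i
  rcases i with i | x <;> rfl

theorem liftO_sruns {P : Prog Own Γ} {sO sO' : St Own Γ} {T : ℕ} {b : Bool}
    (h : P.SRuns sO T sO' b) (sA : St (Fin k) Γ) :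
    (liftO P : Prog (Fin k ⊕ Own) Γ).SRuns (glue sA sO) T (glue sA sO') b := by
  obtain ⟨t, ht, q, hr, hs, hl⟩ := h
  refine ⟨t, ht, q, ?_, ?_, hl⟩
  · rw [conc_glue_elim, conc_glue_elim]
    exact liftO_reach P (conc sA) hr
  · rw [conc_glue_elim]
    have := liftO_step P q (conc sA) (conc sO')
    rw [this, hs]
    rfl

/-- All tapes of the multiplier blank, heads on the leftmost cell. -/
def blankA : St (Fin k) Γ := fun _ => ⟨[], []⟩

end Vale.Agent.P338.TM
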