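import Vale.Agent.P338.TM.Progs2

/-!
List level description of what the programs of `Progs2` compute, parameter conventions,
cost functions.  Definitions and a few trivial lemmas only.
-/

namespace Vale.Agent.P338.TM

open Vale.Agent.P338

/-- `k` zeros. -/
def zs (k : ℕ) : List Bool := List.replicate k false

/-- `k` ones. -/
def os (k : ℕ) : List Bool := List.replicate k true

/-- `f i ++ f (i+1) ++ ... ++ f (i+k-1)`. -/
def cat (f : ℕ → List Bool) (i k : ℕ) : List Bool := (List.range k).flatMap fun j => f (i + j)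

/-- Value of a bit list, least significant bit first. -/
def lval : List Bool → ℕ
  | [] => 0
  | b :: t => b.toNat + 2 * lval t

/-- The `k` lowest bits of `z`, least significant bit first. -/
def lbits (k z : ℕ) : List Bool := (List.range k).map fun i => z.testBit i

/-- The numerical parameters of one step. -/
structure Par where
  a : ℕ
  b : ℕ
  g : ℕ
  e : ℕ
  m : ℕ
  f : ℕ
  H : ℕ

/-- Number of entries of a matrix = number of slots of a register. -/
def Par.N (P : Par) : ℕ := P.a * P.b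

/-- Slot width. -/
def Par.w (P : Par) : ℕ := 8 * P.m + 2

/-- The arithmetical side conditions. -/
structure Par.Valid (P : Par) : Prop where
  a2 : 2 ≤ P.a
  b2 : 2 ≤ P.b
  g1 : 1 ≤ P.g
  hm : 2 * P.m = P.a * P.b * P.g
  hf : P.f + 7 + P.e = P.m
  hH : P.H < P.a * P.b

/-- The unary parameter tapes. -/
def Own.isUn : Own → Bool
  | Own.ta | Own.tb | Own.tg | Own.te | Own.tm | Own.tN | Own.tb1 | Own.t1 | Own.t0 | Own.tf => true
  | _ => false

/-- The constant registers. -/
def Own.isConst : Own → Bool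
  | Own.cZ | Own.cO | Own.cA | Own.cB | Own.cH => true
  | _ => false

/-- The number held by a unary parameter tape. -/
def Par.uval (P : Par) : Own → ℕ
  | Own.ta => P.a
  | Own.tb => P.b
  | Own.tg => P.g
  | Own.te => P.e
  | Own.tm => P.m
  | Own.tN => P.a * P.b
  | Own.tb1 => P.b - 1
  | Own.t1 => 1
  | Own.tf => P.f
  | _ => 0

/-- The number held by a constant register. -/
def Par.cval (P : Par) : Own → ℕ
  | Own.cO => 1
  | Own.cA => P.a
  | Own.cB => P.b
  | Own.cH => P.H
  | _ => 0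

section

variable {Γ : Type} [TapeAlpha Γ]

/-- Tape `x` (a parameter tape or a constant register) holds its value, head at the start. -/
def Good (P : Par) (s : St Own Γ) (x : Own) : Prop :=
  (x.isUn = true → s x = Z [] (un (P.uval x))) ∧
  (x.isConst = true → s x = Z [] (oh P.N (P.cval x)))

/-- All tapes of the list hold their values. -/
def Need (P : Par) (s : St Own Γ) (l : List Own) : Prop := ∀ x ∈ l, Good P s x

theorem Good.update_ne {P : Par} {s : St Own Γ} {x y : Own} (h : Good P s x) (hxy : x ≠ y)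
    (z : Zip Γ) : Good P (Function.update s y z) x := by
  unfold Good at *
  rw [Function.update_of_ne hxy]
  exact h

theorem Need.update {P : Par} {s : St Own Γ} {l : List Own} (h : Need P s l) {y : Own}
    (hy : y ∉ l) (z : Zip Γ) : Need P (Function.update s y z) l := by
  intro x hx
  exact (h x hx).update_ne (fun hh => hy (by rw [← hh]; exact hx)) z

theorem Need.mono {P : Par} {s : St Own Γ} {l l' : List Own} (h : Need P s l)
    (hl : ∀ x ∈ l', x ∈ l) : Need P s l' := fun x hx => h x (hl x hx)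

end

/-! ### Encoding -/

/-- The block that encodes the entry `u` (`f` = number of fill bits). -/
def encBlock (f : ℕ) (u : List Bool) : List Bool :=
  ([true, true, true, false, false, false, true] ++ u ++ zs f) ++
  ([false, false, false, true, true, true, false] ++ u.map not ++ os f) ++ [false, false]

/-! ### Phases -/

/-- The values of the registers `rS rD rF`. -/
structure Ph where
  S : ℕ
  D : ℕ
  F : ℕ

/-- Register update after a block. -/
def Ph.blk (N E1 : ℕ) (p : Ph) : Ph := ⟨(p.S + p.D) % N, (p.D + E1) % N, p.F⟩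

/-- Register update after a row. -/
def Ph.row (N E2 E3 : ℕ) (p : Ph) : Ph := ⟨(p.S + p.F) % N, (p.D + E3) % N, (p.F + E2) % N⟩

/-- After `k` blocks. -/
def Ph.blks (N E1 : ℕ) (p : Ph) (k : ℕ) : Ph := (Ph.blk N E1)^[k] p

/-- After `r` rows of `b` blocks. -/
def Ph.rows (N b E1 E2 E3 : ℕ) (p : Ph) (r : ℕ) : Ph :=
  (fun q => (q.blks N E1 b).row N E2 E3)^[r] p

/-- All three values are below `N`. -/
def Ph.lt (p : Ph) (N : ℕ) : Prop := p.S < N ∧ p.D < N ∧ p.F < N

/-! ### First operand -/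

/-- A slot of the first operand: the block shifted by `S*g`. -/
def slotX (P : Par) (S : ℕ) (blk : List Bool) : List Bool :=
  zs (S * P.g) ++ blk ++ zs ((P.N - S) * P.g) ++ zs (4 * P.m)

/-- `k` slots of a row. -/
def xRowOut (P : Par) (E1 : ℕ) (blk : ℕ → List Bool) (p : Ph) (k : ℕ) : List Bool :=
  cat (fun j => slotX P (p.blks P.N E1 j).S (blk j)) 0 k

/-- `r` rows. -/
def xRowsOut (P : Par) (E1 E2 E3 : ℕ) (blk : ℕ → List Bool) (p : Ph) (r : ℕ) : List Bool :=
  cat (fun i => xRowOut P E1 (fun j => blk (i * P.b + j)) (p.rows P.N P.b E1 E2 E3 i) P.b) 0 r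

/-- A group: `R` rows and `3*R*b` zero slots. -/
def xGroupOut (P : Par) (E1 E2 E3 : ℕ) (blk : ℕ → List Bool) (p : Ph) (R : ℕ) : List Bool :=
  xRowsOut P E1 E2 E3 blk p R ++ zs (3 * (R * (P.b * P.w)))

/-- `G` groups. -/
def xOut (P : Par) (E1 E2 E3 : ℕ) (blk : ℕ → List Bool) (p : Ph) (R G : ℕ) : List Bool :=
  cat (fun i => xGroupOut P E1 E2 E3 (fun n => blk (i * (R * P.b) + n))
    (p.rows P.N P.b E1 E2 E3 (i * R)) R) 0 G

/-! ### Second operand -/

/-- Register update after a chirp row (`D` is not used). -/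
def Ph.yrow (N E2 : ℕ) (p : Ph) : Ph := ⟨(p.S + p.F) % N, p.D, (p.F + E2) % N⟩

/-- After `k` chirp rows. -/
def Ph.yrows (N E2 : ℕ) (p : Ph) (k : ℕ) : Ph := (Ph.yrow N E2)^[k] p

/-- A chirp slot: `2^((N-S)*g)`. -/
def slotY (P : Par) (S : ℕ) : List Bool :=
  zs ((P.N - S) * P.g) ++ true :: zs (2 * P.m + 1) ++ zs (S * P.g) ++ zs (4 * P.m)

/-- `k` chirp rows (`s1` = stride - 1 zero slots after each chirp slot). -/
def yOut (P : Par) (E2 s1 : ℕ) (p : Ph) (k : ℕ) : List Bool :=
  cat (fun l => slotY P (p.yrows P.N E2 l).S ++ zs (s1 * P.w)) 0 k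

/-! ### Costs (upper bounds for the numbers of steps) -/

def cEncEntry (P : Par) : ℕ := 35 * P.e + 14 * P.f + 90
def cSkipMat (P : Par) : ℕ := P.a * (P.b * (7 * P.e + 12) + 12) + 6
def cEncMat (P : Par) : ℕ := 2 * cSkipMat P + (P.a * (P.b * (cEncEntry P + 6) + 12) + 6) + 2
def cCpBlk (P : Par) : ℕ := 14 * P.m + 19
def cZeroSlot (P : Par) : ℕ := 56 * P.m + 61
def cXBlock (P : Par) : ℕ := P.N * (7 * P.g + 11) + 42 * P.m + 41 * P.N + 150
def cXRow (P : Par) : ℕ := P.b * (cXBlock P + 6) + 6 + 3 * (20 * P.N + 40) + 3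
def cXGroup (P : Par) (R : ℕ) : ℕ :=
  (R * (cXRow P + 6) + 6) + 3 * ((R * ((P.b * (cZeroSlot P + 6) + 6) + 6) + 6) + 1) + 1
def cStageX (P : Par) (R G : ℕ) : ℕ := G * (cXGroup P R + 6) + 6
def cYSlot (P : Par) : ℕ := P.N * (7 * P.g + 11) + 42 * P.m + 3 * P.N + 80
def cYRow (P : Par) (s1 : ℕ) : ℕ := cYSlot P + (s1 * (cZeroSlot P + 6) + 6) + 2 * (20 * P.N + 40) + 3
def cStageY (P : Par) (l s1 : ℕ) : ℕ := 3 * ((l * (cYRow P s1 + 6) + 6) + 1)

end Vale.Agent.P338.TM
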