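import Vale.Agent.P338.TM.SpecUnary
import Vale.Agent.P338.TM.Model

namespace Vale.Agent.P338.TM

open Vale.Agent.P338

variable {ι Γ : Type} [TapeAlpha Γ] [DecidableEq ι]

theorem wrs_spec (x : ι) (l : List Γ) (s : St ι Γ) (d : List Γ) (hx : s x = Z d []) :
    (wrs x l).SRuns s (2 * l.length) (Function.update s x (Z (d ++ l) [])) true := by
  induction l generalizing s d with
  | nil =>
    have e : Function.update s x (Z (d ++ []) []) = s := by
      rw [List.append_nil, ← hx, Function.update_eq_self]
    rw [e]
    exact skip_sruns s
  | cons c l ih =>
    have h1 := prim_sruns (fun _ => (Instr.nil : Instr ι Γ).set x c Move.right) s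
    have e : ((Instr.nil : Instr ι Γ).set x c Move.right).sapp s
        = Function.update s x (Z (d ++ [c]) []) := by
      simp [hx]
    rw [e] at h1
    have h2 := ih (Function.update s x (Z (d ++ [c]) [])) (d ++ [c]) (by simp)
    rw [Function.update_idem, List.append_assoc, List.singleton_append] at h2
    have h3 := seq_sruns h1 h2
    exact h3.mono (by simp only [List.length_cons]; omega)

theorem onesU_spec (p x : ι) (hpx : p ≠ x) (s : St ι Γ) (c : ℕ) (d : List Γ)
    (hp : s p = Z [] (un c)) (hx : s x = Z d []) :
    (onesU p x).SRuns s (7 * c + 6)
      (Function.update s x (Z (d ++ List.replicate c (bit true)) [])) true := by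
  have h := forU_fun p (wr x (bit true) Move.right) c 1
    (fun k => Function.update s x (Z (d ++ List.replicate k (bit true)) [])) (by
      intro k _
      refine ⟨true, ?_⟩
      have h1 := prim_sruns (fun _ => (Instr.nil : Instr ι Γ).set x (bit true) Move.right)
        (Function.update (Function.update s x (Z (d ++ List.replicate k (bit true)) [])) p
          (Z (un k) (un (c - k))))
      have e : ((Instr.nil : Instr ι Γ).set x (bit true) Move.right).sapp
          (Function.update (Function.update s x (Z (d ++ List.replicate k (bit true)) [])) p
            (Z (un k) (un (c - k))))
          = Function.update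
              (Function.update s x (Z (d ++ List.replicate (k + 1) (bit true)) [])) p
              (Z (un k) (un (c - k))) := by
        funext i
        by_cases hip : i = p
        · subst hip
          simp [Function.update_of_ne hpx]
        · by_cases hix : i = x
          · subst hix
            simp [Function.update_of_ne hip, List.replicate_succ', List.append_assoc]
          · simp [Function.update_of_ne hip, Function.update_of_ne hix]
      rw [e] at h1
      exact h1)
  have e0 : Function.update
      ((fun k => Function.update s x (Z (d ++ List.replicate k (bit true)) [])) 0) p
      (Z [] (un c)) = s := by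
    funext i
    by_cases hip : i = p
    · subst hip; simp [hp]
    · by_cases hix : i = x
      · subst hix; simp [Function.update_of_ne hip, hx]
      · simp [Function.update_of_ne hip, Function.update_of_ne hix]
  have e1 : Function.update
      ((fun k => Function.update s x (Z (d ++ List.replicate k (bit true)) [])) c) p
      (Z [] (un c)) = Function.update s x (Z (d ++ List.replicate c (bit true)) []) := by
    funext i
    by_cases hip : i = p
    · subst hip; simp [hp, Function.update_of_ne hpx]
    · simp [Function.update_of_ne hip]
  rw [e0, e1] at h
  exact h.mono (by omega)

theorem negSym_bit (b : Bool) : negSym (bit b : Γ) = bit (!b) := by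
  cases b with
  | true => simp [negSym]
  | false =>
    have h : (bit false : Γ) ≠ bit true := fun h => by
      have := TapeAlpha.bit_injective h
      simp at this
    simp [negSym, h]

theorem cpNotU_spec (p x y : ι) (hpx : p ≠ x) (hpy : p ≠ y) (hxy : x ≠ y) (s : St ι Γ) (c : ℕ)
    (dx tx dy : List Γ) (w : List Bool) (hw : w.length = c)
    (hp : s p = Z [] (un c)) (hx : s x = Z dx (bits w ++ tx)) (hy : s y = Z dy []) :
    (forU p (cpNot x y)).SRuns s (7 * c + 6)
      (Function.update (Function.update s x (Z (dx ++ bits w) tx)) y
        (Z (dy ++ bits (w.map not)) [])) true := by
  have h := forU_fun p (cpNot x y) c 1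
    (fun k => Function.update (Function.update s x
      (Z (dx ++ bits (w.take k)) (bits (w.drop k) ++ tx))) y
      (Z (dy ++ bits ((w.take k).map not)) [])) (by
      intro k hk
      refine ⟨true, ?_⟩
      have h1 := prim_sruns
        (fun a => ((Instr.nil : Instr ι Γ).set x (a x) Move.right).set y (negSym (a x)) Move.right)
        (Function.update (Function.update (Function.update s x
          (Z (dx ++ bits (w.take k)) (bits (w.drop k) ++ tx))) y
          (Z (dy ++ bits ((w.take k).map not)) [])) p
          (Z (un k) (un (c - k))))
      have hkw : k < w.length := by omega
      have hdrop : w.drop k = w[k] :: w.drop (k + 1) := List.drop_eq_getElem_cons hkw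
      have htake : w.take (k + 1) = w.take k ++ [w[k]] := by
        rw [List.take_succ_eq_append_getElem hkw]
      have e : (((Instr.nil : Instr ι Γ).set x
            (sreads (Function.update (Function.update (Function.update s x
              (Z (dx ++ bits (w.take k)) (bits (w.drop k) ++ tx))) y
              (Z (dy ++ bits ((w.take k).map not)) [])) p
              (Z (un k) (un (c - k)))) x) Move.right).set y
            (negSym (sreads (Function.update (Function.update (Function.update s x
              (Z (dx ++ bits (w.take k)) (bits (w.drop k) ++ tx))) y
              (Z (dy ++ bits ((w.take k).map not)) [])) p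
              (Z (un k) (un (c - k)))) x)) Move.right).sapp
          (Function.update (Function.update (Function.update s x
            (Z (dx ++ bits (w.take k)) (bits (w.drop k) ++ tx))) y
            (Z (dy ++ bits ((w.take k).map not)) [])) p
            (Z (un k) (un (c - k))))
          = Function.update (Function.update (Function.update s x
              (Z (dx ++ bits (w.take (k + 1))) (bits (w.drop (k + 1)) ++ tx))) y
              (Z (dy ++ bits ((w.take (k + 1)).map not)) [])) p
              (Z (un k) (un (c - k))) := by
        rw [hdrop, htake]
        generalize w.take k = wa
        generalize w.drop (k + 1) = wr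
        generalize w[k] = wb
        funext i
        by_cases hip : i = p
        · subst hip
          simp [Function.update_of_ne hpx, Function.update_of_ne hpy]
        · by_cases hiy : i = y
          · subst hiy
            simp [Function.update_of_ne hip, Function.update_of_ne hpx.symm,
              Function.update_of_ne hxy, List.append_assoc, bits, negSym_bit]
          · by_cases hix : i = x
            · subst hix
              simp [Function.update_of_ne hip, Function.update_of_ne hiy, List.append_assoc, bits]
            · simp [Function.update_of_ne hip, Function.update_of_ne hix,
                Function.update_of_ne hiy]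
      rw [e] at h1
      exact h1)
  have e0 : Function.update
      ((fun k => Function.update (Function.update s x
        (Z (dx ++ bits (w.take k)) (bits (w.drop k) ++ tx))) y
        (Z (dy ++ bits ((w.take k).map not)) [])) 0) p (Z [] (un c)) = s := by
    funext i
    by_cases hip : i = p
    · subst hip; simp [hp]
    · by_cases hiy : i = y
      · subst hiy; simp [Function.update_of_ne hip, hy, bits]
      · by_cases hix : i = x
        · subst hix; simp [Function.update_of_ne hip, Function.update_of_ne hiy, hx, bits]
        · simp [Function.update_of_ne hip, Function.update_of_ne hix, Function.update_of_ne hiy]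
  have e1 : Function.update
      ((fun k => Function.update (Function.update s x
        (Z (dx ++ bits (w.take k)) (bits (w.drop k) ++ tx))) y
        (Z (dy ++ bits ((w.take k).map not)) [])) c) p (Z [] (un c))
      = Function.update (Function.update s x (Z (dx ++ bits w) tx)) y
        (Z (dy ++ bits (w.map not)) []) := by
    have ht : w.take c = w := by rw [← hw]; exact List.take_length
    have hd : w.drop c = [] := by rw [← hw]; exact List.drop_length
    funext i
    by_cases hip : i = p
    · subst hip; simp [hp, Function.update_of_ne hpx, Function.update_of_ne hpy]
    · simp [Function.update_of_ne hip, ht, hd, bits]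
  rw [e0, e1] at h
  exact h.mono (by omega)

theorem seekOne_spec (x : ι) (s : St ι Γ) (c : ℕ) (d t : List Γ)
    (hx : s x = Z d (List.replicate c (bit false) ++ bit true :: t)) :
    (seekOne x).SRuns s c
      (Function.update s x (Z (d ++ List.replicate c (bit false)) (bit true :: t))) true := by
  induction c generalizing s d with
  | zero =>
    have e : Function.update s x (Z (d ++ List.replicate 0 (bit false)) (bit true :: t)) = s := by
      have : Z (d ++ List.replicate 0 (bit false)) (bit true :: t) = s x := by
        rw [hx]; simp
      rw [this, Function.update_eq_self]
    rw [e]
    apply scan_sstop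
    simp [hx]
  | succ c ih =>
    have hne : (bit false : Γ) ≠ bit true := fun h => by
      have := TapeAlpha.bit_injective h
      simp at this
    have hr : (s x).read = bit false := by
      rw [hx, List.replicate_succ]; rfl
    apply scan_sstep _ s ((Instr.nil : Instr ι Γ).set x (bit false) Move.right)
    · simp [hr, hne]
    · have e : ((Instr.nil : Instr ι Γ).set x (bit false) Move.right).sapp s
          = Function.update s x (Z (d ++ [bit false])
            (List.replicate c (bit false) ++ bit true :: t)) := by
        simp [hx, List.replicate_succ]
      rw [e]
      have h2 := ih (Function.update s x (Z (d ++ [bit false])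
            (List.replicate c (bit false) ++ bit true :: t))) (d ++ [bit false]) (by simp)
      rw [Function.update_idem, List.append_assoc, List.singleton_append,
        ← List.replicate_succ] at h2
      exact h2

theorem skipOnes_spec (x : ι) (s : St ι Γ) (c : ℕ) (d t : List Γ)
    (ht : t.headD blank ≠ bit true)
    (hx : s x = Z d (List.replicate c (bit true) ++ t)) :
    (skipOnes x).SRuns s c
      (Function.update s x (Z (d ++ List.replicate c (bit true)) t)) true := by
  induction c generalizing s d with
  | zero =>
    have e : Function.update s x (Z (d ++ List.replicate 0 (bit true)) t) = s := by
      have : Z (d ++ List.replicate 0 (bit true)) t = s x := by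
        rw [hx]; simp
      rw [this, Function.update_eq_self]
    rw [e]
    apply scan_sstop
    have hr : (s x).read ≠ bit true := by
      rw [hx]; simpa [Z, Zip.read] using ht
    rw [sreads_apply, if_neg hr]
  | succ c ih =>
    have hr : (s x).read = bit true := by
      rw [hx, List.replicate_succ]; rfl
    apply scan_sstep _ s ((Instr.nil : Instr ι Γ).set x (bit true) Move.right)
    · simp [hr]
    · have e : ((Instr.nil : Instr ι Γ).set x (bit true) Move.right).sapp s
          = Function.update s x (Z (d ++ [bit true])
            (List.replicate c (bit true) ++ t)) := by
        simp [hx, List.replicate_succ]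
      rw [e]
      have h2 := ih (Function.update s x (Z (d ++ [bit true])
            (List.replicate c (bit true) ++ t))) (d ++ [bit true]) (by simp)
      rw [Function.update_idem, List.append_assoc, List.singleton_append,
        ← List.replicate_succ] at h2
      exact h2

end Vale.Agent.P338.TM
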