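import Vale.Agent.P338.TM.Progs4
import Vale.Agent.P338.TM.SpecAddReg
import Vale.Agent.P338.TM.SpecWrs

namespace Vale.Agent.P338.TM

open Vale.Agent.P338

variable {ι Γ : Type} [TapeAlpha Γ] [DecidableEq ι]

theorem seqs_nil (s : St ι Γ) : (seqs ([] : List (Prog ι Γ))).SRuns s 0 s true := skip_sruns s

theorem seqs_cons {P : Prog ι Γ} {l : List (Prog ι Γ)} {s s1 s2 : St ι Γ} {T1 T2 : ℕ} {b1 b2 : Bool}
    (h1 : P.SRuns s T1 s1 b1) (h2 : (seqs l).SRuns s1 T2 s2 b2) :
    (seqs (P :: l)).SRuns s (T1 + T2 + 1) s2 b2 := seq_sruns h1 h2

theorem blank_notMem_un_pow2 (c : ℕ) : (blank : Γ) ∉ (un c : List Γ) := by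
  intro h
  exact TapeAlpha.bit_ne_blank true (List.eq_of_mem_replicate h).symm

theorem dbl_spec (x tmp : ι) (hxt : x ≠ tmp) (s : St ι Γ) (c : ℕ)
    (hx : s x = Z [] (un c)) (ht : s tmp = Z [] []) :
    (dbl x tmp).SRuns s (6 * c + 15) (Function.update s x (Z [] (un (2 * c)))) true := by
  have hlen : (un c : List Γ).length = c := by simp [un]
  have hb : (blank : Γ) ∉ (un c : List Γ) := blank_notMem_un_pow2 c
  have hl : (lend : Γ) ∉ (un c : List Γ) := lend_notMem_un c
  -- copy to tmp
  have h1 := appendAll_spec x tmp hxt s [] (un c) [] hb hx ht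
  simp only [List.nil_append, hlen] at h1
  set s1 := Function.update (Function.update s x (Z (un c) [])) tmp (Z (un c) []) with hs1
  -- rewind tmp
  have h2 := rewind_spec tmp s1 (un c) [] (by rw [hs1, Function.update_self]) hl (by simp)
  simp only [List.append_nil, hlen] at h2
  set s2 := Function.update s1 tmp (Z [] (un c)) with hs2
  -- copy back
  have h3 := appendAll_spec tmp x hxt.symm s2 [] (un c) (un c) hb
    (by rw [hs2, Function.update_self])
    (by rw [hs2, Function.update_of_ne hxt, hs1, Function.update_of_ne hxt, Function.update_self])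
  simp only [List.nil_append, hlen] at h3
  set s3 := Function.update (Function.update s2 tmp (Z (un c) [])) x (Z (un c ++ un c) [])
    with hs3
  -- erase tmp
  have h4 := erase_spec tmp s3 (un c) []
    (by rw [hs3, Function.update_of_ne hxt.symm, Function.update_self]) hl (by simp) (by simp)
  simp only [hlen, List.length_nil, Nat.mul_zero, Nat.add_zero] at h4
  set s4 := Function.update s3 tmp (Z [] []) with hs4
  -- rewind x
  have h5 := rewind_spec x s4 (un c ++ un c) []
    (by rw [hs4, Function.update_of_ne hxt, hs3, Function.update_self])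
    (by
      intro h
      rcases List.mem_append.1 h with h | h <;> exact hl h)
    (by simp)
  simp only [List.append_nil, List.length_append, hlen] at h5
  have hfin : Function.update s4 x (Z [] (un c ++ un c))
      = Function.update s x (Z [] (un (2 * c))) := by
    have e : (un c ++ un c : List Γ) = un (2 * c) := by
      simp only [un, ← List.replicate_add]
      congr 1
      omega
    rw [e]
    funext i
    by_cases hix : i = x
    · subst hix; simp
    · by_cases hit : i = tmp
      · subst hit
        simp [hs4, Function.update_of_ne hix, ht]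
      · simp [hs4, hs3, hs2, hs1, Function.update_of_ne hix, Function.update_of_ne hit]
  rw [hfin] at h5
  have h := seq_sruns h1 (seq_sruns h2 (seq_sruns h3 (seq_sruns h4 h5)))
  refine Prog.SRuns.mono h ?_
  omega

theorem pow2_spec (p x tmp : ι) (hpx : p ≠ x) (hpt : p ≠ tmp) (hxt : x ≠ tmp) (s : St ι Γ) (c : ℕ)
    (hp : s p = Z [] (un c)) (hx : s x = Z [] []) (ht : s tmp = Z [] []) :
    (pow2 p x tmp).SRuns s (6 * 2 ^ c + 21 * c + 10) (Function.update s x (Z [] (un (2 ^ c))))
      true := by
  have h1 := prim_sruns (fun _ : ι → Γ => Instr.nil.set x (bit true) Move.stay) s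
  simp only [Instr.sapp_set, Instr.sapp_nil, hx, Z_act_stay, List.tail_nil] at h1
  have h2 := forU_fun' p (dbl x tmp) c (fun k => Function.update s x (Z [] (un (2 ^ k))))
    (fun k => 6 * 2 ^ k + 15) (by
      intro k _
      refine ⟨true, ?_⟩
      have h := dbl_spec x tmp hxt
        (Function.update (Function.update s x (Z [] (un (2 ^ k)))) p (Z (un k) (un (c - k))))
        (2 ^ k)
        (by rw [Function.update_of_ne hpx.symm, Function.update_self])
        (by rw [Function.update_of_ne hpt.symm, Function.update_of_ne hxt.symm, ht])
      have hc : Function.update (Function.update (Function.update s x (Z [] (un (2 ^ k)))) p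
          (Z (un k) (un (c - k)))) x (Z [] (un (2 * 2 ^ k)))
          = Function.update (Function.update s x (Z [] (un (2 * 2 ^ k)))) p
            (Z (un k) (un (c - k))) := by
        funext i
        by_cases hip : i = p
        · subst hip
          simp [Function.update_of_ne hpx]
        · by_cases hix : i = x
          · subst hix
            simp [Function.update_of_ne hip]
          · simp [Function.update_of_ne hip, Function.update_of_ne hix]
      rw [hc] at h
      have e : 2 ^ (k + 1) = 2 * 2 ^ k := by ring
      simp only [e]
      exact h)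
  have e0 : Function.update (Function.update s x (Z [] (un (2 ^ 0)))) p (Z [] (un c))
      = Function.update s x (Z [] [bit true]) := by
    have e1 : (Function.update s x (Z [] (un (2 ^ 0)))) p = Z [] (un c) := by
      rw [Function.update_of_ne hpx, hp]
    rw [← e1, Function.update_eq_self]
    rfl
  have e2 : Function.update (Function.update s x (Z [] (un (2 ^ c)))) p (Z [] (un c))
      = Function.update s x (Z [] (un (2 ^ c))) := by
    have e1 : (Function.update s x (Z [] (un (2 ^ c)))) p = Z [] (un c) := by
      rw [Function.update_of_ne hpx, hp]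
    rw [← e1, Function.update_eq_self]
  simp only [e0, e2] at h2
  have h := seq_sruns h1 h2
  refine Prog.SRuns.mono h ?_
  have hsum : ∀ n : ℕ, ∑ k ∈ Finset.range n, (6 * 2 ^ k + 15 + 6) + 6 = 6 * 2 ^ n + 21 * n := by
    intro n
    induction n with
    | zero => simp
    | succ n ih =>
      rw [Finset.sum_range_succ]
      have : 2 ^ (n + 1) = 2 * 2 ^ n := by ring
      omega
  have := hsum c
  omega

end Vale.Agent.P338.TM
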