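import Vale.Agent.P338.TM.Progs5
import Vale.Agent.P338.TM.SpecPow2

namespace Vale.Agent.P338.TM

open Vale.Agent.P338

variable {Γ : Type} [TapeAlpha Γ]

/-- The word that describes a list of rows. -/
def rowsWord (rows : List (List Bool)) : List Γ := rows.flatMap fun r => bits r ++ [sep]

theorem initAll_spec (w : List Γ) :
    (initAll : Prog Own Γ).SRuns (fun x => if x = Own.inp then ⟨[], w⟩ else ⟨[], []⟩) 1
      (fun x => if x = Own.inp then ⟨[], w⟩ else if x = Own.outp then ⟨[], []⟩ else Z [] []) true := by
  have h : (initAll : Prog Own Γ).SRuns (fun x => if x = Own.inp then ⟨[], w⟩ else ⟨[], []⟩) 1 _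
    true := prim_sruns _ _
  convert h using 1
  funext x
  by_cases h1 : x = Own.inp
  · subst h1
    simp [Instr.sapp]
  · by_cases h2 : x = Own.outp
    · subst h2
      simp [Instr.sapp]
    · simp [Instr.sapp, h1, h2, Z, Zip.act]

omit [TapeAlpha Γ] in
theorem raw_act_right (l t : List Γ) (w : Γ) :
    (⟨l, t⟩ : Zip Γ).act w Move.right = ⟨w :: l, t.tail⟩ := rfl

theorem io_lend_notMem_bits (u : List Bool) : (lend : Γ) ∉ (bits u : List Γ) := by
  unfold bits
  intro h
  obtain ⟨b, -, hb⟩ := List.mem_map.1 h
  exact TapeAlpha.bit_ne_lend b hb

theorem io_blank_notMem_bits (u : List Bool) : (blank : Γ) ∉ (bits u : List Γ) := by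
  unfold bits
  intro h
  obtain ⟨b, -, hb⟩ := List.mem_map.1 h
  exact TapeAlpha.bit_ne_blank b hb

theorem io_bits_length (u : List Bool) : (bits u : List Γ).length = u.length := by
  unfold bits
  simp

theorem io_bits_append (u v : List Bool) : (bits (u ++ v) : List Γ) = bits u ++ bits v := by
  unfold bits
  simp

theorem rowsWord_cons (r : List Bool) (rows : List (List Bool)) :
    (rowsWord (r :: rows) : List Γ) = bits r ++ sep :: rowsWord rows := by
  simp [rowsWord]

theorem blank_notMem_rowsWord (rows : List (List Bool)) : (blank : Γ) ∉ (rowsWord rows : List Γ) := by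
  induction rows with
  | nil => simp [rowsWord]
  | cons r rows ih =>
    rw [rowsWord_cons]
    intro h
    rcases List.mem_append.1 h with h | h
    · exact io_blank_notMem_bits r h
    · rcases List.mem_cons.1 h with h | h
      · exact TapeAlpha.sep_ne_blank h.symm
      · exact ih h

theorem rowsWord_length (n : ℕ) (rows : List (List Bool)) (h : ∀ r ∈ rows, r.length = n) :
    (rowsWord rows : List Γ).length = rows.length * (n + 1) ∧
      rows.flatten.length = rows.length * n := by
  induction rows with
  | nil => simp [rowsWord]
  | cons r rows ih =>
    obtain ⟨i1, i2⟩ := ih (fun r' hr' => h r' (by simp [hr']))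
    have hr : r.length = n := h r (by simp)
    constructor
    · rw [rowsWord_cons, List.length_append, List.length_cons, i1, io_bits_length, hr,
        List.length_cons]
      ring
    · rw [List.flatten_cons, List.length_append, i2, hr, List.length_cons]
      ring

open Classical in
theorem filter_rowsWord (rows : List (List Bool)) :
    (rowsWord rows : List Γ).filter (fun c => decide (c ≠ sep)) = bits rows.flatten := by
  induction rows with
  | nil => simp [rowsWord, bits]
  | cons r rows ih =>
    rw [rowsWord_cons, List.filter_append, List.filter_cons_of_neg (by simp), ih,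
      List.flatten_cons, io_bits_append]
    congr 1
    rw [List.filter_eq_self]
    intro c hc
    obtain ⟨b, -, hb⟩ := List.mem_map.1 hc
    have : c ≠ sep := by rw [← hb]; exact TapeAlpha.bit_ne_sep b
    simp [this]

open Classical in
/-- First scan of `parse`. -/
theorem parse_scan1 (r : List Bool) : ∀ (s : St Own Γ) (l t d e : List Γ),
    s Own.inp = ⟨l, bits r ++ t⟩ → (t.headD blank = sep ∨ t.headD blank = blank) →
    s Own.X = Z d [] → s Own.d8 = Z e [] →
    (scan fun a => if a Own.inp = sep ∨ a Own.inp = blank then none else
      some (((Instr.nil.set Own.inp (a Own.inp) Move.right).set Own.X (a Own.inp) Move.right).set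
        Own.d8 (bit true) Move.right) : Prog Own Γ).SRuns s r.length
      (Function.update (Function.update (Function.update s Own.inp ⟨(bits r).reverse ++ l, t⟩)
        Own.X (Z (d ++ bits r) [])) Own.d8 (Z (e ++ un r.length) [])) true := by
  induction r with
  | nil =>
    intro s l t d e hi ht hX h8
    have hs : Function.update (Function.update (Function.update s Own.inp
        ⟨(bits [] : List Γ).reverse ++ l, t⟩) Own.X (Z (d ++ bits []) [])) Own.d8
        (Z (e ++ un ([] : List Bool).length) []) = s := by
      funext i
      by_cases g1 : i = Own.d8
      · subst g1; simp [h8, un]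
      · by_cases g2 : i = Own.X
        · subst g2; simp [hX, bits]
        · by_cases g3 : i = Own.inp
          · subst g3; simp [hi, bits]
          · simp [Function.update_of_ne g1, Function.update_of_ne g2, Function.update_of_ne g3]
    rw [hs]
    apply scan_sstop
    have hr : sreads s Own.inp = t.headD blank := by rw [sreads_apply, hi]; rfl
    rw [hr, if_pos ht]
  | cons b r ih =>
    intro s l t d e hi ht hX h8
    have hi' : s Own.inp = ⟨l, bit b :: (bits r ++ t)⟩ := by rw [hi]; rfl
    have hr : sreads s Own.inp = bit b := by rw [sreads_apply, hi']; rfl
    refine scan_sstep _ s (((Instr.nil.set Own.inp (bit b) Move.right).set Own.X (bit b)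
      Move.right).set Own.d8 (bit true) Move.right) ?_ ?_
    · rw [hr, if_neg]
      rintro (h | h)
      · exact TapeAlpha.bit_ne_sep b h
      · exact TapeAlpha.bit_ne_blank b h
    · have e1 : (((Instr.nil.set Own.inp (bit b) Move.right).set Own.X (bit b)
          Move.right).set Own.d8 (bit true) Move.right).sapp s
          = Function.update (Function.update (Function.update s Own.inp ⟨bit b :: l, bits r ++ t⟩)
            Own.X (Z (d ++ [bit b]) [])) Own.d8 (Z (e ++ [bit true]) []) := by
        simp [hi', hX, h8, raw_act_right]
      rw [e1]
      have h1 := ih (Function.update (Function.update (Function.update s Own.inp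
        ⟨bit b :: l, bits r ++ t⟩) Own.X (Z (d ++ [bit b]) [])) Own.d8 (Z (e ++ [bit true]) []))
        (bit b :: l) t (d ++ [bit b]) (e ++ [bit true]) (by simp) ht (by simp) (by simp)
      have e2 : Function.update (Function.update (Function.update (Function.update
          (Function.update (Function.update s Own.inp
          ⟨bit b :: l, bits r ++ t⟩) Own.X (Z (d ++ [bit b]) [])) Own.d8 (Z (e ++ [bit true]) []))
          Own.inp ⟨(bits r).reverse ++ bit b :: l, t⟩) Own.X (Z (d ++ [bit b] ++ bits r) []))
          Own.d8 (Z (e ++ [bit true] ++ un r.length) [])
          = Function.update (Function.update (Function.update s Own.inp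
            ⟨(bits (b :: r)).reverse ++ l, t⟩) Own.X (Z (d ++ bits (b :: r)) [])) Own.d8
            (Z (e ++ un (b :: r).length) []) := by
        have hu : (un (b :: r).length : List Γ) = bit true :: un r.length := by
          simp [un, List.replicate_succ]
        have hb : (bits (b :: r) : List Γ) = bit b :: bits r := rfl
        rw [hu, hb]
        funext i
        by_cases g1 : i = Own.d8
        · subst g1; simp
        · by_cases g2 : i = Own.X
          · subst g2; simp
          · by_cases g3 : i = Own.inp
            · subst g3; simp
            · simp [Function.update_of_ne g1, Function.update_of_ne g2, Function.update_of_ne g3]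
      rw [e2] at h1
      exact h1

open Classical in
/-- Second scan of `parse`. -/
theorem parse_scan2 (w : List Γ) : ∀ (s : St Own Γ) (l d : List Γ), blank ∉ w →
    s Own.inp = ⟨l, w⟩ → s Own.X = Z d [] →
    (scan fun a => if a Own.inp = blank then none else
      if a Own.inp = sep then some (Instr.nil.set Own.inp (a Own.inp) Move.right) else
      some ((Instr.nil.set Own.inp (a Own.inp) Move.right).set Own.X (a Own.inp) Move.right) :
        Prog Own Γ).SRuns s w.length
      (Function.update (Function.update s Own.inp ⟨w.reverse ++ l, []⟩) Own.X
        (Z (d ++ w.filter (fun c => decide (c ≠ sep))) [])) true := by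
  induction w with
  | nil =>
    intro s l d _ hi hX
    have hs : Function.update (Function.update s Own.inp ⟨([] : List Γ).reverse ++ l, []⟩) Own.X
        (Z (d ++ ([] : List Γ).filter (fun c => decide (c ≠ sep))) []) = s := by
      funext i
      by_cases g2 : i = Own.X
      · subst g2; simp [hX]
      · by_cases g3 : i = Own.inp
        · subst g3; simp [hi]
        · simp [Function.update_of_ne g2, Function.update_of_ne g3]
    rw [hs]
    apply scan_sstop
    have hr : sreads s Own.inp = blank := by rw [sreads_apply, hi]; rfl
    rw [hr, if_pos rfl]
  | cons c w ih =>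
    intro s l d hb hi hX
    have hc : c ≠ blank := fun h => hb (by simp [h])
    have hb' : blank ∉ w := fun h => hb (by simp [h])
    have hr : sreads s Own.inp = c := by rw [sreads_apply, hi]; rfl
    by_cases hs : c = sep
    · refine scan_sstep _ s (Instr.nil.set Own.inp c Move.right) ?_ ?_
      · rw [hr, if_neg hc, if_pos hs]
      · have e1 : (Instr.nil.set Own.inp c Move.right).sapp s
            = Function.update s Own.inp ⟨c :: l, w⟩ := by
          simp [hi, raw_act_right]
        rw [e1]
        have h1 := ih (Function.update s Own.inp ⟨c :: l, w⟩) (c :: l) d hb' (by simp)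
          (by simp [hX])
        have e2 : Function.update (Function.update (Function.update s Own.inp ⟨c :: l, w⟩) Own.inp
            ⟨w.reverse ++ c :: l, []⟩) Own.X (Z (d ++ w.filter (fun c => decide (c ≠ sep))) [])
            = Function.update (Function.update s Own.inp ⟨(c :: w).reverse ++ l, []⟩) Own.X
              (Z (d ++ (c :: w).filter (fun c => decide (c ≠ sep))) []) := by
          rw [List.filter_cons_of_neg (by simp [hs]), Function.update_idem]
          simp
        rw [e2] at h1
        exact h1
    · refine scan_sstep _ s ((Instr.nil.set Own.inp c Move.right).set Own.X c Move.right) ?_ ?_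
      · rw [hr, if_neg hc, if_neg hs]
      · have e1 : ((Instr.nil.set Own.inp c Move.right).set Own.X c Move.right).sapp s
            = Function.update (Function.update s Own.inp ⟨c :: l, w⟩) Own.X (Z (d ++ [c]) []) := by
          simp [hi, hX, raw_act_right]
        rw [e1]
        have h1 := ih (Function.update (Function.update s Own.inp ⟨c :: l, w⟩) Own.X
          (Z (d ++ [c]) [])) (c :: l) (d ++ [c]) hb' (by simp) (by simp)
        have e2 : Function.update (Function.update (Function.update (Function.update s Own.inp
            ⟨c :: l, w⟩) Own.X (Z (d ++ [c]) [])) Own.inp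
            ⟨w.reverse ++ c :: l, []⟩) Own.X
              (Z (d ++ [c] ++ w.filter (fun c => decide (c ≠ sep))) [])
            = Function.update (Function.update s Own.inp ⟨(c :: w).reverse ++ l, []⟩) Own.X
              (Z (d ++ (c :: w).filter (fun c => decide (c ≠ sep))) []) := by
          rw [List.filter_cons_of_pos (by simp [hs])]
          funext i
          by_cases g2 : i = Own.X
          · subst g2; simp
          · by_cases g3 : i = Own.inp
            · subst g3; simp
            · simp [Function.update_of_ne g2, Function.update_of_ne g3]
        rw [e2] at h1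
        exact h1

theorem parse_spec (s : St Own Γ) (n : ℕ) (hn : 1 ≤ n) (rows : List (List Bool))
    (hr : rows.length = n) (hrow : ∀ r ∈ rows, r.length = n)
    (hi : s Own.inp = ⟨[], rowsWord rows⟩) (hX : s Own.X = Z [] []) (h8 : s Own.d8 = Z [] []) :
    (parse : Prog Own Γ).SRuns s (3 * (n * (n + 1)) + 20)
      (Function.update (Function.update (Function.update s
        Own.inp ⟨(rowsWord rows : List Γ).reverse, []⟩)
        Own.X (Z [] (bits rows.flatten)))
        Own.d8 (Z [] (un n))) true := by
  obtain ⟨L1, L2⟩ := rowsWord_length (Γ := Γ) n rows hrow
  rw [hr] at L1 L2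
  cases rows with
  | nil => simp at hr; omega
  | cons r0 rest =>
    have hr0 : r0.length = n := hrow r0 (by simp)
    rw [rowsWord_cons] at hi L1
    have h1 := parse_scan1 r0 s [] (sep :: rowsWord rest) [] [] hi (Or.inl rfl) hX h8
    simp only [List.nil_append, List.append_nil, hr0] at h1
    set s1 := Function.update (Function.update (Function.update s Own.inp
      ⟨(bits r0 : List Γ).reverse, sep :: rowsWord rest⟩) Own.X (Z (bits r0) [])) Own.d8
      (Z (un n) []) with hs1
    have hbl : (blank : Γ) ∉ (sep :: rowsWord rest : List Γ) := by
      intro h
      rcases List.mem_cons.1 h with h | h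
      · exact TapeAlpha.sep_ne_blank h.symm
      · exact blank_notMem_rowsWord rest h
    have h2 := parse_scan2 (sep :: rowsWord rest) s1 (bits r0 : List Γ).reverse (bits r0) hbl
      (by simp [hs1]) (by simp [hs1])
    rw [List.filter_cons_of_neg (by simp), filter_rowsWord, ← io_bits_append,
      ← List.flatten_cons] at h2
    have erev : (sep :: rowsWord rest : List Γ).reverse ++ (bits r0 : List Γ).reverse
        = (bits r0 ++ sep :: rowsWord rest : List Γ).reverse := by
      rw [List.reverse_append]
    rw [erev] at h2
    set W : List Γ := bits r0 ++ sep :: rowsWord rest with hW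
    set D : List Bool := (r0 :: rest).flatten with hD
    set s2 := Function.update (Function.update s1 Own.inp ⟨W.reverse, []⟩) Own.X
      (Z (bits D) []) with hs2
    have h3 := rewind_spec Own.X s2 (bits D) [] (by simp [hs2]) (io_lend_notMem_bits D) (by simp)
    rw [List.append_nil, io_bits_length, L2] at h3
    set s3 := Function.update s2 Own.X (Z [] (bits D)) with hs3
    have h4 := rewind_spec Own.d8 s3 (un n) [] (by simp [hs3, hs2, hs1]) (lend_notMem_un n)
      (by simp)
    have hlen : (un n : List Γ).length = n := by simp [un]
    rw [List.append_nil, hlen] at h4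
    have efin : Function.update s3 Own.d8 (Z [] (un n))
        = Function.update (Function.update (Function.update s Own.inp ⟨W.reverse, []⟩)
          Own.X (Z [] (bits D))) Own.d8 (Z [] (un n)) := by
      funext i
      by_cases g1 : i = Own.d8
      · subst g1; simp
      · by_cases g2 : i = Own.X
        · subst g2; simp [hs3]
        · by_cases g3 : i = Own.inp
          · subst g3; simp [hs3, hs2]
          · simp [hs3, hs2, hs1, Function.update_of_ne g1, Function.update_of_ne g2,
              Function.update_of_ne g3]
    rw [efin] at h4
    have h := seqs_cons h1 (seqs_cons h2 (seqs_cons h3 (seqs_cons h4 (seqs_nil _))))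
    rw [rowsWord_cons]
    refine Prog.SRuns.mono h ?_
    have hl2 : (sep :: rowsWord rest : List Γ).length + n = n * (n + 1) := by
      rw [← L1, hW, List.length_append, io_bits_length, hr0]
      omega
    have : n * n ≤ n * (n + 1) := Nat.mul_le_mul_left _ (by omega)
    have : n ≤ n * (n + 1) := by nlinarith
    omega

/-- `cpU` onto a raw tape. -/
theorem cpU_raw_spec (p x y : Own) (hpx : p ≠ x) (hpy : p ≠ y) (hxy : x ≠ y) (s : St Own Γ) (c : ℕ)
    (dx w tx l : List Γ) (hw : w.length = c)
    (hp : s p = Z [] (un c)) (hx : s x = Z dx (w ++ tx)) (hy : s y = ⟨l, []⟩) :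
    (cpU p x y).SRuns s (7 * c + 6)
      (Function.update (Function.update s x (Z (dx ++ w) tx)) y ⟨w.reverse ++ l, []⟩) true := by
  have h := forU_fun p (cp x y) c 1
    (fun k => Function.update (Function.update s x (Z (dx ++ w.take k) (w.drop k ++ tx))) y
      ⟨(w.take k).reverse ++ l, []⟩) (by
      intro k hk
      refine ⟨true, ?_⟩
      have h1 := prim_sruns
        (fun a => ((Instr.nil : Instr Own Γ).set x (a x) Move.right).set y (a x) Move.right)
        (Function.update (Function.update (Function.update s x
          (Z (dx ++ w.take k) (w.drop k ++ tx))) y ⟨(w.take k).reverse ++ l, []⟩) p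
          (Z (un k) (un (c - k))))
      have hkw : k < w.length := by omega
      have hdrop : w.drop k = w[k] :: w.drop (k + 1) := List.drop_eq_getElem_cons hkw
      have htake : w.take (k + 1) = w.take k ++ [w[k]] := by
        rw [List.take_succ_eq_append_getElem hkw]
      have e : (((Instr.nil : Instr Own Γ).set x
            (sreads (Function.update (Function.update (Function.update s x
              (Z (dx ++ w.take k) (w.drop k ++ tx))) y ⟨(w.take k).reverse ++ l, []⟩) p
              (Z (un k) (un (c - k)))) x) Move.right).set y
            (sreads (Function.update (Function.update (Function.update s x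
              (Z (dx ++ w.take k) (w.drop k ++ tx))) y ⟨(w.take k).reverse ++ l, []⟩) p
              (Z (un k) (un (c - k)))) x) Move.right).sapp
          (Function.update (Function.update (Function.update s x
            (Z (dx ++ w.take k) (w.drop k ++ tx))) y ⟨(w.take k).reverse ++ l, []⟩) p
            (Z (un k) (un (c - k))))
          = Function.update (Function.update (Function.update s x
              (Z (dx ++ w.take (k + 1)) (w.drop (k + 1) ++ tx))) y
              ⟨(w.take (k + 1)).reverse ++ l, []⟩) p
              (Z (un k) (un (c - k))) := by
        rw [hdrop, htake]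
        generalize w.take k = wa
        generalize w.drop (k + 1) = wr
        generalize w[k] = wb
        funext i
        by_cases hip : i = p
        · subst hip
          simp [Function.update_of_ne hpx, Function.update_of_ne hpy]
        · by_cases hiy : i = y
          · subst hiy
            simp [Function.update_of_ne hip, Function.update_of_ne hpx.symm,
              Function.update_of_ne hxy, raw_act_right]
          · by_cases hix : i = x
            · subst hix
              simp [Function.update_of_ne hip, Function.update_of_ne hiy, List.append_assoc]
            · simp [Function.update_of_ne hip, Function.update_of_ne hix,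
                Function.update_of_ne hiy]
      rw [e] at h1
      exact h1)
  have e0 : Function.update
      ((fun k => Function.update (Function.update s x (Z (dx ++ w.take k) (w.drop k ++ tx))) y
        ⟨(w.take k).reverse ++ l, []⟩) 0) p (Z [] (un c)) = s := by
    funext i
    by_cases hip : i = p
    · subst hip; simp [hp]
    · by_cases hiy : i = y
      · subst hiy; simp [Function.update_of_ne hip, hy]
      · by_cases hix : i = x
        · subst hix; simp [Function.update_of_ne hip, Function.update_of_ne hiy, hx]
        · simp [Function.update_of_ne hip, Function.update_of_ne hix, Function.update_of_ne hiy]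
  have e1 : Function.update
      ((fun k => Function.update (Function.update s x (Z (dx ++ w.take k) (w.drop k ++ tx))) y
        ⟨(w.take k).reverse ++ l, []⟩) c) p (Z [] (un c))
      = Function.update (Function.update s x (Z (dx ++ w) tx)) y ⟨w.reverse ++ l, []⟩ := by
    have ht : w.take c = w := by rw [← hw]; exact List.take_length
    have hd : w.drop c = [] := by rw [← hw]; exact List.drop_length
    funext i
    by_cases hip : i = p
    · subst hip; simp [hp, Function.update_of_ne hpx, Function.update_of_ne hpy]
    · simp [Function.update_of_ne hip, ht, hd]
  rw [e0, e1] at h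
  exact h.mono (by omega)

/-- A slice inside the list. -/
theorem slices_eq_take_drop (n : ℕ) (D : List Bool) (k : ℕ) (h : (k + 1) * n ≤ D.length) :
    slices n D k = (D.drop (k * n)).take n := by
  have h' : k * n + n ≤ D.length := by
    have : (k + 1) * n = k * n + n := by ring
    omega
  apply List.ext_getElem
  · rw [slices_length, List.length_take, List.length_drop]
    omega
  · intro i h1 h2
    rw [slices_length] at h1
    simp only [slices, List.getElem_map, List.getElem_range, List.getElem_take, List.getElem_drop]
    rw [List.getD_eq_getElem _ _ (by omega)]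

theorem rowsWord_range_succ (f : ℕ → List Bool) (k : ℕ) :
    (rowsWord ((List.range (k + 1)).map f) : List Γ)
      = rowsWord ((List.range k).map f) ++ (bits (f k) ++ [sep]) := by
  simp [rowsWord, List.range_succ, List.flatMap_append]

/-- One round of the loop of `output`. -/
theorem output_round (S : St Own Γ) (n : ℕ) (dx w tx l : List Γ) (hw : w.length = n)
    (hY : S Own.Y = Z [] (un n)) (hX : S Own.X = Z dx (w ++ tx)) (ho : S Own.outp = ⟨l, []⟩) :
    (seq (cpU Own.Y Own.X Own.outp) (wr Own.outp sep Move.right) : Prog Own Γ).SRuns S (7 * n + 8)
      (Function.update (Function.update S Own.X (Z (dx ++ w) tx)) Own.outp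
        ⟨sep :: (w.reverse ++ l), []⟩) true := by
  have c1 := cpU_raw_spec Own.Y Own.X Own.outp (by decide) (by decide) (by decide) S n dx w tx l hw
    hY hX ho
  have c2 := prim_sruns (fun _ : Own → Γ => Instr.nil.set Own.outp sep Move.right)
    (Function.update (Function.update S Own.X (Z (dx ++ w) tx)) Own.outp ⟨w.reverse ++ l, []⟩)
  simp only [Instr.sapp_set, Instr.sapp_nil, Function.update_self, raw_act_right, List.tail_nil,
    Function.update_idem] at c2
  exact (seq_sruns c1 c2).mono (by omega)

/-- The output tape has no left end mark: work with the raw zipper. -/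
theorem output_spec (s : St Own Γ) (n : ℕ) (D : List Bool) (hD : D.length = n * n)
    (hX : s Own.X = Z [] (bits D)) (h8 : s Own.d8 = Z [] (un n)) (hY : s Own.Y = Z [] [])
    (ho : s Own.outp = ⟨[], []⟩) :
    (output : Prog Own Γ).SRuns s (7 * (n * n) + 30 * n + 40)
      (Function.update (Function.update (Function.update s
        Own.X (Z (bits D) []))
        Own.Y (Z [] (un n)))
        Own.outp ⟨(rowsWord ((List.range n).map (slices n D)) : List Γ).reverse, []⟩) true := by
  have hlen : (un n : List Γ).length = n := by simp [un]
  have h1 := appendAll_spec Own.d8 Own.Y (by decide) s [] (un n) [] (blank_notMem_un_pow2 n) h8 hY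
  simp only [List.nil_append, hlen] at h1
  set s1 := Function.update (Function.update s Own.d8 (Z (un n) [])) Own.Y (Z (un n) []) with hs1
  have h2 := rewind_spec Own.d8 s1 (un n) [] (by simp [hs1]) (lend_notMem_un n) (by simp)
  rw [List.append_nil, hlen] at h2
  set s2 := Function.update s1 Own.d8 (Z [] (un n)) with hs2
  have h3 := rewind_spec Own.Y s2 (un n) [] (by simp [hs2, hs1]) (lend_notMem_un n) (by simp)
  rw [List.append_nil, hlen] at h3
  set s3 := Function.update s Own.Y (Z [] (un n)) with hs3
  have e3 : Function.update s2 Own.Y (Z [] (un n)) = s3 := by
    funext i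
    by_cases g1 : i = Own.Y
    · subst g1; simp [hs3]
    · by_cases g2 : i = Own.d8
      · subst g2; simp [hs3, hs2, h8]
      · simp [hs3, hs2, hs1, Function.update_of_ne g1, Function.update_of_ne g2]
  rw [e3] at h3
  have h4 := forU_fun Own.d8 (seq (cpU Own.Y Own.X Own.outp) (wr Own.outp sep Move.right)) n
    (7 * n + 8)
    (fun k => Function.update (Function.update s3 Own.X
      (Z (bits (D.take (k * n))) (bits (D.drop (k * n))))) Own.outp
      ⟨(rowsWord ((List.range k).map (slices n D)) : List Γ).reverse, []⟩) (by
      intro k hk
      refine ⟨true, ?_⟩
      have hk1 : (k + 1) * n ≤ D.length := by rw [hD]; exact Nat.mul_le_mul_right n hk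
      have hsl := slices_eq_take_drop n D k hk1
      have hkn : (k + 1) * n = k * n + n := by ring
      have hdrop : D.drop (k * n) = slices n D k ++ D.drop ((k + 1) * n) := by
        rw [hsl, hkn, ← List.drop_drop]
        exact (List.take_append_drop n _).symm
      have htake : D.take ((k + 1) * n) = D.take (k * n) ++ slices n D k := by
        rw [hsl, hkn, List.take_add]
      have hr := output_round (Function.update (Function.update (Function.update s3 Own.X
        (Z (bits (D.take (k * n))) (bits (D.drop (k * n))))) Own.outp
        ⟨(rowsWord ((List.range k).map (slices n D)) : List Γ).reverse, []⟩) Own.d8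
        (Z (un k) (un (n - k)))) n (bits (D.take (k * n))) (bits (slices n D k))
        (bits (D.drop ((k + 1) * n))) (rowsWord ((List.range k).map (slices n D)) : List Γ).reverse
        (by rw [io_bits_length, slices_length]) (by simp [hs3])
        (by simp [hdrop, io_bits_append]) (by simp)
      convert hr using 1
      rw [rowsWord_range_succ, htake, io_bits_append]
      funext i
      by_cases g1 : i = Own.d8
      · subst g1; simp
      · by_cases g2 : i = Own.outp
        · subst g2; simp
        · by_cases g3 : i = Own.X
          · subst g3; simp
          · simp [Function.update_of_ne g1, Function.update_of_ne g2, Function.update_of_ne g3])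
  have e0 : Function.update ((fun k => Function.update (Function.update s3 Own.X
      (Z (bits (D.take (k * n))) (bits (D.drop (k * n))))) Own.outp
      ⟨(rowsWord ((List.range k).map (slices n D)) : List Γ).reverse, []⟩) 0) Own.d8
      (Z [] (un n)) = s3 := by
    funext i
    by_cases g1 : i = Own.d8
    · subst g1; simp [hs3, h8]
    · by_cases g2 : i = Own.outp
      · subst g2; simp [hs3, ho, rowsWord]
      · by_cases g3 : i = Own.X
        · subst g3; simp [hs3, hX, bits]
        · simp [Function.update_of_ne g1, Function.update_of_ne g2, Function.update_of_ne g3]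
  have e1 : Function.update ((fun k => Function.update (Function.update s3 Own.X
      (Z (bits (D.take (k * n))) (bits (D.drop (k * n))))) Own.outp
      ⟨(rowsWord ((List.range k).map (slices n D)) : List Γ).reverse, []⟩) n) Own.d8
      (Z [] (un n)) = Function.update (Function.update (Function.update s
        Own.X (Z (bits D) []))
        Own.Y (Z [] (un n)))
        Own.outp ⟨(rowsWord ((List.range n).map (slices n D)) : List Γ).reverse, []⟩ := by
    have ht : D.take (n * n) = D := by rw [← hD]; exact List.take_length
    have hd : D.drop (n * n) = [] := by rw [← hD]; exact List.drop_length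
    funext i
    by_cases g1 : i = Own.d8
    · subst g1; simp [h8]
    · by_cases g2 : i = Own.outp
      · subst g2; simp
      · by_cases g3 : i = Own.X
        · subst g3; simp [ht, hd, bits]
        · by_cases g4 : i = Own.Y
          · subst g4; simp [hs3]
          · simp [hs3, Function.update_of_ne g1, Function.update_of_ne g2,
              Function.update_of_ne g3, Function.update_of_ne g4]
  rw [e0, e1] at h4
  have h := seqs_cons h1 (seqs_cons h2 (seqs_cons h3 (seqs_cons h4 (seqs_nil _))))
  refine Prog.SRuns.mono h ?_
  have : n * (7 * n + 8 + 6) = 7 * (n * n) + 14 * n := by ring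
  omega

open Classical in
/-- The scan of `readField`. -/
theorem readField_scan (dst : Own) (hd : dst ≠ Own.d7) (c : ℕ) : ∀ (s : St Own Γ) (dd e t : List Γ),
    s Own.d7 = Z dd (un c ++ sep :: t) → s dst = Z e [] →
    (scan fun a => if a Own.d7 = bit true then
      some ((Instr.nil.set Own.d7 (a Own.d7) Move.right).set dst (bit true) Move.right)
      else none : Prog Own Γ).SRuns s c
      (Function.update (Function.update s Own.d7 (Z (dd ++ un c) (sep :: t))) dst
        (Z (e ++ un c) [])) true := by
  induction c with
  | zero =>
    intro s dd e t h7 hdst
    have hs : Function.update (Function.update s Own.d7 (Z (dd ++ un 0) (sep :: t))) dst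
        (Z (e ++ un 0) []) = s := by
      funext i
      by_cases h1 : i = dst
      · subst h1; simp [hdst, un]
      · by_cases h2 : i = Own.d7
        · subst h2; simp [Function.update_of_ne h1, h7, un]
        · simp [Function.update_of_ne h1, Function.update_of_ne h2]
    rw [hs]
    apply scan_sstop
    have : (sep : Γ) ≠ bit true := fun h => TapeAlpha.bit_ne_sep true h.symm
    simp [h7, un, this]
  | succ c ih =>
    intro s dd e t h7 hdst
    have hu : (un (c + 1) : List Γ) = bit true :: un c := by simp [un, List.replicate_succ]
    rw [hu] at h7
    refine scan_sstep _ s ((Instr.nil.set Own.d7 (bit true) Move.right).set dst (bit true)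
      Move.right) ?_ ?_
    · simp [h7]
    · have h1 := ih (Function.update (Function.update s Own.d7 (Z (dd ++ [bit true])
        (un c ++ sep :: t))) dst (Z (e ++ [bit true]) [])) (dd ++ [bit true]) (e ++ [bit true]) t
        (by simp [Function.update_of_ne hd.symm]) (by simp)
      have e1 : ((Instr.nil.set Own.d7 (bit true) Move.right).set dst (bit true) Move.right).sapp s
          = Function.update (Function.update s Own.d7 (Z (dd ++ [bit true])
            (un c ++ sep :: t))) dst (Z (e ++ [bit true]) []) := by
        simp [h7, hdst]
      rw [e1]
      have e2 : Function.update (Function.update (Function.update (Function.update s Own.d7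
          (Z (dd ++ [bit true]) (un c ++ sep :: t))) dst (Z (e ++ [bit true]) [])) Own.d7
          (Z (dd ++ [bit true] ++ un c) (sep :: t))) dst (Z (e ++ [bit true] ++ un c) [])
          = Function.update (Function.update s Own.d7 (Z (dd ++ un (c + 1)) (sep :: t))) dst
            (Z (e ++ un (c + 1)) []) := by
        rw [hu]
        funext i
        by_cases h1 : i = dst
        · subst h1; simp
        · by_cases h2 : i = Own.d7
          · subst h2; simp [Function.update_of_ne h1]
          · simp [Function.update_of_ne h1, Function.update_of_ne h2]
      rw [e2] at h1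
      exact h1

theorem readField_spec (dst : Own) (hd : dst ≠ Own.d7) (s : St Own Γ) (c : ℕ) (dd t : List Γ)
    (h7 : s Own.d7 = Z dd (un c ++ sep :: t)) (hdst : s dst = Z [] []) :
    (readField dst : Prog Own Γ).SRuns s (2 * c + 6)
      (Function.update (Function.update s Own.d7 (Z (dd ++ un c ++ [sep]) t)) dst (Z [] (un c)))
      true := by
  have hlen : (un c : List Γ).length = c := by simp [un]
  have h1 := readField_scan dst hd c s dd [] t h7 hdst
  simp only [List.nil_append] at h1
  set s1 := Function.update (Function.update s Own.d7 (Z (dd ++ un c) (sep :: t))) dst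
        (Z (un c) []) with hs1
  have h2 := prim_sruns (fun a : Own → Γ => Instr.nil.set Own.d7 (a Own.d7) Move.right) s1
  have e2 : (Instr.nil.set Own.d7 (sreads s1 Own.d7) Move.right).sapp s1
      = Function.update s1 Own.d7 (Z (dd ++ un c ++ [sep]) t) := by
    simp [hs1, Function.update_of_ne hd.symm]
  rw [e2] at h2
  set s2 := Function.update s1 Own.d7 (Z (dd ++ un c ++ [sep]) t) with hs2
  have h3 := rewind_spec dst s2 (un c) []
    (by rw [hs2, Function.update_of_ne hd, hs1, Function.update_self]) (lend_notMem_un c) (by simp)
  rw [hlen, List.append_nil] at h3
  have e3 : Function.update s2 dst (Z [] (un c))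
      = Function.update (Function.update s Own.d7 (Z (dd ++ un c ++ [sep]) t)) dst
        (Z [] (un c)) := by
    funext i
    by_cases g1 : i = dst
    · subst g1; simp
    · by_cases g2 : i = Own.d7
      · subst g2; simp [hs2, Function.update_of_ne g1]
      · simp [hs2, hs1, Function.update_of_ne g1, Function.update_of_ne g2]
  rw [e3] at h3
  have h := seq_sruns h1 (seq_sruns h2 h3)
  exact h.mono (by omega)

end Vale.Agent.P338.TM
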