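import Vale.Agent.P338.TM.Model5
import Vale.Agent.P338.TM.SpecOpStep
import Vale.Agent.P338.TM.SpecIO

namespace Vale.Agent.P338.TM

open Vale.Agent.P338

theorem opList_length (σ lo up : ℕ) (D : List Bool) (h : 2 ^ σ ∣ D.length) :
    (opList σ lo up D).length = D.length := by
  unfold opList
  rw [ex_cat_length _ (2 ^ σ) (fun j => slices_length _ _ _)]
  exact Nat.div_mul_cancel h

section own

variable {Γ : Type} [TapeAlpha Γ]

/-- The state after the three fields of an operation have been read. -/
def itpRead (s : St Own Γ) (dd t : List Γ) (op : Op) : St Own Γ :=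
  Function.update (Function.update (Function.update (Function.update s
    Own.d7 (Z (dd ++ encOp op) t))
    Own.d1 (Z [] (un op.1))) Own.d2 (Z [] (un op.2.1))) Own.d3 (Z [] (un op.2.2))

theorem itp_read3 (s : St Own Γ) (dd t : List Γ) (op : Op)
    (h1 : s Own.d1 = Z [] []) (h2 : s Own.d2 = Z [] []) (h3 : s Own.d3 = Z [] [])
    (h7 : s Own.d7 = Z dd (encOp op ++ t)) :
    (seqs [readField Own.d1, readField Own.d2, readField Own.d3] : Prog Own Γ).SRuns s
      (2 * (op.1 + op.2.1 + op.2.2) + 21) (itpRead s dd t op) true := by
  obtain ⟨σ, lo, up⟩ := op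
  have e7 : (encOp (σ, lo, up) ++ t : List Γ)
      = un σ ++ sep :: (un lo ++ sep :: (un up ++ sep :: t)) := by
    simp [encOp, List.append_assoc]
  rw [e7] at h7
  have r1 := readField_spec Own.d1 (by decide) s σ dd _ h7 h1
  set s1 := Function.update (Function.update s Own.d7
    (Z (dd ++ un σ ++ [sep]) (un lo ++ sep :: (un up ++ sep :: t)))) Own.d1 (Z [] (un σ)) with hs1
  have r2 := readField_spec Own.d2 (by decide) s1 lo (dd ++ un σ ++ [sep]) (un up ++ sep :: t)
    (by simp [hs1]) (by simp [hs1, h2])
  set s2 := Function.update (Function.update s1 Own.d7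
    (Z (dd ++ un σ ++ [sep] ++ un lo ++ [sep]) (un up ++ sep :: t))) Own.d2 (Z [] (un lo)) with hs2
  have r3 := readField_spec Own.d3 (by decide) s2 up (dd ++ un σ ++ [sep] ++ un lo ++ [sep]) t
    (by simp [hs2]) (by simp [hs2, hs1, h3])
  have e : Function.update (Function.update s2 Own.d7
      (Z (dd ++ un σ ++ [sep] ++ un lo ++ [sep] ++ un up ++ [sep]) t)) Own.d3 (Z [] (un up))
      = itpRead s dd t (σ, lo, up) := by
    have ee : (dd ++ un σ ++ [sep] ++ un lo ++ [sep] ++ un up ++ [sep] : List Γ)
        = dd ++ encOp (σ, lo, up) := by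
      simp [encOp, List.append_assoc]
    rw [ee]
    funext x
    cases x <;> simp [itpRead, hs2, hs1]
  rw [e] at r3
  have h := seqs_cons r1 (seqs_cons r2 (seqs_cons r3 (seqs_nil _)))
  exact h.mono (by simp only; omega)

theorem itp_erase3 (s : St Own Γ) (a b c : ℕ)
    (h1 : s Own.d1 = Z [] (un a)) (h2 : s Own.d2 = Z [] (un b)) (h3 : s Own.d3 = Z [] (un c)) :
    (seqs [erase Own.d1, erase Own.d2, erase Own.d3] : Prog Own Γ).SRuns s
      (2 * (a + b + c) + 18)
      (Function.update (Function.update (Function.update s Own.d1 (Z [] [])) Own.d2 (Z [] []))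
        Own.d3 (Z [] [])) true := by
  have r1 := erase_spec Own.d1 s [] (un a) h1 (by simp) (lend_notMem_un _) (blank_notMem_un_os _)
  have r2 := erase_spec Own.d2 (Function.update s Own.d1 (Z [] [])) [] (un b) (by simp [h2])
    (by simp) (lend_notMem_un _) (blank_notMem_un_os _)
  have r3 := erase_spec Own.d3
    (Function.update (Function.update s Own.d1 (Z [] [])) Own.d2 (Z [] [])) [] (un c)
    (by simp [h3]) (by simp) (lend_notMem_un _) (blank_notMem_un_os _)
  have h := seqs_cons r1 (seqs_cons r2 (seqs_cons r3 (seqs_nil _)))
  refine h.mono ?_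
  simp only [un, List.length_replicate, List.length_nil]
  omega

theorem itp_read_un (d : List Γ) (c : ℕ) :
    (Z d (un c : List Γ)).read = bit true ↔ 1 ≤ c := by
  cases c with
  | zero =>
    have : (blank : Γ) ≠ bit true := fun h => TapeAlpha.bit_ne_blank true h.symm
    simp [un, this]
  | succ c => simp [un, List.replicate_succ]

theorem itp_encOps_read (dd : List Γ) (op : Op) (t : List Γ) :
    (Z dd (encOp op ++ t : List Γ)).read ≠ blank := by
  obtain ⟨σ, lo, up⟩ := op
  cases σ with
  | zero =>
    simpa [encOp, un] using TapeAlpha.sep_ne_blank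
  | succ c =>
    simpa [encOp, un, List.replicate_succ] using TapeAlpha.bit_ne_blank true

theorem itp_isSym_true (x : Own) (w : Γ) (s : St Own Γ)
    (h : (s x).read = w) : (isSym x w).SRuns s 1 s true := by
  apply test_label_fo
  by_contra hc
  rw [Bool.not_eq_true, decide_eq_false_iff_not] at hc
  exact hc h

theorem itp_isSym_false (x : Own) (w : Γ) (s : St Own Γ)
    (h : (s x).read ≠ w) : (isSym x w).SRuns s 1 s false := by
  apply test_label_fo
  rw [decide_eq_false_iff_not]
  exact h

theorem itp_idle_read (s : St Own Γ) (hI : Idle s) (dd t : List Γ) (op : Op) :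
    Idle (itpRead s dd t op) := by
  intro x hx
  have hx' := hI x hx
  have h7 : x ≠ Own.d7 := by rintro rfl; revert hx; decide
  have h1 : x ≠ Own.d1 := by rintro rfl; revert hx; decide
  have h2 : x ≠ Own.d2 := by rintro rfl; revert hx; decide
  have h3 : x ≠ Own.d3 := by rintro rfl; revert hx; decide
  simp only [itpRead, Function.update_of_ne h7, Function.update_of_ne h1,
    Function.update_of_ne h2, Function.update_of_ne h3, hx']

theorem itp_idle_upd (s : St Own Γ) (hI : Idle s) (z7 zX : Zip Γ) :
    Idle (Function.update (Function.update s Own.d7 z7) Own.X zX) := by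
  intro x hx
  have hx' := hI x hx
  have h7 : x ≠ Own.d7 := by rintro rfl; revert hx; decide
  have h1 : x ≠ Own.X := by rintro rfl; revert hx; decide
  simp only [Function.update_of_ne h7, Function.update_of_ne h1, hx']

/-- One operation on the data. -/
def itpStep (op : Op) (D : List Bool) : List Bool :=
  if op.2.1 = 0 ∨ op.2.2 = 0 then D else opList op.1 op.2.1 op.2.2 D

theorem runOps_cons (op : Op) (l : List Op) (D : List Bool) :
    runOps (op :: l) D = runOps l (itpStep op D) := rfl

theorem encOps_cons (op : Op) (l : List Op) :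
    (encOps (op :: l) : List Γ) = encOp op ++ encOps l := rfl

end own

variable {k : ℕ} [NeZero k]

/-- The conditional execution of one operation. -/
theorem itp_cond (A : Machine k) (hA : A.Multiplies) (κ2 : ℕ) (op : Op) (hop : OkOp κ2 op)
    (s : St Own (GA A)) (hI : Idle s)
    (h1 : s Own.d1 = Z [] (un op.1)) (h2 : s Own.d2 = Z [] (un op.2.1))
    (h3 : s Own.d3 = Z [] (un op.2.2))
    (D : List Bool) (hD : D.length = 2 ^ κ2) (hX : s Own.X = Z [] (bits D)) :
    (ite (liftO (isSym Own.d2 (bit true)))
        (ite (liftO (isSym Own.d3 (bit true))) (opStep A) skip) skip).SRuns (glue blankA s)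
      (cOpStep A.worstTime op.1 op.2.1 op.2.2 (2 ^ (κ2 - op.1 - op.2.1 - op.2.2)) + 4)
      (glue blankA (Function.update s Own.X (Z [] (bits (itpStep op D))))) true := by
  obtain ⟨σ, lo, up⟩ := op
  obtain ⟨hs, hk⟩ := hop
  simp only at hs hk h1 h2 h3 ⊢
  have esame : Function.update s Own.X (Z [] (bits D)) = s := by
    rw [← hX, Function.update_eq_self]
  by_cases hlo : 1 ≤ lo
  · have t2 := liftO_sruns (k := k) (itp_isSym_true Own.d2 (bit true) s
      (by rw [h2]; exact (itp_read_un _ _).2 hlo)) blankA
    by_cases hup : 1 ≤ up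
    · have t3 := liftO_sruns (k := k) (itp_isSym_true Own.d3 (bit true) s
        (by rw [h3]; exact (itp_read_un _ _).2 hup)) blankA
      have hlen : D.length = 2 ^ (κ2 - σ - lo - up) * (2 ^ lo * 2 ^ up * 2 ^ σ) := by
        rw [hD, ← pow_add, ← pow_add, ← pow_add]
        congr 1
        omega
      have ho := opStep_spec A hA σ lo up hlo hup hs s h1 h2 h3 hI _ D hlen hX
      have e : itpStep (σ, lo, up) D = opList σ lo up D := by
        unfold itpStep
        rw [if_neg]
        simp only
        omega
      rw [e]
      exact (ite_sruns_true t2 (ite_sruns_true t3 ho)).mono (by omega)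
    · have t3 := liftO_sruns (k := k) (itp_isSym_false Own.d3 (bit true) s
        (by rw [h3]; exact fun h => hup ((itp_read_un _ _).1 h))) blankA
      have e : itpStep (σ, lo, up) D = D := by
        unfold itpStep
        rw [if_pos]
        simp only
        omega
      rw [e, esame]
      exact (ite_sruns_true t2 (ite_sruns_false t3 (skip_sruns _))).mono (by omega)
  · have t2 := liftO_sruns (k := k) (itp_isSym_false Own.d2 (bit true) s
      (by rw [h2]; exact fun h => hlo ((itp_read_un _ _).1 h))) blankA
    have e : itpStep (σ, lo, up) D = D := by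
      unfold itpStep
      rw [if_pos]
      simp only
      omega
    rw [e, esame]
    exact (ite_sruns_false t2 (skip_sruns _)).mono (by omega)

theorem itpStep_length (κ2 : ℕ) (op : Op) (hop : OkOp κ2 op) (D : List Bool)
    (hD : D.length = 2 ^ κ2) : (itpStep op D).length = 2 ^ κ2 := by
  unfold itpStep
  split_ifs with h
  · exact hD
  · rw [opList_length _ _ _ _ (by rw [hD]; exact pow_dvd_pow 2 (by have := hop.2; omega)), hD]

/-- Execution of a schedule (induction on `l`, generalizing `dd`, `D`, `sO`). -/
theorem interp_spec (A : Machine k) (hA : A.Multiplies) (κ2 : ℕ) (l : List Op)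
    (hl : ∀ op ∈ l, OkOp κ2 op) (sO : St Own (GA A)) (hI : Idle sO)
    (h1 : sO Own.d1 = Z [] []) (h2 : sO Own.d2 = Z [] []) (h3 : sO Own.d3 = Z [] [])
    (dd : List (GA A)) (h7 : sO Own.d7 = Z dd (encOps l))
    (D : List Bool) (hD : D.length = 2 ^ κ2) (hX : sO Own.X = Z [] (bits D)) :
    (interp A).SRuns (glue blankA sO) (cInterp A.worstTime κ2 l)
      (glue blankA (Function.update (Function.update sO
        Own.d7 (Z (dd ++ encOps l) []))
        Own.X (Z [] (bits (runOps l D))))) true := by
  induction l generalizing sO dd D with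
  | nil =>
    have t0 := liftO_sruns (k := k) (notSym_false_fo Own.d7 blank sO (by rw [h7]; rfl)) blankA
    have h := while_sfalse (R := seqs [liftO (seqs [readField Own.d1, readField Own.d2,
        readField Own.d3]),
      ite (liftO (isSym Own.d2 (bit true)))
        (ite (liftO (isSym Own.d3 (bit true))) (opStep A) skip) skip,
      liftO (seqs [erase Own.d1, erase Own.d2, erase Own.d3])]) t0
    have e : Function.update (Function.update sO Own.d7 (Z (dd ++ encOps []) []))
        Own.X (Z [] (bits (runOps [] D))) = sO := by
      funext x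
      cases x <;> simp [encOps, runOps, h7, hX]
    rw [e]
    exact h.mono (by simp [cInterp])
  | cons op l ih =>
    have hop := hl op (by simp)
    rw [encOps_cons] at h7
    have t0 := liftO_sruns (k := k) (notSym_true_fo Own.d7 blank sO
      (by rw [h7]; exact itp_encOps_read _ _ _)) blankA
    have r := liftO_sruns (k := k) (itp_read3 sO dd (encOps l) op h1 h2 h3 h7) blankA
    have c := itp_cond A hA κ2 op hop (itpRead sO dd (encOps l) op)
      (itp_idle_read sO hI _ _ _) (by simp [itpRead]) (by simp [itpRead]) (by simp [itpRead])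
      D hD (by simp [itpRead, hX])
    have er := liftO_sruns (k := k) (itp_erase3
      (Function.update (itpRead sO dd (encOps l) op) Own.X (Z [] (bits (itpStep op D))))
      op.1 op.2.1 op.2.2 (by simp [itpRead]) (by simp [itpRead]) (by simp [itpRead])) blankA
    have e : Function.update (Function.update (Function.update
        (Function.update (itpRead sO dd (encOps l) op) Own.X (Z [] (bits (itpStep op D))))
        Own.d1 (Z [] [])) Own.d2 (Z [] [])) Own.d3 (Z [] [])
        = Function.update (Function.update sO Own.d7 (Z (dd ++ encOp op) (encOps l)))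
          Own.X (Z [] (bits (itpStep op D))) := by
      funext x
      cases x <;> simp [itpRead, h1, h2, h3]
    rw [e] at er
    have body := seqs_cons r (seqs_cons c (seqs_cons er (seqs_nil _)))
    have rest := ih (fun o ho => hl o (by simp [ho]))
      (Function.update (Function.update sO Own.d7 (Z (dd ++ encOp op) (encOps l)))
          Own.X (Z [] (bits (itpStep op D))))
      (itp_idle_upd sO hI _ _) (by simp [h1]) (by simp [h2]) (by simp [h3])
      (dd ++ encOp op) (by simp) (itpStep op D) (itpStep_length κ2 op hop D hD) (by simp)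
    have e2 : Function.update (Function.update
        (Function.update (Function.update sO Own.d7 (Z (dd ++ encOp op) (encOps l)))
          Own.X (Z [] (bits (itpStep op D))))
        Own.d7 (Z (dd ++ encOp op ++ encOps l) []))
        Own.X (Z [] (bits (runOps l (itpStep op D))))
        = Function.update (Function.update sO Own.d7 (Z (dd ++ encOps (op :: l)) []))
          Own.X (Z [] (bits (runOps (op :: l) D))) := by
      rw [runOps_cons, encOps_cons, List.append_assoc]
      funext x
      cases x <;> simp
    rw [e2] at rest
    have h := while_strue t0 body rest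
    refine h.mono ?_
    simp only [cInterp, List.map_cons, List.sum_cons]
    omega

end Vale.Agent.P338.TM
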