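import Vale.Agent.P338.TM.MulA
import Vale.Agent.P338.TransDefs

/-!
From a program on the tapes `Fin k ⊕ Own` to a machine of the model.
-/

namespace Vale.Agent.P338.TM

open Vale.Agent.P338

variable {k : ℕ}

noncomputable section

/-- Number of tapes of the big machine. -/
def bigK (k : ℕ) : ℕ := Fintype.card (Fin k ⊕ Own)

instance (k : ℕ) : NeZero (bigK k) := ⟨by
  unfold bigK
  have : Nonempty (Fin k ⊕ Own) := ⟨Sum.inr Own.inp⟩
  exact Fintype.card_ne_zero⟩

/-- Some numbering of the tapes. -/
def tapeEquiv0 (k : ℕ) : (Fin k ⊕ Own) ≃ Fin (bigK k) := Fintype.equivFin (Fin k ⊕ Own)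

/-- A numbering of the tapes in which the input tape `inp` is the first tape. -/
def tapeEquiv (k : ℕ) : (Fin k ⊕ Own) ≃ Fin (bigK k) :=
  (tapeEquiv0 k).trans (Equiv.swap (tapeEquiv0 k (Sum.inr Own.inp)) (0 : Fin (bigK k)))

theorem tapeEquiv_inp (k : ℕ) : tapeEquiv k (Sum.inr Own.inp) = 0 := by
  simp [tapeEquiv]

/-- The machine that runs the program `P`; its output tape is `outp`. -/
def toMachine (A : Machine k) (P : Prog (Fin k ⊕ Own) (GA A)) : Machine (bigK k) where
  State := P.Q
  Sym := GA A
  stateFin := P.finQ
  symFin := @instFintypeSum _ _ A.symFin _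
  start := P.start
  blank := blank
  bit := bit
  sep := sep
  bit_injective := TapeAlpha.bit_injective
  bit_ne_blank := TapeAlpha.bit_ne_blank
  bit_ne_sep := TapeAlpha.bit_ne_sep
  sep_ne_blank := TapeAlpha.sep_ne_blank
  out := tapeEquiv k (Sum.inr Own.outp)
  trans := fun q a => (P.δ q fun i => a (tapeEquiv k i)).map fun r =>
    (r.1, fun j => r.2.1 ((tapeEquiv k).symm j), fun j => r.2.2 ((tapeEquiv k).symm j))

/-- The start state: the word `w` on `inp` (from the leftmost cell), all other tapes blank, all
heads on the leftmost cell. -/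
def startSt (A : Machine k) (w : List (GA A)) : St (Fin k ⊕ Own) (GA A) :=
  fun i => if i = Sum.inr Own.inp then ⟨[], w⟩ else ⟨[], []⟩

/-- The configuration of the machine that corresponds to a state and tapes of the program. -/
def toCfg (A : Machine k) (P : Prog (Fin k ⊕ Own) (GA A)) (x : P.Q × Conf (Fin k ⊕ Own) (GA A)) :
    Cfg (toMachine A P) where
  state := x.1
  tape := fun j => (x.2 ((tapeEquiv k).symm j)).cells
  head := fun j => (x.2 ((tapeEquiv k).symm j)).head

theorem toMachine_step (A : Machine k) (P : Prog (Fin k ⊕ Own) (GA A))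
    (x : P.Q × Conf (Fin k ⊕ Own) (GA A)) :
    (toMachine A P).step (toCfg A P x) = (P.step x).map (toCfg A P) := by
  have hr : (fun i => (fun j => (toCfg A P x).tape j ((toCfg A P x).head j)) (tapeEquiv k i))
      = reads x.2 := by
    funext i
    simp only [toCfg, reads, Tp.read, Equiv.symm_apply_apply]
    rfl
  have ht : (toMachine A P).trans (toCfg A P x).state
      (fun j => (toCfg A P x).tape j ((toCfg A P x).head j))
      = (P.δ x.1 (reads x.2)).map fun r =>
        (r.1, fun j => r.2.1 ((tapeEquiv k).symm j), fun j => r.2.2 ((tapeEquiv k).symm j)) := by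
    show (P.δ x.1 fun i => (fun j => (toCfg A P x).tape j ((toCfg A P x).head j))
      (tapeEquiv k i)).map _ = _
    rw [hr]
  unfold Machine.step
  rw [ht]
  unfold Prog.step
  cases P.δ x.1 (reads x.2) with
  | none => rfl
  | some r => rfl

theorem toMachine_run (A : Machine k) (P : Prog (Fin k ⊕ Own) (GA A)) {t : ℕ}
    {x y : P.Q × Conf (Fin k ⊕ Own) (GA A)} (h : P.Reach t x y) :
    (toMachine A P).run t (toCfg A P x) = some (toCfg A P y) := by
  induction h with
  | zero x => rfl
  | succ hs _ ih =>
    rw [Machine.run, toMachine_step, hs]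
    exact ih

theorem toMachine_init (A : Machine k) (P : Prog (Fin k ⊕ Own) (GA A)) (w : List (GA A)) :
    (toMachine A P).init w = toCfg A P (P.start, conc (startSt A w)) := by
  have h1 : ((toMachine A P).init w).tape = (toCfg A P (P.start, conc (startSt A w))).tape := by
    funext j
    by_cases hj : j = 0
    · have e1 : (tapeEquiv k).symm j = Sum.inr Own.inp := by
        rw [hj, ← tapeEquiv_inp k, Equiv.symm_apply_apply]
      funext n
      simp only [Machine.init, hj, if_true, toCfg, conc]
      rw [← hj, e1]
      simp [startSt, Zip.toTp, Machine.word]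
      rfl
    · have e1 : (tapeEquiv k).symm j ≠ Sum.inr Own.inp := by
        intro h
        apply hj
        rw [← tapeEquiv_inp k, ← h, Equiv.apply_symm_apply]
      funext n
      simp only [Machine.init, hj, if_false, toCfg, conc]
      simp [startSt, e1, Zip.toTp]
      rfl
  have h2 : ((toMachine A P).init w).head = (toCfg A P (P.start, conc (startSt A w))).head := by
    funext j
    simp only [Machine.init, toCfg, conc, startSt]
    split_ifs <;> rfl
  have h3 : ((toMachine A P).init w).state = (toCfg A P (P.start, conc (startSt A w))).state := rfl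
  cases hc : (toMachine A P).init w with
  | mk st tp hd =>
    cases hc' : toCfg A P (P.start, conc (startSt A w)) with
    | mk st' tp' hd' =>
      rw [hc, hc'] at h1 h2 h3
      simp only at h1 h2 h3
      rw [h1, h2, h3]

/-- If the program `P`, started on the word `w`, stops within `T` steps in a state whose output
tape holds exactly the word `v`, then so does the machine. -/
theorem toMachine_spec (A : Machine k) (P : Prog (Fin k ⊕ Own) (GA A)) (w v : List (GA A))
    (T : ℕ) (s' : St (Fin k ⊕ Own) (GA A)) (b : Bool)
    (h : P.SRuns (startSt A w) T s' b)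
    (hv : (s' (Sum.inr Own.outp)).l.reverse ++ (s' (Sum.inr Own.outp)).r = v) :
    ∃ (t : ℕ) (c' : Cfg (toMachine A P)), t ≤ T ∧
      (toMachine A P).HaltsAt ((toMachine A P).init w) t c' ∧
      c'.tape (toMachine A P).out = (toMachine A P).word v := by
  obtain ⟨t, ht, q, hr, hs, -⟩ := h
  refine ⟨t, toCfg A P (q, conc s'), ht, ⟨?_, ?_⟩, ?_⟩
  · rw [toMachine_init]
    exact toMachine_run A P hr
  · rw [toMachine_step, hs]
    rfl
  · show (conc s' ((tapeEquiv k).symm (tapeEquiv k (Sum.inr Own.outp)))).cells = _
    rw [Equiv.symm_apply_apply]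
    funext n
    simp only [conc, Zip.toTp, hv, Machine.word]
    rfl

end

end Vale.Agent.P338.TM
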