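import Vale.Agent.P338.TM.Model5
import Vale.Agent.P338.TM.SpecIO
import Vale.Agent.P338.TM.ToMachine

/-!
From a specification of a program in terms of lists of rows to the statement that the machine
transposes matrices, with the time bound.
-/

namespace Vale.Agent.P338.TM

open Vale.Agent.P338

variable {k : ℕ}

/-- The rows of a matrix. -/
def rowsOf {n : ℕ} (X : Fin n → Fin n → Bool) : List (List Bool) :=
  List.ofFn fun i => List.ofFn fun j => X i j

theorem rowsOf_length {n : ℕ} (X : Fin n → Fin n → Bool) : (rowsOf X).length = n := by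
  simp [rowsOf]

theorem rowsOf_row {n : ℕ} (X : Fin n → Fin n → Bool) : ∀ r ∈ rowsOf X, r.length = n := by
  intro r hr
  simp only [rowsOf, List.mem_ofFn] at hr
  obtain ⟨i, rfl⟩ := hr
  simp

theorem matWord_eq (A : Machine k) (P : Prog (Fin k ⊕ Own) (GA A)) {n : ℕ}
    (X : Fin n → Fin n → Bool) :
    (toMachine A P).matWord X = (rowsWord (rowsOf X) : List (GA A)) := by
  unfold Machine.matWord rowsWord rowsOf bits
  rw [List.flatMap_def, List.map_ofFn]
  congr 1
  congr 1
  funext i
  simp only [Function.comp, List.map_ofFn]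
  rfl

theorem rowsOf_flatten_getD {n : ℕ} (X : Fin n → Fin n → Bool) (i j : Fin n) :
    (rowsOf X).flatten.getD ((i : ℕ) * n + j) false = X i j := by
  have hn : 0 < n := i.pos
  have key := List.ofFn_mul (m := n) (n := n) (fun t : Fin (n * n) =>
    X ⟨(t : ℕ) / n, (Nat.div_lt_iff_lt_mul hn).2 t.2⟩ ⟨(t : ℕ) % n, Nat.mod_lt _ hn⟩)
  have e : (rowsOf X) = List.ofFn fun i : Fin n => List.ofFn fun j : Fin n =>
      X ⟨((i : ℕ) * n + j) / n, (Nat.div_lt_iff_lt_mul hn).2 (by
          calc (i : ℕ) * n + j < (i : ℕ) * n + n := by omega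
            _ = (i + 1) * n := by ring
            _ ≤ n * n := Nat.mul_le_mul_right _ i.2)⟩
        ⟨((i : ℕ) * n + j) % n, Nat.mod_lt _ hn⟩ := by
    unfold rowsOf
    congr 1
    funext i
    congr 1
    funext j
    congr 1
    · apply Fin.ext
      show (i : ℕ) = ((i : ℕ) * n + j) / n
      rw [Nat.mul_comm, Nat.mul_add_div hn, Nat.div_eq_of_lt j.2, Nat.add_zero]
    · apply Fin.ext
      show (j : ℕ) = ((i : ℕ) * n + j) % n
      rw [Nat.mul_comm, Nat.mul_add_mod, Nat.mod_eq_of_lt j.2]
  rw [e, ← key]
  have hlt : (i : ℕ) * n + j < n * n := by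
    calc (i : ℕ) * n + j < (i : ℕ) * n + n := by omega
      _ = (i + 1) * n := by ring
      _ ≤ n * n := Nat.mul_le_mul_right _ i.2
  rw [List.getD_eq_getElem _ _ (by simpa using hlt), List.getElem_ofFn]
  congr 1
  · apply Fin.ext
    show ((i : ℕ) * n + j) / n = i
    rw [Nat.mul_comm, Nat.mul_add_div hn, Nat.div_eq_of_lt j.2, Nat.add_zero]
  · apply Fin.ext
    show ((i : ℕ) * n + j) % n = j
    rw [Nat.mul_comm, Nat.mul_add_mod, Nat.mod_eq_of_lt j.2]

theorem rows_trList {n : ℕ} (X : Fin n → Fin n → Bool) :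
    (List.range n).map (slices n (trList n (rowsOf X).flatten)) = rowsOf fun i j => X j i := by
  have e0 : (rowsOf fun i j => X j i) =
      (List.finRange n).map fun i => (List.finRange n).map fun j => X j i := by
    unfold rowsOf
    rw [List.ofFn_eq_map]
    apply List.map_congr_left
    intro i _
    rw [List.ofFn_eq_map]
  rw [e0, ← List.map_coe_finRange_eq_range, List.map_map]
  apply List.map_congr_left
  intro i _
  simp only [Function.comp, slices]
  rw [← List.map_coe_finRange_eq_range, List.map_map]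
  apply List.map_congr_left
  intro j _
  simp only [Function.comp, trList]
  have hn : 0 < n := i.pos
  have hlt : (i : ℕ) * n + j < n * n := by
    calc (i : ℕ) * n + j < (i : ℕ) * n + n := by omega
      _ = (i + 1) * n := by ring
      _ ≤ n * n := Nat.mul_le_mul_right _ i.2
  rw [List.getD_eq_getElem _ _ (by simpa using hlt), List.getElem_map, List.getElem_range]
  have e1 : ((i : ℕ) * n + j) % n = j := by
    rw [Nat.mul_comm, Nat.mul_add_mod, Nat.mod_eq_of_lt j.2]
  have e2 : ((i : ℕ) * n + j) / n = i := by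
    rw [Nat.mul_comm, Nat.mul_add_div hn, Nat.div_eq_of_lt j.2, Nat.add_zero]
  rw [e1, e2]
  exact rowsOf_flatten_getD X j i

/-- From the list form of the specification to the matrix form. -/
theorem toMachine_transposes (A : Machine k) (P : Prog (Fin k ⊕ Own) (GA A)) (n T : ℕ)
    (h : ∀ rows : List (List Bool), rows.length = n → (∀ r ∈ rows, r.length = n) →
      ∃ s' : St (Fin k ⊕ Own) (GA A),
        P.SRuns (startSt A (rowsWord rows)) T s' true ∧
        (s' (Sum.inr Own.outp)).l.reverse ++ (s' (Sum.inr Own.outp)).r =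
          rowsWord ((List.range n).map (slices n (trList n rows.flatten)))) :
    (toMachine A P).TransposesAt n ∧ (toMachine A P).transTime n ≤ T := by
  have key : ∀ X : Fin n → Fin n → Bool, ∃ (t : ℕ) (c' : Cfg (toMachine A P)), t ≤ T ∧
      (toMachine A P).HaltsAt ((toMachine A P).init ((toMachine A P).matWord X)) t c' ∧
      c'.tape (toMachine A P).out =
        (toMachine A P).word ((toMachine A P).matWord fun i j => X j i) := by
    intro X
    obtain ⟨s', h1, h2⟩ := h (rowsOf X) (rowsOf_length X) (rowsOf_row X)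
    rw [rows_trList] at h2
    rw [matWord_eq, matWord_eq]
    exact toMachine_spec A P _ _ T s' true h1 h2
  constructor
  · intro X
    obtain ⟨t, c', -, h1, h2⟩ := key X
    exact ⟨t, c', h1, h2⟩
  · unfold Machine.transTime
    apply Finset.sup_le
    intro X _
    obtain ⟨t, c', ht, h1, -⟩ := key X
    exact (Nat.sInf_le (show t ∈ {t | ∃ c', (toMachine A P).HaltsAt _ t c'} from ⟨c', h1⟩)).trans ht

end Vale.Agent.P338.TM
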