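import Vale.Agent.P338.TM.Sched2
import Vale.Agent.P338.TM.Sched3

/-!
Correctness of the schedule (pure combinatorics of index maps). See BLUEPRINT.md, section 2.
-/

namespace Vale.Agent.P338.TM

open Vale.Agent.P338

theorem sched_ok (κ : ℕ) : ∀ op ∈ sched κ, OkOp (2 * κ) op := sched_ok' κ

/-- Running a list of admissible operations is a rearrangement along the composed index map. -/
theorem runOps_eq_gather (T : ℕ) : ∀ (l : List Op), (∀ op ∈ l, OkOp T op) →
    ∀ (D : List Bool), D.length = 2 ^ T → runOps l D = gather (2 ^ T) (opsF l) D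
  | [], _, D, hD => by
      have := gather_id D
      rw [hD] at this
      simpa [runOps, opsF] using this.symm
  | op :: l, hl, D, hD => by
      have hop : OkOp T op := hl op (by simp)
      have hl' : ∀ o ∈ l, OkOp T o := fun o ho => hl o (by simp [ho])
      have hstep : (if op.2.1 = 0 ∨ op.2.2 = 0 then D else opList op.1 op.2.1 op.2.2 D)
          = gather (2 ^ T) (swF op.1 op.2.1 op.2.2) D := by
        split_ifs with h0
        · have h1 := gather_id D
          rw [hD] at h1
          rw [← gather_congr (2 ^ T) (fun t => t) _ D (fun t _ => (swF_empty _ _ _ t h0).symm)]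
          exact h1.symm
        · exact opList_eq_gather _ _ _ T (by have := hop.2; omega) D hD
      have hrec := runOps_eq_gather T l hl' (gather (2 ^ T) (swF op.1 op.2.1 op.2.2) D)
        (gather_length _ _ _)
      have hunf : runOps (op :: l) D
          = runOps l (if op.2.1 = 0 ∨ op.2.2 = 0 then D else opList op.1 op.2.1 op.2.2 D) := by
        simp [runOps]
      rw [hunf, hstep, hrec, gather_gather _ _ _ _ (fun t ht => opsF_lt T l hl' t ht)]
      rfl

/-- The schedule transposes a `2^κ × 2^κ` matrix. -/
theorem sched_correct (κ : ℕ) (D : List Bool) (hD : D.length = 2 ^ κ * 2 ^ κ) :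
    runOps (sched κ) D = trList (2 ^ κ) D := by
  have hD' : D.length = 2 ^ (2 * κ) := by rw [hD, two_mul, pow_add]
  rw [runOps_eq_gather (2 * κ) (sched κ) (sched_ok κ) D hD', trList_eq_gather]
  apply gather_congr
  intro t _
  apply Nat.eq_of_testBit_eq
  intro i
  rw [testBit_opsF, testBit_swF, opsP_sched]

end Vale.Agent.P338.TM
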