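import Vale.Agent.P338.TM.SpecGenLevel

namespace Vale.Agent.P338.TM

open Vale.Agent.P338

variable {Γ : Type} [TapeAlpha Γ]

theorem Prog.SRuns.exists_eq {ι : Type} {P : Prog ι Γ} {s s' : St ι Γ} {T : ℕ} {b : Bool}
    (h : P.SRuns s T s' b) : ∃ s'', s'' = s' ∧ P.SRuns s T s'' b := ⟨_, rfl, h⟩

/-- `downAll` without the final operation. -/
def downW : ℕ → List Op
  | 0 => []
  | 1 => []
  | K + 2 => opsDown (K + 2) ++ downW ((K + 3) / 2)
decreasing_by omega

theorem downAll_eq_downW (K : ℕ) :
    downAll K = downW K ++ (if K = 0 then [] else [(0, 1, 1)]) := by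
  induction K using Nat.strong_induction_on with
  | _ K ih =>
    match K with
    | 0 => simp [downAll, downW]
    | 1 => simp [downAll, downW]
    | K + 2 =>
      rw [downAll, downW, ih ((K + 3) / 2) (by omega)]
      have h : (K + 3) / 2 ≠ 0 := by omega
      simp [h]

theorem encOps_append (a b : List Op) : (encOps (a ++ b) : List Γ) = encOps a ++ encOps b := by
  simp [encOps]

theorem downW_step (K : ℕ) (hK : 2 ≤ K) : downW K = opsDown K ++ downW ((K + 1) / 2) := by
  obtain ⟨k, rfl⟩ : ∃ k, K = k + 2 := ⟨K - 2, by omega⟩
  rw [downW]

theorem upAll_step (K : ℕ) (hK : 2 ≤ K) : upAll K = upAll ((K + 1) / 2) ++ opsUp K := by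
  obtain ⟨k, rfl⟩ : ∃ k, K = k + 2 := ⟨K - 2, by omega⟩
  rw [upAll]

theorem downW_small (K : ℕ) (hK : ¬ 2 ≤ K) : downW K = [] := by
  have : K = 0 ∨ K = 1 := by omega
  rcases this with rfl | rfl <;> simp [downW]

theorem upAll_small (K : ℕ) (hK : ¬ 2 ≤ K) : upAll K = [] := by
  have : K = 0 ∨ K = 1 := by omega
  rcases this with rfl | rfl <;> simp [upAll]

theorem genWhile_spec (K : ℕ) : ∀ (s : St Own Γ) (d p : List Γ)
    (_ : s Own.T0 = Z [] (un K))
    (_ : ∀ x ∈ [Own.T1, Own.T2, Own.T3, Own.W, Own.U, Own.V], s x = Z [] [])
    (_ : s Own.d7 = Z d []) (_ : s Own.Pd = Z p []),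
    ((while_ (ge2 Own.T0) genLevel) : Prog Own Γ).SRuns s (3000 * K + 9)
      (Function.update (Function.update (Function.update s
        Own.T0 (Z [] (un (min K 1))))
        Own.d7 (Z (d ++ encOps (downW K)) []))
        Own.Pd (Z (p ++ (encOps (upAll K) : List Γ).reverse) [])) true := by
  induction K using Nat.strong_induction_on with
  | _ K ih =>
    intro s d p h0 hE hd hp
    have h1 := ge2_spec Own.T0 s K h0
    by_cases hK : 2 ≤ K
    · rw [decide_eq_true hK] at h1
      have h2 := genLevel_spec s K d p h0 hE hd hp
      have h3 := ih ((K + 1) / 2) (by omega)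
        (Function.update (Function.update (Function.update s
          Own.T0 (Z [] (un ((K + 1) / 2))))
          Own.d7 (Z (d ++ encOps (opsDown K)) []))
          Own.Pd (Z (p ++ (encOps (opsUp K) : List Γ).reverse) []))
        (d ++ encOps (opsDown K))
        (p ++ (encOps (opsUp K) : List Γ).reverse)
        (by
          rw [Function.update_of_ne (by decide), Function.update_of_ne (by decide),
            Function.update_self])
        (by
          intro x hx
          have hx' := hE x hx
          simp only [List.mem_cons, List.not_mem_nil, or_false] at hx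
          rcases hx with rfl | rfl | rfl | rfl | rfl | rfl <;>
          · rw [Function.update_of_ne (by decide), Function.update_of_ne (by decide),
              Function.update_of_ne (by decide)]
            exact hx')
        (by rw [Function.update_of_ne (by decide), Function.update_self])
        (by rw [Function.update_self])
      have h4 := (while_strue h1 h2 h3).mono (T' := 3000 * K + 9) (by omega)
      convert h4 using 1
      have hm : min ((K + 1) / 2) 1 = min K 1 := by omega
      rw [downW_step K hK, upAll_step K hK, encOps_append, encOps_append, List.reverse_append, hm]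
      funext i
      by_cases h7 : i = Own.Pd
      · subst h7
        simp
      by_cases h8 : i = Own.d7
      · subst h8
        simp
      by_cases h9 : i = Own.T0
      · subst h9
        simp
      simp [Function.update_of_ne, h7, h8, h9]
    · rw [decide_eq_false hK] at h1
      have h2 := (while_sfalse (R := genLevel) h1).mono (T' := 3000 * K + 9) (by omega)
      convert h2 using 1
      have hm : min K 1 = K := by omega
      rw [downW_small K hK, upAll_small K hK, hm]
      funext i
      by_cases h7 : i = Own.Pd
      · subst h7
        simp [encOps, hp]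
      by_cases h8 : i = Own.d7
      · subst h8
        simp [encOps, hd]
      by_cases h9 : i = Own.T0
      · subst h9
        simp [h0]
      simp [Function.update_of_ne, h7, h8, h9]

/-- The last operation of the first half. -/
theorem genIte_spec (K : ℕ) (s1 : St Own Γ) (d : List Γ)
    (hT0 : s1 Own.T0 = Z [] (un (min K 1))) (hd7 : s1 Own.d7 = Z (d ++ encOps (downW K)) []) :
    ((ite (isSym Own.T0 (bit true)) (wrs Own.d7 [sep, bit true, sep, bit true, sep]) skip) :
        Prog Own Γ).SRuns s1 12
      (Function.update s1 Own.d7 (Z (d ++ encOps (downAll K)) [])) true := by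
  by_cases hK : K = 0
  · subst hK
    have h2 : (isSym Own.T0 (bit true : Γ)).SRuns s1 1 s1 false := by
      classical
      have := test_sruns (fun a : Own → Γ => decide (a Own.T0 = bit true)) s1
      simpa [hT0, isSym, un, (TapeAlpha.bit_ne_blank true).symm] using this
    have h3 := (ite_sruns_false (R := wrs Own.d7 [sep, bit true, sep, bit true, sep]) h2
      (skip_sruns s1)).mono (T' := 12) (by omega)
    convert h3 using 1
    rw [downAll_eq_downW, if_pos rfl, List.append_nil, ← hd7, Function.update_eq_self]
  · have hm : min K 1 = 1 := by omega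
    have h2 : (isSym Own.T0 (bit true : Γ)).SRuns s1 1 s1 true := by
      classical
      have := test_sruns (fun a : Own → Γ => decide (a Own.T0 = bit true)) s1
      simpa [hT0, hm, isSym, un] using this
    have h3 := (ite_sruns_true (S := skip) h2
      (wrs_spec Own.d7 [sep, bit true, sep, bit true, sep] s1 _ hd7)).mono (T' := 12)
      (by simp only [List.length_cons, List.length_nil]; omega)
    convert h3 using 1
    rw [downAll_eq_downW, if_neg hK, encOps_append]
    simp [encOps, encOp, un]

/-- The loop of the generator (strong induction on `K`). `K0 = 0` or `1` is what remains. -/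
theorem genLoop_spec (K : ℕ) (s : St Own Γ) (d p : List Γ)
    (h0 : s Own.T0 = Z [] (un K))
    (hE : ∀ x ∈ [Own.T1, Own.T2, Own.T3, Own.W, Own.U, Own.V], s x = Z [] [])
    (hd : s Own.d7 = Z d []) (hp : s Own.Pd = Z p []) :
    ((seq (while_ (ge2 Own.T0) genLevel)
        (ite (isSym Own.T0 (bit true)) (wrs Own.d7 [sep, bit true, sep, bit true, sep]) skip)) :
        Prog Own Γ).SRuns s (3000 * K + 100)
      (Function.update (Function.update (Function.update s
        Own.T0 (Z [] (un (min K 1))))
        Own.d7 (Z (d ++ encOps (downAll K)) []))
        Own.Pd (Z (p ++ (encOps (upAll K) : List Γ).reverse) [])) true := by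
  obtain ⟨s1, hs1, h1⟩ := (genWhile_spec K s d p h0 hE hd hp).exists_eq
  have h2 := genIte_spec K s1 d
    (by
      rw [hs1, Function.update_of_ne (by decide), Function.update_of_ne (by decide),
        Function.update_self])
    (by rw [hs1, Function.update_of_ne (by decide), Function.update_self])
  have h4 := (seq_sruns h1 h2).mono (T' := 3000 * K + 100) (by omega)
  convert h4 using 1
  rw [hs1, Function.update_comm (by decide : Own.Pd ≠ Own.d7), Function.update_idem]

theorem encOp_length (op : Op) : (encOp op : List Γ).length = op.1 + op.2.1 + op.2.2 + 3 := by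
  simp [encOp, un]
  omega

theorem encOps_cons (op : Op) (l : List Op) : (encOps (op :: l) : List Γ) = encOp op ++ encOps l := by
  simp [encOps]

theorem encOps_nil : (encOps [] : List Γ) = [] := rfl

theorem encOps_opsX_length (p q σ : ℕ) :
    (encOps (opsX p q σ) : List Γ).length ≤ 3 * σ + 3 * p + 2 * q + 12 := by
  simp only [opsX, encOps_cons, encOps_nil, List.length_append, encOp_length, List.length_nil]
  omega

/-- Length of the code of the second half of the schedule. -/
theorem encOps_upAll_length (K : ℕ) : (encOps (upAll K) : List Γ).length ≤ 100 * (K + 1) := by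
  induction K using Nat.strong_induction_on with
  | _ K ih =>
    by_cases hK : 2 ≤ K
    · rw [upAll_step K hK, encOps_append, List.length_append, opsUp, encOps_cons,
        List.length_append, encOp_length]
      have h1 := ih ((K + 1) / 2) (by omega)
      have h2 := encOps_opsX_length (Γ := Γ) (K / 2) ((K + 1) / 2) ((K + 1) / 2)
      simp only
      omega
    · rw [upAll_small K hK, encOps_nil]
      simp

theorem encOps_downAll_length (K : ℕ) : (encOps (downAll K) : List Γ).length ≤ 100 * (K + 1) := by
  have key : (encOps (downW K) : List Γ).length + 5 ≤ 100 * (K + 1) := by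
    induction K using Nat.strong_induction_on with
    | _ K ih =>
      by_cases hK : 2 ≤ K
      · rw [downW_step K hK, encOps_append, List.length_append, opsDown]
        have h1 := ih ((K + 1) / 2) (by omega)
        have h2 := encOps_opsX_length (Γ := Γ) ((K + 1) / 2) (K / 2) ((K + 1) / 2)
        omega
      · rw [downW_small K hK, encOps_nil]
        simp
        omega
  rw [downAll_eq_downW, encOps_append, List.length_append]
  split_ifs
  · rw [encOps_nil]
    simp
    omega
  · rw [encOps_cons, encOps_nil, List.append_nil, encOp_length]
    simp only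
    omega

theorem mem_encOps {x : Γ} {l : List Op} (h : x ∈ (encOps l : List Γ)) : x = bit true ∨ x = sep := by
  simp only [encOps, List.mem_flatMap, encOp, un] at h
  obtain ⟨op, _, h⟩ := h
  simp only [List.mem_append, List.mem_cons, List.mem_replicate, List.not_mem_nil, or_false] at h
  tauto

theorem lend_notMem_encOps (l : List Op) : (lend : Γ) ∉ (encOps l : List Γ) := by
  intro h
  rcases mem_encOps h with h | h
  · exact TapeAlpha.bit_ne_lend true h.symm
  · exact TapeAlpha.sep_ne_lend h.symm

theorem blank_notMem_encOps (l : List Op) : (blank : Γ) ∉ (encOps l : List Γ) := by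
  intro h
  rcases mem_encOps h with h | h
  · exact TapeAlpha.bit_ne_blank true h.symm
  · exact TapeAlpha.sep_ne_blank h.symm

theorem lend_notMem_un' (c : ℕ) : (lend : Γ) ∉ (un c : List Γ) := by
  intro h
  exact TapeAlpha.bit_ne_lend true (List.eq_of_mem_replicate h).symm

/-- The schedule generator. -/
theorem genAll_spec (K : ℕ) (s : St Own Γ)
    (h0 : s Own.T0 = Z [] (un K))
    (hE : ∀ x ∈ [Own.T1, Own.T2, Own.T3, Own.W, Own.U, Own.V, Own.d7, Own.Pd], s x = Z [] []) :
    (genAll : Prog Own Γ).SRuns s (4000 * (K + 1))
      (Function.update (Function.update s Own.T0 (Z [] [])) Own.d7 (Z [] (encOps (sched K))))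
      true := by
  have hd : s Own.d7 = Z [] [] := hE _ (by simp)
  have hp : s Own.Pd = Z [] [] := hE _ (by simp)
  obtain ⟨s1, hs1, h1⟩ := (genWhile_spec K s [] [] h0 (fun x hx => hE x (by
    simp only [List.mem_cons, List.not_mem_nil, or_false] at hx ⊢
    tauto)) hd hp).exists_eq
  obtain ⟨s2, hs2, h2⟩ := (genIte_spec K s1 []
    (by
      rw [hs1, Function.update_of_ne (by decide), Function.update_of_ne (by decide),
        Function.update_self])
    (by rw [hs1, Function.update_of_ne (by decide), Function.update_self])).exists_eq
  obtain ⟨s3, hs3, h3⟩ := (erase_spec Own.T0 s2 [] (un (min K 1))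
    (by
      rw [hs2, hs1, Function.update_of_ne (by decide), Function.update_of_ne (by decide),
        Function.update_of_ne (by decide), Function.update_self])
    (by simp) (lend_notMem_un' _) (blank_notMem_un_pow2 _)).exists_eq
  obtain ⟨s4, hs4, h4⟩ := (revAppend_spec Own.Pd Own.d7 (by decide) s3
    ([] ++ (encOps (upAll K) : List Γ).reverse) ([] ++ encOps (downAll K))
    (by
      rw [List.nil_append, List.mem_reverse]
      exact lend_notMem_encOps _)
    (by
      rw [hs3, hs2, hs1, Function.update_of_ne (by decide), Function.update_of_ne (by decide),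
        Function.update_self])
    (by
      rw [hs3, hs2, Function.update_of_ne (by decide), Function.update_self])).exists_eq
  obtain ⟨s5, hs5, h5⟩ := (erase_spec Own.Pd s4 [] ([] ++ (encOps (upAll K) : List Γ).reverse)
    (by rw [hs4, Function.update_of_ne (by decide), Function.update_self])
    (by simp)
    (by
      rw [List.nil_append, List.mem_reverse]
      exact lend_notMem_encOps _)
    (by
      rw [List.nil_append, List.mem_reverse]
      exact blank_notMem_encOps _)).exists_eq
  have h6 := rewind_spec Own.d7 s5
    ([] ++ encOps (downAll K) ++ ([] ++ (encOps (upAll K) : List Γ).reverse).reverse) []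
    (by rw [hs5, hs4, Function.update_of_ne (by decide), Function.update_self])
    (by
      rw [List.nil_append, List.nil_append, List.reverse_reverse, ← encOps_append]
      exact lend_notMem_encOps _)
    (by simp)
  have hu := encOps_upAll_length (Γ := Γ) K
  have hdl := encOps_downAll_length (Γ := Γ) K
  have h7 := (seqs_cons h1 (seqs_cons h2 (seqs_cons h3 (seqs_cons h4 (seqs_cons h5
    (seqs_cons h6 (seqs_nil _))))))).mono (T' := 4000 * (K + 1))
    (by
      simp only [List.length_append, List.length_reverse, List.length_nil, un,
        List.length_replicate]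
      omega)
  unfold genAll
  convert h7 using 1
  rw [hs5, hs4, hs3, hs2, hs1]
  funext i
  by_cases h7 : i = Own.Pd
  · subst h7
    simp [hp]
  by_cases h8 : i = Own.d7
  · subst h8
    simp [sched, encOps_append]
  by_cases h9 : i = Own.T0
  · subst h9
    simp
  simp [Function.update_of_ne, h7, h8, h9]

end Vale.Agent.P338.TM
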