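import Vale.Agent.P338.TM.Progs6
import Vale.Agent.P338.TM.SpecIO

namespace Vale.Agent.P338.TM

open Vale.Agent.P338

variable {Γ : Type} [TapeAlpha Γ]

theorem cat_zero_pc (f : ℕ → List Bool) (i : ℕ) : cat f i 0 = [] := by simp [cat]

theorem cat_succ_pc (f : ℕ → List Bool) (i k : ℕ) :
    cat f i (k + 1) = cat f i k ++ f (i + k) := by
  simp [cat, List.range_succ, List.flatMap_append]

theorem cat_succ_left_pc (f : ℕ → List Bool) (i k : ℕ) :
    cat f i (k + 1) = f i ++ cat f (i + 1) k := by
  induction k with
  | zero => simp [cat]
  | succ k ih =>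
    rw [cat_succ_pc f i (k + 1), ih, cat_succ_pc f (i + 1) k, List.append_assoc]
    congr 3
    omega

theorem cat_length_pc (f : ℕ → List Bool) (i k c : ℕ) (h : ∀ j, (f j).length = c) :
    (cat f i k).length = k * c := by
  induction k with
  | zero => simp [cat]
  | succ k ih => rw [cat_succ_pc, List.length_append, ih, h, Nat.succ_mul]

theorem zs_length_pc (k : ℕ) : (zs k).length = k := by simp [zs]

theorem cat_getD_pc (f : ℕ → List Bool) (c : ℕ) (h : ∀ j, (f j).length = c) (k j i : ℕ)
    (hj : j < k) (hi : i < c) : (cat f 0 k).getD (j * c + i) false = (f j).getD i false := by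
  induction k with
  | zero => omega
  | succ k ih =>
    rw [cat_succ_pc, Nat.zero_add]
    have hlen := cat_length_pc f 0 k c h
    by_cases hjk : j < k
    · have : j * c + i < (cat f 0 k).length := by
        rw [hlen]
        calc j * c + i < j * c + c := by omega
          _ = (j + 1) * c := by ring
          _ ≤ k * c := Nat.mul_le_mul_right _ hjk
      rw [List.getD_append _ _ _ _ this]
      exact ih hjk
    · have hjk' : j = k := by omega
      subst hjk'
      rw [List.getD_append_right _ _ _ _ (by rw [hlen]; omega), hlen]
      congr 1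
      omega

theorem map_range_getD_pc (m : ℕ) (g : ℕ → Bool) (t : ℕ) (ht : t < m) :
    ((List.range m).map g).getD t false = g t := by
  rw [List.getD_eq_getElem _ _ (by simpa using ht)]
  simp

theorem slices_getD_pc (w : ℕ) (l : List Bool) (t i : ℕ) (hi : i < w) :
    (slices w l t).getD i false = l.getD (t * w + i) false :=
  map_range_getD_pc w _ i hi

theorem cat_slices_pc (w k : ℕ) (l : List Bool) (hl : l.length = k * w) :
    cat (slices w l) 0 k = l := by
  apply List.ext_getElem
  · rw [cat_length_pc _ _ _ w (slices_length w l), hl]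
  · intro t h1 h2
    rw [cat_length_pc _ _ _ w (slices_length w l)] at h1
    have hw : 0 < w := by
      rcases Nat.eq_zero_or_pos w with h | h
      · subst h; simp at h1
      · exact h
    have e : t = (t / w) * w + t % w := by
      rw [Nat.mul_comm]; exact (Nat.div_add_mod t w).symm
    have hq : t / w < k := by
      rw [Nat.div_lt_iff_lt_mul hw]; exact h1
    have h3 := cat_getD_pc (slices w l) w (slices_length w l) k (t / w) (t % w) hq
      (Nat.mod_lt _ hw)
    rw [slices_getD_pc _ _ _ _ (Nat.mod_lt _ hw), ← e] at h3
    rw [List.getD_eq_getElem _ _ (by rw [cat_length_pc _ _ _ w (slices_length w l)]; exact h1),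
      List.getD_eq_getElem _ _ h2] at h3
    exact h3

theorem padList_length (n N2 : ℕ) (hn : n ≤ N2) (D : List Bool) :
    (padList n N2 D).length = N2 * N2 := by
  unfold padList
  rw [List.length_append, cat_length_pc _ _ _ N2, zs_length_pc, ← Nat.add_mul]
  · congr 1
    omega
  · intro j
    rw [List.length_append, slices_length, zs_length_pc]
    omega

theorem padList_getD_pc (n N2 : ℕ) (hn : n ≤ N2) (D : List Bool) (j i : ℕ) (hj : j < n)
    (hi : i < n) : (padList n N2 D).getD (j * N2 + i) false = D.getD (j * n + i) false := by
  unfold padList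
  have hlen : ∀ j, (slices n D j ++ zs (N2 - n)).length = N2 := by
    intro j
    rw [List.length_append, slices_length, zs_length_pc]
    omega
  have h1 : j * N2 + i < (cat (fun i => slices n D i ++ zs (N2 - n)) 0 n).length := by
    rw [cat_length_pc _ _ _ N2 hlen]
    calc j * N2 + i < j * N2 + N2 := by omega
      _ = (j + 1) * N2 := by ring
      _ ≤ n * N2 := Nat.mul_le_mul_right _ hj
  rw [List.getD_append _ _ _ _ h1, cat_getD_pc _ N2 hlen n j i hj (by omega),
    List.getD_append _ _ _ _ (by rw [slices_length]; exact hi), slices_getD_pc _ _ _ _ hi]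

theorem trList_getD_pc (n : ℕ) (D : List Bool) (i j : ℕ) (hi : i < n) (hj : j < n) :
    (trList n D).getD (i * n + j) false = D.getD (j * n + i) false := by
  unfold trList
  have h1 : i * n + j < n * n := by
    calc i * n + j < i * n + n := by omega
      _ = (i + 1) * n := by ring
      _ ≤ n * n := Nat.mul_le_mul_right _ hi
  rw [map_range_getD_pc _ _ _ h1]
  have h2 : (i * n + j) % n = j := by
    rw [Nat.mul_comm, Nat.mul_add_mod, Nat.mod_eq_of_lt hj]
  have h3 : (i * n + j) / n = i := by
    rw [Nat.mul_comm, Nat.mul_add_div (by omega), Nat.div_eq_of_lt hj, Nat.add_zero]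
  rw [h2, h3]

/-- Pad, transpose, crop = transpose. -/
theorem crop_tr_pad (n N2 : ℕ) (hn : n ≤ N2) (D : List Bool) (hD : D.length = n * n) :
    cropRows n N2 (trList N2 (padList n N2 D)) = (List.range n).map (slices n (trList n D)) := by
  unfold cropRows
  apply List.map_congr_left
  intro i hi
  have hi' : i < n := List.mem_range.1 hi
  apply List.ext_getElem
  · simp [slices_length, hn]
  · intro j h1 h2
    have hj : j < n := by simpa [slices_length] using h2
    have a1 : ((slices N2 (trList N2 (padList n N2 D)) i).take n)[j] =
        (slices N2 (trList N2 (padList n N2 D)) i).getD j false := by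
      rw [List.getElem_take, List.getD_eq_getElem]
    have a2 : (slices n (trList n D) i)[j] = (slices n (trList n D) i).getD j false := by
      rw [List.getD_eq_getElem]
    rw [a1, a2, slices_getD_pc _ _ _ _ (by omega), slices_getD_pc _ _ _ _ hj,
      trList_getD_pc _ _ _ _ (by omega) (by omega), trList_getD_pc _ _ _ _ hi' hj,
      padList_getD_pc n N2 hn D j i hj hi']

theorem bits_append_pc (u v : List Bool) : (bits (u ++ v) : List Γ) = bits u ++ bits v := by
  simp [bits]

theorem bits_zs_pc (c : ℕ) : (bits (zs c) : List Γ) = List.replicate c (bit false) := by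
  simp [bits, zs]

theorem bits_length_pc (u : List Bool) : (bits u : List Γ).length = u.length := by
  simp [bits]

theorem lend_notMem_bits_pc (u : List Bool) : (lend : Γ) ∉ (bits u : List Γ) := by
  intro h
  obtain ⟨c, -, hc⟩ := List.mem_map.1 h
  exact TapeAlpha.bit_ne_lend c hc

theorem blank_notMem_bits_pc (u : List Bool) : (blank : Γ) ∉ (bits u : List Γ) := by
  intro h
  obtain ⟨c, -, hc⟩ := List.mem_map.1 h
  exact TapeAlpha.bit_ne_blank c hc

theorem clearAux_spec (s : St Own Γ) (u v w : ℕ)
    (hU : s Own.U = Z [] (un u)) (hV : s Own.V = Z [] (un v)) (hW : s Own.W = Z [] (un w)) :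
    (clearAux : Prog Own Γ).SRuns s (2 * (u + v + w) + 20)
      (Function.update (Function.update (Function.update s Own.U (Z [] [])) Own.V (Z [] []))
        Own.W (Z [] [])) true := by
  have h1 := erase_spec Own.U s [] (un u) hU (by simp) (lend_notMem_un u)
    (blank_notMem_un_pow2 u)
  have h2 := erase_spec Own.V (Function.update s Own.U (Z [] [])) [] (un v) (by simp [hV])
    (by simp) (lend_notMem_un v) (blank_notMem_un_pow2 v)
  have h3 := erase_spec Own.W (Function.update (Function.update s Own.U (Z [] [])) Own.V
    (Z [] [])) [] (un w) (by simp [hW]) (by simp) (lend_notMem_un w) (blank_notMem_un_pow2 w)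
  have hall := seqs_cons h1 (seqs_cons h2 (seqs_cons h3 (seqs_nil _)))
  refine Prog.SRuns.mono hall ?_
  simp only [un, List.length_replicate, List.length_nil]
  omega

theorem padX_spec (s : St Own Γ) (n N2 : ℕ) (hn : n ≤ N2) (D : List Bool) (hD : D.length = n * n)
    (hX : s Own.X = Z [] (bits D)) (h8 : s Own.d8 = Z [] (un n)) (hW : s Own.W = Z [] (un n))
    (hV : s Own.V = Z [] (un (N2 - n))) (hU : s Own.U = Z [] (un N2)) (hY : s Own.Y = Z [] []) :
    (padX : Prog Own Γ).SRuns s (40 * (N2 * N2) + 100)
      (Function.update s Own.X (Z [] (bits (padList n N2 D)))) true := by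
  set sl := slices n D with hsl
  set R : ℕ → List Bool := fun i => slices n D i ++ zs (N2 - n) with hR
  have hcat : cat sl 0 n = D := cat_slices_pc n n D hD
  -- first loop
  set F1 : ℕ → St Own Γ := fun k => Function.update (Function.update s Own.X
    (Z (bits (cat sl 0 k)) (bits (cat sl k (n - k))))) Own.Y (Z (bits (cat R 0 k)) []) with hF1
  have h1 := forU_fun Own.d8 (seq (cpU Own.W Own.X Own.Y) (zerosU Own.V Own.Y) : Prog Own Γ) n
    (7 * N2 + 13) F1 (by
    intro k hk
    refine ⟨true, ?_⟩
    set S := Function.update (F1 k) Own.d8 (Z (un k) (un (n - k))) with hS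
    obtain ⟨m, hm⟩ : ∃ m, n - k = m + 1 := ⟨n - k - 1, by omega⟩
    have hm' : n - (k + 1) = m := by omega
    have a1 := cpU_spec Own.W Own.X Own.Y (by decide) (by decide) (by decide) S n
      (bits (cat sl 0 k)) (bits (sl k)) (bits (cat sl (k + 1) m)) (bits (cat R 0 k)) []
      (by rw [bits_length_pc, hsl, slices_length])
      (by simp [hS, hF1, hW])
      (by simp [hS, hF1, hm, cat_succ_left_pc, bits_append_pc])
      (by simp [hS, hF1])
    set S1 := Function.update (Function.update S Own.X (Z (bits (cat sl 0 k) ++ bits (sl k))
      (bits (cat sl (k + 1) m)))) Own.Y (Z (bits (cat R 0 k) ++ bits (sl k))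
      (([] : List Γ).drop n)) with hS1
    have a2 := zerosU_spec Own.V Own.Y (by decide) S1 (N2 - n)
      (bits (cat R 0 k) ++ bits (sl k)) (by simp [hS1, hS, hF1, hV]) (by simp [hS1])
    have e : Function.update S1 Own.Y (Z (bits (cat R 0 k) ++ bits (sl k) ++
        List.replicate (N2 - n) (bit false)) []) =
        Function.update (F1 (k + 1)) Own.d8 (Z (un k) (un (n - k))) := by
      funext i
      simp only [hS1, hS, hF1, Function.update_apply, hm']
      by_cases h1 : i = Own.d8
      · subst h1; simp
      · by_cases h2 : i = Own.Y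
        · subst h2
          simp [cat_succ_pc, hR, bits_append_pc, bits_zs_pc, hsl]
        · by_cases h3 : i = Own.X
          · subst h3
            simp [cat_succ_pc, bits_append_pc]
          · simp [h1, h2, h3]
    rw [e] at a2
    exact (seq_sruns a1 a2).mono (by omega))
  have e10 : Function.update (F1 0) Own.d8 (Z [] (un n)) = s := by
    funext i
    simp only [hF1, Function.update_apply]
    by_cases h1 : i = Own.d8
    · subst h1; simp [h8]
    · by_cases h2 : i = Own.Y
      · subst h2; simp [cat_zero_pc, bits, hY]
      · by_cases h3 : i = Own.X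
        · subst h3; simp [cat_zero_pc, bits, hX, hcat]
        · simp [h1, h2, h3]
  rw [e10] at h1
  -- second loop
  set s' := Function.update s Own.X (Z (bits D) []) with hs'
  set F2 : ℕ → St Own Γ := fun k =>
    Function.update s' Own.Y (Z (bits (cat R 0 n ++ zs (k * N2))) []) with hF2
  have e11 : Function.update (F1 n) Own.d8 (Z [] (un n)) =
      Function.update (F2 0) Own.V (Z [] (un (N2 - n))) := by
    funext i
    simp only [hF1, hF2, hs', Function.update_apply]
    by_cases h1 : i = Own.d8
    · subst h1; simp [h8]
    · by_cases h2 : i = Own.Y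
      · subst h2; simp [zs]
      · by_cases h3 : i = Own.X
        · subst h3; simp [cat_zero_pc, bits, hcat]
        · by_cases h4 : i = Own.V
          · subst h4; simp [hV]
          · simp [h1, h2, h3, h4]
  rw [e11] at h1
  have h2 := forU_fun Own.V (zerosU Own.U Own.Y : Prog Own Γ) (N2 - n) (7 * N2 + 6) F2 (by
    intro k _
    refine ⟨true, ?_⟩
    have a := zerosU_spec Own.U Own.Y (by decide)
      (Function.update (F2 k) Own.V (Z (un k) (un (N2 - n - k)))) N2
      (bits (cat R 0 n ++ zs (k * N2))) (by simp [hF2, hs', hU]) (by simp [hF2])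
    have e : Function.update (Function.update (F2 k) Own.V (Z (un k) (un (N2 - n - k)))) Own.Y
        (Z (bits (cat R 0 n ++ zs (k * N2)) ++ List.replicate N2 (bit false)) []) =
        Function.update (F2 (k + 1)) Own.V (Z (un k) (un (N2 - n - k))) := by
      have hz : (bits (cat R 0 n ++ zs (k * N2)) ++ List.replicate N2 (bit false) : List Γ) =
          bits (cat R 0 n ++ zs ((k + 1) * N2)) := by
        rw [← bits_zs_pc, ← bits_append_pc, List.append_assoc]
        congr 2
        simp only [zs]
        rw [← List.replicate_add, Nat.succ_mul]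
      rw [hz]
      funext i
      simp only [hF2, Function.update_apply]
      by_cases h1 : i = Own.V
      · subst h1; simp
      · by_cases h2 : i = Own.Y
        · subst h2; simp
        · simp [h1, h2]
    rw [e] at a
    exact a)
  set pad := padList n N2 D with hpad
  have hpadlen : pad.length = N2 * N2 := padList_length n N2 hn D
  set s2 := Function.update s' Own.Y (Z (bits pad) []) with hs2
  have e21 : Function.update (F2 (N2 - n)) Own.V (Z [] (un (N2 - n))) = s2 := by
    funext i
    simp only [hF2, hs2, hs', Function.update_apply]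
    by_cases h1 : i = Own.V
    · subst h1; simp [hV]
    · simp [h1, hpad, padList, hR]
  rw [e21] at h2
  -- the rest
  have h3 := erase_spec Own.X s2 (bits D) [] (by simp [hs2, hs']) (lend_notMem_bits_pc D)
    (by simp) (by simp)
  set s3 := Function.update s2 Own.X (Z [] []) with hs3
  have h4 := rewind_spec Own.Y s3 (bits pad) [] (by simp [hs3, hs2]) (lend_notMem_bits_pc pad)
    (by simp)
  rw [List.append_nil] at h4
  set s4 := Function.update s3 Own.Y (Z [] (bits pad)) with hs4
  have h5 := appendAll_spec Own.Y Own.X (by decide) s4 [] (bits pad) []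
    (blank_notMem_bits_pc pad) (by simp [hs4]) (by simp [hs4, hs3])
  simp only [List.nil_append] at h5
  set s5 := Function.update (Function.update s4 Own.Y (Z (bits pad) [])) Own.X
    (Z (bits pad) []) with hs5
  have h6 := erase_spec Own.Y s5 (bits pad) [] (by simp [hs5]) (lend_notMem_bits_pc pad)
    (by simp) (by simp)
  set s6 := Function.update s5 Own.Y (Z [] []) with hs6
  have h7 := rewind_spec Own.X s6 (bits pad) [] (by simp [hs6, hs5]) (lend_notMem_bits_pc pad)
    (by simp)
  rw [List.append_nil] at h7
  have efin : Function.update s6 Own.X (Z [] (bits pad)) =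
      Function.update s Own.X (Z [] (bits pad)) := by
    funext i
    simp only [hs6, hs5, hs4, hs3, hs2, hs', Function.update_apply]
    by_cases h1 : i = Own.X
    · subst h1; simp
    · by_cases h2 : i = Own.Y
      · subst h2; simp [hY]
      · simp [h1, h2]
  rw [efin] at h7
  have hall := seqs_cons h1 (seqs_cons h2 (seqs_cons h3 (seqs_cons h4 (seqs_cons h5
    (seqs_cons h6 (seqs_cons h7 (seqs_nil _)))))))
  refine Prog.SRuns.mono hall ?_
  simp only [bits_length_pc, hpadlen, hD, List.length_nil]
  have b1 : n * (7 * N2 + 13 + 6) + (N2 - n) * (7 * N2 + 6 + 6) ≤ N2 * (7 * N2 + 19) := by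
    calc n * (7 * N2 + 13 + 6) + (N2 - n) * (7 * N2 + 6 + 6)
        ≤ n * (7 * N2 + 19) + (N2 - n) * (7 * N2 + 19) := by
          apply Nat.add_le_add (le_refl _)
          apply Nat.mul_le_mul_left
          omega
      _ = N2 * (7 * N2 + 19) := by
          rw [← Nat.add_mul]
          congr 1
          omega
  have b2 : n * n ≤ N2 * N2 := Nat.mul_le_mul hn hn
  have b3 : N2 ≤ N2 * N2 := Nat.le_mul_self N2
  have b4 : N2 * (7 * N2 + 19) = 7 * (N2 * N2) + 19 * N2 := by ring
  omega


/-- `cpU` onto a raw tape (no left end mark). -/
theorem cpU_raw_pc {ι : Type} [DecidableEq ι] (p x y : ι) (hpx : p ≠ x) (hpy : p ≠ y)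
    (hxy : x ≠ y) (s : St ι Γ) (c : ℕ) (dx w tx l : List Γ) (hw : w.length = c)
    (hp : s p = Z [] (un c)) (hx : s x = Z dx (w ++ tx)) (hy : s y = ⟨l, []⟩) :
    (cpU p x y).SRuns s (7 * c + 6)
      (Function.update (Function.update s x (Z (dx ++ w) tx)) y ⟨w.reverse ++ l, []⟩) true := by
  have h := forU_fun p (cp x y) c 1
    (fun k => Function.update (Function.update s x (Z (dx ++ w.take k) (w.drop k ++ tx))) y
      ⟨(w.take k).reverse ++ l, []⟩) (by
      intro k hk
      refine ⟨true, ?_⟩
      have h1 := prim_sruns
        (fun a => ((Instr.nil : Instr ι Γ).set x (a x) Move.right).set y (a x) Move.right)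
        (Function.update (Function.update (Function.update s x
          (Z (dx ++ w.take k) (w.drop k ++ tx))) y ⟨(w.take k).reverse ++ l, []⟩) p
          (Z (un k) (un (c - k))))
      have hkw : k < w.length := by omega
      have hdrop : w.drop k = w[k] :: w.drop (k + 1) := List.drop_eq_getElem_cons hkw
      have htake : w.take (k + 1) = w.take k ++ [w[k]] := by
        rw [List.take_succ_eq_append_getElem hkw]
      have e : (((Instr.nil : Instr ι Γ).set x
            (sreads (Function.update (Function.update (Function.update s x
              (Z (dx ++ w.take k) (w.drop k ++ tx))) y ⟨(w.take k).reverse ++ l, []⟩) p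
              (Z (un k) (un (c - k)))) x) Move.right).set y
            (sreads (Function.update (Function.update (Function.update s x
              (Z (dx ++ w.take k) (w.drop k ++ tx))) y ⟨(w.take k).reverse ++ l, []⟩) p
              (Z (un k) (un (c - k)))) x) Move.right).sapp
          (Function.update (Function.update (Function.update s x
            (Z (dx ++ w.take k) (w.drop k ++ tx))) y ⟨(w.take k).reverse ++ l, []⟩) p
            (Z (un k) (un (c - k))))
          = Function.update (Function.update (Function.update s x
              (Z (dx ++ w.take (k + 1)) (w.drop (k + 1) ++ tx))) y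
              ⟨(w.take (k + 1)).reverse ++ l, []⟩) p
              (Z (un k) (un (c - k))) := by
        rw [hdrop, htake]
        generalize w.take k = wa
        generalize w.drop (k + 1) = wr
        generalize w[k] = wb
        funext i
        by_cases hip : i = p
        · subst hip
          simp [Function.update_of_ne hpx, Function.update_of_ne hpy]
        · by_cases hiy : i = y
          · subst hiy
            simp [Function.update_of_ne hip, Function.update_of_ne hpx.symm,
              Function.update_of_ne hxy, Zip.act]
          · by_cases hix : i = x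
            · subst hix
              simp [Function.update_of_ne hip, Function.update_of_ne hiy, List.append_assoc]
            · simp [Function.update_of_ne hip, Function.update_of_ne hix,
                Function.update_of_ne hiy]
      rw [e] at h1
      exact h1)
  have e0 : Function.update
      ((fun k => Function.update (Function.update s x (Z (dx ++ w.take k) (w.drop k ++ tx))) y
        (⟨(w.take k).reverse ++ l, []⟩ : Zip Γ)) 0) p (Z [] (un c)) = s := by
    funext i
    by_cases hip : i = p
    · subst hip; simp [hp]
    · by_cases hiy : i = y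
      · subst hiy; simp [Function.update_of_ne hip, hy]
      · by_cases hix : i = x
        · subst hix; simp [Function.update_of_ne hip, Function.update_of_ne hiy, hx]
        · simp [Function.update_of_ne hip, Function.update_of_ne hix, Function.update_of_ne hiy]
  have e1 : Function.update
      ((fun k => Function.update (Function.update s x (Z (dx ++ w.take k) (w.drop k ++ tx))) y
        (⟨(w.take k).reverse ++ l, []⟩ : Zip Γ)) c) p (Z [] (un c))
      = Function.update (Function.update s x (Z (dx ++ w) tx)) y ⟨w.reverse ++ l, []⟩ := by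
    have ht : w.take c = w := by rw [← hw]; exact List.take_length
    have hd : w.drop c = [] := by rw [← hw]; exact List.drop_length
    funext i
    by_cases hip : i = p
    · subst hip; simp [hp, Function.update_of_ne hpx, Function.update_of_ne hpy]
    · simp [Function.update_of_ne hip, ht, hd]
  rw [e0, e1] at h
  exact h.mono (by omega)

theorem rowsWord_succ_pc (f : ℕ → List Bool) (k : ℕ) :
    (rowsWord ((List.range (k + 1)).map f) : List Γ).reverse =
      sep :: ((bits (f k) : List Γ).reverse ++ (rowsWord ((List.range k).map f) : List Γ).reverse) := by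
  simp [rowsWord, List.range_succ, List.flatMap_append]

/-- The output tape has no left end mark: work with the raw zipper. -/
theorem outputCrop_spec (s : St Own Γ) (n N2 : ℕ) (hn : n ≤ N2) (D : List Bool)
    (hD : D.length = N2 * N2)
    (hX : s Own.X = Z [] (bits D)) (h8 : s Own.d8 = Z [] (un n)) (hW : s Own.W = Z [] (un n))
    (hV : s Own.V = Z [] (un (N2 - n))) (ho : s Own.outp = ⟨[], []⟩) :
    ∃ s' : St Own Γ, (outputCrop : Prog Own Γ).SRuns s (30 * (N2 * N2) + 10) s' true ∧
      s' Own.outp = ⟨(rowsWord (cropRows n N2 D) : List Γ).reverse, []⟩ := by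
  set sl := slices N2 D with hsl
  set f : ℕ → List Bool := fun i => (slices N2 D i).take n with hf
  have hcat : cat sl 0 N2 = D := cat_slices_pc N2 N2 D hD
  set F : ℕ → St Own Γ := fun k => Function.update (Function.update s Own.X
    (Z (bits (cat sl 0 k)) (bits (cat sl k (N2 - k))))) Own.outp
    ⟨(rowsWord ((List.range k).map f) : List Γ).reverse, []⟩ with hF
  have h1 := forU_fun Own.d8 (seqs [cpU Own.W Own.X Own.outp, wr Own.outp sep Move.right,
    mvU Own.V Own.X Move.right] : Prog Own Γ) n (7 * N2 + 16) F (by
    intro k hk
    refine ⟨true, ?_⟩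
    set S := Function.update (F k) Own.d8 (Z (un k) (un (n - k))) with hS
    obtain ⟨m, hm⟩ : ∃ m, N2 - k = m + 1 := ⟨N2 - k - 1, by omega⟩
    have hm' : N2 - (k + 1) = m := by omega
    have hrow : sl k = f k ++ (sl k).drop n := by
      simp only [hf, hsl]
      exact (List.take_append_drop n _).symm
    have hrowb : (bits (sl k) : List Γ) = bits (f k) ++ bits ((sl k).drop n) := by
      rw [← bits_append_pc, ← hrow]
    set l0 : List Γ := (rowsWord ((List.range k).map f) : List Γ).reverse with hl0
    have a1 := cpU_raw_pc Own.W Own.X Own.outp (by decide) (by decide) (by decide) S n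
      (bits (cat sl 0 k)) (bits (f k)) (bits ((sl k).drop n) ++ bits (cat sl (k + 1) m)) l0
      (by
        rw [bits_length_pc]
        simp only [hf, List.length_take, slices_length]
        omega)
      (by simp [hS, hF, hW])
      (by
        have : (bits (cat sl k (N2 - k)) : List Γ) =
            bits (f k) ++ (bits ((sl k).drop n) ++ bits (cat sl (k + 1) m)) := by
          rw [hm, cat_succ_left_pc, bits_append_pc, hrowb, List.append_assoc]
        simp [hS, hF, this])
      (by simp [hS, hF, hl0])
    set S1 := Function.update (Function.update S Own.X (Z (bits (cat sl 0 k) ++ bits (f k))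
      (bits ((sl k).drop n) ++ bits (cat sl (k + 1) m)))) Own.outp
      ⟨(bits (f k) : List Γ).reverse ++ l0, []⟩ with hS1
    have a2 := prim_sruns (fun _ => (Instr.nil : Instr Own Γ).set Own.outp sep Move.right) S1
    set S2 := Function.update S1 Own.outp
      ⟨sep :: ((bits (f k) : List Γ).reverse ++ l0), []⟩ with hS2
    have e2 : ((fun _ => (Instr.nil : Instr Own Γ).set Own.outp sep Move.right)
        (sreads S1)).sapp S1 = S2 := by
      simp [hS2, hS1, Zip.act]
    rw [e2] at a2
    have a3 := mvU_right_spec Own.V Own.X (by decide) S2 (N2 - n)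
      (bits (cat sl 0 k) ++ bits (f k)) (bits ((sl k).drop n)) (bits (cat sl (k + 1) m))
      (by
        rw [bits_length_pc, List.length_drop, hsl, slices_length])
      (by simp [hS2, hS1, hS, hF, hV])
      (by simp [hS2, hS1])
    have e : Function.update S2 Own.X (Z (bits (cat sl 0 k) ++ bits (f k) ++
        bits ((sl k).drop n)) (bits (cat sl (k + 1) m))) =
        Function.update (F (k + 1)) Own.d8 (Z (un k) (un (n - k))) := by
      have hx : (bits (cat sl 0 k) ++ bits (f k) ++ bits ((sl k).drop n) : List Γ) =
          bits (cat sl 0 (k + 1)) := by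
        rw [cat_succ_pc, Nat.zero_add, bits_append_pc, hrowb, List.append_assoc]
      rw [hx]
      funext i
      simp only [hS2, hS1, hS, hF, Function.update_apply, hm', rowsWord_succ_pc]
      by_cases h1 : i = Own.d8
      · subst h1; simp
      · by_cases h2 : i = Own.outp
        · subst h2; simp [hl0]
        · by_cases h3 : i = Own.X
          · subst h3; simp
          · simp [h1, h2, h3]
    rw [e] at a3
    exact (seqs_cons a1 (seqs_cons a2 (seqs_cons a3 (seqs_nil _)))).mono (by omega))
  have e10 : Function.update (F 0) Own.d8 (Z [] (un n)) = s := by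
    funext i
    simp only [hF, Function.update_apply]
    by_cases h1 : i = Own.d8
    · subst h1; simp [h8]
    · by_cases h2 : i = Own.outp
      · subst h2; simp [rowsWord, ho]
      · by_cases h3 : i = Own.X
        · subst h3; simp [cat_zero_pc, bits, hX, hcat]
        · simp [h1, h2, h3]
  rw [e10] at h1
  refine ⟨_, h1.mono ?_, ?_⟩
  · have b1 : n * (7 * N2 + 16 + 6) ≤ N2 * (7 * N2 + 22) := Nat.mul_le_mul_right _ hn
    have b3 : N2 ≤ N2 * N2 := Nat.le_mul_self N2
    have b4 : N2 * (7 * N2 + 22) = 7 * (N2 * N2) + 22 * N2 := by ring
    omega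
  · simp [hF, cropRows, hf]

end Vale.Agent.P338.TM
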