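import Vale.Agent.P338.TM.SpecCeil
import Vale.Agent.P338.TM.SpecPadCrop
import Vale.Agent.P338.TM.SpecInterp
import Vale.Agent.P338.TM.SpecGenAll
import Vale.Agent.P338.TM.SchedMath
import Vale.Agent.P338.TM.ToMachine
import Vale.Agent.P338.TM.ToMachineTr

namespace Vale.Agent.P338.TM

open Vale.Agent.P338

variable {k : ℕ} [NeZero k]

theorem flatten_length_sq (n : ℕ) (rows : List (List Bool)) (hr : rows.length = n)
    (hrow : ∀ r ∈ rows, r.length = n) : rows.flatten.length = n * n := by
  rw [List.length_flatten, List.map_congr_left (g := fun _ => n) hrow, List.map_const',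
    List.sum_replicate, hr]
  rfl

theorem trList_length (n : ℕ) (D : List Bool) : (trList n D).length = n * n := by
  simp [trList]

omit [NeZero k] in
theorem startSt_eq_glue (A : Machine k) (w : List (GA A)) :
    startSt A w = glue blankA (fun x => if x = Own.inp then ⟨[], w⟩ else ⟨[], []⟩) := by
  funext i
  rcases i with i | x
  · simp [startSt, glue, blankA]
  · simp [startSt, glue]

/-- The first phase on the work tapes. -/
theorem phase1_spec {Γ : Type} [TapeAlpha Γ] (n : ℕ) (hn : 1 ≤ n)
    (rows : List (List Bool)) (hr : rows.length = n) (hrow : ∀ r ∈ rows, r.length = n) :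
    (seqs [initAll, parse, ceilLog, padX, clearAux, genAll] : Prog Own Γ).SRuns
      (fun x => if x = Own.inp then ⟨[], rowsWord rows⟩ else ⟨[], []⟩)
      (150 * (2 ^ clog n * 2 ^ clog n) + 4000 * (clog n + 1) + 400)
      (fun x => if x = Own.inp then ⟨(rowsWord rows : List Γ).reverse, []⟩
        else if x = Own.outp then ⟨[], []⟩
        else if x = Own.X then Z [] (bits (padList n (2 ^ clog n) rows.flatten))
        else if x = Own.d8 then Z [] (un n)
        else if x = Own.d7 then Z [] (encOps (sched (clog n)))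
        else Z [] []) true := by
  have hnN : n ≤ 2 ^ clog n := Nat.le_pow_clog (by norm_num) n
  have hDl := flatten_length_sq n rows hr hrow
  obtain ⟨s1, hs1, r1⟩ := (initAll_spec (rowsWord rows : List Γ)).exists_eq
  obtain ⟨s2, hs2, r2⟩ := (parse_spec s1 n hn rows hr hrow (by simp [hs1]) (by simp [hs1])
    (by simp [hs1])).exists_eq
  obtain ⟨s3, hs3, r3⟩ := (ceilLog_spec s2 n hn (by simp [hs2])
    (by
      intro x hx
      simp only [List.mem_cons, List.not_mem_nil, or_false] at hx
      rcases hx with rfl | rfl | rfl | rfl | rfl <;> simp [hs2, hs1])).exists_eq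
  obtain ⟨s4, hs4, r4⟩ := (padX_spec s3 n (2 ^ clog n) hnN rows.flatten hDl
    (by simp [hs3, hs2]) (by simp [hs3, hs2]) (by simp [hs3]) (by simp [hs3]) (by simp [hs3])
    (by simp [hs3, hs2, hs1])).exists_eq
  obtain ⟨s5, hs5, r5⟩ := (clearAux_spec s4 (2 ^ clog n) (2 ^ clog n - n) n
    (by simp [hs4, hs3]) (by simp [hs4, hs3]) (by simp [hs4, hs3])).exists_eq
  have r6 := genAll_spec (clog n) s5 (by simp [hs5, hs4, hs3])
    (by
      intro x hx
      simp only [List.mem_cons, List.not_mem_nil, or_false] at hx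
      rcases hx with rfl | rfl | rfl | rfl | rfl | rfl | rfl | rfl <;>
        simp [hs5, hs4, hs3, hs2, hs1])
  have hN1 : 1 ≤ 2 ^ clog n := Nat.one_le_two_pow
  have hNN : 2 ^ clog n ≤ 2 ^ clog n * 2 ^ clog n := Nat.le_mul_of_pos_left _ hN1
  have hnn : n * (n + 1) ≤ 2 * (2 ^ clog n * 2 ^ clog n) := by
    have h1 : n * (n + 1) ≤ 2 ^ clog n * (2 ^ clog n + 1) := Nat.mul_le_mul hnN (by omega)
    have h2 : 2 ^ clog n * (2 ^ clog n + 1) = 2 ^ clog n * 2 ^ clog n + 2 ^ clog n := by ring
    omega
  have r7 := (seqs_cons r1 (seqs_cons r2 (seqs_cons r3 (seqs_cons r4 (seqs_cons r5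
    (seqs_cons r6 (seqs_nil _))))))).mono
    (T' := 150 * (2 ^ clog n * 2 ^ clog n) + 4000 * (clog n + 1) + 400) (by omega)
  convert r7 using 1
  funext x
  cases x <;> simp [hs5, hs4, hs3, hs2, hs1]

/-- The whole program, all sizes. -/
theorem mainQ_spec (A : Machine k) (hA : A.Multiplies) (n : ℕ) (hn : 1 ≤ n)
    (rows : List (List Bool)) (hr : rows.length = n) (hrow : ∀ r ∈ rows, r.length = n) :
    ∃ s' : St (Fin k ⊕ Own) (GA A),
      (mainQ A).SRuns (startSt A (rowsWord rows)) (cMainQ A.worstTime n) s' true ∧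
      (s' (Sum.inr Own.outp)).l.reverse ++ (s' (Sum.inr Own.outp)).r =
        rowsWord ((List.range n).map (slices n (trList n rows.flatten))) := by
  have hnN : n ≤ 2 ^ clog n := Nat.le_pow_clog (by norm_num) n
  have hDl := flatten_length_sq n rows hr hrow
  have hpl := padList_length n (2 ^ clog n) hnN rows.flatten
  obtain ⟨s6, hs6, r6⟩ := (phase1_spec (Γ := GA A) n hn rows hr hrow).exists_eq
  have q1 := liftO_sruns r6 (blankA : St (Fin k) (GA A))
  rw [← startSt_eq_glue] at q1
  have q2 := (interp_spec A hA (2 * clog n) (sched (clog n)) (sched_ok (clog n)) s6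
    (by
      intro x hx
      simp only [parTapes, List.cons_append, List.nil_append, List.mem_cons, List.not_mem_nil,
        or_false] at hx
      rcases hx with rfl | rfl | rfl | rfl | rfl | rfl | rfl | rfl | rfl | rfl | rfl | rfl | rfl |
        rfl | rfl | rfl | rfl | rfl | rfl | rfl | rfl | rfl | rfl | rfl | rfl | rfl | rfl | rfl |
        rfl | rfl | rfl | rfl <;> simp [hs6])
    (by simp [hs6]) (by simp [hs6]) (by simp [hs6]) [] (by simp [hs6])
    (padList n (2 ^ clog n) rows.flatten) (by rw [hpl, two_mul, pow_add])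
    (by simp [hs6]))
  rw [sched_correct (clog n) _ hpl] at q2
  obtain ⟨s7, hs7⟩ : ∃ s7, s7 = Function.update (Function.update s6
      Own.d7 (Z ([] ++ encOps (sched (clog n))) []))
      Own.X (Z [] (bits (trList (2 ^ clog n) (padList n (2 ^ clog n) rows.flatten)))) := ⟨_, rfl⟩
  rw [← hs7] at q2
  obtain ⟨s8, hs8, r8⟩ := (ceilLog_spec s7 n hn (by simp [hs7, hs6])
    (by
      intro x hx
      simp only [List.mem_cons, List.not_mem_nil, or_false] at hx
      rcases hx with rfl | rfl | rfl | rfl | rfl <;> simp [hs7, hs6])).exists_eq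
  obtain ⟨s9, r9, ho⟩ := outputCrop_spec s8 n (2 ^ clog n) hnN
    (trList (2 ^ clog n) (padList n (2 ^ clog n) rows.flatten)) (trList_length _ _)
    (by simp [hs8, hs7]) (by simp [hs8, hs7, hs6]) (by simp [hs8]) (by simp [hs8])
    (by simp [hs8, hs7, hs6])
  have q3 := liftO_sruns (seqs_cons r8 (seqs_cons r9 (seqs_nil _))) (blankA : St (Fin k) (GA A))
  have hN1 : 1 ≤ 2 ^ clog n := Nat.one_le_two_pow
  have hNN : 2 ^ clog n ≤ 2 ^ clog n * 2 ^ clog n := Nat.le_mul_of_pos_left _ hN1
  refine ⟨glue blankA s9, (seqs_cons q1 (seqs_cons q2 (seqs_cons q3 (seqs_nil _)))).mono ?_, ?_⟩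
  · unfold cMainQ
    omega
  · rw [glue_inr, ho, crop_tr_pad n (2 ^ clog n) hnN _ hDl]
    simp

/-- The machine. -/
noncomputable def machQ (A : Machine k) : Machine (bigK k) := toMachine A (mainQ A)

theorem machQ_transposes (A : Machine k) (hA : A.Multiplies) (n : ℕ) (hn : 1 ≤ n) :
    (machQ A).TransposesAt n :=
  (toMachine_transposes A (mainQ A) n _ (fun rows hr hrow => mainQ_spec A hA n hn rows hr hrow)).1

theorem machQ_time (A : Machine k) (hA : A.Multiplies) (n : ℕ) (hn : 1 ≤ n) :
    (machQ A).transTime n ≤ cMainQ A.worstTime n :=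
  (toMachine_transposes A (mainQ A) n _ (fun rows hr hrow => mainQ_spec A hA n hn rows hr hrow)).2

end Vale.Agent.P338.TM
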