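import Vale.Agent.P338.TM.SpecSweep

namespace Vale.Agent.P338.TM

open Vale.Agent.P338

variable {ι Γ : Type} [TapeAlpha Γ] [DecidableEq ι]

theorem zerosU_spec (p x : ι) (hpx : p ≠ x) (s : St ι Γ) (c : ℕ) (d : List Γ)
    (hp : s p = Z [] (un c)) (hx : s x = Z d []) :
    (zerosU p x).SRuns s (7 * c + 6)
      (Function.update s x (Z (d ++ List.replicate c (bit false)) [])) true := by
  have h := forU_fun p (wr x (bit false) Move.right) c 1
    (fun k => Function.update s x (Z (d ++ List.replicate k (bit false)) [])) (by
      intro k _
      refine ⟨true, ?_⟩
      have h1 := prim_sruns (fun _ => (Instr.nil : Instr ι Γ).set x (bit false) Move.right)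
        (Function.update (Function.update s x (Z (d ++ List.replicate k (bit false)) [])) p
          (Z (un k) (un (c - k))))
      have e : ((Instr.nil : Instr ι Γ).set x (bit false) Move.right).sapp
          (Function.update (Function.update s x (Z (d ++ List.replicate k (bit false)) [])) p
            (Z (un k) (un (c - k))))
          = Function.update
              (Function.update s x (Z (d ++ List.replicate (k + 1) (bit false)) [])) p
              (Z (un k) (un (c - k))) := by
        funext i
        by_cases hip : i = p
        · subst hip
          simp [Function.update_of_ne hpx]
        · by_cases hix : i = x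
          · subst hix
            simp [Function.update_of_ne hip, List.replicate_succ', List.append_assoc]
          · simp [Function.update_of_ne hip, Function.update_of_ne hix]
      rw [e] at h1
      exact h1)
  have e0 : Function.update
      ((fun k => Function.update s x (Z (d ++ List.replicate k (bit false)) [])) 0) p
      (Z [] (un c)) = s := by
    funext i
    by_cases hip : i = p
    · subst hip; simp [hp]
    · by_cases hix : i = x
      · subst hix; simp [Function.update_of_ne hip, hx]
      · simp [Function.update_of_ne hip, Function.update_of_ne hix]
  have e1 : Function.update
      ((fun k => Function.update s x (Z (d ++ List.replicate k (bit false)) [])) c) p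
      (Z [] (un c)) = Function.update s x (Z (d ++ List.replicate c (bit false)) []) := by
    funext i
    by_cases hip : i = p
    · subst hip; simp [hp, Function.update_of_ne hpx]
    · simp [Function.update_of_ne hip]
  rw [e0, e1] at h
  exact h.mono (by omega)

theorem cpU_spec (p x y : ι) (hpx : p ≠ x) (hpy : p ≠ y) (hxy : x ≠ y) (s : St ι Γ) (c : ℕ)
    (dx w tx dy ty : List Γ) (hw : w.length = c)
    (hp : s p = Z [] (un c)) (hx : s x = Z dx (w ++ tx)) (hy : s y = Z dy ty) :
    (cpU p x y).SRuns s (7 * c + 6)
      (Function.update (Function.update s x (Z (dx ++ w) tx)) y (Z (dy ++ w) (ty.drop c))) true := by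
  have h := forU_fun p (cp x y) c 1
    (fun k => Function.update (Function.update s x (Z (dx ++ w.take k) (w.drop k ++ tx))) y
      (Z (dy ++ w.take k) (ty.drop k))) (by
      intro k hk
      refine ⟨true, ?_⟩
      have h1 := prim_sruns
        (fun a => ((Instr.nil : Instr ι Γ).set x (a x) Move.right).set y (a x) Move.right)
        (Function.update (Function.update (Function.update s x
          (Z (dx ++ w.take k) (w.drop k ++ tx))) y (Z (dy ++ w.take k) (ty.drop k))) p
          (Z (un k) (un (c - k))))
      have hkw : k < w.length := by omega
      have hdrop : w.drop k = w[k] :: w.drop (k + 1) := List.drop_eq_getElem_cons hkw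
      have htake : w.take (k + 1) = w.take k ++ [w[k]] := by
        rw [List.take_succ_eq_append_getElem hkw]
      have e : (((Instr.nil : Instr ι Γ).set x
            (sreads (Function.update (Function.update (Function.update s x
              (Z (dx ++ w.take k) (w.drop k ++ tx))) y (Z (dy ++ w.take k) (ty.drop k))) p
              (Z (un k) (un (c - k)))) x) Move.right).set y
            (sreads (Function.update (Function.update (Function.update s x
              (Z (dx ++ w.take k) (w.drop k ++ tx))) y (Z (dy ++ w.take k) (ty.drop k))) p
              (Z (un k) (un (c - k)))) x) Move.right).sapp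
          (Function.update (Function.update (Function.update s x
            (Z (dx ++ w.take k) (w.drop k ++ tx))) y (Z (dy ++ w.take k) (ty.drop k))) p
            (Z (un k) (un (c - k))))
          = Function.update (Function.update (Function.update s x
              (Z (dx ++ w.take (k + 1)) (w.drop (k + 1) ++ tx))) y
              (Z (dy ++ w.take (k + 1)) (ty.drop (k + 1)))) p
              (Z (un k) (un (c - k))) := by
        have htd : ty.drop (k + 1) = (ty.drop k).tail := by simp
        rw [hdrop, htake, htd]
        generalize w.take k = wa
        generalize w.drop (k + 1) = wr
        generalize w[k] = wb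
        generalize ty.drop k = tyk
        funext i
        by_cases hip : i = p
        · subst hip
          simp [Function.update_of_ne hpx, Function.update_of_ne hpy]
        · by_cases hiy : i = y
          · subst hiy
            simp [Function.update_of_ne hip, Function.update_of_ne hpx.symm,
              Function.update_of_ne hxy, List.append_assoc]
          · by_cases hix : i = x
            · subst hix
              simp [Function.update_of_ne hip, Function.update_of_ne hiy, List.append_assoc]
            · simp [Function.update_of_ne hip, Function.update_of_ne hix,
                Function.update_of_ne hiy]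
      rw [e] at h1
      exact h1)
  have e0 : Function.update
      ((fun k => Function.update (Function.update s x (Z (dx ++ w.take k) (w.drop k ++ tx))) y
        (Z (dy ++ w.take k) (ty.drop k))) 0) p (Z [] (un c)) = s := by
    funext i
    by_cases hip : i = p
    · subst hip; simp [hp]
    · by_cases hiy : i = y
      · subst hiy; simp [Function.update_of_ne hip, hy]
      · by_cases hix : i = x
        · subst hix; simp [Function.update_of_ne hip, Function.update_of_ne hiy, hx]
        · simp [Function.update_of_ne hip, Function.update_of_ne hix, Function.update_of_ne hiy]
  have e1 : Function.update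
      ((fun k => Function.update (Function.update s x (Z (dx ++ w.take k) (w.drop k ++ tx))) y
        (Z (dy ++ w.take k) (ty.drop k))) c) p (Z [] (un c))
      = Function.update (Function.update s x (Z (dx ++ w) tx)) y (Z (dy ++ w) (ty.drop c)) := by
    have ht : w.take c = w := by rw [← hw]; exact List.take_length
    have hd : w.drop c = [] := by rw [← hw]; exact List.drop_length
    funext i
    by_cases hip : i = p
    · subst hip; simp [hp, Function.update_of_ne hpx, Function.update_of_ne hpy]
    · simp [Function.update_of_ne hip, ht, hd]
  rw [e0, e1] at h
  exact h.mono (by omega)

theorem mvU_right_spec (p x : ι) (hpx : p ≠ x) (s : St ι Γ) (c : ℕ)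
    (dx w tx : List Γ) (hw : w.length = c)
    (hp : s p = Z [] (un c)) (hx : s x = Z dx (w ++ tx)) :
    (mvU p x Move.right).SRuns s (7 * c + 6) (Function.update s x (Z (dx ++ w) tx)) true := by
  have h := forU_fun p (mv x Move.right) c 1
    (fun k => Function.update s x (Z (dx ++ w.take k) (w.drop k ++ tx))) (by
      intro k hk
      refine ⟨true, ?_⟩
      have h1 := prim_sruns
        (fun a => (Instr.nil : Instr ι Γ).set x (a x) Move.right)
        (Function.update (Function.update s x (Z (dx ++ w.take k) (w.drop k ++ tx))) p
          (Z (un k) (un (c - k))))
      have hkw : k < w.length := by omega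
      have hdrop : w.drop k = w[k] :: w.drop (k + 1) := List.drop_eq_getElem_cons hkw
      have htake : w.take (k + 1) = w.take k ++ [w[k]] := by
        rw [List.take_succ_eq_append_getElem hkw]
      have e : ((Instr.nil : Instr ι Γ).set x
            (sreads (Function.update (Function.update s x
              (Z (dx ++ w.take k) (w.drop k ++ tx))) p (Z (un k) (un (c - k)))) x)
            Move.right).sapp
          (Function.update (Function.update s x (Z (dx ++ w.take k) (w.drop k ++ tx))) p
            (Z (un k) (un (c - k))))
          = Function.update (Function.update s x
              (Z (dx ++ w.take (k + 1)) (w.drop (k + 1) ++ tx))) p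
              (Z (un k) (un (c - k))) := by
        rw [hdrop, htake]
        generalize w.take k = wa
        generalize w.drop (k + 1) = wr
        generalize w[k] = wb
        funext i
        by_cases hip : i = p
        · subst hip
          simp [Function.update_of_ne hpx]
        · by_cases hix : i = x
          · subst hix
            simp [Function.update_of_ne hip, List.append_assoc]
          · simp [Function.update_of_ne hip, Function.update_of_ne hix]
      rw [e] at h1
      exact h1)
  have e0 : Function.update
      ((fun k => Function.update s x (Z (dx ++ w.take k) (w.drop k ++ tx))) 0) p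
      (Z [] (un c)) = s := by
    funext i
    by_cases hip : i = p
    · subst hip; simp [hp]
    · by_cases hix : i = x
      · subst hix; simp [Function.update_of_ne hip, hx]
      · simp [Function.update_of_ne hip, Function.update_of_ne hix]
  have e1 : Function.update
      ((fun k => Function.update s x (Z (dx ++ w.take k) (w.drop k ++ tx))) c) p
      (Z [] (un c)) = Function.update s x (Z (dx ++ w) tx) := by
    have ht : w.take c = w := by rw [← hw]; exact List.take_length
    have hd : w.drop c = [] := by rw [← hw]; exact List.drop_length
    funext i
    by_cases hip : i = p
    · subst hip; simp [hp, Function.update_of_ne hpx]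
    · simp [Function.update_of_ne hip, ht, hd]
  rw [e0, e1] at h
  exact h.mono (by omega)

theorem mvU_left_aux (p x : ι) (hpx : p ≠ x) (s : St ι Γ) (c : ℕ)
    (dx w : List Γ) (y : Γ) (t : List Γ) (hw : w.length = c)
    (hp : s p = Z [] (un c)) (hx : s x = Z (dx ++ w) (y :: t)) :
    (mvU p x Move.left).SRuns s (7 * c + 6) (Function.update s x (Z dx (w ++ y :: t))) true := by
  have h := forU_fun p (mv x Move.left) c 1
    (fun k => Function.update s x (Z (dx ++ w.take (c - k)) (w.drop (c - k) ++ y :: t))) (by
      intro k hk
      refine ⟨true, ?_⟩
      have h1 := prim_sruns
        (fun a => (Instr.nil : Instr ι Γ).set x (a x) Move.left)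
        (Function.update (Function.update s x
          (Z (dx ++ w.take (c - k)) (w.drop (c - k) ++ y :: t))) p
          (Z (un k) (un (c - k))))
      obtain ⟨j, hj⟩ : ∃ j, c - k = j + 1 := ⟨c - k - 1, by omega⟩
      have hj' : c - (k + 1) = j := by omega
      have hjw : j < w.length := by omega
      have hdrop : w.drop j = w[j] :: w.drop (j + 1) := List.drop_eq_getElem_cons hjw
      have htake : w.take (j + 1) = w.take j ++ [w[j]] := by
        rw [List.take_succ_eq_append_getElem hjw]
      obtain ⟨r0, L', hL⟩ : ∃ r0 L', w.drop (j + 1) ++ y :: t = r0 :: L' := by
        cases w.drop (j + 1) with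
        | nil => exact ⟨y, t, rfl⟩
        | cons a l => exact ⟨a, l ++ y :: t, rfl⟩
      have e : ((Instr.nil : Instr ι Γ).set x
            (sreads (Function.update (Function.update s x
              (Z (dx ++ w.take (c - k)) (w.drop (c - k) ++ y :: t))) p
              (Z (un k) (un (c - k)))) x)
            Move.left).sapp
          (Function.update (Function.update s x
            (Z (dx ++ w.take (c - k)) (w.drop (c - k) ++ y :: t))) p
            (Z (un k) (un (c - k))))
          = Function.update (Function.update s x
              (Z (dx ++ w.take (c - (k + 1))) (w.drop (c - (k + 1)) ++ y :: t))) p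
              (Z (un k) (un (c - k))) := by
        rw [hj', hdrop, List.cons_append, hj, htake, hL, ← List.append_assoc]
        generalize w.take j = wa
        generalize w[j] = wb
        funext i
        by_cases hip : i = p
        · subst hip
          simp [Function.update_of_ne hpx]
        · by_cases hix : i = x
          · subst hix
            have hz : (Z (dx ++ (wa ++ [wb])) (r0 :: L')).act r0 Move.left
                = Z (dx ++ wa) (wb :: r0 :: L') := by
              rw [← List.append_assoc, Z_act_left_snoc]; rfl
            simp [Function.update_of_ne hip, hz]
          · simp [Function.update_of_ne hip, Function.update_of_ne hix]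
      rw [e] at h1
      exact h1)
  have ht : w.take c = w := by rw [← hw]; exact List.take_length
  have hd : w.drop c = [] := by rw [← hw]; exact List.drop_length
  have e0 : Function.update
      ((fun k => Function.update s x (Z (dx ++ w.take (c - k)) (w.drop (c - k) ++ y :: t))) 0) p
      (Z [] (un c)) = s := by
    funext i
    by_cases hip : i = p
    · subst hip; simp [hp]
    · by_cases hix : i = x
      · subst hix; simp [Function.update_of_ne hip, hx, ht, hd]
      · simp [Function.update_of_ne hip, Function.update_of_ne hix]
  have e1 : Function.update
      ((fun k => Function.update s x (Z (dx ++ w.take (c - k)) (w.drop (c - k) ++ y :: t))) c) p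
      (Z [] (un c)) = Function.update s x (Z dx (w ++ y :: t)) := by
    funext i
    by_cases hip : i = p
    · subst hip; simp [hp, Function.update_of_ne hpx]
    · simp [Function.update_of_ne hip]
  rw [e0, e1] at h
  exact h.mono (by omega)

/-- Note: when `tx = []` trailing blanks appear; remove them with `Prog.SRuns.congr_right`. -/
theorem mvU_left_spec (p x : ι) (hpx : p ≠ x) (s : St ι Γ) (c : ℕ)
    (dx w tx : List Γ) (hw : w.length = c)
    (hp : s p = Z [] (un c)) (hx : s x = Z (dx ++ w) tx) :
    (mvU p x Move.left).SRuns s (7 * c + 6) (Function.update s x (Z dx (w ++ tx))) true := by
  cases tx with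
  | cons y t => exact mvU_left_aux p x hpx s c dx w y t hw hp hx
  | nil =>
    have h := mvU_left_aux p x hpx (Function.update s x (Z (dx ++ w) [blank])) c dx w blank [] hw
      (by rw [Function.update_of_ne hpx]; exact hp) (by simp)
    rw [Function.update_idem] at h
    refine (h.congr_left ?_).congr_right ?_
    · intro i
      by_cases hix : i = x
      · subst hix
        rw [Function.update_self, hx]
        exact Zip.toTp_trim _ [] 1
      · rw [Function.update_of_ne hix]
    · intro i
      by_cases hix : i = x
      · subst hix
        rw [Function.update_self, Function.update_self, List.append_nil]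
        exact Zip.toTp_trim _ w 1
      · rw [Function.update_of_ne hix, Function.update_of_ne hix]

end Vale.Agent.P338.TM
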