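import Vale.Agent.P338.TM.Model4

/-!
Bit lists and numbers: basic library for the mathematical part (no machines here).
`lval` = value of a bit list (least significant bit first), `lbits k z` = the `k` lowest bits of `z`,
`cat f i k = f i ++ ... ++ f (i+k-1)`, `slices w l t` = the `t`-th piece of length `w` of `l`.
-/

namespace Vale.Agent.P338.TM

open Vale.Agent.P338

theorem mb_lval_append (x y : List Bool) : lval (x ++ y) = lval x + 2 ^ x.length * lval y := by
  induction x with
  | nil => simp [lval]
  | cons b x ih =>
    simp only [List.cons_append, lval, ih, List.length_cons, pow_succ]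
    ring

theorem mb_lval_zs (k : ℕ) : lval (zs k) = 0 := by
  induction k with
  | zero => rfl
  | succ k ih =>
    have : zs (k + 1) = false :: zs k := by simp [zs, List.replicate_succ]
    rw [this, lval, ih]
    rfl

theorem mb_lval_os (k : ℕ) : lval (os k) + 1 = 2 ^ k := by
  induction k with
  | zero => rfl
  | succ k ih =>
    have : os (k + 1) = true :: os k := by simp [os, List.replicate_succ]
    rw [this, lval, pow_succ, ← ih]
    simp only [Bool.toNat_true]
    ring

theorem mb_lval_lt (l : List Bool) : lval l < 2 ^ l.length := by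
  induction l with
  | nil => simp [lval]
  | cons b l ih =>
    have hb : b.toNat ≤ 1 := Bool.toNat_le b
    simp only [lval, List.length_cons, pow_succ]
    omega

theorem mb_lbits_length (k z : ℕ) : (lbits k z).length = k := by
  simp [lbits]

theorem mb_lbits_succ (k z : ℕ) : lbits (k + 1) z = z.testBit 0 :: lbits k (z / 2) := by
  simp only [lbits, List.range_succ_eq_map, List.map_cons, List.map_map]
  congr 1
  apply List.map_congr_left
  intro i _
  simp [Nat.testBit_succ]

theorem mb_testBit_zero_toNat (z : ℕ) : (z.testBit 0).toNat = z % 2 := by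
  rw [Nat.testBit_zero]
  rcases Nat.mod_two_eq_zero_or_one z with h | h <;> simp [h]

theorem mb_lval_lbits (k z : ℕ) : lval (lbits k z) = z % 2 ^ k := by
  induction k generalizing z with
  | zero => simp [lbits, lval, Nat.mod_one]
  | succ k ih =>
    rw [mb_lbits_succ, lval, ih, mb_testBit_zero_toNat]
    have : 2 ^ (k + 1) = 2 * 2 ^ k := by ring
    rw [this, Nat.mod_mul]

theorem mb_lbits_lval (l : List Bool) : lbits l.length (lval l) = l := by
  induction l with
  | nil => rfl
  | cons b l ih =>
    rw [List.length_cons, mb_lbits_succ, lval]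
    have h1 : (b.toNat + 2 * lval l) / 2 = lval l := by
      have hb : b.toNat ≤ 1 := Bool.toNat_le b
      omega
    have h2 : (b.toNat + 2 * lval l).testBit 0 = b := by
      rw [Nat.testBit_zero]
      cases b <;> simp [Nat.add_mod]
    rw [h1, h2, ih]

theorem mb_lbits_mod (k z : ℕ) : lbits k (z % 2 ^ k) = lbits k z := by
  unfold lbits
  apply List.map_congr_left
  intro i hi
  rw [Nat.testBit_mod_two_pow]
  simp [List.mem_range.1 hi]

/-- The first `j` bits of `lbits k z`. -/
theorem mb_lbits_take (j k z : ℕ) (h : j ≤ k) : (lbits k z).take j = lbits j z := by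
  unfold lbits
  rw [← List.map_take, List.take_range, Nat.min_eq_left h]

theorem mb_cat_zero (f : ℕ → List Bool) (i : ℕ) : cat f i 0 = [] := by
  simp [cat]

theorem mb_cat_succ (f : ℕ → List Bool) (i k : ℕ) : cat f i (k + 1) = cat f i k ++ f (i + k) := by
  simp [cat, List.range_succ, List.flatMap_append]

theorem mb_cat_add (f : ℕ → List Bool) (i k l : ℕ) :
    cat f i (k + l) = cat f i k ++ cat f (i + k) l := by
  induction l with
  | zero => simp [mb_cat_zero]
  | succ l ih =>
    rw [← Nat.add_assoc, mb_cat_succ, ih, mb_cat_succ, List.append_assoc, Nat.add_assoc]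

theorem mb_cat_shift (f : ℕ → List Bool) (c i k : ℕ) :
    cat (fun t => f (c + t)) i k = cat f (c + i) k := by
  simp [cat, Nat.add_assoc]

theorem mb_cat_congr (f g : ℕ → List Bool) (i k : ℕ) (h : ∀ j, j < k → f (i + j) = g (i + j)) :
    cat f i k = cat g i k := by
  induction k with
  | zero => simp [mb_cat_zero]
  | succ k ih =>
    rw [mb_cat_succ, mb_cat_succ, ih (fun j hj => h j (by omega)), h k (by omega)]

theorem mb_cat_length (f : ℕ → List Bool) (w : ℕ) (hf : ∀ j, (f j).length = w) (i k : ℕ) :
    (cat f i k).length = k * w := by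
  induction k with
  | zero => simp [mb_cat_zero]
  | succ k ih =>
    rw [mb_cat_succ, List.length_append, ih, hf]
    ring

/-- Flattening of a concatenation of concatenations. -/
theorem mb_cat_cat (f : ℕ → List Bool) (n k : ℕ) :
    cat (fun i => cat (fun j => f (i * k + j)) 0 k) 0 n = cat f 0 (n * k) := by
  induction n with
  | zero => simp [mb_cat_zero]
  | succ n ih =>
    have e : (n + 1) * k = n * k + k := by ring
    rw [mb_cat_succ, ih, e, mb_cat_add, Nat.zero_add, Nat.zero_add, mb_cat_shift, Nat.add_zero]

theorem mb_zs_eq_cat (w k : ℕ) : zs (k * w) = cat (fun _ => zs w) 0 k := by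
  induction k with
  | zero => simp [mb_cat_zero, zs]
  | succ k ih =>
    have e : (k + 1) * w = k * w + w := by ring
    rw [mb_cat_succ, ← ih, e]
    unfold zs
    rw [List.replicate_add]

theorem mb_lval_cat (f : ℕ → List Bool) (w : ℕ) (hf : ∀ j, (f j).length = w) (k : ℕ) :
    lval (cat f 0 k) = ∑ j ∈ Finset.range k, lval (f j) * (2 ^ w) ^ j := by
  induction k with
  | zero => simp [mb_cat_zero, lval]
  | succ k ih =>
    rw [mb_cat_succ, mb_lval_append, ih, Finset.sum_range_succ, mb_cat_length f w hf, Nat.zero_add,
      ← pow_mul, Nat.mul_comm k w]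
    ring

theorem mb_getD_lbits (len z n : ℕ) (h : n < len) : (lbits len z).getD n false = z.testBit n := by
  rw [List.getD_eq_getElem _ _ (by rw [mb_lbits_length]; exact h)]
  simp [lbits]

theorem mb_slices_lbits (w len z t : ℕ) (h : (t + 1) * w ≤ len) :
    slices w (lbits len z) t = lbits w (z / (2 ^ w) ^ t) := by
  unfold slices
  conv_rhs => unfold lbits
  apply List.map_congr_left
  intro i hi
  have hi' : i < w := List.mem_range.1 hi
  have hlt : t * w + i < len := by
    have : (t + 1) * w = t * w + w := by ring
    omega
  rw [mb_getD_lbits _ _ _ hlt, ← pow_mul, Nat.testBit_div_two_pow, Nat.mul_comm w t,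
    Nat.add_comm]

theorem mb_chunk_lbits (P : Par) (i W : ℕ) (hi : i < 4) :
    chunk P i (lbits P.w W) = lbits (2 * P.m) (W / 2 ^ (i * (2 * P.m))) := by
  have hle : i * (2 * P.m) + 2 * P.m ≤ P.w := by
    unfold Par.w
    have : i * (2 * P.m) ≤ 3 * (2 * P.m) := Nat.mul_le_mul_right _ (by omega)
    omega
  unfold chunk
  apply List.ext_getElem
  · simp only [List.length_take, List.length_drop, mb_lbits_length]
    omega
  · intro n h1 h2
    rw [mb_lbits_length] at h2
    simp only [List.getElem_take, List.getElem_drop]
    simp only [lbits, List.getElem_map, List.getElem_range]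
    rw [Nat.testBit_div_two_pow, Nat.add_comm]

end Vale.Agent.P338.TM
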