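import Vale.Agent.P338.TM.TimingQ

/-!
A second analysis of the running time: the sizes of the multiplications decay geometrically with
the level, so square roots of their logarithms add up to the square root of the top one.
-/

namespace Vale.Agent.P338.TM

open Vale.Agent.P338

/-- The numerical inequality behind the induction. -/
theorem sqrt_step (x y : ℝ) (hx : 2 ≤ x) (hy : y ≤ (x + 1) / 2) :
    7 * Real.sqrt (2 * x + 8) + 140 * Real.sqrt y ≤ 140 * Real.sqrt x := by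
  set s := Real.sqrt x with hs
  set u := Real.sqrt ((x + 1) / 2) with hu
  set v := Real.sqrt (2 * x + 8) with hv
  have hs2 : s * s = x := Real.mul_self_sqrt (by linarith)
  have hu2 : u * u = (x + 1) / 2 := Real.mul_self_sqrt (by linarith)
  have hv2 : v * v = 2 * x + 8 := Real.mul_self_sqrt (by linarith)
  have hs0 : 0 ≤ s := Real.sqrt_nonneg _
  have hu0 : 0 ≤ u := Real.sqrt_nonneg _
  have hv0 : 0 ≤ v := Real.sqrt_nonneg _
  have hyu : Real.sqrt y ≤ u := Real.sqrt_le_sqrt hy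
  have hus : u ≤ s := Real.sqrt_le_sqrt (by linarith)
  have hs1 : 1 ≤ s := by
    rw [hs]
    exact Real.one_le_sqrt.mpr (by linarith)
  have hvs : v * s ≤ 5 * (x - 1) := by
    apply abs_le_of_sq_le_sq' _ (by linarith) |>.2
    have : (v * s) ^ 2 = (2 * x + 8) * x := by
      calc (v * s) ^ 2 = (v * v) * (s * s) := by ring
        _ = (2 * x + 8) * x := by rw [hv2, hs2]
    rw [this]
    nlinarith
  have hdiff : (s - u) * (s + u) = (x - 1) / 2 := by
    have : (s - u) * (s + u) = s * s - u * u := by ring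
    rw [this, hs2, hu2]
    ring
  have hkey : v ≤ 20 * (s - u) := by
    by_contra hcon
    have hcon' : 20 * (s - u) < v := not_le.mp hcon
    have h1 : 20 * ((s - u) * (s + u)) ≤ 20 * (s - u) * (2 * s) := by
      have : 0 ≤ s - u := by linarith
      nlinarith
    have h2 : 20 * (s - u) * (2 * s) < v * (2 * s) := by
      have : 0 < 2 * s := by linarith
      exact mul_lt_mul_of_pos_right hcon' this
    rw [hdiff] at h1
    nlinarith
  linarith

/-- The square roots of the numbers of address bits add up to `O(sqrt κ)`. -/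
theorem sched_sqrt_sum (κ : ℕ) :
    ((sched κ).map fun op => Real.sqrt ((jj op : ℝ) + 8)).sum ≤ 140 * Real.sqrt (κ : ℝ) := by
  induction κ using Nat.strong_induction_on with
  | _ K ih =>
    match K, ih with
    | 0, _ => rw [sched_zero]; simp
    | 1, _ =>
      rw [sched_one]
      simp only [List.map_cons, List.map_nil, List.sum_cons, List.sum_nil, jj, Nat.cast_one,
        Real.sqrt_one]
      have : Real.sqrt (((0 + 1 + 1 : ℕ) : ℝ) + 8) ≤ Real.sqrt (16 : ℝ) :=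
        Real.sqrt_le_sqrt (by norm_num)
      have h16 : Real.sqrt (16 : ℝ) = 4 := by
        rw [show (16 : ℝ) = 4 ^ 2 by norm_num]
        exact Real.sqrt_sq (by norm_num)
      linarith
    | K + 2, ih =>
      have h := ih ((K + 3) / 2) (by omega)
      have hb : ∀ op ∈ opsDown (K + 2) ++ opsUp (K + 2),
          Real.sqrt ((jj op : ℝ) + 8) ≤ Real.sqrt (2 * ((K + 2 : ℕ) : ℝ) + 8) := by
        intro op hop
        have hmem : op ∈ sched (K + 2) := by
          rw [sched_step]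
          rw [List.mem_append] at hop
          rcases hop with hop | hop
          · exact List.mem_append_left _ (List.mem_append_left _ hop)
          · exact List.mem_append_right _ hop
        have hj := sched_jj_le (K + 2) op hmem
        apply Real.sqrt_le_sqrt
        have : (jj op : ℝ) ≤ 2 * ((K + 2 : ℕ) : ℝ) := by exact_mod_cast hj
        linarith
      set v := Real.sqrt (2 * ((K + 2 : ℕ) : ℝ) + 8) with hv
      have hD : ((opsDown (K + 2)).map fun op => Real.sqrt ((jj op : ℝ) + 8)).sum ≤ 3 * v := by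
        have h1 : ∀ op ∈ opsDown (K + 2), Real.sqrt ((jj op : ℝ) + 8) ≤ v :=
          fun op hop => hb op (List.mem_append_left _ hop)
        simp only [opsDown, opsX, List.mem_cons, List.not_mem_nil, or_false, forall_eq_or_imp,
          forall_eq] at h1
        simp only [opsDown, opsX, List.map_cons, List.map_nil, List.sum_cons, List.sum_nil]
        linarith [h1.1, h1.2.1, h1.2.2]
      have hU : ((opsUp (K + 2)).map fun op => Real.sqrt ((jj op : ℝ) + 8)).sum ≤ 4 * v := by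
        have h1 : ∀ op ∈ opsUp (K + 2), Real.sqrt ((jj op : ℝ) + 8) ≤ v :=
          fun op hop => hb op (List.mem_append_right _ hop)
        simp only [opsUp, opsX, List.mem_cons, List.not_mem_nil, or_false, forall_eq_or_imp,
          forall_eq] at h1
        simp only [opsUp, opsX, List.map_cons, List.map_nil, List.sum_cons, List.sum_nil]
        linarith [h1.1, h1.2.1, h1.2.2.1, h1.2.2.2]
      rw [sched_step]
      simp only [List.map_append, List.sum_append]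
      have hstep := sqrt_step ((K + 2 : ℕ) : ℝ) (((K + 3) / 2 : ℕ) : ℝ)
        (by push_cast; linarith [(Nat.cast_nonneg K : (0 : ℝ) ≤ (K : ℝ))])
        (by
          have h2 : 2 * ((K + 3) / 2) ≤ K + 3 := Nat.mul_div_le _ _
          have h3 : (2 : ℝ) * (((K + 3) / 2 : ℕ) : ℝ) ≤ (K : ℝ) + 3 := by exact_mod_cast h2
          push_cast
          linarith)
      linarith

/-- The running time on matrices of size `2^κ`. -/
theorem cMainQ_pow_le : ∃ C : ℕ, ∀ (tA : ℕ → ℕ) (κ : ℕ),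
    cMainQ tA (2 ^ κ) ≤ C * (4 ^ κ * ((sched κ).length + 1))
      + 12 * ((sched κ).map fun op => 2 ^ (2 * κ - jj op) * tA (nA op)).sum := by
  obtain ⟨C, hC⟩ := cMain_le
  refine ⟨C + 6300, fun tA κ => ?_⟩
  have h1 := hC tA κ
  have hcl : clog (2 ^ κ) = κ := by
    unfold clog
    exact Nat.clog_pow 2 κ (by norm_num)
  have hle : cInterp tA (2 * κ) (sched κ) ≤ cMain tA κ := by
    unfold cMain; omega
  unfold cMainQ
  rw [hcl, two_pow_mul_self]
  have h2 := succ_le_four_pow κ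
  have h7 : 1 ≤ 4 ^ κ := Nat.one_le_pow _ _ (by norm_num)
  have h6 : (C + 6300) * (4 ^ κ * ((sched κ).length + 1))
      = C * (4 ^ κ * ((sched κ).length + 1)) + 6300 * (4 ^ κ * (sched κ).length)
        + 6300 * 4 ^ κ := by ring
  rw [h6]
  generalize 4 ^ κ * (sched κ).length = X at *
  omega

/-- Sum of a list of reals bounded termwise. -/
theorem sum_le_mul_sum (l : List Op) (F G : Op → ℝ) (a : ℝ)
    (h : ∀ op ∈ l, F op ≤ a * G op) : (l.map F).sum ≤ a * (l.map G).sum := by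
  induction l with
  | nil => simp
  | cons op l ih =>
      have h1 := h op (by simp)
      have h2 := ih (fun o ho => h o (by simp [ho]))
      simp only [List.map_cons, List.sum_cons]
      linarith

/-- If the multiplier needs at most `W 2^j sqrt (j+8)` steps in the operations on blocks of `2^j`
bits, then the transposition of a `2^κ × 2^κ` matrix takes `O(4^κ (log κ + W sqrt κ))` steps. -/
theorem cMainQ_le_of_sqrt : ∃ C : ℝ, 0 ≤ C ∧ ∀ (tA : ℕ → ℕ) (κ : ℕ) (W : ℝ), 0 ≤ W →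
    (∀ op ∈ sched κ, (tA (nA op) : ℝ) ≤ W * ((2 : ℝ) ^ jj op * Real.sqrt ((jj op : ℝ) + 8))) →
    (cMainQ tA (2 ^ κ) : ℝ)
      ≤ (4 : ℝ) ^ κ * (C * (7 * (Nat.log 2 κ : ℝ) + 9) + 1680 * W * Real.sqrt (κ : ℝ)) := by
  obtain ⟨C, hC⟩ := cMainQ_pow_le
  refine ⟨(C : ℝ), Nat.cast_nonneg _, fun tA κ W hW h => ?_⟩
  have hmain : (cMainQ tA (2 ^ κ) : ℝ) ≤ (C : ℝ) * ((4 : ℝ) ^ κ * (((sched κ).length : ℝ) + 1))
      + 12 * ((((sched κ).map fun op => 2 ^ (2 * κ - jj op) * tA (nA op)).sum : ℕ) : ℝ) := by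
    exact_mod_cast hC tA κ
  have hlen : ((sched κ).length : ℝ) ≤ 7 * (Nat.log 2 κ : ℝ) + 8 := by
    exact_mod_cast sched_length_le κ
  have hsum : ((((sched κ).map fun op => 2 ^ (2 * κ - jj op) * tA (nA op)).sum : ℕ) : ℝ)
      ≤ ((4 : ℝ) ^ κ * W) * ((sched κ).map fun op => Real.sqrt ((jj op : ℝ) + 8)).sum := by
    have := sum_le_mul_sum (sched κ)
      (fun op => (((2 ^ (2 * κ - jj op) * tA (nA op) : ℕ)) : ℝ))
      (fun op => Real.sqrt ((jj op : ℝ) + 8)) ((4 : ℝ) ^ κ * W) (by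
        intro op hop
        have hj := sched_jj_le κ op hop
        have h4 : (4 : ℝ) ^ κ = 2 ^ (2 * κ - jj op) * 2 ^ jj op := by
          rw [← pow_add, Nat.sub_add_cancel hj, pow_mul]
          norm_num
        have h1 := h op hop
        push_cast
        calc (2 : ℝ) ^ (2 * κ - jj op) * (tA (nA op) : ℝ)
            ≤ 2 ^ (2 * κ - jj op) * (W * ((2 : ℝ) ^ jj op * Real.sqrt ((jj op : ℝ) + 8))) := by
              gcongr
          _ = (2 ^ (2 * κ - jj op) * 2 ^ jj op) * W * Real.sqrt ((jj op : ℝ) + 8) := by ring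
          _ = (4 : ℝ) ^ κ * W * Real.sqrt ((jj op : ℝ) + 8) := by rw [← h4])
    refine le_trans (le_of_eq ?_) this
    rw [Nat.cast_list_sum, List.map_map]
    rfl
  have hsq := sched_sqrt_sum κ
  have h4pos : (0 : ℝ) < (4 : ℝ) ^ κ := by positivity
  have hC0 : (0 : ℝ) ≤ (C : ℝ) := Nat.cast_nonneg _
  calc (cMainQ tA (2 ^ κ) : ℝ)
      ≤ (C : ℝ) * ((4 : ℝ) ^ κ * (((sched κ).length : ℝ) + 1))
        + 12 * (((4 : ℝ) ^ κ * W) * ((sched κ).map fun op => Real.sqrt ((jj op : ℝ) + 8)).sum) := by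
          linarith
    _ ≤ (C : ℝ) * ((4 : ℝ) ^ κ * ((7 * (Nat.log 2 κ : ℝ) + 8) + 1))
        + 12 * (((4 : ℝ) ^ κ * W) * (140 * Real.sqrt (κ : ℝ))) := by gcongr
    _ = (4 : ℝ) ^ κ * ((C : ℝ) * (7 * (Nat.log 2 κ : ℝ) + 9) + 1680 * W * Real.sqrt (κ : ℝ)) := by
          ring

theorem log_nA_le (op : Op) : Real.log (nA op) ≤ (jj op : ℝ) + 8 := by
  have hle : ((nA op : ℕ) : ℝ) ≤ 520 * 2 ^ jj op := by exact_mod_cast nA_le op
  have hpos : (1 : ℝ) ≤ ((nA op : ℕ) : ℝ) := by exact_mod_cast nA_pos op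
  have hjn : (0 : ℝ) ≤ (jj op : ℝ) := Nat.cast_nonneg _
  calc Real.log (nA op) ≤ Real.log (520 * 2 ^ jj op) := Real.log_le_log (by linarith) hle
    _ = Real.log 520 + (jj op : ℝ) * Real.log 2 := by
        rw [Real.log_mul (by norm_num) (by positivity), Real.log_pow]
    _ ≤ 7 + (jj op : ℝ) * 1 := by
        have hl2 : Real.log 2 ≤ 1 := by
          have := Real.log_two_lt_d9
          linarith
        have := log_520_le
        gcongr
    _ ≤ (jj op : ℝ) + 8 := by linarith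

theorem two_le_nA (op : Op) : 2 ≤ nA op := by
  rw [nA_eq]
  have h : 1 ≤ 2 ^ jj op := Nat.one_le_two_pow
  omega

/-- If the transposition program is slow on all large matrices, then in every schedule there is
an operation in which the multiplier is slow. -/
theorem exists_slow_op (tA tB : ℕ → ℕ) (hB : ∀ κ : ℕ, tB (2 ^ κ) ≤ cMainQ tA (2 ^ κ))
    (c : ℝ) (hc : 0 < c) (N : ℕ)
    (hN : ∀ n : ℕ, N ≤ n → c * ((n : ℝ) ^ 2 * Real.log n) ≤ (tB n : ℝ)) :
    ∃ κ0 : ℕ, 1 ≤ κ0 ∧ ∀ κ : ℕ, κ0 ≤ κ → ∃ op ∈ sched κ,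
      (c * Real.log 2 / 3360) * Real.sqrt (κ : ℝ)
        * ((2 : ℝ) ^ jj op * Real.sqrt ((jj op : ℝ) + 8)) < (tA (nA op) : ℝ) := by
  obtain ⟨C, _, hC⟩ := cMainQ_le_of_sqrt
  have hl2 : 0 < Real.log 2 := Real.log_pos (by norm_num)
  obtain ⟨κ1, hκ1⟩ := Filter.eventually_atTop.mp
    (eventually_log_small C (c * Real.log 2 / 4) (by positivity))
  refine ⟨max (max κ1 N) 1, le_max_right _ _, fun κ hκ => ?_⟩
  have hk1 : κ1 ≤ κ := le_trans (le_trans (le_max_left _ _) (le_max_left _ _)) hκ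
  have hkN : N ≤ κ := le_trans (le_trans (le_max_right _ _) (le_max_left _ _)) hκ
  have hk0 : 1 ≤ κ := le_trans (le_max_right _ _) hκ
  by_contra hcon
  have hall : ∀ op ∈ sched κ, (tA (nA op) : ℝ) ≤ ((c * Real.log 2 / 3360) * Real.sqrt (κ : ℝ))
        * ((2 : ℝ) ^ jj op * Real.sqrt ((jj op : ℝ) + 8)) := by
    intro op hop
    by_contra hlt
    exact hcon ⟨op, hop, not_le.mp hlt⟩
  have h1 := hC tA κ ((c * Real.log 2 / 3360) * Real.sqrt (κ : ℝ))
    (mul_nonneg (by positivity) (Real.sqrt_nonneg _)) hall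
  have h2 := hN (2 ^ κ) (le_trans hkN Nat.lt_two_pow_self.le)
  have h3 : (tB (2 ^ κ) : ℝ) ≤ (cMainQ tA (2 ^ κ) : ℝ) := by exact_mod_cast hB κ
  have h4 := hκ1 κ hk1
  have hκR : (1 : ℝ) ≤ (κ : ℝ) := by exact_mod_cast hk0
  have hss : Real.sqrt (κ : ℝ) * Real.sqrt (κ : ℝ) = (κ : ℝ) := Real.mul_self_sqrt (by linarith)
  have h5 : (((2 ^ κ : ℕ) : ℝ)) ^ 2 = (4 : ℝ) ^ κ := by
    push_cast
    rw [← pow_mul, mul_comm, pow_mul]
    norm_num
  have h6 : Real.log ((2 ^ κ : ℕ) : ℝ) = (κ : ℝ) * Real.log 2 := by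
    push_cast
    exact Real.log_pow _ _
  rw [h5, h6] at h2
  have h4pos : (0 : ℝ) < (4 : ℝ) ^ κ := by positivity
  have h7 : 1680 * ((c * Real.log 2 / 3360) * Real.sqrt (κ : ℝ)) * Real.sqrt (κ : ℝ)
      = c * Real.log 2 / 2 * (κ : ℝ) := by
    calc 1680 * ((c * Real.log 2 / 3360) * Real.sqrt (κ : ℝ)) * Real.sqrt (κ : ℝ)
        = c * Real.log 2 / 2 * (Real.sqrt (κ : ℝ) * Real.sqrt (κ : ℝ)) := by ring
      _ = c * Real.log 2 / 2 * (κ : ℝ) := by rw [hss]
  rw [h7] at h1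
  have h8 : c * ((4 : ℝ) ^ κ * ((κ : ℝ) * Real.log 2))
      ≤ (4 : ℝ) ^ κ * (c * Real.log 2 / 4 * (κ : ℝ) + c * Real.log 2 / 2 * (κ : ℝ)) := by
    calc c * ((4 : ℝ) ^ κ * ((κ : ℝ) * Real.log 2)) ≤ (cMainQ tA (2 ^ κ) : ℝ) := by linarith
      _ ≤ (4 : ℝ) ^ κ * (C * (7 * (Nat.log 2 κ : ℝ) + 9) + c * Real.log 2 / 2 * (κ : ℝ)) := h1
      _ ≤ (4 : ℝ) ^ κ * (c * Real.log 2 / 4 * (κ : ℝ) + c * Real.log 2 / 2 * (κ : ℝ)) := by
          gcongr
  have h9 : 0 < (4 : ℝ) ^ κ * (c * Real.log 2 * (κ : ℝ)) := by positivity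
  nlinarith

/-- If the transposition program is slow on all large matrices, then below every large `n` there
is a size at which the multiplier is slow. -/
theorem hard_sizes (tA tB : ℕ → ℕ) (hB : ∀ κ : ℕ, tB (2 ^ κ) ≤ cMainQ tA (2 ^ κ))
    (c : ℝ) (hc : 0 < c) (N : ℕ)
    (hN : ∀ n : ℕ, N ≤ n → c * ((n : ℝ) ^ 2 * Real.log n) ≤ (tB n : ℝ)) :
    ∃ c' : ℝ, 0 < c' ∧ ∃ N' : ℕ, ∀ n : ℕ, N' ≤ n → ∃ n' : ℕ, 2 ≤ n' ∧ n' ≤ n ∧
      c' * ((n' : ℝ) * Real.sqrt (Real.log n' * Real.log n)) ≤ (tA n' : ℝ) := by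
  obtain ⟨κ0, hκ01, hκ0⟩ := exists_slow_op tA tB hB c hc N hN
  have hl2 : 0 < Real.log 2 := Real.log_pos (by norm_num)
  set δ : ℝ := c * Real.log 2 / 3360 with hδ
  have hδ0 : 0 < δ := by positivity
  refine ⟨δ / 2080, by positivity, 520 * 4 ^ κ0, fun n hn => ?_⟩
  set κ := Nat.log 4 (n / 520) with hκ
  have hq : 4 ^ κ0 ≤ n / 520 := by
    rw [Nat.le_div_iff_mul_le (by norm_num)]
    omega
  have hq0 : n / 520 ≠ 0 := by
    have : 1 ≤ 4 ^ κ0 := Nat.one_le_pow _ _ (by norm_num)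
    omega
  have hk : κ0 ≤ κ := (Nat.le_log_iff_pow_le (by norm_num) hq0).mpr hq
  have hlo : 4 ^ κ ≤ n / 520 := Nat.pow_log_le_self 4 hq0
  have hhi : n / 520 < 4 ^ (κ + 1) := Nat.lt_pow_succ_log_self (by norm_num) _
  have hlo' : 520 * 4 ^ κ ≤ n := by
    rw [Nat.le_div_iff_mul_le (by norm_num)] at hlo
    omega
  have hhi' : n < 520 * 4 ^ (κ + 1) := by
    rw [Nat.div_lt_iff_lt_mul (by norm_num)] at hhi
    omega
  obtain ⟨op, hop, hslow⟩ := hκ0 κ hk
  have hj := sched_jj_le κ op hop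
  have hpow : 2 ^ jj op ≤ 4 ^ κ := by
    calc 2 ^ jj op ≤ 2 ^ (2 * κ) := Nat.pow_le_pow_right (by norm_num) hj
      _ = 4 ^ κ := by rw [pow_mul]; norm_num
  have hnle : nA op ≤ n := by
    have := nA_le op
    omega
  refine ⟨nA op, two_le_nA op, hnle, ?_⟩
  have hκ1 : (1 : ℝ) ≤ (κ : ℝ) := by exact_mod_cast le_trans hκ01 hk
  have hle : ((nA op : ℕ) : ℝ) ≤ 520 * 2 ^ jj op := by exact_mod_cast nA_le op
  have hpos : (1 : ℝ) ≤ ((nA op : ℕ) : ℝ) := by exact_mod_cast nA_pos op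
  have hlog1 := log_nA_le op
  have hlog10 : 0 ≤ Real.log (nA op) := Real.log_nonneg hpos
  have hnR : (1 : ℝ) ≤ (n : ℝ) := by
    have : 1 ≤ n := le_trans (nA_pos op) hnle
    exact_mod_cast this
  have hlogn0 : 0 ≤ Real.log (n : ℝ) := Real.log_nonneg hnR
  have hlogn : Real.log (n : ℝ) ≤ 16 * (κ : ℝ) := by
    have h1 : (n : ℝ) ≤ 520 * 4 ^ (κ + 1) := by exact_mod_cast hhi'.le
    have hl4 : Real.log 4 ≤ 2 := by
      have h2 : Real.log 4 = 2 * Real.log 2 := by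
        rw [show (4 : ℝ) = 2 ^ 2 by norm_num, Real.log_pow]
        norm_num
      have := Real.log_two_lt_d9
      linarith
    calc Real.log (n : ℝ) ≤ Real.log (520 * 4 ^ (κ + 1)) := Real.log_le_log (by linarith) h1
      _ = Real.log 520 + ((κ + 1 : ℕ) : ℝ) * Real.log 4 := by
          rw [Real.log_mul (by norm_num) (by positivity), Real.log_pow]
      _ ≤ 7 + ((κ + 1 : ℕ) : ℝ) * 2 := by
          have := log_520_le
          gcongr
      _ ≤ 16 * (κ : ℝ) := by push_cast; linarith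
  have hjn : (0 : ℝ) ≤ (jj op : ℝ) := Nat.cast_nonneg _
  have hsq : Real.sqrt (Real.log (nA op) * Real.log (n : ℝ))
      ≤ 4 * (Real.sqrt ((jj op : ℝ) + 8) * Real.sqrt (κ : ℝ)) := by
    have h16 : Real.sqrt (16 : ℝ) = 4 := by
      rw [show (16 : ℝ) = 4 ^ 2 by norm_num]
      exact Real.sqrt_sq (by norm_num)
    calc Real.sqrt (Real.log (nA op) * Real.log (n : ℝ))
        ≤ Real.sqrt (((jj op : ℝ) + 8) * (16 * (κ : ℝ))) := by
          apply Real.sqrt_le_sqrt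
          gcongr
      _ = Real.sqrt ((jj op : ℝ) + 8) * (Real.sqrt 16 * Real.sqrt (κ : ℝ)) := by
          rw [Real.sqrt_mul (by linarith), Real.sqrt_mul (by norm_num)]
      _ = 4 * (Real.sqrt ((jj op : ℝ) + 8) * Real.sqrt (κ : ℝ)) := by rw [h16]; ring
  have hs0 : 0 ≤ Real.sqrt (Real.log (nA op) * Real.log (n : ℝ)) := Real.sqrt_nonneg _
  calc δ / 2080 * (((nA op : ℕ) : ℝ) * Real.sqrt (Real.log (nA op) * Real.log (n : ℝ)))
      ≤ δ / 2080 * ((520 * 2 ^ jj op)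
          * (4 * (Real.sqrt ((jj op : ℝ) + 8) * Real.sqrt (κ : ℝ)))) := by gcongr
    _ = δ * Real.sqrt (κ : ℝ) * ((2 : ℝ) ^ jj op * Real.sqrt ((jj op : ℝ) + 8)) := by ring
    _ ≤ (tA (nA op) : ℝ) := hslow.le

/-- A regular time bound `M = O(n log n)` of a multiplier with such hard sizes is of order
`n log n`. -/
theorem regular_bound (tA : ℕ → ℕ) (c' : ℝ) (hc' : 0 < c') (N' : ℕ)
    (hard : ∀ n : ℕ, N' ≤ n → ∃ n' : ℕ, 2 ≤ n' ∧ n' ≤ n ∧
      c' * ((n' : ℝ) * Real.sqrt (Real.log n' * Real.log n)) ≤ (tA n' : ℝ))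
    (M : ℕ → ℝ) (hM : ∀ n : ℕ, (tA n : ℝ) ≤ M n)
    (hmono : ∀ m n : ℕ, 1 ≤ m → m ≤ n → M m / (m : ℝ) ≤ M n / (n : ℝ))
    (D : ℝ) (hD : ∀ n : ℕ, 2 ≤ n → M n ≤ D * ((n : ℝ) * Real.log n)) :
    ∃ c : ℝ, 0 < c ∧ ∃ N : ℕ, ∀ n : ℕ, N ≤ n → c * ((n : ℝ) * Real.log n) ≤ M n := by
  set E : ℝ := |D| + 1 with hE
  have hE0 : 0 < E := by positivity
  have hDE : D ≤ E := by
    have := le_abs_self D
    linarith
  refine ⟨c' ^ 2 / E, by positivity, N', fun n hn => ?_⟩
  obtain ⟨n', h2, hle, hslow⟩ := hard n hn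
  have hn'R : (2 : ℝ) ≤ (n' : ℝ) := by exact_mod_cast h2
  have hnn : (n' : ℝ) ≤ (n : ℝ) := by exact_mod_cast hle
  have hl' : 0 < Real.log (n' : ℝ) := Real.log_pos (by linarith)
  have hl : 0 < Real.log (n : ℝ) := Real.log_pos (by linarith)
  set a := Real.sqrt (Real.log (n' : ℝ)) with ha
  set b := Real.sqrt (Real.log (n : ℝ)) with hb
  have ha0 : 0 < a := Real.sqrt_pos.mpr hl'
  have hb0 : 0 < b := Real.sqrt_pos.mpr hl
  have haa : a * a = Real.log (n' : ℝ) := Real.mul_self_sqrt hl'.le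
  have hbb : b * b = Real.log (n : ℝ) := Real.mul_self_sqrt hl.le
  have hab : Real.sqrt (Real.log (n' : ℝ) * Real.log (n : ℝ)) = a * b := Real.sqrt_mul hl'.le _
  rw [hab] at hslow
  have h1 : c' * ((n' : ℝ) * (a * b)) ≤ E * ((n' : ℝ) * (a * a)) := by
    calc c' * ((n' : ℝ) * (a * b)) ≤ M n' := le_trans hslow (hM n')
      _ ≤ D * ((n' : ℝ) * Real.log n') := hD n' h2
      _ ≤ E * ((n' : ℝ) * Real.log n') := by gcongr
      _ = E * ((n' : ℝ) * (a * a)) := by rw [haa]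
  have h2' : c' * b ≤ E * a := by
    have hpos : 0 < (n' : ℝ) * a := by positivity
    have : (c' * b) * ((n' : ℝ) * a) ≤ (E * a) * ((n' : ℝ) * a) := by nlinarith
    exact le_of_mul_le_mul_right this hpos
  have h3 : c' * (a * b) ≤ M n / (n : ℝ) := by
    have h4 : c' * (a * b) ≤ M n' / (n' : ℝ) := by
      rw [le_div_iff₀ (by linarith)]
      calc c' * (a * b) * (n' : ℝ) = c' * ((n' : ℝ) * (a * b)) := by ring
        _ ≤ M n' := le_trans hslow (hM n')
    exact le_trans h4 (hmono n' n (by omega) hle)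
  have hnpos : (0 : ℝ) < (n : ℝ) := by linarith
  rw [le_div_iff₀ hnpos] at h3
  have h5 : c' ^ 2 / E * (b * b) ≤ c' * (a * b) := by
    rw [div_mul_eq_mul_div, div_le_iff₀ hE0]
    have : c' * (c' * b) * b ≤ c' * (E * a) * b := by gcongr
    nlinarith
  calc c' ^ 2 / E * ((n : ℝ) * Real.log n) = (c' ^ 2 / E * (b * b)) * (n : ℝ) := by
        rw [← hbb]; ring
    _ ≤ c' * (a * b) * (n : ℝ) := by gcongr
    _ ≤ M n := h3

end Vale.Agent.P338.TM
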