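import Vale.Agent.P338.TM.Timing1
import Vale.Agent.P338.TM.Timing2

/-! The running time of the whole program in terms of the schedule. -/

namespace Vale.Agent.P338.TM

open Vale.Agent.P338

theorem succ_le_four_pow (κ : ℕ) : κ + 1 ≤ 4 ^ κ := by
  have h : κ < 4 ^ κ := Nat.lt_pow_self (by norm_num)
  omega

theorem two_pow_le_four_pow (κ : ℕ) : 2 ^ κ ≤ 4 ^ κ :=
  Nat.pow_le_pow_left (by norm_num) κ

theorem two_pow_mul_self (κ : ℕ) : 2 ^ κ * 2 ^ κ = 4 ^ κ := by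
  rw [← Nat.mul_pow]

/-- One summand of the cost of the interpreter. -/
theorem cInterp_term_le (C1 : ℕ) (tA : ℕ → ℕ) (κ : ℕ)
    (hC : ∀ (σ lo up q : ℕ), lo + up ≤ σ + 2 →
      cOpStep tA σ lo up q ≤ C1 * ((q + 1) * 2 ^ (σ + lo + up)) + 12 * (q * tA (nA (σ, lo, up))))
    (op : Op) (ho : OkOp (2 * κ) op) :
    cOpStep tA op.1 op.2.1 op.2.2 (2 ^ (2 * κ - op.1 - op.2.1 - op.2.2))
      + 10 * (op.1 + op.2.1 + op.2.2) + 60
    ≤ (2 * C1 + 80) * 4 ^ κ + 12 * (2 ^ (2 * κ - jj op) * tA (nA op)) := by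
  obtain ⟨σ, lo, up⟩ := op
  obtain ⟨h1, h2⟩ := ho
  simp only at h1 h2
  simp only [jj]
  have e1 : 2 * κ - σ - lo - up = 2 * κ - (σ + lo + up) := by omega
  rw [e1]
  have h3 := hC σ lo up (2 ^ (2 * κ - (σ + lo + up))) h1
  have h4 : 2 ^ (2 * κ - (σ + lo + up)) * 2 ^ (σ + lo + up) = 4 ^ κ := by
    rw [← pow_add, Nat.sub_add_cancel h2, pow_mul]
    norm_num
  have h5 : 2 ^ (σ + lo + up) ≤ 4 ^ κ := by
    calc 2 ^ (σ + lo + up) ≤ 2 ^ (2 * κ) := Nat.pow_le_pow_right (by norm_num) h2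
      _ = 4 ^ κ := by rw [pow_mul]; norm_num
  have h6 : (2 ^ (2 * κ - (σ + lo + up)) + 1) * 2 ^ (σ + lo + up) ≤ 2 * 4 ^ κ := by
    rw [Nat.add_mul, h4]
    omega
  have h7 : C1 * ((2 ^ (2 * κ - (σ + lo + up)) + 1) * 2 ^ (σ + lo + up)) ≤ C1 * (2 * 4 ^ κ) :=
    Nat.mul_le_mul_left _ h6
  have h8 := succ_le_four_pow κ
  have h9 : (2 * C1 + 80) * 4 ^ κ = C1 * (2 * 4 ^ κ) + 80 * 4 ^ κ := by ring
  rw [h9]
  omega

/-- The cost of the interpreter on a list of admissible operations. -/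
theorem cInterp_sum_le (C1 : ℕ) (tA : ℕ → ℕ) (κ : ℕ)
    (hC : ∀ (σ lo up q : ℕ), lo + up ≤ σ + 2 →
      cOpStep tA σ lo up q ≤ C1 * ((q + 1) * 2 ^ (σ + lo + up)) + 12 * (q * tA (nA (σ, lo, up))))
    (l : List Op) (hl : ∀ op ∈ l, OkOp (2 * κ) op) :
    (l.map fun op => cOpStep tA op.1 op.2.1 op.2.2 (2 ^ (2 * κ - op.1 - op.2.1 - op.2.2))
      + 10 * (op.1 + op.2.1 + op.2.2) + 60).sum
    ≤ (2 * C1 + 80) * (4 ^ κ * l.length)
      + 12 * (l.map fun op => 2 ^ (2 * κ - jj op) * tA (nA op)).sum := by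
  induction l with
  | nil => simp
  | cons op l ih =>
    have h1 := cInterp_term_le C1 tA κ hC op (hl op (by simp))
    have h2 := ih (fun o ho => hl o (by simp [ho]))
    simp only [List.map_cons, List.sum_cons, List.length_cons]
    have h3 : (2 * C1 + 80) * (4 ^ κ * (l.length + 1))
        = (2 * C1 + 80) * 4 ^ κ + (2 * C1 + 80) * (4 ^ κ * l.length) := by ring
    rw [h3, Nat.mul_add]
    omega

theorem cMain_le : ∃ C : ℕ, ∀ (tA : ℕ → ℕ) (κ : ℕ),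
    cMain tA κ ≤ C * (4 ^ κ * ((sched κ).length + 1))
      + 12 * ((sched κ).map fun op => 2 ^ (2 * κ - jj op) * tA (nA op)).sum := by
  obtain ⟨C1, hC1⟩ := cOpStep_le
  refine ⟨2 * C1 + 5000, fun tA κ => ?_⟩
  have h1 := cInterp_sum_le C1 tA κ (hC1 tA) (sched κ) (sched_ok' κ)
  unfold cMain cInterp
  have h2 := succ_le_four_pow κ
  have h3 := two_pow_le_four_pow κ
  have h4 := two_pow_mul_self κ
  have h5 : 2 ^ κ * (2 ^ κ + 1) = 4 ^ κ + 2 ^ κ := by rw [Nat.mul_add, h4, Nat.mul_one]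
  rw [h5, h4]
  have h6 : (2 * C1 + 5000) * (4 ^ κ * ((sched κ).length + 1))
      = (2 * C1 + 80) * (4 ^ κ * (sched κ).length) + 4920 * (4 ^ κ * (sched κ).length)
        + 2 * (C1 * 4 ^ κ) + 5000 * 4 ^ κ := by ring
  rw [h6]
  have h7 : 1 ≤ 4 ^ κ := Nat.one_le_pow _ _ (by norm_num)
  generalize 4 ^ κ * (sched κ).length = A at *
  generalize C1 * 4 ^ κ = B at *
  omega

end Vale.Agent.P338.TM
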