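import Vale.Agent.P338.Defs

/-!
Structured programs for multitape machines (tapes indexed by an arbitrary type `ι`,
tape alphabet `Γ`).  Only definitions here.
-/

namespace Vale.Agent.P338.TM

open Vale.Agent.P338

variable {ι Γ : Type}

/-- One tape: cell contents and head position. -/
structure Tp (Γ : Type) where
  cells : ℕ → Γ
  head : ℕ

/-- The scanned symbol. -/
def Tp.read (t : Tp Γ) : Γ := t.cells t.head

/-- Write `w` on the scanned cell, then move. -/
def Tp.act (t : Tp Γ) (w : Γ) (m : Move) : Tp Γ :=
  ⟨Function.update t.cells t.head w, m.apply t.head⟩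

/-- The contents and head positions of all tapes. -/
abbrev Conf (ι Γ : Type) := ι → Tp Γ

/-- The scanned symbols. -/
def reads (c : Conf ι Γ) : ι → Γ := fun i => (c i).read

/-- A program: a finite control with a start state, a transition function (`none` = stop) and
a Boolean exit label read off the state in which the program stops. -/
structure Prog (ι Γ : Type) where
  Q : Type
  [finQ : Fintype Q]
  start : Q
  δ : Q → (ι → Γ) → Option (Q × (ι → Γ) × (ι → Move))
  lab : Q → Bool

attribute [instance] Prog.finQ

/-- One step. -/
def Prog.step (P : Prog ι Γ) (x : P.Q × Conf ι Γ) : Option (P.Q × Conf ι Γ) :=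
  (P.δ x.1 (reads x.2)).map fun r => (r.1, fun i => (x.2 i).act (r.2.1 i) (r.2.2 i))

/-- `x` reaches `y` in exactly `t` steps. -/
inductive Prog.Reach (P : Prog ι Γ) : ℕ → P.Q × Conf ι Γ → P.Q × Conf ι Γ → Prop
  | zero (x) : Prog.Reach P 0 x x
  | succ {t x y z} : P.step x = some y → Prog.Reach P t y z → Prog.Reach P (t + 1) x z

/-- Started on `c`, the program stops after exactly `t` steps on `c'` with exit label `b`. -/
def Prog.Exec (P : Prog ι Γ) (c : Conf ι Γ) (t : ℕ) (c' : Conf ι Γ) (b : Bool) : Prop :=
  ∃ q, P.Reach t (P.start, c) (q, c') ∧ P.step (q, c') = none ∧ P.lab q = b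

/-- Started on `c`, the program stops after at most `T` steps on `c'` with exit label `b`. -/
def Prog.Runs (P : Prog ι Γ) (c : Conf ι Γ) (T : ℕ) (c' : Conf ι Γ) (b : Bool) : Prop :=
  ∃ t, t ≤ T ∧ P.Exec c t c' b

/-- An instruction: for every tape either nothing or (symbol to write, move). -/
abbrev Instr (ι Γ : Type) := ι → Option (Γ × Move)

/-- The symbols written by an instruction when `a` is scanned. -/
def Instr.wr (f : Instr ι Γ) (a : ι → Γ) : ι → Γ := fun i => ((f i).map Prod.fst).getD (a i)

/-- The moves of an instruction. -/
def Instr.mv (f : Instr ι Γ) : ι → Move := fun i => ((f i).map Prod.snd).getD Move.stay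

/-- Effect of an instruction on the tapes. -/
def Instr.app (f : Instr ι Γ) (c : Conf ι Γ) : Conf ι Γ := fun i =>
  match f i with
  | none => c i
  | some (w, m) => (c i).act w m

/-- One instruction (depending on the scanned symbols), then stop. Exit label `true`. -/
def prim (f : (ι → Γ) → Instr ι Γ) : Prog ι Γ where
  Q := Bool
  start := false
  δ := fun q a => if q then none else some (true, (f a).wr a, (f a).mv)
  lab := fun _ => true

/-- One idle step; the exit label is `p` of the scanned symbols. -/
def test (p : (ι → Γ) → Bool) : Prog ι Γ where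
  Q := Option Bool
  start := none
  δ := fun q a => match q with
    | none => some (some (p a), a, fun _ => Move.stay)
    | some _ => none
  lab := fun q => q.getD false

/-- Repeat the instruction `g` (one step each) until `g` returns `none`. Exit label `true`. -/
def scan (g : (ι → Γ) → Option (Instr ι Γ)) : Prog ι Γ where
  Q := Unit
  start := ()
  δ := fun _ a => (g a).map fun f => ((), f.wr a, f.mv)
  lab := fun _ => true

/-- The program that stops at once. -/
def skip : Prog ι Γ where
  Q := Unit
  start := ()
  δ := fun _ _ => none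
  lab := fun _ => true

/-- `P`, one idle step, then `R`. -/
def seq (P R : Prog ι Γ) : Prog ι Γ where
  Q := P.Q ⊕ R.Q
  start := Sum.inl P.start
  δ := fun q a => match q with
    | Sum.inl q => (match P.δ q a with
        | some r => some (Sum.inl r.1, r.2.1, r.2.2)
        | none => some (Sum.inr R.start, a, fun _ => Move.stay))
    | Sum.inr q => (R.δ q a).map fun r => (Sum.inr r.1, r.2.1, r.2.2)
  lab := fun q => match q with
    | Sum.inl _ => false
    | Sum.inr q => R.lab q

/-- `P`, one idle step, then `R` if the exit label of `P` was `true`, else `S`. -/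
def ite (P R S : Prog ι Γ) : Prog ι Γ where
  Q := P.Q ⊕ (R.Q ⊕ S.Q)
  start := Sum.inl P.start
  δ := fun q a => match q with
    | Sum.inl q => (match P.δ q a with
        | some r => some (Sum.inl r.1, r.2.1, r.2.2)
        | none => some (if P.lab q then Sum.inr (Sum.inl R.start) else Sum.inr (Sum.inr S.start),
            a, fun _ => Move.stay))
    | Sum.inr (Sum.inl q) => (R.δ q a).map fun r => (Sum.inr (Sum.inl r.1), r.2.1, r.2.2)
    | Sum.inr (Sum.inr q) => (S.δ q a).map fun r => (Sum.inr (Sum.inr r.1), r.2.1, r.2.2)
  lab := fun q => match q with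
    | Sum.inl _ => false
    | Sum.inr (Sum.inl q) => R.lab q
    | Sum.inr (Sum.inr q) => S.lab q

/-- While `P` exits with `true` do `R`. One idle step after each run of `P` and of `R`.
Exit label `true`. -/
def while_ (P R : Prog ι Γ) : Prog ι Γ where
  Q := P.Q ⊕ (R.Q ⊕ Unit)
  start := Sum.inl P.start
  δ := fun q a => match q with
    | Sum.inl q => (match P.δ q a with
        | some r => some (Sum.inl r.1, r.2.1, r.2.2)
        | none => some (if P.lab q then Sum.inr (Sum.inl R.start) else Sum.inr (Sum.inr ()),
            a, fun _ => Move.stay))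
    | Sum.inr (Sum.inl q) => (match R.δ q a with
        | some r => some (Sum.inr (Sum.inl r.1), r.2.1, r.2.2)
        | none => some (Sum.inl P.start, a, fun _ => Move.stay))
    | Sum.inr (Sum.inr _) => none
  lab := fun _ => true

/-- A zipper: `l` is the part of the tape left of the head, reversed; `r` starts at the head. -/
structure Zip (Γ : Type) where
  l : List Γ
  r : List Γ

/-- The tape alphabet: blank, the two bits, the separator, a left end mark, a right end mark. -/
class TapeAlpha (Γ : Type) where
  blank : Γ
  bit : Bool → Γ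
  sep : Γ
  lend : Γ
  rend : Γ
  bit_injective : Function.Injective bit
  bit_ne_blank : ∀ b, bit b ≠ blank
  bit_ne_sep : ∀ b, bit b ≠ sep
  bit_ne_lend : ∀ b, bit b ≠ lend
  bit_ne_rend : ∀ b, bit b ≠ rend
  sep_ne_blank : sep ≠ blank
  lend_ne_blank : lend ≠ blank
  rend_ne_blank : rend ≠ blank
  sep_ne_lend : sep ≠ lend
  sep_ne_rend : sep ≠ rend
  lend_ne_rend : lend ≠ rend

export TapeAlpha (blank bit sep lend rend)

variable [TapeAlpha Γ]

/-- The tape described by a zipper (blank beyond the listed cells). -/
def Zip.toTp (z : Zip Γ) : Tp Γ := ⟨fun j => (z.l.reverse ++ z.r).getD j blank, z.l.length⟩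

/-- The scanned symbol. -/
def Zip.read (z : Zip Γ) : Γ := z.r.headD blank

/-- Write, then move. -/
def Zip.act (z : Zip Γ) (w : Γ) : Move → Zip Γ
  | Move.stay => ⟨z.l, w :: z.r.tail⟩
  | Move.right => ⟨w :: z.l, z.r.tail⟩
  | Move.left => match z.l with
    | [] => ⟨[], w :: z.r.tail⟩
    | x :: l' => ⟨l', x :: w :: z.r.tail⟩

/-- Abstract states: one zipper per tape. -/
abbrev St (ι Γ : Type) := ι → Zip Γ

/-- The concrete tapes of an abstract state. -/
def conc (s : St ι Γ) : Conf ι Γ := fun i => (s i).toTp

/-- The scanned symbols of an abstract state. -/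
def sreads (s : St ι Γ) : ι → Γ := fun i => (s i).read

/-- Effect of an instruction on an abstract state. -/
def Instr.sapp (f : Instr ι Γ) (s : St ι Γ) : St ι Γ := fun i =>
  match f i with
  | none => s i
  | some (w, m) => (s i).act w m

/-- `P` takes the abstract state `s` to `s'` in at most `T` steps, with exit label `b`. -/
def Prog.SRuns (P : Prog ι Γ) (s : St ι Γ) (T : ℕ) (s' : St ι Γ) (b : Bool) : Prop :=
  P.Runs (conc s) T (conc s') b

/-- The standard tape `lend done todo` with the head on the first cell of `todo`. -/
def Z (done todo : List Γ) : Zip Γ := ⟨done.reverse ++ [lend], todo⟩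

/-- Bits as tape symbols. -/
def bits (w : List Bool) : List Γ := w.map bit

/-- Unary numbers. -/
def un (c : ℕ) : List Γ := List.replicate c (bit true)

end Vale.Agent.P338.TM
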