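import Vale.Agent.P338.TM.Core

namespace Vale.Agent.P338.TM

open Vale.Agent.P338

variable {ι Γ : Type}

theorem Tp.act_read_stay (t : Tp Γ) : t.act t.read Move.stay = t := by
  cases t with
  | mk cells head =>
    simp [Tp.act, Tp.read, Move.apply]

theorem Prog.Runs.mono {P : Prog ι Γ} {c c' : Conf ι Γ} {T T' : ℕ} {b : Bool}
    (h : P.Runs c T c' b) (hT : T ≤ T') : P.Runs c T' c' b := by
  obtain ⟨t, ht, he⟩ := h
  exact ⟨t, le_trans ht hT, he⟩

theorem Prog.Reach.trans {P : Prog ι Γ} {t u : ℕ} {x y z : P.Q × Conf ι Γ}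
    (h1 : P.Reach t x y) (h2 : P.Reach u y z) : P.Reach (t + u) x z := by
  induction h1 with
  | zero x => simpa using h2
  | succ hs _ ih =>
    have := Prog.Reach.succ hs (ih h2)
    have e : ∀ a b : ℕ, a + 1 + b = a + b + 1 := by intro a b; omega
    rw [e]
    exact this

/-- The effect of an instruction, written with `wr` and `mv`. -/
theorem Instr.app_eq (f : Instr ι Γ) (c : Conf ι Γ) :
    (fun i => (c i).act (f.wr (reads c) i) (f.mv i)) = f.app c := by
  funext i
  unfold Instr.wr Instr.mv Instr.app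
  cases h : f i with
  | none =>
    simp only [Option.map_none, Option.getD_none]
    exact Tp.act_read_stay (c i)
  | some r =>
    obtain ⟨w, m⟩ := r
    simp

theorem prim_runs (f : (ι → Γ) → Instr ι Γ) (c : Conf ι Γ) :
    (prim f).Runs c 1 ((f (reads c)).app c) true := by
  refine ⟨1, le_refl _, true, ?_, ?_, rfl⟩
  · refine Prog.Reach.succ (y := (true, (f (reads c)).app c)) ?_ (Prog.Reach.zero _)
    simp only [Prog.step, prim, Bool.false_eq_true, if_false, Option.map_some]
    rw [Instr.app_eq]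
  · simp [Prog.step, prim]

theorem test_runs (p : (ι → Γ) → Bool) (c : Conf ι Γ) :
    (test p).Runs c 1 c (p (reads c)) := by
  refine ⟨1, le_refl _, some (p (reads c)), ?_, ?_, rfl⟩
  · refine Prog.Reach.succ (y := (some (p (reads c)), c)) ?_ (Prog.Reach.zero _)
    simp only [Prog.step, test, Option.map_some]
    have : (fun i => (c i).act (reads c i) Move.stay) = c := by
      funext i
      exact Tp.act_read_stay (c i)
    rw [this]
  · simp [Prog.step, test]

theorem skip_runs (c : Conf ι Γ) : (skip : Prog ι Γ).Runs c 0 c true := by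
  refine ⟨0, le_refl _, (), Prog.Reach.zero _, ?_, rfl⟩
  simp [Prog.step, skip]

theorem scan_stop (g : (ι → Γ) → Option (Instr ι Γ)) (c : Conf ι Γ) (h : g (reads c) = none) :
    (scan g).Runs c 0 c true := by
  refine ⟨0, le_refl _, (), Prog.Reach.zero _, ?_, rfl⟩
  simp [Prog.step, scan, h]

theorem scan_step (g : (ι → Γ) → Option (Instr ι Γ)) (c : Conf ι Γ) (f : Instr ι Γ)
    (h : g (reads c) = some f) {T : ℕ} {c' : Conf ι Γ} {b : Bool}
    (h' : (scan g).Runs (f.app c) T c' b) : (scan g).Runs c (T + 1) c' b := by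
  obtain ⟨t, ht, q, r, s, l⟩ := h'
  refine ⟨t + 1, by omega, q, ?_, s, l⟩
  refine Prog.Reach.succ (y := ((scan g).start, f.app c)) ?_ r
  simp only [Prog.step, scan, h, Option.map_some]
  rw [Instr.app_eq]

end Vale.Agent.P338.TM
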