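import Vale.Agent.P338.TM.Core

namespace Vale.Agent.P338.TM

open Vale.Agent.P338

variable {ι Γ : Type}

private theorem act_idle (t : Tp Γ) : t.act t.read Move.stay = t := by
  cases t with
  | mk cells head =>
    simp [Tp.act, Tp.read, Move.apply]

private theorem idle_conf (c : Conf ι Γ) :
    (fun i => (c i).act (reads c i) Move.stay) = c := by
  funext i
  exact act_idle (c i)

private theorem reach_trans {P : Prog ι Γ} {t s : ℕ} {x y z : P.Q × Conf ι Γ}
    (h1 : P.Reach t x y) (h2 : P.Reach s y z) : P.Reach (t + s) x z := by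
  induction h1 with
  | zero x => simpa using h2
  | succ hs _ ih =>
    have := Prog.Reach.succ hs (ih h2)
    have e : ∀ a b : ℕ, a + 1 + b = a + b + 1 := by intro a b; omega
    rw [e]
    exact this

/-- General lifting lemma: a state embedding that commutes with steps lifts `Reach`. -/
private theorem reach_lift {P P' : Prog ι Γ} (f : P.Q → P'.Q)
    (hf : ∀ q c q' c', P.step (q, c) = some (q', c') → P'.step (f q, c) = some (f q', c'))
    {t : ℕ} {x y : P.Q × Conf ι Γ} (h : P.Reach t x y) :
    P'.Reach t (f x.1, x.2) (f y.1, y.2) := by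
  induction h with
  | zero x => exact Prog.Reach.zero _
  | succ hs _ ih => exact Prog.Reach.succ (hf _ _ _ _ hs) ih

private theorem step_none_iff {P : Prog ι Γ} {x : P.Q × Conf ι Γ} :
    P.step x = none ↔ P.δ x.1 (reads x.2) = none := by
  simp [Prog.step]

theorem seq_runs {P R : Prog ι Γ} {c c1 c2 : Conf ι Γ} {T1 T2 : ℕ} {b1 b2 : Bool}
    (h1 : P.Runs c T1 c1 b1) (h2 : R.Runs c1 T2 c2 b2) :
    (seq P R).Runs c (T1 + T2 + 1) c2 b2 := by
  obtain ⟨t1, ht1, q1, r1, s1, -⟩ := h1
  obtain ⟨t2, ht2, q2, r2, s2, l2⟩ := h2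
  have L : (seq P R).Reach t1 (Sum.inl P.start, c) (Sum.inl q1, c1) := by
    refine reach_lift (P := P) (P' := seq P R) Sum.inl ?_ r1
    intro q c q' c' h
    simp only [Prog.step, seq] at h ⊢
    cases hδ : P.δ q (reads c) with
    | none => simp [hδ] at h
    | some r => simpa [hδ] using h
  have M : (seq P R).step (Sum.inl q1, c1) = some (Sum.inr R.start, c1) := by
    have hδ : P.δ q1 (reads c1) = none := step_none_iff.1 s1
    simp only [Prog.step, seq, hδ, Option.map_some]
    rw [idle_conf]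
  have Rr : (seq P R).Reach t2 (Sum.inr R.start, c1) (Sum.inr q2, c2) := by
    refine reach_lift (P := R) (P' := seq P R) Sum.inr ?_ r2
    intro q c q' c' h
    simp only [Prog.step, seq] at h ⊢
    cases hδ : R.δ q (reads c) with
    | none => simp [hδ] at h
    | some r => simpa [hδ] using h
  refine ⟨t1 + (t2 + 1), by omega, Sum.inr q2, reach_trans L (Prog.Reach.succ M Rr), ?_, l2⟩
  have hδ : R.δ q2 (reads c2) = none := step_none_iff.1 s2
  simp [Prog.step, seq, hδ]

theorem ite_runs_true {P R S : Prog ι Γ} {c c1 c2 : Conf ι Γ} {T1 T2 : ℕ} {b2 : Bool}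
    (h1 : P.Runs c T1 c1 true) (h2 : R.Runs c1 T2 c2 b2) :
    (ite P R S).Runs c (T1 + T2 + 1) c2 b2 := by
  obtain ⟨t1, ht1, q1, r1, s1, l1⟩ := h1
  obtain ⟨t2, ht2, q2, r2, s2, l2⟩ := h2
  have L : (ite P R S).Reach t1 (Sum.inl P.start, c) (Sum.inl q1, c1) := by
    refine reach_lift (P := P) (P' := ite P R S) Sum.inl ?_ r1
    intro q c q' c' h
    simp only [Prog.step, ite] at h ⊢
    cases hδ : P.δ q (reads c) with
    | none => simp [hδ] at h
    | some r => simpa [hδ] using h
  have M : (ite P R S).step (Sum.inl q1, c1) = some (Sum.inr (Sum.inl R.start), c1) := by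
    have hδ : P.δ q1 (reads c1) = none := step_none_iff.1 s1
    simp only [Prog.step, ite, hδ, Option.map_some, l1, if_true]
    rw [idle_conf]
  have Rr : (ite P R S).Reach t2 (Sum.inr (Sum.inl R.start), c1) (Sum.inr (Sum.inl q2), c2) := by
    refine reach_lift (P := R) (P' := ite P R S) (fun q => Sum.inr (Sum.inl q)) ?_ r2
    intro q c q' c' h
    simp only [Prog.step, ite] at h ⊢
    cases hδ : R.δ q (reads c) with
    | none => simp [hδ] at h
    | some r => simpa [hδ] using h
  refine ⟨t1 + (t2 + 1), by omega, Sum.inr (Sum.inl q2),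
    reach_trans L (Prog.Reach.succ M Rr), ?_, l2⟩
  have hδ : R.δ q2 (reads c2) = none := step_none_iff.1 s2
  simp [Prog.step, ite, hδ]

theorem ite_runs_false {P R S : Prog ι Γ} {c c1 c2 : Conf ι Γ} {T1 T2 : ℕ} {b2 : Bool}
    (h1 : P.Runs c T1 c1 false) (h2 : S.Runs c1 T2 c2 b2) :
    (ite P R S).Runs c (T1 + T2 + 1) c2 b2 := by
  obtain ⟨t1, ht1, q1, r1, s1, l1⟩ := h1
  obtain ⟨t2, ht2, q2, r2, s2, l2⟩ := h2
  have L : (ite P R S).Reach t1 (Sum.inl P.start, c) (Sum.inl q1, c1) := by
    refine reach_lift (P := P) (P' := ite P R S) Sum.inl ?_ r1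
    intro q c q' c' h
    simp only [Prog.step, ite] at h ⊢
    cases hδ : P.δ q (reads c) with
    | none => simp [hδ] at h
    | some r => simpa [hδ] using h
  have M : (ite P R S).step (Sum.inl q1, c1) = some (Sum.inr (Sum.inr S.start), c1) := by
    have hδ : P.δ q1 (reads c1) = none := step_none_iff.1 s1
    simp only [Prog.step, ite, hδ, Option.map_some, l1]
    rw [idle_conf]
    simp
  have Rr : (ite P R S).Reach t2 (Sum.inr (Sum.inr S.start), c1) (Sum.inr (Sum.inr q2), c2) := by
    refine reach_lift (P := S) (P' := ite P R S) (fun q => Sum.inr (Sum.inr q)) ?_ r2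
    intro q c q' c' h
    simp only [Prog.step, ite] at h ⊢
    cases hδ : S.δ q (reads c) with
    | none => simp [hδ] at h
    | some r => simpa [hδ] using h
  refine ⟨t1 + (t2 + 1), by omega, Sum.inr (Sum.inr q2),
    reach_trans L (Prog.Reach.succ M Rr), ?_, l2⟩
  have hδ : S.δ q2 (reads c2) = none := step_none_iff.1 s2
  simp [Prog.step, ite, hδ]

end Vale.Agent.P338.TM
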