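import Vale.Agent.P338.TM.Core

namespace Vale.Agent.P338.TM

open Vale.Agent.P338

variable {ι Γ : Type}

theorem whl_act_read_stay (t : Tp Γ) : t.act t.read Move.stay = t := by
  cases t with
  | mk cells head =>
    simp [Tp.act, Tp.read, Move.apply]

theorem whl_idle (c : Conf ι Γ) :
    (fun i => (c i).act (reads c i) Move.stay) = c := by
  funext i
  exact whl_act_read_stay (c i)

theorem whl_reach_trans {P : Prog ι Γ} {t u : ℕ} {x y z : P.Q × Conf ι Γ}
    (h1 : P.Reach t x y) (h2 : P.Reach u y z) : P.Reach (t + u) x z := by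
  induction h1 with
  | zero x => simpa using h2
  | succ hs _ ih =>
    have := Prog.Reach.succ hs (ih h2)
    convert this using 1
    omega

theorem whl_stepP {P R : Prog ι Γ} {x y : P.Q × Conf ι Γ} (h : P.step x = some y) :
    (while_ P R).step (Sum.inl x.1, x.2) = some (Sum.inl y.1, y.2) := by
  unfold Prog.step at h ⊢
  cases hd : P.δ x.1 (reads x.2) with
  | none => simp [hd] at h
  | some r =>
    simp only [hd, Option.map_some, Option.some.injEq] at h
    subst h
    simp [while_, hd]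

theorem whl_stepR {P R : Prog ι Γ} {x y : R.Q × Conf ι Γ} (h : R.step x = some y) :
    (while_ P R).step (Sum.inr (Sum.inl x.1), x.2) = some (Sum.inr (Sum.inl y.1), y.2) := by
  unfold Prog.step at h ⊢
  cases hd : R.δ x.1 (reads x.2) with
  | none => simp [hd] at h
  | some r =>
    simp only [hd, Option.map_some, Option.some.injEq] at h
    subst h
    simp [while_, hd]

theorem whl_reachP {P R : Prog ι Γ} {t : ℕ} {x y : P.Q × Conf ι Γ} (h : P.Reach t x y) :
    (while_ P R).Reach t (Sum.inl x.1, x.2) (Sum.inl y.1, y.2) := by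
  induction h with
  | zero x => exact Prog.Reach.zero _
  | succ hs _ ih => exact Prog.Reach.succ (whl_stepP hs) ih

theorem whl_reachR {P R : Prog ι Γ} {t : ℕ} {x y : R.Q × Conf ι Γ} (h : R.Reach t x y) :
    (while_ P R).Reach t (Sum.inr (Sum.inl x.1), x.2) (Sum.inr (Sum.inl y.1), y.2) := by
  induction h with
  | zero x => exact Prog.Reach.zero _
  | succ hs _ ih => exact Prog.Reach.succ (whl_stepR hs) ih

theorem whl_exitP {P R : Prog ι Γ} {q : P.Q} {c : Conf ι Γ} (h : P.step (q, c) = none) :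
    (while_ P R).step (Sum.inl q, c) =
      some (if P.lab q then Sum.inr (Sum.inl R.start) else Sum.inr (Sum.inr ()), c) := by
  unfold Prog.step at h ⊢
  cases hd : P.δ q (reads c) with
  | some r => simp [hd] at h
  | none =>
    simp only [while_, hd, Option.map_some, whl_idle]

theorem whl_exitR {P R : Prog ι Γ} {q : R.Q} {c : Conf ι Γ} (h : R.step (q, c) = none) :
    (while_ P R).step (Sum.inr (Sum.inl q), c) = some (Sum.inl P.start, c) := by
  unfold Prog.step at h ⊢
  cases hd : R.δ q (reads c) with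
  | some r => simp [hd] at h
  | none =>
    simp only [while_, hd, Option.map_some, whl_idle]

theorem while_false {P R : Prog ι Γ} {c c1 : Conf ι Γ} {T1 : ℕ}
    (h1 : P.Runs c T1 c1 false) : (while_ P R).Runs c (T1 + 1) c1 true := by
  obtain ⟨t, ht, q, hr, hs, hl⟩ := h1
  refine ⟨t + 1, by omega, Sum.inr (Sum.inr ()), ?_, rfl, rfl⟩
  have h2 : (while_ P R).Reach 1 (Sum.inl q, c1) (Sum.inr (Sum.inr ()), c1) := by
    refine Prog.Reach.succ ?_ (Prog.Reach.zero _)
    rw [whl_exitP hs, hl]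
    rfl
  exact whl_reach_trans (whl_reachP (R := R) hr) h2

theorem while_true {P R : Prog ι Γ} {c c1 c2 c3 : Conf ι Γ} {T1 T2 T3 : ℕ} {b b' : Bool}
    (h1 : P.Runs c T1 c1 true) (h2 : R.Runs c1 T2 c2 b) (h3 : (while_ P R).Runs c2 T3 c3 b') :
    (while_ P R).Runs c (T1 + T2 + T3 + 2) c3 b' := by
  obtain ⟨t1, ht1, q1, hr1, hs1, hl1⟩ := h1
  obtain ⟨t2, ht2, q2, hr2, hs2, -⟩ := h2
  obtain ⟨t3, ht3, q3, hr3, hs3, hl3⟩ := h3
  refine ⟨t1 + 1 + (t2 + 1) + t3, by omega, q3, ?_, hs3, hl3⟩
  have j1 : (while_ P R).Reach 1 (Sum.inl q1, c1) (Sum.inr (Sum.inl R.start), c1) := by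
    refine Prog.Reach.succ ?_ (Prog.Reach.zero _)
    rw [whl_exitP hs1, hl1]
    rfl
  have j2 : (while_ P R).Reach 1 (Sum.inr (Sum.inl q2), c2) (Sum.inl P.start, c2) :=
    Prog.Reach.succ (whl_exitR hs2) (Prog.Reach.zero _)
  exact whl_reach_trans (whl_reach_trans (whl_reach_trans (whl_reachP (R := R) hr1) j1)
    (whl_reach_trans (whl_reachR (P := P) hr2) j2)) hr3

end Vale.Agent.P338.TM
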