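import Vale.Agent.P338.TM.Core

namespace Vale.Agent.P338.TM

open Vale.Agent.P338

variable {ι Γ : Type} [TapeAlpha Γ]

theorem getD_zip_aux (a r : List Γ) (w : Γ) (j : ℕ) :
    (a ++ w :: r.tail).getD j blank
      = Function.update (fun j => (a ++ r).getD j blank) a.length w j := by
  rcases lt_trichotomy j a.length with h | h | h
  · rw [Function.update_of_ne (Nat.ne_of_lt h)]
    rw [List.getD_append _ _ _ _ h, List.getD_append _ _ _ _ h]
  · subst h
    rw [Function.update_self, List.getD_append_right _ _ _ _ le_rfl]
    simp
  · rw [Function.update_of_ne (Nat.ne_of_gt h)]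
    rw [List.getD_append_right _ _ _ _ h.le, List.getD_append_right _ _ _ _ h.le]
    obtain ⟨m, hm⟩ : ∃ m, j - a.length = m + 1 := ⟨j - a.length - 1, by omega⟩
    rw [hm]
    cases r with
    | nil => simp
    | cons x r' => simp

theorem Zip.toTp_read (z : Zip Γ) : z.toTp.read = z.read := by
  obtain ⟨l, r⟩ := z
  simp only [Zip.toTp, Tp.read, Zip.read]
  rw [List.getD_append_right _ _ _ _ (by simp)]
  cases r <;> simp

theorem Zip.toTp_act (z : Zip Γ) (w : Γ) (m : Move) : z.toTp.act w m = (z.act w m).toTp := by
  obtain ⟨l, r⟩ := z
  have key : Function.update (fun j => (l.reverse ++ r).getD j blank) l.length w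
      = fun j => (l.reverse ++ w :: r.tail).getD j blank := by
    funext j
    rw [getD_zip_aux, List.length_reverse]
  cases m with
  | stay =>
    simp only [Zip.toTp, Tp.act, Zip.act, Move.apply, key]
  | right =>
    simp only [Zip.toTp, Tp.act, Zip.act, Move.apply, key, List.reverse_cons, List.append_assoc,
      List.singleton_append, List.length_cons]
  | left =>
    cases l with
    | nil =>
      simp only [List.length_nil] at key
      simp only [Zip.toTp, Tp.act, Zip.act, Move.apply, List.length_nil, key]
    | cons x l' =>
      simp only [List.reverse_cons, List.append_assoc, List.singleton_append,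
        List.length_cons] at key
      simp only [Zip.toTp, Tp.act, Zip.act, Move.apply, List.reverse_cons, List.append_assoc,
        List.singleton_append, List.length_cons, Nat.add_sub_cancel, key]

theorem reads_conc (s : St ι Γ) : reads (conc s) = sreads s := by
  funext i
  exact Zip.toTp_read (s i)

theorem app_conc (f : Instr ι Γ) (s : St ι Γ) : f.app (conc s) = conc (f.sapp s) := by
  funext i
  simp only [Instr.app, conc, Instr.sapp]
  cases h : f i with
  | none => rfl
  | some p =>
    obtain ⟨w, m⟩ := p
    exact Zip.toTp_act (s i) w m

/-- Trailing blanks do not matter. -/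
theorem Zip.toTp_trim (l r : List Γ) (k : ℕ) :
    (Zip.mk l (r ++ List.replicate k blank)).toTp = (Zip.mk l r).toTp := by
  simp only [Zip.toTp, Tp.mk.injEq, and_true]
  funext j
  rw [← List.append_assoc]
  by_cases h : j < (l.reverse ++ r).length
  · rw [List.getD_append _ _ _ _ h]
  · have h' : (l.reverse ++ r).length ≤ j := Nat.le_of_not_lt h
    rw [List.getD_append_right _ _ _ _ h', List.getD_eq_default _ _ h']
    by_cases h2 : j - (l.reverse ++ r).length < k
    · rw [List.getD_eq_getElem _ _ (by simpa using h2)]
      simp
    · rw [List.getD_eq_default _ _ (by simpa using h2)]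

theorem conc_congr {s s' : St ι Γ} (h : ∀ i, (s i).toTp = (s' i).toTp) : conc s = conc s' := by
  funext i
  exact h i

end Vale.Agent.P338.TM
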