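import Vale.Agent.P338.TM.Timing3

/-!
The running time: pure arithmetic / asymptotics on the cost functions.
-/

namespace Vale.Agent.P338.TM

open Vale.Agent.P338

/-- Sum of a list of reals bounded termwise by an affine function of `jj`. -/
theorem sum_le_affine (l : List Op) (F : Op → ℝ) (a b : ℝ)
    (h : ∀ op ∈ l, F op ≤ a + b * (jj op : ℝ)) :
    (l.map F).sum ≤ a * (l.length : ℝ) + b * (((l.map jj).sum : ℕ) : ℝ) := by
  induction l with
  | nil => simp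
  | cons op l ih =>
      have h1 := h op (by simp)
      have h2 := ih (fun o ho => h o (by simp [ho]))
      simp only [List.map_cons, List.sum_cons, List.length_cons, Nat.cast_add, Nat.cast_one]
      nlinarith

theorem log_520_le : Real.log 520 ≤ 7 := by
  have h : (520 : ℝ) ≤ Real.exp 7 := by
    have h1 : (2 : ℝ) ≤ Real.exp 1 := by
      have := Real.add_one_le_exp (1 : ℝ)
      linarith
    have h2 : Real.exp 7 = Real.exp 1 ^ 7 := by
      rw [← Real.exp_nat_mul]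
      norm_num
    rw [h2]
    have h3 : (2.5 : ℝ) ≤ Real.exp 1 := by
      have := Real.exp_one_gt_d9
      linarith
    calc (520 : ℝ) ≤ 2.5 ^ 7 := by norm_num
      _ ≤ Real.exp 1 ^ 7 := by gcongr
  calc Real.log 520 ≤ Real.log (Real.exp 7) := Real.log_le_log (by norm_num) h
    _ = 7 := Real.log_exp 7

/-- The contribution of one operation. -/
theorem op_bound (tA : ℕ → ℕ) (ε : ℝ) (hε : 0 ≤ ε) (n0 : ℕ)
    (h0 : ∀ n : ℕ, n0 ≤ n → (tA n : ℝ) ≤ ε * ((n : ℝ) * Real.log n)) (M0 : ℝ)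
    (hM : ∀ n : ℕ, n < n0 → (tA n : ℝ) ≤ M0) (hM0 : 0 ≤ M0) (κ : ℕ) (op : Op)
    (hj : jj op ≤ 2 * κ) :
    (((2 ^ (2 * κ - jj op) * tA (nA op) : ℕ)) : ℝ)
      ≤ (4 : ℝ) ^ κ * (M0 + 3640 * ε) + (4 : ℝ) ^ κ * (520 * ε) * (jj op : ℝ) := by
  have h4 : (4 : ℝ) ^ κ = 2 ^ (2 * κ - jj op) * 2 ^ jj op := by
    rw [← pow_add, Nat.sub_add_cancel hj, pow_mul]
    norm_num
  have hp1 : (0 : ℝ) < 2 ^ (2 * κ - jj op) := by positivity
  have hp2 : (1 : ℝ) ≤ 2 ^ jj op := one_le_pow₀ (by norm_num)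
  have hjn : (0 : ℝ) ≤ (jj op : ℝ) := Nat.cast_nonneg _
  push_cast
  by_cases hn : nA op < n0
  · have h1 := hM _ hn
    have h2 : (2 : ℝ) ^ (2 * κ - jj op) * (tA (nA op) : ℝ) ≤ (4 : ℝ) ^ κ * M0 := by
      rw [h4]
      calc (2 : ℝ) ^ (2 * κ - jj op) * (tA (nA op) : ℝ) ≤ 2 ^ (2 * κ - jj op) * M0 := by gcongr
        _ = 2 ^ (2 * κ - jj op) * 1 * M0 := by ring
        _ ≤ 2 ^ (2 * κ - jj op) * 2 ^ jj op * M0 := by gcongr
    have h3 : (0 : ℝ) ≤ (4 : ℝ) ^ κ * (3640 * ε) := by positivity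
    have h5 : (0 : ℝ) ≤ (4 : ℝ) ^ κ * (520 * ε) * (jj op : ℝ) := by positivity
    nlinarith
  · have h1 := h0 _ (not_lt.mp hn)
    have hle : ((nA op : ℕ) : ℝ) ≤ 520 * 2 ^ jj op := by exact_mod_cast nA_le op
    have hpos : (1 : ℝ) ≤ ((nA op : ℕ) : ℝ) := by exact_mod_cast nA_pos op
    have hlog : Real.log (nA op) ≤ 7 + (jj op : ℝ) := by
      calc Real.log (nA op) ≤ Real.log (520 * 2 ^ jj op) := Real.log_le_log (by linarith) hle
        _ = Real.log 520 + (jj op : ℝ) * Real.log 2 := by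
            rw [Real.log_mul (by norm_num) (by positivity), Real.log_pow]
        _ ≤ 7 + (jj op : ℝ) * 1 := by
            have hl2 : Real.log 2 ≤ 1 := by
              have := Real.log_two_lt_d9
              linarith
            have := log_520_le
            gcongr
        _ = 7 + (jj op : ℝ) := by ring
    have hlog0 : 0 ≤ Real.log (nA op) := Real.log_nonneg hpos
    have h2 : (tA (nA op) : ℝ) ≤ ε * (520 * 2 ^ jj op * (7 + (jj op : ℝ))) := by
      calc (tA (nA op) : ℝ) ≤ ε * (((nA op : ℕ) : ℝ) * Real.log (nA op)) := h1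
        _ ≤ ε * (520 * 2 ^ jj op * (7 + (jj op : ℝ))) := by gcongr
    calc (2 : ℝ) ^ (2 * κ - jj op) * (tA (nA op) : ℝ)
        ≤ 2 ^ (2 * κ - jj op) * (ε * (520 * 2 ^ jj op * (7 + (jj op : ℝ)))) := by gcongr
      _ = (2 ^ (2 * κ - jj op) * 2 ^ jj op) * (3640 * ε)
          + (2 ^ (2 * κ - jj op) * 2 ^ jj op) * (520 * ε) * (jj op : ℝ) := by ring
      _ = (4 : ℝ) ^ κ * (3640 * ε) + (4 : ℝ) ^ κ * (520 * ε) * (jj op : ℝ) := by rw [← h4]
      _ ≤ (4 : ℝ) ^ κ * (M0 + 3640 * ε) + (4 : ℝ) ^ κ * (520 * ε) * (jj op : ℝ) := by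
          have : (0 : ℝ) ≤ (4 : ℝ) ^ κ * M0 := by positivity
          nlinarith

/-- The logarithm is eventually small compared with the identity. -/
theorem eventually_log_small (D δ : ℝ) (hδ : 0 < δ) :
    ∀ᶠ κ : ℕ in Filter.atTop, D * (7 * (Nat.log 2 κ : ℝ) + 9) ≤ δ * (κ : ℝ) := by
  have hl2 : 0 < Real.log 2 := Real.log_pos (by norm_num)
  set E : ℝ := |D| + 1 with hE
  have hE0 : 0 < E := by positivity
  have hDE : D ≤ E := by
    have := le_abs_self D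
    linarith
  have hlo : (fun κ : ℕ => Real.log (κ : ℝ)) =o[Filter.atTop] (fun κ : ℕ => (κ : ℝ)) :=
    Real.isLittleO_log_id_atTop.comp_tendsto tendsto_natCast_atTop_atTop
  have hc1 : 0 < δ * Real.log 2 / (14 * E) := by positivity
  have h1 := (Asymptotics.isLittleO_iff.mp hlo) hc1
  have h2 : ∀ᶠ κ : ℕ in Filter.atTop, 18 * E / δ ≤ (κ : ℝ) :=
    tendsto_natCast_atTop_atTop.eventually_ge_atTop _
  filter_upwards [h1, h2, Filter.eventually_ge_atTop 1] with κ hk1 hk2 hk3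
  have hκ : (1 : ℝ) ≤ (κ : ℝ) := by exact_mod_cast hk3
  rw [Real.norm_of_nonneg (Real.log_nonneg hκ), Real.norm_of_nonneg (by linarith)] at hk1
  have hL : (Nat.log 2 κ : ℝ) ≤ Real.log κ / Real.log 2 := by
    have := Real.natLog_le_logb κ 2
    simpa [Real.logb] using this
  have hL0 : (0 : ℝ) ≤ (Nat.log 2 κ : ℝ) := Nat.cast_nonneg _
  have hL2 : (Nat.log 2 κ : ℝ) ≤ δ / (14 * E) * κ := by
    calc (Nat.log 2 κ : ℝ) ≤ Real.log κ / Real.log 2 := hL
      _ ≤ (δ * Real.log 2 / (14 * E) * κ) / Real.log 2 := by gcongr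
      _ = δ / (14 * E) * κ := by field_simp
  have h9 : 9 * E ≤ δ / 2 * κ := by
    have : 18 * E ≤ δ * κ := by
      rw [div_le_iff₀ hδ] at hk2
      linarith
    linarith
  calc D * (7 * (Nat.log 2 κ : ℝ) + 9) ≤ E * (7 * (Nat.log 2 κ : ℝ) + 9) := by gcongr
    _ = 7 * E * (Nat.log 2 κ : ℝ) + 9 * E := by ring
    _ ≤ 7 * E * (δ / (14 * E) * κ) + δ / 2 * κ := by gcongr
    _ = δ * κ := by field_simp; ring

/-- If the multiplier runs in time `o(n log n)`, the transposition program runs in time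
`o(4^κ κ)`. -/
theorem cMain_isLittleO (tA : ℕ → ℕ)
    (h : (fun n : ℕ => (tA n : ℝ)) =o[Filter.atTop] (fun n : ℕ => (n : ℝ) * Real.log n)) :
    (fun κ : ℕ => (cMain tA κ : ℝ)) =o[Filter.atTop]
      (fun κ : ℕ => ((2 : ℝ) ^ κ) ^ 2 * Real.log ((2 : ℝ) ^ κ)) := by
  obtain ⟨C, hC⟩ := cMain_le
  have hl2 : 0 < Real.log 2 := Real.log_pos (by norm_num)
  rw [Asymptotics.isLittleO_iff]
  intro c hc
  set ε : ℝ := c * Real.log 2 / 524160 with hε
  have hε0 : 0 < ε := by positivity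
  obtain ⟨n0, hn0⟩ := Filter.eventually_atTop.mp ((Asymptotics.isLittleO_iff.mp h) hε0)
  have h0 : ∀ n : ℕ, max n0 1 ≤ n → (tA n : ℝ) ≤ ε * ((n : ℝ) * Real.log n) := by
    intro n hn
    have h1 := hn0 n (le_trans (le_max_left _ _) hn)
    have hn1 : (1 : ℝ) ≤ (n : ℝ) := by exact_mod_cast le_trans (le_max_right _ _) hn
    rwa [Real.norm_of_nonneg (Nat.cast_nonneg _),
      Real.norm_of_nonneg (mul_nonneg (by linarith) (Real.log_nonneg hn1))] at h1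
  set M0 : ℝ := ((∑ n ∈ Finset.range (max n0 1), tA n : ℕ) : ℝ) with hM0
  have hM : ∀ n : ℕ, n < max n0 1 → (tA n : ℝ) ≤ M0 := by
    intro n hn
    rw [hM0]
    exact_mod_cast Finset.single_le_sum (f := tA) (fun _ _ => Nat.zero_le _) (Finset.mem_range.mpr hn)
  have hM00 : 0 ≤ M0 := Nat.cast_nonneg _
  set D : ℝ := (C : ℝ) + 12 * (M0 + 3640 * ε) with hD
  have hD0 : 0 ≤ D := by positivity
  filter_upwards [eventually_log_small D (c * Real.log 2 / 2) (by positivity)] with κ hκ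
  have h4 : ((2 : ℝ) ^ κ) ^ 2 = (4 : ℝ) ^ κ := by
    rw [← pow_mul, mul_comm, pow_mul]
    norm_num
  have hlog : Real.log ((2 : ℝ) ^ κ) = (κ : ℝ) * Real.log 2 := Real.log_pow _ _
  rw [Real.norm_of_nonneg (Nat.cast_nonneg _), h4, hlog,
    Real.norm_of_nonneg (by positivity)]
  have hsum : ((((sched κ).map fun op => 2 ^ (2 * κ - jj op) * tA (nA op)).sum : ℕ) : ℝ)
      ≤ (4 : ℝ) ^ κ * (M0 + 3640 * ε) * ((sched κ).length : ℝ)
        + (4 : ℝ) ^ κ * (520 * ε) * ((((sched κ).map jj).sum : ℕ) : ℝ) := by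
    have := sum_le_affine (sched κ)
      (fun op => (((2 ^ (2 * κ - jj op) * tA (nA op) : ℕ)) : ℝ))
      ((4 : ℝ) ^ κ * (M0 + 3640 * ε)) ((4 : ℝ) ^ κ * (520 * ε))
      (fun op hop => op_bound tA ε hε0.le (max n0 1) h0 M0 hM hM00 κ op (sched_jj_le κ op hop))
    refine le_trans (le_of_eq ?_) this
    rw [Nat.cast_list_sum, List.map_map]
    rfl
  have hlen : ((sched κ).length : ℝ) ≤ 7 * (Nat.log 2 κ : ℝ) + 8 := by
    exact_mod_cast sched_length_le κ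
  have hw : ((((sched κ).map jj).sum : ℕ) : ℝ) ≤ 42 * (κ : ℝ) := by
    exact_mod_cast sched_wsum_le κ
  have hmain : (cMain tA κ : ℝ) ≤ (C : ℝ) * ((4 : ℝ) ^ κ * (((sched κ).length : ℝ) + 1))
      + 12 * ((((sched κ).map fun op => 2 ^ (2 * κ - jj op) * tA (nA op)).sum : ℕ) : ℝ) := by
    exact_mod_cast hC tA κ
  have h4pos : (0 : ℝ) < (4 : ℝ) ^ κ := by positivity
  have hlen0 : (0 : ℝ) ≤ ((sched κ).length : ℝ) := Nat.cast_nonneg _
  calc (cMain tA κ : ℝ)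
      ≤ (C : ℝ) * ((4 : ℝ) ^ κ * (((sched κ).length : ℝ) + 1))
        + 12 * ((4 : ℝ) ^ κ * (M0 + 3640 * ε) * ((sched κ).length : ℝ)
        + (4 : ℝ) ^ κ * (520 * ε) * ((((sched κ).map jj).sum : ℕ) : ℝ)) := by linarith
    _ ≤ (C : ℝ) * ((4 : ℝ) ^ κ * ((7 * (Nat.log 2 κ : ℝ) + 8) + 1))
        + 12 * ((4 : ℝ) ^ κ * (M0 + 3640 * ε) * ((7 * (Nat.log 2 κ : ℝ) + 8) + 1)
        + (4 : ℝ) ^ κ * (520 * ε) * (42 * (κ : ℝ))) := by
          have : ((sched κ).length : ℝ) ≤ (7 * (Nat.log 2 κ : ℝ) + 8) + 1 := by linarith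
          gcongr
    _ = (4 : ℝ) ^ κ * (D * (7 * (Nat.log 2 κ : ℝ) + 9) + 262080 * ε * κ) := by
          rw [hD]; ring
    _ ≤ (4 : ℝ) ^ κ * (c * Real.log 2 / 2 * κ + 262080 * ε * κ) := by gcongr
    _ = c * ((4 : ℝ) ^ κ * ((κ : ℝ) * Real.log 2)) := by
          rw [hε]; ring

end Vale.Agent.P338.TM
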