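import Vale.Agent.P338.TM.SpecMain
import Vale.Agent.P338.TM.Timing

namespace Vale.Agent.P338.TM

open Vale.Agent.P338

/-- Matrix transposition reduces to integer multiplication. -/
theorem transposition_of_multiplication (k : ℕ) [NeZero k] (A : Machine k) (hA : A.Multiplies)
    (h : (fun n : ℕ => (A.worstTime n : ℝ)) =o[Filter.atTop] (fun n : ℕ => (n : ℝ) * Real.log n)) :
    ∃ (K : ℕ) (_ : NeZero K) (B : Machine K), (∀ κ : ℕ, B.TransposesAt (2 ^ κ)) ∧
      (fun κ : ℕ => (B.transTime (2 ^ κ) : ℝ)) =o[Filter.atTop]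
        (fun κ : ℕ => ((2 : ℝ) ^ κ) ^ 2 * Real.log ((2 : ℝ) ^ κ)) := by
  refine ⟨bigK k, inferInstance, machB A, machB_transposes A hA, ?_⟩
  refine Asymptotics.IsBigO.trans_isLittleO ?_ (cMain_isLittleO A.worstTime h)
  apply Asymptotics.IsBigO.of_bound 1
  filter_upwards with κ
  rw [Real.norm_of_nonneg (Nat.cast_nonneg _), Real.norm_of_nonneg (Nat.cast_nonneg _), one_mul]
  exact_mod_cast machB_time A hA κ

end Vale.Agent.P338.TM
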