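import Vale.Agent.P338.TM.Model5

/-!
Matrices of arbitrary size `n ≥ 1`: pad to size `2^κ`, `κ = ⌈log2 n⌉`, transpose, crop.
-/

namespace Vale.Agent.P338.TM

open Vale.Agent.P338
open Classical

noncomputable section

section generic

variable {ι Γ : Type} [TapeAlpha Γ] [DecidableEq ι]

/-- Exit label: is the number on the unary tape `x` smaller than the one on `y`?
(Heads at the start before and after.) -/
def ltU (x y : ι) : Prog ι Γ :=
  seq (scan fun a => if a x = bit true ∧ a y = bit true then
      some ((Instr.nil.set x (a x) Move.right).set y (a y) Move.right) else none)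
  (ite (test fun a => decide (a x ≠ bit true ∧ a y = bit true))
    (seq (rewind x) (seq (rewind y) (test fun _ => true)))
    (seq (rewind x) (seq (rewind y) (test fun _ => false))))

end generic

variable {Γ : Type} [TapeAlpha Γ]

/-- From `d8 = n`: `T0 := κ = ⌈log2 n⌉`, `U := 2^κ`, `V := 2^κ - n`, `W := n`.
(`d5` is a scratch tape.) -/
def ceilLog : Prog Own Γ :=
  seqs [wr Own.U (bit true) Move.stay,
    while_ (ltU Own.U Own.d8) (seq (dbl Own.U Own.d5) (wr Own.T0 (bit true) Move.right)),
    rewind Own.T0,
    mvU Own.d8 Own.U Move.right, appendAll Own.U Own.V, rewind Own.U, rewind Own.V,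
    appendAll Own.d8 Own.W, rewind Own.d8, rewind Own.W]

/-- Replace the `n × n` matrix on `X` by the padded `2^κ × 2^κ` matrix. -/
def padX : Prog Own Γ :=
  seqs [forU Own.d8 (seq (cpU Own.W Own.X Own.Y) (zerosU Own.V Own.Y)),
    forU Own.V (zerosU Own.U Own.Y),
    erase Own.X, rewind Own.Y, appendAll Own.Y Own.X, erase Own.Y, rewind Own.X]

/-- Erase the auxiliary numbers. -/
def clearAux : Prog Own Γ := seqs [erase Own.U, erase Own.V, erase Own.W]

/-- Write the upper left `n × n` corner of the `2^κ × 2^κ` matrix on `X` to the output tape. -/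
def outputCrop : Prog Own Γ :=
  forU Own.d8 (seqs [cpU Own.W Own.X Own.outp, wr Own.outp sep Move.right,
    mvU Own.V Own.X Move.right])

variable {k : ℕ} [NeZero k]

/-- The transposition program for all sizes. -/
def mainQ (A : Machine k) : Prog (Fin k ⊕ Own) (GA A) :=
  seqs [liftO (seqs [initAll, parse, ceilLog, padX, clearAux, genAll]), interp A,
    liftO (seqs [ceilLog, outputCrop])]

end

/-- `⌈log2 n⌉`. -/
def clog (n : ℕ) : ℕ := Nat.clog 2 n

/-- The padded matrix (size `N2 ≥ n`), row after row. -/
def padList (n N2 : ℕ) (D : List Bool) : List Bool :=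
  cat (fun i => slices n D i ++ zs (N2 - n)) 0 n ++ zs ((N2 - n) * N2)

/-- The upper left `n × n` corner of an `N2 × N2` matrix: the list of its rows. -/
def cropRows (n N2 : ℕ) (D : List Bool) : List (List Bool) :=
  (List.range n).map fun i => (slices N2 D i).take n

def cMainQ (tA : ℕ → ℕ) (n : ℕ) : ℕ :=
  cInterp tA (2 * clog n) (sched (clog n)) + 300 * (2 ^ clog n * 2 ^ clog n) + 5000 * (clog n + 1)
    + 1000

end Vale.Agent.P338.TM
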