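import Vale.Agent.P338.TM.Timing
import Vale.Agent.P338.TM.Progs6

namespace Vale.Agent.P338.TM

open Vale.Agent.P338

private theorem rest_isLittleO :
    (fun κ : ℕ => (300 * ((2 : ℝ) ^ κ * 2 ^ κ) + 5000 * ((κ : ℝ) + 1) + 1000)) =o[Filter.atTop]
      (fun κ : ℕ => ((2 : ℝ) ^ κ) ^ 2 * Real.log ((2 : ℝ) ^ κ)) := by
  rw [Asymptotics.isLittleO_iff]
  intro c hc
  have hl2 : 0 < Real.log 2 := Real.log_pos (by norm_num)
  obtain ⟨K, hK⟩ := exists_nat_ge (6300 / (c * Real.log 2))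
  filter_upwards [Filter.eventually_ge_atTop K] with κ hκ
  have hκR : (K : ℝ) ≤ (κ : ℝ) := by exact_mod_cast hκ
  have h1 : 6300 ≤ c * ((κ : ℝ) * Real.log 2) := by
    have h2 : 6300 / (c * Real.log 2) ≤ (κ : ℝ) := hK.trans hκR
    rw [div_le_iff₀ (by positivity)] at h2
    linarith
  have hp1 : (1 : ℝ) ≤ (2 : ℝ) ^ κ := one_le_pow₀ (by norm_num)
  have hk2 : (κ : ℝ) + 1 ≤ (2 : ℝ) ^ κ := by
    have : κ + 1 ≤ 2 ^ κ := Nat.lt_two_pow_self
    exact_mod_cast this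
  have hsq : (2 : ℝ) ^ κ ≤ ((2 : ℝ) ^ κ) ^ 2 := by nlinarith
  have hlog : Real.log ((2 : ℝ) ^ κ) = (κ : ℝ) * Real.log 2 := Real.log_pow 2 κ
  rw [hlog]
  have hκ0 : (0 : ℝ) ≤ (κ : ℝ) := Nat.cast_nonneg _
  rw [Real.norm_of_nonneg (by positivity), Real.norm_of_nonneg (by positivity)]
  calc 300 * ((2 : ℝ) ^ κ * 2 ^ κ) + 5000 * ((κ : ℝ) + 1) + 1000
      ≤ 6300 * ((2 : ℝ) ^ κ) ^ 2 := by nlinarith
    _ ≤ (c * ((κ : ℝ) * Real.log 2)) * ((2 : ℝ) ^ κ) ^ 2 :=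
        mul_le_mul_of_nonneg_right h1 (by positivity)
    _ = c * (((2 : ℝ) ^ κ) ^ 2 * ((κ : ℝ) * Real.log 2)) := by ring

private theorem clog_tendsto : Filter.Tendsto clog Filter.atTop Filter.atTop := by
  rw [Filter.tendsto_atTop]
  intro b
  filter_upwards [Filter.eventually_ge_atTop (2 ^ b)] with n hn
  have h1 : Nat.clog 2 (2 ^ b) ≤ Nat.clog 2 n := Nat.clog_mono_right 2 hn
  rw [Nat.clog_pow 2 b (by norm_num)] at h1
  exact h1

private theorem two_pow_clog_le {n : ℕ} (hn : 2 ≤ n) : 2 ^ clog n ≤ 2 * n := by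
  unfold clog
  have h1 := Nat.pow_pred_clog_lt_self (b := 2) (by norm_num) (x := n) (by omega)
  have h2 : 0 < Nat.clog 2 n := Nat.clog_pos (by norm_num) hn
  obtain ⟨m, hm⟩ : ∃ m, Nat.clog 2 n = m + 1 := ⟨Nat.clog 2 n - 1, by omega⟩
  rw [hm] at h1 ⊢
  simp only [Nat.pred_succ] at h1
  rw [pow_succ]
  omega

/-- From `cMain_isLittleO`: `cInterp tA (2κ) (sched κ) ≤ cMain tA κ`, `κ = clog n → ∞`,
`2^κ < 2n`, so `4^κ κ = O(n^2 log n)`. -/
theorem cMainQ_isLittleO (tA : ℕ → ℕ)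
    (h : (fun n : ℕ => (tA n : ℝ)) =o[Filter.atTop] (fun n : ℕ => (n : ℝ) * Real.log n)) :
    (fun n : ℕ => (cMainQ tA n : ℝ)) =o[Filter.atTop]
      (fun n : ℕ => (n : ℝ) ^ 2 * Real.log n) := by
  have h1 := (cMain_isLittleO tA h).add rest_isLittleO
  have h2 : (fun κ : ℕ => ((cInterp tA (2 * κ) (sched κ) + 300 * (2 ^ κ * 2 ^ κ) + 5000 * (κ + 1)
      + 1000 : ℕ) : ℝ)) =o[Filter.atTop]
      (fun κ : ℕ => ((2 : ℝ) ^ κ) ^ 2 * Real.log ((2 : ℝ) ^ κ)) := by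
    refine Asymptotics.IsBigO.trans_isLittleO ?_ h1
    apply Asymptotics.IsBigO.of_bound 1
    filter_upwards with κ
    have hle : cInterp tA (2 * κ) (sched κ) ≤ cMain tA κ := by
      unfold cMain; omega
    have hleR : (cInterp tA (2 * κ) (sched κ) : ℝ) ≤ (cMain tA κ : ℝ) := by exact_mod_cast hle
    have hc0 : (0 : ℝ) ≤ (cMain tA κ : ℝ) := Nat.cast_nonneg _
    have hκ0 : (0 : ℝ) ≤ (κ : ℝ) := Nat.cast_nonneg _
    rw [Real.norm_of_nonneg (Nat.cast_nonneg _), Real.norm_of_nonneg (by positivity)]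
    push_cast
    linarith
  have h3 := h2.comp_tendsto clog_tendsto
  have h4 : ((fun κ : ℕ => ((2 : ℝ) ^ κ) ^ 2 * Real.log ((2 : ℝ) ^ κ)) ∘ clog) =O[Filter.atTop]
      (fun n : ℕ => (n : ℝ) ^ 2 * Real.log n) := by
    apply Asymptotics.IsBigO.of_bound 8
    filter_upwards [Filter.eventually_ge_atTop 2] with n hn
    have hnR : (2 : ℝ) ≤ (n : ℝ) := by exact_mod_cast hn
    have hp : (2 : ℝ) ^ clog n ≤ 2 * (n : ℝ) := by
      have := two_pow_clog_le hn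
      exact_mod_cast this
    have hp1 : (1 : ℝ) ≤ (2 : ℝ) ^ clog n := one_le_pow₀ (by norm_num)
    have hlog0 : 0 ≤ Real.log ((2 : ℝ) ^ clog n) := Real.log_nonneg hp1
    have hlogn : 0 < Real.log (n : ℝ) := Real.log_pos (by linarith)
    have hlog : Real.log ((2 : ℝ) ^ clog n) ≤ 2 * Real.log (n : ℝ) := by
      calc Real.log ((2 : ℝ) ^ clog n) ≤ Real.log (2 * (n : ℝ)) :=
            Real.log_le_log (by positivity) hp
        _ = Real.log 2 + Real.log (n : ℝ) := Real.log_mul (by norm_num) (by linarith)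
        _ ≤ Real.log (n : ℝ) + Real.log (n : ℝ) := by
            have := Real.log_le_log (by norm_num) hnR
            linarith
        _ = 2 * Real.log (n : ℝ) := by ring
    have hsq : ((2 : ℝ) ^ clog n) ^ 2 ≤ 4 * (n : ℝ) ^ 2 := by nlinarith
    simp only [Function.comp]
    rw [Real.norm_of_nonneg (by positivity), Real.norm_of_nonneg (by positivity)]
    calc ((2 : ℝ) ^ clog n) ^ 2 * Real.log ((2 : ℝ) ^ clog n)
        ≤ (4 * (n : ℝ) ^ 2) * (2 * Real.log (n : ℝ)) :=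
          mul_le_mul hsq hlog hlog0 (by positivity)
      _ = 8 * ((n : ℝ) ^ 2 * Real.log (n : ℝ)) := by ring
  have h5 := h3.trans_isBigO h4
  exact h5

end Vale.Agent.P338.TM
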