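import Vale.Agent.P338.TM.SpecMainQ
import Vale.Agent.P338.TM.TimingQ

namespace Vale.Agent.P338.TM

open Vale.Agent.P338

/-- Matrix transposition (all sizes) reduces to integer multiplication. -/
theorem transposition_of_multiplication_all (k : ℕ) [NeZero k] (A : Machine k) (hA : A.Multiplies)
    (h : (fun n : ℕ => (A.worstTime n : ℝ)) =o[Filter.atTop] (fun n : ℕ => (n : ℝ) * Real.log n)) :
    ∃ (K : ℕ) (_ : NeZero K) (B : Machine K), (∀ n : ℕ, 1 ≤ n → B.TransposesAt n) ∧
      (fun n : ℕ => (B.transTime n : ℝ)) =o[Filter.atTop]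
        (fun n : ℕ => (n : ℝ) ^ 2 * Real.log n) := by
  refine ⟨bigK k, inferInstance, machQ A, machQ_transposes A hA, ?_⟩
  refine Asymptotics.IsBigO.trans_isLittleO ?_ (cMainQ_isLittleO A.worstTime h)
  apply Asymptotics.IsBigO.of_bound 1
  filter_upwards [Filter.eventually_ge_atTop 1] with n hn
  rw [Real.norm_of_nonneg (Nat.cast_nonneg _), Real.norm_of_nonneg (Nat.cast_nonneg _), one_mul]
  exact_mod_cast machQ_time A hA n hn

end Vale.Agent.P338.TM
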