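import Vale.Agent.P338.TM.CoreBasic
import Vale.Agent.P338.TM.CoreSeq
import Vale.Agent.P338.TM.CoreWhile
import Vale.Agent.P338.TM.CoreZip

/-!
Run lemmas on abstract states, instruction builders, zipper computation rules.
-/

namespace Vale.Agent.P338.TM

open Vale.Agent.P338

variable {ι Γ : Type} [TapeAlpha Γ]

theorem Prog.SRuns.mono {P : Prog ι Γ} {s s' : St ι Γ} {T T' : ℕ} {b : Bool}
    (h : P.SRuns s T s' b) (hT : T ≤ T') : P.SRuns s T' s' b :=
  Prog.Runs.mono h hT

theorem prim_sruns (f : (ι → Γ) → Instr ι Γ) (s : St ι Γ) :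
    (prim f).SRuns s 1 ((f (sreads s)).sapp s) true := by
  have h := prim_runs f (conc s)
  rw [reads_conc, app_conc] at h
  exact h

theorem test_sruns (p : (ι → Γ) → Bool) (s : St ι Γ) :
    (test p).SRuns s 1 s (p (sreads s)) := by
  have h := test_runs p (conc s)
  rw [reads_conc] at h
  exact h

theorem skip_sruns (s : St ι Γ) : (skip : Prog ι Γ).SRuns s 0 s true := skip_runs _

theorem scan_sstop (g : (ι → Γ) → Option (Instr ι Γ)) (s : St ι Γ) (h : g (sreads s) = none) :
    (scan g).SRuns s 0 s true := by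
  apply scan_stop
  rw [reads_conc]; exact h

theorem scan_sstep (g : (ι → Γ) → Option (Instr ι Γ)) (s : St ι Γ) (f : Instr ι Γ)
    (h : g (sreads s) = some f) {T : ℕ} {s' : St ι Γ} {b : Bool}
    (h' : (scan g).SRuns (f.sapp s) T s' b) : (scan g).SRuns s (T + 1) s' b := by
  apply scan_step g (conc s) f
  · rw [reads_conc]; exact h
  · rw [app_conc]; exact h'

theorem seq_sruns {P R : Prog ι Γ} {s s1 s2 : St ι Γ} {T1 T2 : ℕ} {b1 b2 : Bool}
    (h1 : P.SRuns s T1 s1 b1) (h2 : R.SRuns s1 T2 s2 b2) :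
    (seq P R).SRuns s (T1 + T2 + 1) s2 b2 := seq_runs h1 h2

theorem ite_sruns_true {P R S : Prog ι Γ} {s s1 s2 : St ι Γ} {T1 T2 : ℕ} {b2 : Bool}
    (h1 : P.SRuns s T1 s1 true) (h2 : R.SRuns s1 T2 s2 b2) :
    (ite P R S).SRuns s (T1 + T2 + 1) s2 b2 := ite_runs_true h1 h2

theorem ite_sruns_false {P R S : Prog ι Γ} {s s1 s2 : St ι Γ} {T1 T2 : ℕ} {b2 : Bool}
    (h1 : P.SRuns s T1 s1 false) (h2 : S.SRuns s1 T2 s2 b2) :
    (ite P R S).SRuns s (T1 + T2 + 1) s2 b2 := ite_runs_false h1 h2

theorem while_sfalse {P R : Prog ι Γ} {s s1 : St ι Γ} {T1 : ℕ}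
    (h1 : P.SRuns s T1 s1 false) : (while_ P R).SRuns s (T1 + 1) s1 true := while_false h1

theorem while_strue {P R : Prog ι Γ} {s s1 s2 s3 : St ι Γ} {T1 T2 T3 : ℕ} {b b' : Bool}
    (h1 : P.SRuns s T1 s1 true) (h2 : R.SRuns s1 T2 s2 b) (h3 : (while_ P R).SRuns s2 T3 s3 b') :
    (while_ P R).SRuns s (T1 + T2 + T3 + 2) s3 b' := while_true h1 h2 h3

/-- Replace the final abstract state by one describing the same tapes. -/
theorem Prog.SRuns.congr_right {P : Prog ι Γ} {s s' s'' : St ι Γ} {T : ℕ} {b : Bool}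
    (h : P.SRuns s T s' b) (he : ∀ i, (s' i).toTp = (s'' i).toTp) : P.SRuns s T s'' b := by
  unfold Prog.SRuns at *
  rw [← conc_congr he]; exact h

/-- Replace the initial abstract state by one describing the same tapes. -/
theorem Prog.SRuns.congr_left {P : Prog ι Γ} {s s' s'' : St ι Γ} {T : ℕ} {b : Bool}
    (h : P.SRuns s T s' b) (he : ∀ i, (s i).toTp = (s'' i).toTp) : P.SRuns s'' T s' b := by
  unfold Prog.SRuns at *
  rw [← conc_congr he]; exact h

section builders

variable [DecidableEq ι]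

/-- The empty instruction. -/
def Instr.nil : Instr ι Γ := fun _ => none

/-- Add an action on tape `x`. -/
def Instr.set (f : Instr ι Γ) (x : ι) (w : Γ) (m : Move) : Instr ι Γ :=
  Function.update f x (some (w, m))

@[simp] theorem Instr.sapp_nil (s : St ι Γ) : (Instr.nil : Instr ι Γ).sapp s = s := rfl

@[simp] theorem Instr.sapp_set (f : Instr ι Γ) (x : ι) (w : Γ) (m : Move) (s : St ι Γ) :
    (f.set x w m).sapp s = Function.update (f.sapp s) x ((s x).act w m) := by
  funext i
  by_cases h : i = x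
  · subst h; simp [Instr.sapp, Instr.set]
  · simp [Instr.sapp, Instr.set, Function.update_of_ne h]

/-- Move the head of tape `x`. -/
def mv (x : ι) (m : Move) : Prog ι Γ := prim fun a => Instr.nil.set x (a x) m

/-- Write `w` on tape `x` and move. -/
def wr (x : ι) (w : Γ) (m : Move) : Prog ι Γ := prim fun _ => Instr.nil.set x w m

/-- Copy the scanned symbol of `x` to `y`; both heads move right. -/
def cp (x y : ι) : Prog ι Γ :=
  prim fun a => (Instr.nil.set x (a x) Move.right).set y (a x) Move.right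

/-- `P` repeated `n` times. -/
def rep : ℕ → Prog ι Γ → Prog ι Γ
  | 0, _ => skip
  | n + 1, P => seq P (rep n P)

end builders

@[simp] theorem Z_read_cons (d : List Γ) (y : Γ) (t : List Γ) : (Z d (y :: t)).read = y := rfl

@[simp] theorem Z_read_nil (d : List Γ) : (Z d ([] : List Γ)).read = blank := rfl

@[simp] theorem Z_act_right (d : List Γ) (t : List Γ) (w : Γ) :
    (Z d t).act w Move.right = Z (d ++ [w]) t.tail := by
  simp [Z, Zip.act]

@[simp] theorem Z_act_stay (d : List Γ) (t : List Γ) (w : Γ) :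
    (Z d t).act w Move.stay = Z d (w :: t.tail) := by
  simp [Z, Zip.act]

@[simp] theorem Z_act_left_snoc (d : List Γ) (x : Γ) (t : List Γ) (w : Γ) :
    (Z (d ++ [x]) t).act w Move.left = Z d (x :: w :: t.tail) := by
  simp [Z, Zip.act]

@[simp] theorem Z_act_left_nil (t : List Γ) (w : Γ) :
    (Z [] t).act w Move.left = ⟨[], lend :: w :: t.tail⟩ := by
  simp [Z, Zip.act]

@[simp] theorem sreads_apply (s : St ι Γ) (i : ι) : sreads s i = (s i).read := rfl

end Vale.Agent.P338.TM
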