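import Vale.Agent.P338.TM.Model4

/-!
Closed forms modulo `N` of the phase registers (`Ph.blks`, `Ph.rows`, `Ph.yrows`, `phAt`), and the
binomial identity behind the chirp transform.
-/

namespace Vale.Agent.P338.TM

open Vale.Agent.P338

/-- `2 * C(n,2) + n = n^2`. -/
theorem mp_two_choose (n : ℕ) : 2 * n.choose 2 + n = n * n := by
  induction n with
  | zero => rfl
  | succ n ih =>
    have h : (n + 1).choose 2 = n + n.choose 2 := by
      rw [Nat.choose_succ_succ' n 1, Nat.choose_one_right]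
    rw [h]
    nlinarith

theorem mp_choose_succ (n : ℕ) : (n + 1).choose 2 = n + n.choose 2 := by
  rw [Nat.choose_succ_succ' n 1, Nat.choose_one_right]

/-- Bluestein: `k * i = C(k,2) + C(i+1,2) - C(k-i,2)`, written for `T = 2*l + k - i`. -/
theorem mp_bluestein (l k i T : ℕ) (hi : i < l) (hT : T + i = 2 * l + k) :
    T.choose 2 + k * i = k.choose 2 + (i + 1).choose 2 + l * (2 * T - 2 * l - 1) := by
  have hT2 := mp_two_choose T
  have hk2 := mp_two_choose k
  have hi2 := mp_two_choose (i + 1)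
  obtain ⟨X, hX1, hX2⟩ : ∃ X, 2 * T - 2 * l - 1 = X ∧ X + 2 * l + 1 = 2 * T :=
    ⟨_, rfl, by omega⟩
  rw [hX1]
  generalize T.choose 2 = cT at *
  generalize k.choose 2 = ck at *
  generalize (i + 1).choose 2 = ci at *
  zify at *
  have hTe : (T : ℤ) = 2 * l + k - i := by linarith
  have hXe : (X : ℤ) = 2 * T - 2 * l - 1 := by linarith
  have a1 : 2 * (cT : ℤ) = T * T - T := by linarith
  have a2 : 2 * (ck : ℤ) = k * k - k := by linarith
  have a3 : 2 * (ci : ℤ) = (i + 1) * (i + 1) - (i + 1) := by linarith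
  have : 2 * ((cT : ℤ) + k * i) = 2 * (ck + ci + l * X) := by
    rw [mul_add, mul_add, mul_add, a1, a2, a3, hXe, hTe]
    ring
  linarith

theorem mp_bluestein_mod (e l k i T : ℕ) (hi : i < l) (hT : T + i = 2 * l + k) :
    e * T.choose 2 + e * (k * i) ≡ e * k.choose 2 + e * (i + 1).choose 2 [MOD l * e] := by
  have h := mp_bluestein l k i T hi hT
  have h2 : e * T.choose 2 + e * (k * i)
      = e * k.choose 2 + e * (i + 1).choose 2 + l * e * (2 * T - 2 * l - 1) := by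
    rw [← mul_add, h]
    ring
  rw [h2]
  exact (Nat.modEq_iff_dvd' (Nat.le_add_right _ _)).mpr (by simp) |>.symm

/-- Passing to `ZMod N`. -/
theorem mp_modEq_iff (N x y : ℕ) : x ≡ y [MOD N] ↔ (x : ZMod N) = (y : ZMod N) :=
  (ZMod.natCast_eq_natCast_iff x y N).symm

theorem mp_blks_succ (N E1 : ℕ) (p : Ph) (j : ℕ) :
    p.blks N E1 (j + 1) = (p.blks N E1 j).blk N E1 := by
  simp only [Ph.blks, Function.iterate_succ_apply']

theorem mp_rows_succ (N b E1 E2 E3 : ℕ) (p : Ph) (r : ℕ) :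
    p.rows N b E1 E2 E3 (r + 1) = ((p.rows N b E1 E2 E3 r).blks N E1 b).row N E2 E3 := by
  simp only [Ph.rows, Function.iterate_succ_apply']

theorem mp_yrows_succ (N E : ℕ) (p : Ph) (t : ℕ) :
    p.yrows N E (t + 1) = (p.yrows N E t).yrow N E := by
  simp only [Ph.yrows, Function.iterate_succ_apply']

theorem mp_blks (N E1 : ℕ) (p : Ph) (j : ℕ) :
    (p.blks N E1 j).S ≡ p.S + j * p.D + E1 * j.choose 2 [MOD N] ∧
    (p.blks N E1 j).D ≡ p.D + j * E1 [MOD N] ∧ (p.blks N E1 j).F = p.F := by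
  simp only [mp_modEq_iff]
  induction j with
  | zero => simp [Ph.blks]
  | succ j ih =>
    obtain ⟨h1, h2, h3⟩ := ih
    rw [mp_blks_succ]
    refine ⟨?_, ?_, ?_⟩
    · simp only [Ph.blk, ZMod.natCast_mod]
      rw [mp_choose_succ]
      push_cast at h1 h2 ⊢
      rw [h1, h2]
      ring
    · simp only [Ph.blk, ZMod.natCast_mod]
      push_cast at h2 ⊢
      rw [h2]
      ring
    · simpa only [Ph.blk] using h3

theorem mp_rows (N b E1 E2 E3 : ℕ) (p : Ph) (r : ℕ) :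
    (p.rows N b E1 E2 E3 r).S ≡ p.S + r * (b * p.D) + b * (b * E1 + E3) * r.choose 2
        + r * (E1 * b.choose 2) + r * p.F + E2 * r.choose 2 [MOD N] ∧
    (p.rows N b E1 E2 E3 r).D ≡ p.D + r * (b * E1 + E3) [MOD N] ∧
    (p.rows N b E1 E2 E3 r).F ≡ p.F + r * E2 [MOD N] := by
  simp only [mp_modEq_iff]
  induction r with
  | zero => simp [Ph.rows]
  | succ r ih =>
    obtain ⟨h1, h2, h3⟩ := ih
    rw [mp_rows_succ]
    obtain ⟨g1, g2, g3⟩ := mp_blks N E1 (p.rows N b E1 E2 E3 r) b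
    simp only [mp_modEq_iff] at g1 g2
    refine ⟨?_, ?_, ?_⟩
    · simp only [Ph.row, ZMod.natCast_mod]
      rw [mp_choose_succ, g3]
      push_cast at h1 h2 h3 g1 g2 ⊢
      rw [g1, h1, h2, h3]
      ring
    · simp only [Ph.row, ZMod.natCast_mod]
      push_cast at h2 g2 ⊢
      rw [g2, h2]
      ring
    · simp only [Ph.row, ZMod.natCast_mod]
      rw [g3]
      push_cast at h3 ⊢
      rw [h3]
      ring

theorem mp_blks_S_lt (N : ℕ) (hN : 0 < N) (E1 : ℕ) (p : Ph) (hp : p.S < N) (j : ℕ) :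
    (p.blks N E1 j).S < N := by
  cases j with
  | zero => simpa [Ph.blks] using hp
  | succ j =>
    rw [mp_blks_succ]
    exact Nat.mod_lt _ hN

theorem mp_rows_S_lt (N : ℕ) (hN : 0 < N) (b E1 E2 E3 : ℕ) (p : Ph) (hp : p.S < N) (r : ℕ) :
    (p.rows N b E1 E2 E3 r).S < N := by
  cases r with
  | zero => simpa [Ph.rows] using hp
  | succ r =>
    rw [mp_rows_succ]
    exact Nat.mod_lt _ hN

theorem mp_phAt_lt (P : Par) (hN : 0 < P.N) (E1 E2 E3 iD iF n : ℕ) :
    phAt P E1 E2 E3 ⟨0, iD, iF⟩ n < P.N :=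
  mp_blks_S_lt _ hN _ _ (mp_rows_S_lt _ hN _ _ _ _ _ hN _) _

theorem mp_chirp_lt (N : ℕ) (hN : 0 < N) (E t : ℕ) : (Ph.yrows N E ⟨0, 0, 0⟩ t).S < N := by
  cases t with
  | zero => simpa [Ph.yrows] using hN
  | succ t =>
    rw [mp_yrows_succ]
    exact Nat.mod_lt _ hN

theorem mp_chirp_both (N E t : ℕ) : (Ph.yrows N E ⟨0, 0, 0⟩ t).S ≡ E * t.choose 2 [MOD N] ∧
    (Ph.yrows N E ⟨0, 0, 0⟩ t).F ≡ E * t [MOD N] := by
  simp only [mp_modEq_iff]
  induction t with
  | zero => simp [Ph.yrows]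
  | succ t ih =>
    obtain ⟨h1, h2⟩ := ih
    rw [mp_yrows_succ]
    refine ⟨?_, ?_⟩
    · simp only [Ph.yrow, ZMod.natCast_mod]
      rw [mp_choose_succ]
      push_cast at h1 h2 ⊢
      rw [h1, h2]
      ring
    · simp only [Ph.yrow, ZMod.natCast_mod]
      push_cast at h2 ⊢
      rw [h2]
      ring

theorem mp_chirp (N E t : ℕ) : (Ph.yrows N E ⟨0, 0, 0⟩ t).S ≡ E * t.choose 2 [MOD N] :=
  (mp_chirp_both N E t).1

/-- The general closed form of `phAt` in `ZMod N`. -/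
theorem mp_phAt (P : Par) (E1 E2 E3 : ℕ) (p : Ph) (n : ℕ) :
    (phAt P E1 E2 E3 p n : ZMod P.N) =
      (p.S + (n / P.b : ℕ) * (P.b * p.D) + P.b * (P.b * E1 + E3) * ((n / P.b).choose 2 : ℕ)
        + (n / P.b : ℕ) * (E1 * (P.b.choose 2 : ℕ)) + (n / P.b : ℕ) * p.F
        + E2 * ((n / P.b).choose 2 : ℕ))
      + (n % P.b : ℕ) * (p.D + (n / P.b : ℕ) * (P.b * E1 + E3))
      + E1 * ((n % P.b).choose 2 : ℕ) := by
  obtain ⟨h1, h2, _⟩ := mp_rows P.N P.b E1 E2 E3 p (n / P.b)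
  obtain ⟨g1, _, _⟩ := mp_blks P.N E1 (p.rows P.N P.b E1 E2 E3 (n / P.b)) (n % P.b)
  simp only [mp_modEq_iff] at h1 h2 g1
  unfold phAt
  push_cast at h1 h2 g1 ⊢
  rw [g1, h1, h2]

/-- `C(r*b+c+1,2) = r*b + b^2*C(r,2) + r*C(b,2) + c*(1+r*b) + C(c,2)`. -/
theorem mp_choose_split (b r c : ℕ) :
    (r * b + c + 1).choose 2
      = r * b + b * b * r.choose 2 + r * b.choose 2 + c * (1 + r * b) + c.choose 2 := by
  have h0 := mp_two_choose (r * b + c + 1)
  have h1 := mp_two_choose r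
  have h2 := mp_two_choose b
  have h3 := mp_two_choose c
  generalize (r * b + c + 1).choose 2 = c0 at *
  generalize r.choose 2 = c1 at *
  generalize b.choose 2 = c2 at *
  generalize c.choose 2 = c3 at *
  zify at *
  have a0 : 2 * (c0 : ℤ) = (r * b + c + 1) * (r * b + c + 1) - (r * b + c + 1) := by linarith
  have a1 : 2 * (c1 : ℤ) = r * r - r := by linarith
  have a2 : 2 * (c2 : ℤ) = b * b - b := by linarith
  have a3 : 2 * (c3 : ℤ) = c * c - c := by linarith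
  have : 2 * (c0 : ℤ) = 2 * (r * b + b * b * c1 + r * c2 + c * (1 + r * b) + c3) := by
    have e : 2 * ((r : ℤ) * b + b * b * c1 + r * c2 + c * (1 + r * b) + c3)
        = 2 * (r * b) + b * b * (2 * c1) + r * (2 * c2) + 2 * (c * (1 + r * b)) + 2 * c3 := by
      ring
    rw [e, a0, a1, a2, a3]
    ring
  linarith

theorem mp_div_add_mod (b n : ℕ) : n / b * b + n % b = n := by
  rw [mul_comm]
  exact Nat.div_add_mod n b

/-- First stage. (Exact identity behind it: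
`C(r*b+c+1,2) = r*b + b^2*C(r,2) + r*C(b,2) + c*(1+r*b) + C(c,2)`.) -/
theorem mp_ph1 (P : Par) (hb : 0 < P.b) (n : ℕ) :
    phAt P 1 0 0 ⟨0, 1, 0⟩ n ≡ (n + 1).choose 2 [MOD P.N] := by
  rw [mp_modEq_iff, mp_phAt]
  have h := mp_choose_split P.b (n / P.b) (n % P.b)
  rw [mp_div_add_mod] at h
  rw [h]
  push_cast
  ring

/-- Second stage. -/
theorem mp_ph2 (P : Par) (hb : 0 < P.b) (n : ℕ) :
    phAt P 1 P.b 0 ⟨0, 1, P.b⟩ n ≡ (n + 1).choose 2 + P.b * (n / P.b + 1).choose 2 [MOD P.N] := by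
  rw [mp_modEq_iff, mp_phAt]
  have h := mp_choose_split P.b (n / P.b) (n % P.b)
  rw [mp_div_add_mod] at h
  rw [h, mp_choose_succ]
  push_cast
  ring

/-- `a * b = 0` in `ZMod N`. -/
theorem mp_ab_zero (P : Par) : (P.a : ZMod P.N) * (P.b : ZMod P.N) = 0 := by
  have h : ((P.a * P.b : ℕ) : ZMod P.N) = 0 := by
    have := ZMod.natCast_self P.N
    simpa only [Par.N] using this
  simpa only [Nat.cast_mul] using h

/-- `a * C(b,2) + H = 0` in `ZMod N`. -/
theorem mp_half_zero (P : Par) (hb2 : 2 ∣ P.b) (hH : 2 * P.H = P.a * P.b) :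
    (P.a : ZMod P.N) * ((P.b.choose 2 : ℕ) : ZMod P.N) + (P.H : ZMod P.N) = 0 := by
  obtain ⟨b', hb'⟩ := hb2
  have h2 := mp_two_choose P.b
  have e : P.a * P.b.choose 2 + P.H = P.a * P.b * b' := by
    have e2 : 2 * (P.a * P.b.choose 2 + P.H) = 2 * (P.a * P.b * b') := by
      have e3 : 2 * (P.a * P.b.choose 2 + P.H) + P.a * P.b
          = P.a * (2 * P.b.choose 2 + P.b) + 2 * P.H := by ring
      have e4 : 2 * (P.a * P.b * b') = P.a * P.b * P.b := by
        conv_rhs => rw [hb']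
        rw [hb']
        ring
      rw [h2, hH] at e3
      rw [e4]
      have e5 : P.a * (P.b * P.b) = P.a * P.b * P.b := by ring
      omega
    omega
  have h : ((P.a * P.b.choose 2 + P.H : ℕ) : ZMod P.N) = 0 := by
    rw [e]
    push_cast
    rw [mp_ab_zero]
    ring
  simpa only [Nat.cast_add, Nat.cast_mul] using h

/-- Third stage (`a * C(b,2) + H = N * (b/2)` is divisible by `N = a * b`). -/
theorem mp_ph3 (P : Par) (hb : 0 < P.b) (hb2 : 2 ∣ P.b) (hH : 2 * P.H = P.a * P.b) (n : ℕ) :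
    phAt P P.a 0 1 ⟨0, P.a, P.H⟩ n ≡
      P.b * (n / P.b).choose 2 + (n / P.b) * (n % P.b) + P.a * (n % P.b + 1).choose 2
      [MOD P.N] := by
  rw [mp_modEq_iff, mp_phAt, mp_choose_succ]
  have h1 := mp_ab_zero P
  have h2 := mp_half_zero P hb2 hH
  push_cast
  generalize ((n / P.b : ℕ) : ZMod P.N) = r at *
  generalize ((n % P.b : ℕ) : ZMod P.N) = c at *
  generalize (((n / P.b).choose 2 : ℕ) : ZMod P.N) = cr at *
  generalize (((n % P.b).choose 2 : ℕ) : ZMod P.N) = cc at *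
  generalize ((P.b.choose 2 : ℕ) : ZMod P.N) = cb at *
  linear_combination (r + (P.b : ZMod P.N) * cr + c * r) * h1 + r * h2

/-- Last stage. -/
theorem mp_ph4 (P : Par) (hb : 0 < P.b) (hb2 : 2 ∣ P.b) (hH : 2 * P.H = P.a * P.b) (n : ℕ) :
    phAt P P.a 0 0 ⟨0, 0, P.H⟩ n ≡ P.a * (n % P.b).choose 2 [MOD P.N] := by
  rw [mp_modEq_iff, mp_phAt]
  have h1 := mp_ab_zero P
  have h2 := mp_half_zero P hb2 hH
  push_cast
  generalize ((n / P.b : ℕ) : ZMod P.N) = r at *
  generalize ((n % P.b : ℕ) : ZMod P.N) = c at *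
  generalize (((n / P.b).choose 2 : ℕ) : ZMod P.N) = cr at *
  generalize (((n % P.b).choose 2 : ℕ) : ZMod P.N) = cc at *
  generalize ((P.b.choose 2 : ℕ) : ZMod P.N) = cb at *
  linear_combination ((P.b : ZMod P.N) * cr + c * r) * h1 + r * h2

end Vale.Agent.P338.TM
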