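import Vale.Agent.P338.TM.MathRoot
import Vale.Agent.P338.TM.MathPhase

/-!
The four stages in a commutative ring with an element `ω`, `ω ^ N = 1`: definitions and the
chirp kernel identity.
-/

namespace Vale.Agent.P338.TM

open Vale.Agent.P338
open Finset

variable {A : Type*} [CommRing A]

/-- One stage in a ring (`s` = phases, `c` = chirp phases, `l` = length, `st` = stride). -/
def stageA (ω : A) (N : ℕ) (s c : ℕ → ℕ) (l st : ℕ) (V : ℕ → A) (p : ℕ) : A :=
  ∑ i ∈ range l,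
    (V (p / (l * st) * (l * st) + i * st + p % st)
      * ω ^ (s (p / (l * st) * (l * st) + i * st + p % st)))
      * ω ^ (N - c (2 * l + p % (l * st) / st - i))

/-- The transform of `V`. -/
def dftA (ω : A) (N : ℕ) (V : ℕ → A) (n : ℕ) : A := ∑ j ∈ range N, V j * ω ^ (j * n)

/-- The intermediate transform after the second stage. -/
def midA (ω : A) (N a b : ℕ) (V : ℕ → A) (p : ℕ) : A :=
  ∑ i ∈ range a, dftA ω N V (i * b + p % b) * ω ^ (i * b + p % b) * ω ^ (b * (p / b * i))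

/-- Chirp kernel.  With `T = 2*l + k - i`: `ω^(N - c T) * ω^(c T) = 1`, `c T ≡ e * C(T,2)` and
`mp_bluestein_mod`; use `mr_pow_eq` to compare powers of `ω`. -/
theorem mh_kernel (ω : A) (N l e : ℕ) (hN : N = l * e) (hω : ω ^ N = 1) (c : ℕ → ℕ)
    (hc : ∀ t, c t ≡ e * t.choose 2 [MOD N]) (hcN : ∀ t, c t ≤ N) (k i : ℕ) (hi : i < l) :
    ω ^ (N - c (2 * l + k - i)) * ω ^ (e * k.choose 2) * ω ^ (e * (i + 1).choose 2)
      = ω ^ (e * (k * i)) := by
  obtain ⟨T, hT⟩ : ∃ T, T = 2 * l + k - i := ⟨_, rfl⟩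
  have hTi : T + i = 2 * l + k := by omega
  rw [← hT]
  have h1 : ω ^ (N - c T) * ω ^ (c T) = 1 := by
    rw [← pow_add, Nat.sub_add_cancel (hcN T), hω]
  have h2 : c T + e * (k * i) ≡ e * k.choose 2 + e * (i + 1).choose 2 [MOD N] := by
    have h3 := mp_bluestein_mod e l k i T hi hTi
    rw [← hN] at h3
    exact ((hc T).add_right _).trans h3
  have h4 : ω ^ (c T) * ω ^ (e * (k * i)) = ω ^ (e * k.choose 2) * ω ^ (e * (i + 1).choose 2) := by
    rw [← pow_add, ← pow_add]
    exact mr_pow_eq ω N hω h2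
  rw [mul_assoc, ← h4, ← mul_assoc, h1, one_mul]

theorem mh_sum_range_mul {M : Type*} [AddCommMonoid M] (f : ℕ → M) (a b : ℕ) :
    ∑ n ∈ range (a * b), f n = ∑ i ∈ range a, ∑ c ∈ range b, f (i * b + c) := by
  induction a with
  | zero => simp
  | succ a ih => rw [Nat.succ_mul, sum_range_add, ih, sum_range_succ]

end Vale.Agent.P338.TM
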