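import Vale.Agent.P338.TM.MathStage2
import Vale.Agent.P338.TM.MathChainDefs

/-!
The stages, cast to a commutative ring in which `2 ^ (2 * m) = 1`.
-/

namespace Vale.Agent.P338.TM

open Vale.Agent.P338
open Finset

variable {A : Type*} [CommRing A]

theorem mk_cast_convW (P : Par) (s c : ℕ → ℕ) (l st : ℕ) (v : ℕ → ℕ) (p : ℕ) :
    ((convW P s c l st v p : ℕ) : A)
      = stageA ((2 : A) ^ P.g) P.N s c l st (fun n => (v n : A)) p := by
  unfold convW stageA
  push_cast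
  apply Finset.sum_congr rfl
  intro i _
  rw [← pow_mul, ← pow_mul, Nat.mul_comm P.g, Nat.mul_comm P.g]

theorem mk_lval_blk_lt (k : ℕ) (blk : ℕ → List Bool) (hblk : ∀ n, (blk n).length = k) (n : ℕ) :
    lval (blk n) < 2 ^ k := by
  have := mb_lval_lt (blk n)
  rwa [hblk n] at this

theorem mk_stage_cast (P : Par) (hV : P.Valid) (h2 : (2 : A) ^ (2 * P.m) = 1)
    (E1 E2 E3 iD iF R G l s1 E2y : ℕ)
    (hQ : R * P.b = l * (s1 + 1)) (hG : G * (R * P.b) = P.N) (hl : 0 < l)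
    (blk : ℕ → List Bool) (hblk : ∀ n, (blk n).length = 2 * P.m + 2) (p : ℕ) (hp : p < P.N) :
    ((lval (convModel P E1 E2 E3 iD iF R G l s1 E2y blk p) : ℕ) : A)
      = stageA ((2 : A) ^ P.g) P.N (phAt P E1 E2 E3 ⟨0, iD, iF⟩)
          (fun t => (Ph.yrows P.N E2y ⟨0, 0, 0⟩ t).S) l (s1 + 1)
          (fun n => ((lval (blk n) : ℕ) : A)) p := by
  have hN := mt_N_pos P hV
  have hlN : l ≤ P.N := by
    have hG0 : 0 < G := by
      rcases Nat.eq_zero_or_pos G with h | h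
      · rw [h, Nat.zero_mul] at hG; omega
      · exact h
    calc l ≤ l * (s1 + 1) := Nat.le_mul_of_pos_right _ (by omega)
      _ = R * P.b := hQ.symm
      _ ≤ G * (R * P.b) := Nat.le_mul_of_pos_left _ hG0
      _ = P.N := hG
  rw [mt_conv_value P hV E1 E2 E3 iD iF R G l s1 E2y hQ hG hl blk hblk p hp, mb_lval_lbits,
    Nat.mod_eq_of_lt (mf_fold4_lt _ _), mf_fold4_cast _ _ h2
      (mt_convW_lt P hV _ _ (fun n => (mp_phAt_lt P hN E1 E2 E3 iD iF n).le) l (s1 + 1) hlN _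
        (mk_lval_blk_lt _ blk hblk) p), mk_cast_convW]

theorem mk_last_cast (P : Par) (hV : P.Valid) (h2 : (2 : A) ^ (2 * P.m) = 1)
    (E1 E2 E3 iD iF : ℕ)
    (blk : ℕ → List Bool) (hblk : ∀ n, (blk n).length = 2 * P.m + 2) (p : ℕ) (hp : p < P.N) :
    ((lval (lastModel P E1 E2 E3 iD iF blk p) : ℕ) : A)
      = ((lval (blk p) : ℕ) : A) * ((2 : A) ^ P.g) ^ (phAt P E1 E2 E3 ⟨0, iD, iF⟩ p) := by
  have hN := mt_N_pos P hV
  have hW : lval (blk p) * 2 ^ (phAt P E1 E2 E3 ⟨0, iD, iF⟩ p * P.g) < 2 ^ (4 * (2 * P.m)) := by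
    have h1 := mk_lval_blk_lt _ blk hblk p
    have h3 : phAt P E1 E2 E3 ⟨0, iD, iF⟩ p * P.g ≤ 2 * P.m := by
      rw [mt_hL P hV]
      exact Nat.mul_le_mul_right _ (mp_phAt_lt P hN E1 E2 E3 iD iF p).le
    have h4 : 2 ^ (phAt P E1 E2 E3 ⟨0, iD, iF⟩ p * P.g) ≤ 2 ^ (2 * P.m) :=
      Nat.pow_le_pow_right (by norm_num) h3
    have hm : 7 ≤ P.m := by have := hV.hf; omega
    calc lval (blk p) * 2 ^ (phAt P E1 E2 E3 ⟨0, iD, iF⟩ p * P.g)
        < 2 ^ (2 * P.m + 2) * 2 ^ (2 * P.m) :=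
          Nat.mul_lt_mul_of_lt_of_le h1 h4 (by positivity)
      _ = 2 ^ (2 * P.m + 2 + 2 * P.m) := (pow_add 2 (2 * P.m + 2) (2 * P.m)).symm
      _ ≤ 2 ^ (4 * (2 * P.m)) := Nat.pow_le_pow_right (by norm_num) (by omega)
  rw [mt_last_value P hV E1 E2 E3 iD iF blk hblk p hp, mb_lval_lbits,
    Nat.mod_eq_of_lt (mf_fold4_lt _ _), mf_fold4_cast _ _ h2 hW]
  push_cast
  rw [← pow_mul, Nat.mul_comm P.g]

/-- A stage maps zero to zero (only the indices below `N` are read). -/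
theorem mk_stage_zero (ω : A) (N : ℕ) (s c : ℕ → ℕ) (l st G : ℕ) (hG : G * (l * st) = N)
    (hst : 0 < st) (V : ℕ → A) (hV : ∀ n, n < N → V n = 0) (p : ℕ) (hp : p < N) :
    stageA ω N s c l st V p = 0 := by
  unfold stageA
  apply Finset.sum_eq_zero
  intro i hi
  have hi' : i < l := Finset.mem_range.1 hi
  have hQ : 0 < l * st := Nat.mul_pos (by omega) hst
  have h1 : p / (l * st) < G := by
    rw [Nat.div_lt_iff_lt_mul hQ, hG]
    exact hp
  have h2 : p % st < st := Nat.mod_lt _ hst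
  have h3 : i * st + p % st < l * st := by
    calc i * st + p % st < i * st + st := by omega
      _ = (i + 1) * st := by ring
      _ ≤ l * st := Nat.mul_le_mul_right _ hi'
  have h4 : p / (l * st) * (l * st) + i * st + p % st < N := by
    calc p / (l * st) * (l * st) + i * st + p % st
        < p / (l * st) * (l * st) + l * st := by omega
      _ = (p / (l * st) + 1) * (l * st) := by ring
      _ ≤ G * (l * st) := Nat.mul_le_mul_right _ h1
      _ = N := hG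
  rw [hV _ h4]
  ring

end Vale.Agent.P338.TM
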