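import Vale.Agent.P338.TM.MathChainDefs

/-! First and second stage in a ring. -/

namespace Vale.Agent.P338.TM

open Vale.Agent.P338
open Finset

variable {A : Type*} [CommRing A]

/-- For `k < N` the indices are `k / (N * 1) * (N * 1) + i * 1 + k % 1 = i` and
`2 * N + k % (N * 1) / 1 - i = 2 * N + k - i`; then `mh_kernel` with `l = N`, `e = 1` and
`ω ^ s i = ω ^ C(i+1,2)` (`mr_pow_eq`). -/
theorem mh_stage1 (ω : A) (N : ℕ) (hω : ω ^ N = 1) (s c : ℕ → ℕ)
    (hs : ∀ n, s n ≡ (n + 1).choose 2 [MOD N]) (hc : ∀ t, c t ≡ 1 * t.choose 2 [MOD N])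
    (hcN : ∀ t, c t ≤ N) (V : ℕ → A) (k : ℕ) (hk : k < N) :
    ω ^ (k.choose 2) * stageA ω N s c N 1 V k = dftA ω N V k := by
  unfold stageA dftA
  rw [mul_sum]
  refine sum_congr rfl (fun i hi => ?_)
  have hi' : i < N := mem_range.1 hi
  have hidx : k / (N * 1) * (N * 1) + i * 1 + k % 1 = i := by
    rw [mul_one, Nat.div_eq_of_lt hk, Nat.mod_one]
    simp
  have hidx2 : 2 * N + k % (N * 1) / 1 - i = 2 * N + k - i := by
    rw [mul_one, Nat.mod_eq_of_lt hk, Nat.div_one]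
  rw [hidx, hidx2]
  have hker := mh_kernel ω N N 1 (by simp) hω c hc hcN k i hi'
  simp only [one_mul] at hker
  rw [mr_pow_eq ω N hω (hs i)]
  calc ω ^ k.choose 2 * (V i * ω ^ (i + 1).choose 2 * ω ^ (N - c (2 * N + k - i)))
      = V i * (ω ^ (N - c (2 * N + k - i)) * ω ^ k.choose 2 * ω ^ (i + 1).choose 2) := by ring
    _ = V i * ω ^ (i * k) := by rw [hker, mul_comm k i]

/-- For `p < a * b` the indices are `n = i * b + p % b` (with `n / b = i`, `n < N`) and
`2 * a + p / b - i`.  `C(n+1,2) = n + C(n,2)`, hypothesis `h1` for `V1 n`, and `mh_kernel` with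
`l = a`, `e = b`, `k = p / b`. -/
theorem mh_stage2 (ω : A) (N a b : ℕ) (hN : N = a * b) (hb : 0 < b) (hω : ω ^ N = 1)
    (s c : ℕ → ℕ)
    (hs : ∀ n, s n ≡ (n + 1).choose 2 + b * (n / b + 1).choose 2 [MOD N])
    (hc : ∀ t, c t ≡ b * t.choose 2 [MOD N]) (hcN : ∀ t, c t ≤ N) (V0 V1 : ℕ → A)
    (h1 : ∀ n, n < N → ω ^ (n.choose 2) * V1 n = dftA ω N V0 n) (p : ℕ) (hp : p < N) :
    ω ^ (b * (p / b).choose 2) * stageA ω N s c a b V1 p = midA ω N a b V0 p := by
  unfold stageA midA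
  rw [mul_sum]
  refine sum_congr rfl (fun i hi => ?_)
  have hi' : i < a := mem_range.1 hi
  have hp' : p < a * b := hN ▸ hp
  have hidx : p / (a * b) * (a * b) + i * b + p % b = i * b + p % b := by
    rw [Nat.div_eq_of_lt hp']
    simp
  have hidx2 : 2 * a + p % (a * b) / b - i = 2 * a + p / b - i := by
    rw [Nat.mod_eq_of_lt hp']
  rw [hidx, hidx2]
  have hmod : p % b < b := Nat.mod_lt _ hb
  obtain ⟨n, hn⟩ : ∃ n, n = i * b + p % b := ⟨_, rfl⟩
  rw [← hn]
  have hnb : n / b = i := by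
    rw [hn, add_comm, Nat.add_mul_div_right _ _ hb, Nat.div_eq_of_lt hmod, zero_add]
  have hnN : n < N := by
    rw [hn, hN]
    calc i * b + p % b < i * b + b := by omega
      _ = (i + 1) * b := by ring
      _ ≤ a * b := Nat.mul_le_mul_right _ hi'
  have hker := mh_kernel ω N a b hN hω c hc hcN (p / b) i hi'
  have hch : (n + 1).choose 2 = n + n.choose 2 := by
    rw [Nat.choose_succ_succ' n 1, Nat.choose_one_right]
  rw [mr_pow_eq ω N hω (hs n), hnb, hch, ← h1 n hnN, pow_add, pow_add]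
  calc ω ^ (b * (p / b).choose 2) *
        (V1 n * (ω ^ n * ω ^ n.choose 2 * ω ^ (b * (i + 1).choose 2))
          * ω ^ (N - c (2 * a + p / b - i)))
      = ω ^ n.choose 2 * V1 n * ω ^ n *
        (ω ^ (N - c (2 * a + p / b - i)) * ω ^ (b * (p / b).choose 2)
          * ω ^ (b * (i + 1).choose 2)) := by ring
    _ = ω ^ n.choose 2 * V1 n * ω ^ n * ω ^ (b * (p / b * i)) := by rw [hker]

end Vale.Agent.P338.TM
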