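import Vale.Agent.P338.TM.MathChainDefs

/-! Third stage, last stage and the final evaluation in a ring. -/

namespace Vale.Agent.P338.TM

open Vale.Agent.P338
open Finset

variable {A : Type*} [CommRing A]

theorem mh_div_mod (b r i : ℕ) (hi : i < b) : (r * b + i) / b = r ∧ (r * b + i) % b = i := by
  have hb : 0 < b := by omega
  constructor
  · rw [Nat.add_comm, Nat.add_mul_div_right _ _ hb, Nat.div_eq_of_lt hi, Nat.zero_add]
  · rw [Nat.add_comm, Nat.add_mul_mod_self_right, Nat.mod_eq_of_lt hi]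

/-- For `p < a * b` the indices are `n = p / b * b + i` (with `n / b = p / b`, `n % b = i`,
`n < N`) and `2 * b + p % b - i`; hypothesis `h2` for `V2 n`, `mh_kernel` with `l = b`, `e = a`,
`k = p % b`. -/
theorem mh_stage3 (ω : A) (N a b : ℕ) (hN : N = a * b) (hb : 0 < b) (hω : ω ^ N = 1)
    (s c : ℕ → ℕ)
    (hs : ∀ n, s n ≡ b * (n / b).choose 2 + (n / b) * (n % b) + a * (n % b + 1).choose 2 [MOD N])
    (hc : ∀ t, c t ≡ a * t.choose 2 [MOD N]) (hcN : ∀ t, c t ≤ N) (V0 V2 : ℕ → A)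
    (h2 : ∀ n, n < N → ω ^ (b * (n / b).choose 2) * V2 n = midA ω N a b V0 n)
    (p : ℕ) (hp : p < N) :
    ω ^ (a * (p % b).choose 2) * stageA ω N s c b 1 V2 p
      = ∑ i ∈ range b, midA ω N a b V0 (p / b * b + i) * ω ^ (p / b * i) * ω ^ (a * (p % b * i)) := by
  unfold stageA
  rw [Finset.mul_sum]
  apply Finset.sum_congr rfl
  intro i hi
  have hi' : i < b := Finset.mem_range.1 hi
  simp only [Nat.mul_one, Nat.mod_one, Nat.add_zero, Nat.div_one]
  obtain ⟨r, hr⟩ : ∃ r, r = p / b := ⟨_, rfl⟩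
  obtain ⟨k, hk⟩ : ∃ k, k = p % b := ⟨_, rfl⟩
  rw [← hr, ← hk]
  obtain ⟨hd, hmd⟩ := mh_div_mod b r i hi'
  have hra : r < a := by
    rw [hr]
    apply Nat.div_lt_of_lt_mul
    rw [Nat.mul_comm, ← hN]
    exact hp
  have hn : r * b + i < N := by
    rw [hN]
    calc r * b + i < r * b + b := by omega
      _ = (r + 1) * b := by ring
      _ ≤ a * b := Nat.mul_le_mul_right _ hra
  have hsn := mr_pow_eq ω N hω (hs (r * b + i))
  rw [hd, hmd] at hsn
  have h2n := h2 (r * b + i) hn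
  rw [hd] at h2n
  have hker := mh_kernel ω N b a (by rw [hN, Nat.mul_comm]) hω c hc hcN k i hi'
  rw [hsn, ← h2n, ← hker, pow_add, pow_add]
  ring

/-- Collecting the exponents: `(i*b+c) + b*(r*i) + r*c + a*(k*c) ≡ (i*b+c) * (1 + r + a*k)`
modulo `a * b`; `mh_sum_range_mul`, `Finset.sum_comm`. -/
theorem mh_collect (ω : A) (N a b : ℕ) (hN : N = a * b) (hb : 0 < b) (hω : ω ^ N = 1)
    (V0 : ℕ → A) (r k : ℕ) :
    ∑ i ∈ range b, midA ω N a b V0 (r * b + i) * ω ^ (r * i) * ω ^ (a * (k * i))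
      = ∑ j ∈ range N, V0 j * ∑ n ∈ range N, ω ^ (n * (1 + j + r + a * k)) := by
  have h1 : ∑ i ∈ range b, midA ω N a b V0 (r * b + i) * ω ^ (r * i) * ω ^ (a * (k * i))
      = ∑ n ∈ range N, dftA ω N V0 n * ω ^ (n * (1 + r + a * k)) := by
    rw [hN, mh_sum_range_mul, Finset.sum_comm]
    apply Finset.sum_congr rfl
    intro i hi
    have hi' : i < b := Finset.mem_range.1 hi
    obtain ⟨hd, hmd⟩ := mh_div_mod b r i hi'
    unfold midA
    rw [hd, hmd, Finset.sum_mul, Finset.sum_mul]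
    apply Finset.sum_congr rfl
    intro j _
    rw [← hN]
    have e : ω ^ ((j * b + i) * (1 + r + a * k))
        = ω ^ (j * b + i) * ω ^ (b * (r * j)) * ω ^ (r * i) * ω ^ (a * (k * i)) := by
      rw [← pow_add, ← pow_add, ← pow_add]
      apply mr_pow_eq ω N hω
      have e2 : (j * b + i) * (1 + r + a * k)
          = (j * b + i + b * (r * j) + r * i + a * (k * i)) + N * (j * k) := by
        rw [hN]; ring
      rw [e2]
      unfold Nat.ModEq
      rw [Nat.add_mul_mod_self_left]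
    rw [e]
    ring
  rw [h1]
  unfold dftA
  simp only [Finset.sum_mul, Finset.mul_sum]
  rw [Finset.sum_comm]
  apply Finset.sum_congr rfl
  intro j _
  apply Finset.sum_congr rfl
  intro n _
  rw [mul_assoc, ← pow_add]
  congr 2
  ring

/-- Only `j = N - 1 - (r + a*k)` survives (`1 ≤ 1 + j + r + a*k < 2*N`). -/
theorem mh_pick (ω : A) (N : ℕ) (hω : ω ^ N = 1)
    (horth : ∀ x, ¬ N ∣ x → ∑ n ∈ range N, ω ^ (n * x) = 0) (V0 : ℕ → A) (y : ℕ) (hy : y < N) :
    ∑ j ∈ range N, V0 j * ∑ n ∈ range N, ω ^ (n * (1 + j + y)) = (N : A) * V0 (N - 1 - y) := by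
  rw [Finset.sum_eq_single (N - 1 - y)]
  · have e : 1 + (N - 1 - y) + y = N := by omega
    rw [e, mr_orth_dvd ω N hω N (dvd_refl N), mul_comm]
  · intro j hj hne
    have hj' : j < N := Finset.mem_range.1 hj
    rw [horth, mul_zero]
    rintro ⟨t, ht⟩
    rcases t with _ | _ | t
    · omega
    · omega
    · have : N * (t + 1 + 1) = N * t + N + N := by ring
      have h0 : 0 ≤ N * t := Nat.zero_le _
      omega
  · intro h
    exfalso
    apply h
    rw [Finset.mem_range]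
    omega

end Vale.Agent.P338.TM
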