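import Vale.Agent.P338.TM.MathChain1
import Vale.Agent.P338.TM.MathChain2

/-! The four stages together, in a ring. -/

namespace Vale.Agent.P338.TM

open Vale.Agent.P338
open Finset

variable {A : Type*} [CommRing A]

theorem mh_chain (ω : A) (N a b : ℕ) (hN : N = a * b) (hb : 0 < b) (hω : ω ^ N = 1)
    (horth : ∀ x, ¬ N ∣ x → ∑ n ∈ range N, ω ^ (n * x) = 0)
    (s1 s2 s3 s4 c1 c2 c3 : ℕ → ℕ)
    (hs1 : ∀ n, s1 n ≡ (n + 1).choose 2 [MOD N])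
    (hs2 : ∀ n, s2 n ≡ (n + 1).choose 2 + b * (n / b + 1).choose 2 [MOD N])
    (hs3 : ∀ n, s3 n ≡ b * (n / b).choose 2 + (n / b) * (n % b) + a * (n % b + 1).choose 2 [MOD N])
    (hs4 : ∀ n, s4 n ≡ a * (n % b).choose 2 [MOD N])
    (hc1 : ∀ t, c1 t ≡ 1 * t.choose 2 [MOD N]) (hc2 : ∀ t, c2 t ≡ b * t.choose 2 [MOD N])
    (hc3 : ∀ t, c3 t ≡ a * t.choose 2 [MOD N])
    (hc1N : ∀ t, c1 t ≤ N) (hc2N : ∀ t, c2 t ≤ N) (hc3N : ∀ t, c3 t ≤ N)
    (V0 V1 V2 V3 V4 : ℕ → A)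
    (h1 : ∀ p, p < N → V1 p = stageA ω N s1 c1 N 1 V0 p)
    (h2 : ∀ p, p < N → V2 p = stageA ω N s2 c2 a b V1 p)
    (h3 : ∀ p, p < N → V3 p = stageA ω N s3 c3 b 1 V2 p)
    (h4 : ∀ p, p < N → V4 p = V3 p * ω ^ (s4 p)) (p : ℕ) (hp : p < N) :
    V4 p = (N : A) * V0 (N - 1 - (p / b + a * (p % b))) := by
  have e1 : ∀ n, n < N → ω ^ (n.choose 2) * V1 n = dftA ω N V0 n := by
    intro n hn
    rw [h1 n hn]
    exact mh_stage1 ω N hω s1 c1 hs1 hc1 hc1N V0 n hn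
  have e2 : ∀ n, n < N → ω ^ (b * (n / b).choose 2) * V2 n = midA ω N a b V0 n := by
    intro n hn
    rw [h2 n hn]
    exact mh_stage2 ω N a b hN hb hω s2 c2 hs2 hc2 hc2N V0 V1 e1 n hn
  have e3 := mh_stage3 ω N a b hN hb hω s3 c3 hs3 hc3 hc3N V0 V2 e2 p hp
  rw [← h3 p hp, mh_collect ω N a b hN hb hω V0 (p / b) (p % b)] at e3
  have hy : p / b + a * (p % b) < N := by
    have h5 : p / b < a := by
      rw [Nat.div_lt_iff_lt_mul hb, ← hN]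
      exact hp
    have h6 : p % b < b := Nat.mod_lt _ hb
    calc p / b + a * (p % b) < a + a * (p % b) := by omega
      _ = a * (p % b + 1) := by ring
      _ ≤ a * b := Nat.mul_le_mul_left _ h6
      _ = N := hN.symm
  have e4 := mh_pick ω N hω horth V0 (p / b + a * (p % b)) hy
  rw [h4 p hp, mr_pow_eq ω N hω (hs4 p), mul_comm, e3, ← e4]
  apply Finset.sum_congr rfl
  intro j _
  congr 1
  apply Finset.sum_congr rfl
  intro n _
  rw [Nat.add_assoc (1 + j)]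

end Vale.Agent.P338.TM
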