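import Mathlib

/-!
Evaluation of the convolution sum at the slots that are read off after the multiplication.
Pure arithmetic of natural numbers.

Slots of the first operand: groups of `4*Q` slots, only the first `Q` slots of a group are used;
slot `τ` holds the block with index `posN Q τ`.  Slots of the second operand: slot `T * st`
holds the chirp value number `T`, `T < 3*l`.  Here `Q = l * st`.
-/

namespace Vale.Agent.P338.TM

open Finset

/-- The index of the block held by slot `τ` of the first operand. -/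
def posN (Q τ : ℕ) : ℕ := τ / (4 * Q) * Q + τ % (4 * Q)

/-- uniqueness of quotient and remainder, in additive form -/
theorem mc_divmod_unique (m x y r s : ℕ) (hr : r < m) (hs : s < m)
    (h : m * x + r = m * y + s) : x = y ∧ r = s := by
  have hx : x = y := by
    rcases lt_trichotomy x y with hlt | heq | hgt
    · exfalso
      have h1 : m * (x + 1) ≤ m * y := Nat.mul_le_mul_left _ hlt
      rw [Nat.mul_add, Nat.mul_one] at h1
      omega
    · exact heq
    · exfalso
      have h1 : m * (y + 1) ≤ m * x := Nat.mul_le_mul_left _ hgt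
      rw [Nat.mul_add, Nat.mul_one] at h1
      omega
  subst hx
  exact ⟨rfl, by omega⟩

/-- The nonzero terms are `q = (p/Q*(4Q) + i*st + p%st, (2l + p%Q/st - i)*st)`, `i < l`.
(If `q.1 = g*(4Q) + r`, `r < Q`, `q.2 = T*st < 3Q` then `r + q.2 < 4Q`, so `g = p/Q` and
`r + T*st = 2Q + p%Q`; reduce modulo `st` and divide by `st`.)
Suggestion: `Finset.sum_subset` / `Finset.sum_nbij` with the map `i ↦ q`. -/
theorem mc_conv_eval (Q l st : ℕ) (hQ : Q = l * st) (hst : 0 < st) (hl : 0 < l)
    (A Bf : ℕ → ℕ) (p : ℕ) :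
    ∑ q ∈ antidiagonal (p / Q * (4 * Q) + 2 * Q + p % Q),
        (if q.1 % (4 * Q) < Q then A (posN Q q.1) else 0) *
        (if q.2 % st = 0 ∧ q.2 / st < 3 * l then Bf (q.2 / st) else 0)
      = ∑ i ∈ range l, A (p / Q * Q + i * st + p % st) * Bf (2 * l + p % Q / st - i) := by
  have hQpos : 0 < Q := by rw [hQ]; exact Nat.mul_pos hl hst
  have h4Q : 0 < 4 * Q := by omega
  have hρ : p % Q < Q := Nat.mod_lt _ hQpos
  have hpc : p % st = p % Q % st := by
    rw [Nat.mod_mod_of_dvd p (by rw [hQ]; exact Dvd.intro_left l rfl)]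
  rw [hpc]
  generalize p / Q = g0
  generalize p % Q = ρ at hρ
  have hρeq : st * (ρ / st) + ρ % st = ρ := Nat.div_add_mod ρ st
  have hc : ρ % st < st := Nat.mod_lt _ hst
  have ha : ρ / st < l := by
    apply Nat.div_lt_of_lt_mul
    rw [Nat.mul_comm, ← hQ]; exact hρ
  generalize ρ / st = a at hρeq ha
  generalize ρ % st = c at hρeq hc
  -- the value of the summand at the image of `i`
  have hr : ∀ i, i < l → i * st + c < Q := by
    intro i hi
    have h1 : (i + 1) * st ≤ l * st := Nat.mul_le_mul_right _ hi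
    rw [Nat.add_mul, Nat.one_mul] at h1
    omega
  have hval : ∀ i, i < l →
      A (g0 * Q + i * st + c) * Bf (2 * l + a - i) =
      (if (g0 * (4 * Q) + i * st + c) % (4 * Q) < Q
          then A (posN Q (g0 * (4 * Q) + i * st + c)) else 0) *
        (if ((2 * l + a - i) * st) % st = 0 ∧ ((2 * l + a - i) * st) / st < 3 * l
          then Bf (((2 * l + a - i) * st) / st) else 0) := by
    intro i hi
    have hri := hr i hi
    have e1 : g0 * (4 * Q) + i * st + c = (i * st + c) + (4 * Q) * g0 := by ring
    have e2 : (g0 * (4 * Q) + i * st + c) % (4 * Q) = i * st + c := by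
      rw [e1, Nat.add_mul_mod_self_left, Nat.mod_eq_of_lt (by omega)]
    have e3 : (g0 * (4 * Q) + i * st + c) / (4 * Q) = g0 := by
      rw [e1, Nat.add_mul_div_left _ _ h4Q, Nat.div_eq_of_lt (by omega), Nat.zero_add]
    have e4 : posN Q (g0 * (4 * Q) + i * st + c) = g0 * Q + i * st + c := by
      unfold posN
      rw [e2, e3]; ring
    have e5 : ((2 * l + a - i) * st) % st = 0 := Nat.mul_mod_left _ _
    have e6 : ((2 * l + a - i) * st) / st = 2 * l + a - i := Nat.mul_div_cancel _ hst
    rw [e2, e4, e5, e6, if_pos hri, if_pos ⟨rfl, by omega⟩]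
  symm
  refine Finset.sum_bij_ne_zero
    (fun i _ _ => (g0 * (4 * Q) + i * st + c, (2 * l + a - i) * st)) ?_ ?_ ?_ ?_
  · intro i hi _
    rw [HasAntidiagonal.mem_antidiagonal]
    have hi' : i < l := mem_range.mp hi
    have e : (2 * l + a - i) * st + i * st = (2 * l + a) * st := by
      rw [← Nat.add_mul]; congr 1; omega
    have e' : (2 * l + a) * st = 2 * Q + st * a := by rw [hQ]; ring
    show g0 * (4 * Q) + i * st + c + (2 * l + a - i) * st = g0 * (4 * Q) + 2 * Q + ρ
    omega
  · intro i hi _ j hj _ hij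
    have h1 : g0 * (4 * Q) + i * st + c = g0 * (4 * Q) + j * st + c := congrArg Prod.fst hij
    have h2 : i * st = j * st := by omega
    exact Nat.eq_of_mul_eq_mul_right hst h2
  · rintro ⟨u, w⟩ hb hne
    rw [HasAntidiagonal.mem_antidiagonal] at hb
    simp only at hb hne
    have hu : u % (4 * Q) < Q := by
      by_contra hcon
      rw [if_neg hcon, Nat.zero_mul] at hne
      exact hne rfl
    have hw : w % st = 0 ∧ w / st < 3 * l := by
      by_contra hcon
      rw [if_neg hcon, Nat.mul_zero] at hne
      exact hne rfl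
    obtain ⟨hw0, hwT⟩ := hw
    have hueq : 4 * Q * (u / (4 * Q)) + u % (4 * Q) = u := Nat.div_add_mod u (4 * Q)
    have hweq : st * (w / st) + w % st = w := Nat.div_add_mod w st
    rw [hw0, Nat.add_zero] at hweq
    generalize hg : u / (4 * Q) = g at hueq
    generalize hrr : u % (4 * Q) = r at hueq hu
    generalize hT : w / st = T at hweq hwT
    have hTQ : st * T < 3 * Q := by
      have h1 : st * T < st * (3 * l) := Nat.mul_lt_mul_of_pos_left hwT hst
      have h2 : st * (3 * l) = 3 * Q := by rw [hQ]; ring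
      omega
    have hmain : 4 * Q * g + (r + st * T) = 4 * Q * g0 + (2 * Q + ρ) := by
      have e : g0 * (4 * Q) = 4 * Q * g0 := Nat.mul_comm _ _
      omega
    obtain ⟨hgg, hrT⟩ := mc_divmod_unique (4 * Q) g g0 (r + st * T) (2 * Q + ρ)
      (by omega) (by omega) hmain
    have hreq : st * (r / st) + r % st = r := Nat.div_add_mod r st
    have hc' : r % st < st := Nat.mod_lt _ hst
    have hi : r / st < l := by
      apply Nat.div_lt_of_lt_mul
      rw [Nat.mul_comm, ← hQ]; exact hu
    generalize r / st = i at hreq hi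
    generalize r % st = c' at hreq hc'
    have hmain2 : st * (i + T) + c' = st * (2 * l + a) + c := by
      have e1 : st * (i + T) = st * i + st * T := Nat.mul_add _ _ _
      have e2 : st * (2 * l + a) = 2 * Q + st * a := by rw [hQ]; ring
      omega
    obtain ⟨hiT, hcc⟩ := mc_divmod_unique st (i + T) (2 * l + a) c' c hc' hc hmain2
    have hq : (g0 * (4 * Q) + i * st + c, (2 * l + a - i) * st) = (u, w) := by
      have hT' : 2 * l + a - i = T := by omega
      rw [hT']
      have e1 : g0 * (4 * Q) = 4 * Q * g0 := Nat.mul_comm _ _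
      have e2 : i * st = st * i := Nat.mul_comm _ _
      have e3 : T * st = st * T := Nat.mul_comm _ _
      subst hgg hcc
      rw [Prod.mk.injEq]
      constructor <;> omega
    refine ⟨i, mem_range.mpr hi, ?_, hq⟩
    rw [hval i hi]
    have hq1 : g0 * (4 * Q) + i * st + c = u := congrArg Prod.fst hq
    have hq2 : (2 * l + a - i) * st = w := congrArg Prod.snd hq
    rw [hq1, hq2]
    exact hne
  · intro i hi _
    exact hval i (mem_range.mp hi)

/-- Crude bound for a convolution sum. -/
theorem mc_conv_bound (x y : ℕ → ℕ) (X0 Y0 : ℕ) (hx : ∀ j, x j ≤ X0) (hy : ∀ j, y j ≤ Y0)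
    (τ : ℕ) : ∑ q ∈ antidiagonal τ, x q.1 * y q.2 ≤ (τ + 1) * (X0 * Y0) := by
  have h := Finset.sum_le_card_nsmul (antidiagonal τ) (fun q => x q.1 * y q.2) (X0 * Y0)
    (fun q _ => Nat.mul_le_mul (hx _) (hy _))
  rw [Nat.card_antidiagonal, smul_eq_mul] at h
  exact h

end Vale.Agent.P338.TM
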