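import Mathlib

/-!
Digits in base `B` of a product of two numbers given by their digits (Kronecker substitution).
Pure arithmetic of natural numbers.
-/

namespace Vale.Agent.P338.TM

open Finset

theorem md_sum_lt (B : ℕ) (d : ℕ → ℕ) (K : ℕ) (hd : ∀ t, t < K → d t < B) :
    ∑ j ∈ range K, d j * B ^ j < B ^ K := by
  induction K with
  | zero => simp
  | succ K ih =>
    rw [sum_range_succ, pow_succ]
    have h1 := ih (fun t ht => hd t (by omega))
    have h2 : d K + 1 ≤ B := hd K (by omega)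
    calc ∑ j ∈ range K, d j * B ^ j + d K * B ^ K < B ^ K + d K * B ^ K := by omega
      _ = B ^ K * (d K + 1) := by ring
      _ ≤ B ^ K * B := Nat.mul_le_mul_left _ h2

theorem md_split (B : ℕ) (d : ℕ → ℕ) (t r : ℕ) :
    ∃ Q, ∑ j ∈ range (t + 1 + r), d j * B ^ j
      = ∑ j ∈ range (t + 1), d j * B ^ j + B ^ (t + 1) * Q := by
  induction r with
  | zero => exact ⟨0, by simp⟩
  | succ r ih =>
    obtain ⟨Q, hQ⟩ := ih
    refine ⟨Q + d (t + 1 + r) * B ^ r, ?_⟩
    rw [← add_assoc, sum_range_succ, hQ, pow_add B (t + 1) r]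
    ring

/-- Digit extraction; only the digits up to position `t` have to be smaller than the base. -/
theorem md_digit (B : ℕ) (d : ℕ → ℕ) (K t : ℕ) (ht : t < K) (hd : ∀ t', t' ≤ t → d t' < B) :
    (∑ j ∈ range K, d j * B ^ j) / B ^ t % B = d t := by
  obtain ⟨r, rfl⟩ : ∃ r, K = t + 1 + r := ⟨K - (t + 1), by omega⟩
  obtain ⟨Q, hQ⟩ := md_split B d t r
  have hB : 0 < B := lt_of_le_of_lt (Nat.zero_le _) (hd t le_rfl)
  have hlow : ∑ j ∈ range t, d j * B ^ j < B ^ t :=
    md_sum_lt B d t (fun t' ht' => hd t' (by omega))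
  have hpos : 0 < B ^ t := pow_pos hB t
  rw [hQ, sum_range_succ]
  have e : ∑ j ∈ range t, d j * B ^ j + d t * B ^ t + B ^ (t + 1) * Q
      = ∑ j ∈ range t, d j * B ^ j + B ^ t * (d t + B * Q) := by
    rw [pow_succ]; ring
  rw [e, Nat.add_mul_div_left _ _ hpos, Nat.div_eq_of_lt hlow, zero_add, Nat.add_mul_mod_self_left]
  exact Nat.mod_eq_of_lt (hd t le_rfl)

/-- Cauchy product.  Hint: `Finset.sum_mul_sum`, then group by `j + t`
(or evaluate a product of two polynomials over the natural numbers at `B`). -/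
theorem md_mul (B K : ℕ) (x y : ℕ → ℕ) :
    (∑ j ∈ range K, x j * B ^ j) * (∑ t ∈ range K, y t * B ^ t)
      = ∑ τ ∈ range (2 * K), (∑ q ∈ antidiagonal τ,
          (if q.1 < K then x q.1 else 0) * (if q.2 < K then y q.2 else 0)) * B ^ τ := by
  rw [sum_mul_sum, ← sum_product']
  have hmaps : ∀ p ∈ range K ×ˢ range K, p.1 + p.2 ∈ range (2 * K) := by
    intro p hp
    simp only [mem_product, mem_range] at hp ⊢
    omega
  rw [← sum_fiberwise_of_maps_to hmaps]
  refine sum_congr rfl (fun τ _ => ?_)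
  rw [sum_mul]
  have hset : (range K ×ˢ range K).filter (fun p => p.1 + p.2 = τ)
      = (antidiagonal τ).filter (fun q => q.1 < K ∧ q.2 < K) := by
    ext p
    simp only [mem_filter, mem_product, mem_range, HasAntidiagonal.mem_antidiagonal]
    tauto
  rw [hset, sum_filter]
  refine sum_congr rfl (fun q hq => ?_)
  have hq' : q.1 + q.2 = τ := HasAntidiagonal.mem_antidiagonal.1 hq
  by_cases h1 : q.1 < K
  · by_cases h2 : q.2 < K
    · simp only [h1, h2, and_self, if_true]
      rw [← hq', pow_add]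
      ring
    · simp [h1, h2]
  · simp [h1]

/-- The digit `τ < K` of the product is the convolution sum, if the convolution sums up to `τ` are
smaller than the base. -/
theorem md_conv_digit (B K : ℕ) (x y : ℕ → ℕ) (τ : ℕ) (hτ : τ < K)
    (hB : ∀ τ', τ' ≤ τ → ∑ q ∈ antidiagonal τ', x q.1 * y q.2 < B) :
    ((∑ j ∈ range K, x j * B ^ j) * (∑ t ∈ range K, y t * B ^ t)) / B ^ τ % B
      = ∑ q ∈ antidiagonal τ, x q.1 * y q.2 := by
  have key : ∀ τ', τ' ≤ τ → (∑ q ∈ antidiagonal τ',
      (if q.1 < K then x q.1 else 0) * (if q.2 < K then y q.2 else 0))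
      = ∑ q ∈ antidiagonal τ', x q.1 * y q.2 := by
    intro τ' hτ'
    refine sum_congr rfl (fun q hq => ?_)
    have hq' : q.1 + q.2 = τ' := HasAntidiagonal.mem_antidiagonal.1 hq
    have h1 : q.1 < K := by omega
    have h2 : q.2 < K := by omega
    simp [h1, h2]
  rw [md_mul]
  rw [md_digit B (fun τ' => ∑ q ∈ antidiagonal τ',
      (if q.1 < K then x q.1 else 0) * (if q.2 < K then y q.2 else 0)) (2 * K) τ (by omega)
      (fun t' ht' => by rw [key t' ht']; exact hB t' ht')]
  exact key τ le_rfl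

end Vale.Agent.P338.TM
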