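import Vale.Agent.P338.TM.MathBits

/-!
The value of an encoded entry and the decoding lemma.
-/

namespace Vale.Agent.P338.TM

open Vale.Agent.P338

theorem me_encBlock_length (f : ℕ) (u : List Bool) :
    (encBlock f u).length = 2 * (f + 7 + u.length) + 2 := by
  simp only [encBlock, zs, os, List.length_append, List.length_cons, List.length_nil,
    List.length_replicate, List.length_map]
  omega

theorem me_lval_not (u : List Bool) : lval (u.map not) + lval u + 1 = 2 ^ u.length := by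
  induction u with
  | nil => simp [lval]
  | cons b u ih =>
    simp only [List.map_cons, lval, List.length_cons, pow_succ]
    cases b <;> simp <;> omega

theorem me_lval_lo (f : ℕ) (u : List Bool) :
    lval ([true, true, true, false, false, false, true] ++ u ++ zs f) = 71 + 128 * lval u := by
  rw [mb_lval_append, mb_lval_append, mb_lval_zs]
  simp [lval]

theorem me_lval_hi (f : ℕ) (u : List Bool) (m : ℕ) (hm : f + 7 + u.length = m) :
    lval ([false, false, false, true, true, true, false] ++ u.map not ++ os f)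
      + (72 + 128 * lval u) = 2 ^ m := by
  rw [mb_lval_append, mb_lval_append]
  have h1 := me_lval_not u
  have h2 := mb_lval_os f
  have e1 : lval [false, false, false, true, true, true, false] = 56 := by simp [lval]
  have e2 : ([false, false, false, true, true, true, false] ++ u.map not).length
      = 7 + u.length := by simp; omega
  have e3 : [false, false, false, true, true, true, false].length = 7 := rfl
  rw [e1, e2, e3, ← hm, pow_add, pow_add, pow_add, ← h1, ← h2]
  ring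

/-- With `z = 72 + 128 * lval u` the low half of the block is `z - 1` and the high half is its
complement `2^m - z`. -/
theorem me_lval_encBlock (f : ℕ) (u : List Bool) (m : ℕ) (hm : f + 7 + u.length = m) :
    lval (encBlock f u) + 1 + (72 + 128 * lval u) * 2 ^ m
      = (72 + 128 * lval u) + 2 ^ m * 2 ^ m := by
  have hlo := me_lval_lo f u
  have hhi := me_lval_hi f u m hm
  have hl : ([true, true, true, false, false, false, true] ++ u ++ zs f).length = m := by
    simp [zs]; omega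
  have e0 : lval [false, false] = 0 := by simp [lval]
  unfold encBlock
  rw [mb_lval_append, mb_lval_append, e0, hlo, hl, ← hhi]
  ring

theorem me_enc_cast_minus {A : Type*} [CommRing A] (f : ℕ) (u : List Bool) (m : ℕ)
    (hm : f + 7 + u.length = m) (h2 : (2 : A) ^ m = 1) : ((lval (encBlock f u) : ℕ) : A) = 0 := by
  have h := congrArg (fun x : ℕ => (x : A)) (me_lval_encBlock f u m hm)
  simp only [Nat.cast_add, Nat.cast_mul, Nat.cast_pow, Nat.cast_ofNat, Nat.cast_one, h2] at h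
  linear_combination h

/-- Size estimates for `z = N * (72 + 128 * x)`. -/
theorem me_sizes (N x Ee T R P z : ℕ) (hN1 : 1 ≤ N) (hx : x + 1 ≤ Ee) (hT : T = N * 128 * Ee)
    (hP : P = T * R) (hR1 : 1 ≤ R) (hz : z = N * (72 + 128 * x)) :
    72 ≤ z ∧ z + 56 ≤ T ∧ z + 56 ≤ P := by
  have h72 : 72 ≤ z := by
    calc 72 ≤ 1 * (72 + 128 * x) := by omega
      _ ≤ N * (72 + 128 * x) := Nat.mul_le_mul_right _ hN1
      _ = z := hz.symm
  have hzt : z + 56 ≤ T := by
    have a1 : N * (72 + 128 * x) + 56 * N = N * (128 * (x + 1)) := by ring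
    have a2 : N * (128 * (x + 1)) ≤ N * (128 * Ee) :=
      Nat.mul_le_mul_left _ (Nat.mul_le_mul_left _ hx)
    have a3 : N * 128 * Ee = N * (128 * Ee) := by ring
    rw [hT, a3, hz]
    omega
  refine ⟨h72, hzt, ?_⟩
  calc z + 56 ≤ T := hzt
    _ = T * 1 := (Nat.mul_one T).symm
    _ ≤ T * R := Nat.mul_le_mul_left _ hR1
    _ = P := hP.symm

/-- `N * E = c + (N - 1) * M`. -/
theorem me_scaled (N x P z E c M : ℕ) (hN1 : 1 ≤ N) (hz : z = N * (72 + 128 * x))
    (henc : E + 1 + (72 + 128 * x) * P = (72 + 128 * x) + P * P)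
    (hc1 : c + 1 + z * P = z + P * P) (hM : M + 1 = P * P) : N * E = c + (N - 1) * M := by
  obtain ⟨a, rfl⟩ : ∃ a, N = a + 1 := ⟨N - 1, by omega⟩
  have e1 : a + 1 - 1 = a := by omega
  rw [e1]
  have h1 : ((E : ℤ) + 1 + (72 + 128 * x) * P = (72 + 128 * x) + P * P) := by exact_mod_cast henc
  have h2 : ((c : ℤ) + 1 + z * P = z + P * P) := by exact_mod_cast hc1
  have h3 : ((M : ℤ) + 1 = P * P) := by exact_mod_cast hM
  have h4 : ((z : ℤ) = (a + 1) * (72 + 128 * x)) := by exact_mod_cast hz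
  have h5 : (((a + 1) * E : ℕ) : ℤ) = ((c + a * M : ℕ) : ℤ) := by
    push_cast
    linear_combination (a + 1 : ℤ) * h1 - h2 - (a : ℤ) * h3 + ((P : ℤ) - 1) * h4
  exact_mod_cast h5

/-- The arithmetical heart of the decoding lemma. -/
theorem me_mod_val (N x Ee T R P E V : ℕ) (hN1 : 1 ≤ N) (hx : x + 1 ≤ Ee)
    (hT : T = N * 128 * Ee) (hP : P = T * R) (hR1 : 1 ≤ R)
    (henc : E + 1 + (72 + 128 * x) * P = (72 + 128 * x) + P * P)
    (hV4 : V < 4 * (P * P)) (hc : V ≡ N * E [MOD P * P - 1]) :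
    ∃ q, q ≤ 3 ∧ V % T = N * (72 + 128 * x) - 1 - q := by
  obtain ⟨z, hz⟩ : ∃ z, z = N * (72 + 128 * x) := ⟨_, rfl⟩
  obtain ⟨hz72, hzt, hzP⟩ := me_sizes N x Ee T R P z hN1 hx hT hP hR1 hz
  obtain ⟨c, hcdef⟩ : ∃ c, c = (z - 1) + (P - z) * P := ⟨_, rfl⟩
  have hc1 : c + 1 + z * P = z + P * P := by
    rw [hcdef]
    obtain ⟨a, rfl⟩ : ∃ a, z = a + 1 := ⟨z - 1, by omega⟩
    obtain ⟨b, rfl⟩ : ∃ b, P = a + 1 + b := ⟨P - (a + 1), by omega⟩
    have e1 : a + 1 - 1 = a := by omega
    have e2 : a + 1 + b - (a + 1) = b := by omega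
    rw [e1, e2]
    ring
  have hPP0 : 0 < P * P := Nat.mul_pos (by omega) (by omega)
  obtain ⟨M, hM⟩ : ∃ M, M + 1 = P * P := ⟨P * P - 1, by omega⟩
  have hMe : P * P - 1 = M := by omega
  rw [hMe] at hc
  have hNE := me_scaled N x P z E c M hN1 hz henc hc1 hM
  have hzP2 : z * 2 ≤ z * P := Nat.mul_le_mul_left _ (by omega)
  have hcM : c < M := by omega
  have h6 : V % M = c := by
    have h := hc
    unfold Nat.ModEq at h
    rw [h, hNE, Nat.add_mul_mod_self_right, Nat.mod_eq_of_lt hcM]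
  obtain ⟨q, hq⟩ : ∃ q, q = V / M := ⟨_, rfl⟩
  have hVq : V = c + q * M := by
    have h := Nat.div_add_mod V M
    rw [h6, ← hq, Nat.mul_comm] at h
    omega
  have hc71 : 71 ≤ c := by rw [hcdef]; omega
  have hq3 : q ≤ 3 := by
    by_contra hcon
    have h4 : 4 ≤ q := by omega
    have h5 : 4 * M ≤ q * M := Nat.mul_le_mul_right M h4
    omega
  refine ⟨q, hq3, ?_⟩
  rw [← hz]
  have h7 : V = (z - 1 - q) + T * (R * ((P - z) + q * P)) := by
    have h8a : q * (P * P) = q * M + q := by rw [← hM]; ring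
    have h10 : (P - z) + z = P := by omega
    have h11 : T * (R * ((P - z) + q * P)) = P * ((P - z) + q * P) := by
      rw [← mul_assoc, ← hP]
    rw [h11]
    have h12 : P * ((P - z) + q * P) + z * P = P * P + q * (P * P) := by
      calc P * ((P - z) + q * P) + z * P = P * ((P - z) + z) + q * (P * P) := by ring
        _ = P * P + q * (P * P) := by rw [h10]
    omega
  rw [h7, Nat.add_mul_mod_self_left, Nat.mod_eq_of_lt]
  omega

/-- The value of the decoded beginning of the block. -/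
theorem me_lval_list (ν q : ℕ) (u : List Bool) (hq : q ≤ 3) :
    lval (lbits 3 (7 - q) ++ os ν ++ [false, false, false, true] ++ u)
      = 2 ^ ν * (72 + 128 * lval u) - 1 - q := by
  rw [mb_lval_append, mb_lval_append, mb_lval_append, mb_lval_lbits]
  have h2 := mb_lval_os ν
  have e1 : lval [false, false, false, true] = 8 := by simp [lval]
  have e2 : (lbits 3 (7 - q) ++ os ν ++ [false, false, false, true]).length = 3 + ν + 4 := by
    simp [mb_lbits_length, os]
    omega
  have e3 : (lbits 3 (7 - q) ++ os ν).length = 3 + ν := by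
    simp [mb_lbits_length, os]
  have e4 : (7 - q) % 2 ^ 3 = 7 - q := Nat.mod_eq_of_lt (by norm_num; omega)
  rw [e1, e2, e3, e4, mb_lbits_length]
  obtain ⟨N, hN⟩ : ∃ N, N = 2 ^ ν := ⟨_, rfl⟩
  obtain ⟨x, hx⟩ : ∃ x, x = lval u := ⟨_, rfl⟩
  obtain ⟨o, ho⟩ : ∃ o, o = lval (os ν) := ⟨_, rfl⟩
  have e5 : 2 ^ (3 + ν + 4) = 128 * N := by rw [pow_add, pow_add, hN]; ring
  have e6 : 2 ^ (3 + ν) = 8 * N := by rw [pow_add, hN]; norm_num
  rw [e5, e6, ← hN, ← hx, ← ho]
  rw [← hN, ← ho] at h2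
  have e8 : (7 - q) + q = 7 := by omega
  have e9 : 7 - q + 2 ^ 3 * o + 8 * N * 8 + 128 * N * x + 1 + q = N * (72 + 128 * x) := by
    rw [← h2]
    have h3 : 7 - q + 2 ^ 3 * o + 8 * (o + 1) * 8 + 128 * (o + 1) * x + 1 + q
        = ((7 - q) + q) + 2 ^ 3 * o + 8 * (o + 1) * 8 + 128 * (o + 1) * x + 1 := by ring
    rw [h3, e8]
    ring
  omega

/-- Decoding.  Let `z' = 2^ν * (72 + 128 * lval u) < 2^m`, `M = 2^(2m) - 1` and
`c = (z' - 1) + (2^m - z') * 2^m < M`.  Then `2^ν * enc ≡ c [MOD M]`, so `V = c + q * M` with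
`q ≤ 3`, that is `V = (c - q) + q * 2^(2m)`, and modulo `2^(ν + 7 + e)` (`e = u.length`)
`V ≡ z' - 1 - q = (7 - q) + 8 * (2^ν - 1) + 2^(ν+3) * (8 + 16 * lval u)`, which is the value of the
list `lbits 3 (7 - q) ++ os ν ++ [false, false, false, true] ++ u` of length `ν + 7 + e`.
Conclude with `mb_lbits_take`, `mb_lbits_mod`, `mb_lbits_lval` and `List.take_append_drop`. -/
theorem me_decode (m ν f : ℕ) (u : List Bool) (hm : f + 7 + u.length = m) (hν : ν ≤ f) (V : ℕ)
    (hV : V < 2 ^ (2 * m + 2))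
    (hc : V ≡ 2 ^ ν * lval (encBlock f u) [MOD 2 ^ (2 * m) - 1]) :
    Decodes (lbits (2 * m + 2) V) u := by
  obtain ⟨t, ht⟩ : ∃ t, t = ν + 7 + u.length := ⟨_, rfl⟩
  have henc := me_lval_encBlock f u m hm
  have hxlt : lval u + 1 ≤ 2 ^ u.length := mb_lval_lt u
  have h2t : 2 ^ t = 2 ^ ν * 128 * 2 ^ u.length := by
    rw [ht, pow_add, pow_add]; norm_num
  have hmt : m = t + (f - ν) := by omega
  have hR : 2 ^ m = 2 ^ t * 2 ^ (f - ν) := by
    rw [hmt, pow_add]
  have hPP : 2 ^ (2 * m) = 2 ^ m * 2 ^ m := by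
    rw [two_mul, pow_add]
  have hV4 : V < 4 * (2 ^ m * 2 ^ m) := by
    rw [← hPP]
    calc V < 2 ^ (2 * m + 2) := hV
      _ = 4 * 2 ^ (2 * m) := by rw [pow_add]; ring
  rw [hPP] at hc
  obtain ⟨q, hq3, hVmod⟩ := me_mod_val (2 ^ ν) (lval u) (2 ^ u.length) (2 ^ t) (2 ^ (f - ν)) (2 ^ m)
    (lval (encBlock f u)) V Nat.one_le_two_pow hxlt h2t hR Nat.one_le_two_pow henc hV4 hc
  have hlst := me_lval_list ν q u hq3
  have hlen : (lbits 3 (7 - q) ++ os ν ++ [false, false, false, true] ++ u).length = t := by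
    simp [mb_lbits_length, os, ht]
    omega
  have htake : lbits t V = lbits 3 (7 - q) ++ os ν ++ [false, false, false, true] ++ u := by
    rw [← mb_lbits_mod, hVmod, ← hlst, ← hlen]
    exact mb_lbits_lval _
  have htle : t ≤ 2 * m + 2 := by omega
  refine ⟨lbits 3 (7 - q), ν, (lbits (2 * m + 2) V).drop t, mb_lbits_length _ _, ?_⟩
  rw [← htake, ← mb_lbits_take t (2 * m + 2) V htle, List.take_append_drop]

end Vale.Agent.P338.TM
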