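import Vale.Agent.P338.TM.MathBits
import Vale.Agent.P338.TM.MathDigits

/-!
Folding a slot: the sum of its four chunks.
-/

namespace Vale.Agent.P338.TM

open Vale.Agent.P338

/-- The sum of the four lowest digits of `W` in base `2^L`. -/
def fold4 (L W : ℕ) : ℕ :=
  W % 2 ^ L + W / 2 ^ L % 2 ^ L + W / 2 ^ (2 * L) % 2 ^ L + W / 2 ^ (3 * L) % 2 ^ L

theorem mf_fold4_lt (L W : ℕ) : fold4 L W < 2 ^ (L + 2) := by
  have hB : 0 < 2 ^ L := by positivity
  have h0 := Nat.mod_lt W hB
  have h1 := Nat.mod_lt (W / 2 ^ L) hB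
  have h2 := Nat.mod_lt (W / 2 ^ (2 * L)) hB
  have h3 := Nat.mod_lt (W / 2 ^ (3 * L)) hB
  have e : 2 ^ (L + 2) = 4 * 2 ^ L := by ring
  unfold fold4
  omega

/-- `fold4 L W ≡ W` modulo `2^L - 1`, in ring form. -/
theorem mf_fold4_cast {A : Type*} [CommRing A] (L W : ℕ) (h2 : (2 : A) ^ L = 1)
    (hW : W < 2 ^ (4 * L)) : ((fold4 L W : ℕ) : A) = (W : A) := by
  set B : ℕ := 2 ^ L with hB
  have hBpos : 0 < B := by positivity
  have hBA : ((B : ℕ) : A) = 1 := by rw [hB]; push_cast; exact h2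
  have e2 : 2 ^ (2 * L) = B * B := by rw [hB]; ring
  have e3 : 2 ^ (3 * L) = B * B * B := by rw [hB]; ring
  have e4 : 2 ^ (4 * L) = B * B * B * B := by rw [hB]; ring
  have d1 := Nat.div_add_mod W B
  have d2 := Nat.div_add_mod (W / B) B
  have d3 := Nat.div_add_mod (W / (B * B)) B
  have q2 : W / B / B = W / (B * B) := Nat.div_div_eq_div_mul _ _ _
  have q3 : W / (B * B) / B = W / (B * B * B) := Nat.div_div_eq_div_mul _ _ _
  have hlt : W / (B * B * B) < B := by
    rw [Nat.div_lt_iff_lt_mul (by positivity)]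
    rw [e4] at hW
    calc W < B * B * B * B := hW
      _ = B * (B * B * B) := by ring
  have m3 : W / (B * B * B) % B = W / (B * B * B) := Nat.mod_eq_of_lt hlt
  rw [q2] at d2
  rw [q3] at d3
  have c1 : (W : A) = ((W / B : ℕ) : A) + ((W % B : ℕ) : A) := by
    conv_lhs => rw [← d1]
    push_cast
    rw [hBA, one_mul]
  have c2 : ((W / B : ℕ) : A) = ((W / (B * B) : ℕ) : A) + ((W / B % B : ℕ) : A) := by
    conv_lhs => rw [← d2]
    push_cast
    rw [hBA, one_mul]
  have c3 : ((W / (B * B) : ℕ) : A)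
      = ((W / (B * B * B) : ℕ) : A) + ((W / (B * B) % B : ℕ) : A) := by
    conv_lhs => rw [← d3]
    push_cast
    rw [hBA, one_mul]
  unfold fold4
  rw [e2, e3, m3, c1, c2, c3]
  push_cast
  ring

theorem mf_dmT (P : Par) (sl : ℕ → List Bool) (R i : ℕ) :
    dmT P sl R i = cat (fun p => chunk P i (sl p) ++ [false, false]) 0 (R * P.b) := by
  unfold dmT
  exact mb_cat_cat (fun p => chunk P i (sl p) ++ [false, false]) R P.b

theorem mf_exT (P : Par) (sl : ℕ → List Bool) (R G i : ℕ) (hQ : 0 < R * P.b) :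
    exT P sl R G i = cat (fun p => chunk P i
      (sl (p / (R * P.b) * (4 * (R * P.b)) + 2 * (R * P.b) + p % (R * P.b))) ++ [false, false])
      0 (G * (R * P.b)) := by
  unfold exT
  rw [← mb_cat_cat]
  apply mb_cat_congr
  intro gi _
  simp only [Nat.zero_add]
  rw [mf_dmT]
  apply mb_cat_congr
  intro j hj
  simp only [Nat.zero_add]
  have h1 : (gi * (R * P.b) + j) / (R * P.b) = gi := by
    rw [Nat.mul_comm gi, Nat.mul_add_div hQ, Nat.div_eq_of_lt hj, Nat.add_zero]
  have h2 : (gi * (R * P.b) + j) % (R * P.b) = j := by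
    rw [Nat.mul_comm gi, Nat.mul_add_mod, Nat.mod_eq_of_lt hj]
  rw [h1, h2]

/-- The two zero bits after each chunk absorb the carries.
`lval` of tape `i` is `∑ p, (lval (σ p) / 2^(i*L) % 2^L) * (2^(L+2))^p` (`mb_lval_cat`,
`mb_chunk_lbits` after rewriting `σ p = lbits P.w (lval (σ p))` with `mb_lbits_lval`); the sum of
the four tapes is `∑ p, fold4 L (lval (σ p)) * (2^(L+2))^p`; then `mb_slices_lbits`, `md_digit`,
`mb_lbits_mod`. -/
theorem mf_fold_slices (P : Par) (K : ℕ) (σ : ℕ → List Bool) (hσ : ∀ p, (σ p).length = P.w)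
    (p : ℕ) (hp : p < K) :
    slices (2 * P.m + 2) (sum4 (K * (2 * P.m + 2))
      (fun i => cat (fun p => chunk P i (σ p) ++ [false, false]) 0 K)) p
      = lbits (2 * P.m + 2) (fold4 (2 * P.m) (lval (σ p))) := by
  set L : ℕ := 2 * P.m with hL
  have hlen : ∀ i, i < 4 → ∀ j, (chunk P i (σ j) ++ [false, false]).length = L + 2 := by
    intro i hi j
    have h1 : i * (2 * P.m) ≤ 3 * (2 * P.m) := Nat.mul_le_mul_right _ (by omega)
    simp only [chunk, List.length_append, List.length_take, List.length_drop, hσ, Par.w,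
      List.length_cons, List.length_nil]
    omega
  have hval : ∀ i, i < 4 → ∀ j, lval (chunk P i (σ j) ++ [false, false])
      = lval (σ j) / 2 ^ (i * L) % 2 ^ L := by
    intro i hi j
    have h1 : σ j = lbits P.w (lval (σ j)) := by
      conv_lhs => rw [← mb_lbits_lval (σ j), hσ]
    rw [mb_lval_append]
    have h2 : lval [false, false] = 0 := rfl
    rw [h2, Nat.mul_zero, Nat.add_zero, h1, mb_chunk_lbits P i _ hi, mb_lval_lbits, ← h1]
  have htape : ∀ i, i < 4 → lval (cat (fun p => chunk P i (σ p) ++ [false, false]) 0 K)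
      = ∑ j ∈ Finset.range K, (lval (σ j) / 2 ^ (i * L) % 2 ^ L) * (2 ^ (L + 2)) ^ j := by
    intro i hi
    rw [mb_lval_cat _ (L + 2) (hlen i hi)]
    exact Finset.sum_congr rfl fun j _ => by rw [hval i hi j]
  have hsum : lval (cat (fun p => chunk P 0 (σ p) ++ [false, false]) 0 K)
      + lval (cat (fun p => chunk P 1 (σ p) ++ [false, false]) 0 K)
      + lval (cat (fun p => chunk P 2 (σ p) ++ [false, false]) 0 K)
      + lval (cat (fun p => chunk P 3 (σ p) ++ [false, false]) 0 K)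
      = ∑ j ∈ Finset.range K, fold4 L (lval (σ j)) * (2 ^ (L + 2)) ^ j := by
    rw [htape 0 (by omega), htape 1 (by omega), htape 2 (by omega), htape 3 (by omega),
      ← Finset.sum_add_distrib, ← Finset.sum_add_distrib, ← Finset.sum_add_distrib]
    refine Finset.sum_congr rfl fun j _ => ?_
    unfold fold4
    simp only [Nat.zero_mul, pow_zero, Nat.div_one, Nat.one_mul]
    ring
  unfold sum4
  rw [hsum, mb_slices_lbits _ _ _ _ (Nat.mul_le_mul_right _ hp), ← mb_lbits_mod,
    md_digit (2 ^ (L + 2)) (fun j => fold4 L (lval (σ j))) K p hp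
      (fun t' _ => mf_fold4_lt L _)]

end Vale.Agent.P338.TM
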