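import Vale.Agent.P338.TM.MathCast
import Vale.Agent.P338.TM.MathChain3
import Vale.Agent.P338.TM.MathEnc

/-!
The mathematical heart: the four stages transpose.  See BLUEPRINT.md, section 1.
-/

namespace Vale.Agent.P338.TM

open Vale.Agent.P338
open Finset

theorem mm_slice_take (w : ℕ) (l : List Bool) (k : ℕ) (h : (k + 1) * w ≤ l.length) :
    slices w l k = (l.drop (k * w)).take w := by
  have h1 : k * w + w ≤ l.length := by
    have : (k + 1) * w = k * w + w := by ring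
    omega
  unfold slices
  apply List.ext_getElem
  · rw [List.length_map, List.length_range, List.length_take, List.length_drop]
    omega
  · intro i h2 h3
    have h4 : i < w := by
      rw [List.length_map, List.length_range] at h2
      exact h2
    rw [List.getElem_map, List.getElem_range, List.getElem_take, List.getElem_drop,
      List.getD_eq_getElem?_getD, List.getElem?_eq_getElem (by omega), Option.getD_some]

theorem mm_cat_take (w : ℕ) (l : List Bool) (k : ℕ) (h : k * w ≤ l.length) :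
    cat (slices w l) 0 k = l.take (k * w) := by
  induction k with
  | zero => simp [mb_cat_zero]
  | succ k ih =>
    have h1 : (k + 1) * w = k * w + w := by ring
    rw [mb_cat_succ, ih (by omega), Nat.zero_add, mm_slice_take w l k h, h1, List.take_add]

/-- A list is the concatenation of its slices. -/
theorem cat_slices (w k : ℕ) (l : List Bool) (hl : l.length = k * w) :
    cat (slices w l) 0 k = l := by
  rw [mm_cat_take w l k (by omega), ← hl, List.take_length]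

theorem blk0_length (P : Par) (hV : P.Valid) (ent : ℕ → List Bool)
    (hent : ∀ j, (ent j).length = P.e) (j : ℕ) : (blk0 P ent j).length = 2 * P.m + 2 := by
  unfold blk0
  rw [me_encBlock_length, hent, hV.hf]

section ring

variable {A : Type*} [CommRing A]

theorem mm_rel1 (P : Par) (hV : P.Valid) (h2 : (2 : A) ^ (2 * P.m) = 1) (ent : ℕ → List Bool)
    (hent : ∀ j, (ent j).length = P.e) (p : ℕ) (hp : p < P.N) :
    ((lval (blk1 P ent p) : ℕ) : A) = stageA ((2 : A) ^ P.g) P.N (phAt P 1 0 0 ⟨0, 1, 0⟩)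
      (fun t => (Ph.yrows P.N 1 ⟨0, 0, 0⟩ t).S) P.N 1
      (fun n => ((lval (blk0 P ent n) : ℕ) : A)) p :=
  mk_stage_cast P hV h2 1 0 0 1 0 P.a 1 (P.a * P.b) 0 1 (by ring) (by unfold Par.N; ring)
    (mt_N_pos P hV) (blk0 P ent) (blk0_length P hV ent hent) p hp

theorem mm_rel2 (P : Par) (hV : P.Valid) (h2 : (2 : A) ^ (2 * P.m) = 1) (ent : ℕ → List Bool)
    (p : ℕ) (hp : p < P.N) :
    ((lval (blk2 P ent p) : ℕ) : A) = stageA ((2 : A) ^ P.g) P.N (phAt P 1 P.b 0 ⟨0, 1, P.b⟩)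
      (fun t => (Ph.yrows P.N P.b ⟨0, 0, 0⟩ t).S) P.a P.b
      (fun n => ((lval (blk1 P ent n) : ℕ) : A)) p := by
  have hb : P.b - 1 + 1 = P.b := Nat.sub_add_cancel (by have := hV.b2; omega)
  have h := mk_stage_cast P hV h2 1 P.b 0 1 P.b P.a 1 P.a (P.b - 1) P.b (by rw [hb])
    (by unfold Par.N; ring) (by have := hV.a2; omega) (blk1 P ent)
    (fun n => slices_length _ _ _) p hp
  rw [hb] at h
  exact h

theorem mm_rel3 (P : Par) (hV : P.Valid) (h2 : (2 : A) ^ (2 * P.m) = 1) (ent : ℕ → List Bool)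
    (p : ℕ) (hp : p < P.N) :
    ((lval (blk3 P ent p) : ℕ) : A) = stageA ((2 : A) ^ P.g) P.N (phAt P P.a 0 1 ⟨0, P.a, P.H⟩)
      (fun t => (Ph.yrows P.N P.a ⟨0, 0, 0⟩ t).S) P.b 1
      (fun n => ((lval (blk2 P ent n) : ℕ) : A)) p :=
  mk_stage_cast P hV h2 P.a 0 1 P.a P.H 1 P.a P.b 0 P.a (by ring) (by unfold Par.N; ring)
    (by have := hV.b2; omega) (blk2 P ent) (fun n => slices_length _ _ _) p hp

theorem mm_rel4 (P : Par) (hV : P.Valid) (h2 : (2 : A) ^ (2 * P.m) = 1) (ent : ℕ → List Bool)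
    (p : ℕ) (hp : p < P.N) :
    ((lval (blk4 P ent p) : ℕ) : A) = ((lval (blk3 P ent p) : ℕ) : A)
      * ((2 : A) ^ P.g) ^ (phAt P P.a 0 0 ⟨0, 0, P.H⟩ p) :=
  mk_last_cast P hV h2 P.a 0 0 0 P.H (blk3 P ent) (fun _ => slices_length _ _ _) p hp

end ring

/-- The congruence modulo `2^m + 1`. -/
theorem mm_plus (P : Par) (al be : ℕ) (hF : P.Fat al be) (ent : ℕ → List Bool)
    (hent : ∀ j, (ent j).length = P.e) (p : ℕ) (hp : p < P.N) :
    ((lval (blk4 P ent p) : ℕ) : ZMod (2 ^ P.m + 1))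
      = ((P.N * lval (blk0 P ent (P.N - 1 - (p / P.b + P.a * (p % P.b)))) : ℕ) :
          ZMod (2 ^ P.m + 1)) := by
  have hV : P.Valid := hF.toValid
  have hm1 : (2 : ZMod (2 ^ P.m + 1)) ^ P.m = -1 := mr_two_pow_plus P.m
  have h2 : (2 : ZMod (2 ^ P.m + 1)) ^ (2 * P.m) = 1 := by
    rw [Nat.mul_comm, pow_mul, hm1]; norm_num
  have hN0 := mt_N_pos P hV
  have hb0 : 0 < P.b := by have := hV.b2; omega
  have hb2 : 2 ∣ P.b := by
    rw [hF.hb]
    have hbe : be ≠ 0 := by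
      intro h
      have := hV.b2
      rw [hF.hb, h] at this
      norm_num at this
    exact dvd_pow_self 2 hbe
  have hω : ((2 : ZMod (2 ^ P.m + 1)) ^ P.g) ^ P.N = 1 := by
    rw [← pow_mul, Nat.mul_comm, ← mt_hL P hV, h2]
  obtain ⟨ν, hν⟩ : ∃ ν, al + be = ν + 1 := by
    have hbe : be ≠ 0 := by
      intro h
      have := hV.b2
      rw [hF.hb, h] at this
      norm_num at this
    exact ⟨al + be - 1, by omega⟩
  have hNν : P.N = 2 ^ (ν + 1) := by
    unfold Par.N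
    rw [hF.ha, hF.hb, ← pow_add, hν]
  have hhalf : ((2 : ZMod (2 ^ P.m + 1)) ^ P.g) ^ (2 ^ ν) = -1 := by
    have e : P.g * 2 ^ ν = P.m := by
      have := mt_hL P hV
      rw [hNν, pow_succ] at this
      nlinarith
    rw [← pow_mul, e, hm1]
  have horth : ∀ x, ¬ P.N ∣ x →
      ∑ n ∈ range P.N, ((2 : ZMod (2 ^ P.m + 1)) ^ P.g) ^ (n * x) = 0 := by
    intro x hx
    rw [hNν] at hx ⊢
    exact mr_orth _ ν hhalf x hx
  have h := mh_chain ((2 : ZMod (2 ^ P.m + 1)) ^ P.g) P.N P.a P.b rfl hb0 hω horth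
    (phAt P 1 0 0 ⟨0, 1, 0⟩) (phAt P 1 P.b 0 ⟨0, 1, P.b⟩) (phAt P P.a 0 1 ⟨0, P.a, P.H⟩)
    (phAt P P.a 0 0 ⟨0, 0, P.H⟩)
    (fun t => (Ph.yrows P.N 1 ⟨0, 0, 0⟩ t).S) (fun t => (Ph.yrows P.N P.b ⟨0, 0, 0⟩ t).S)
    (fun t => (Ph.yrows P.N P.a ⟨0, 0, 0⟩ t).S)
    (mp_ph1 P hb0) (mp_ph2 P hb0) (mp_ph3 P hb0 hb2 hF.hH2) (mp_ph4 P hb0 hb2 hF.hH2)
    (fun t => mp_chirp P.N 1 t) (fun t => mp_chirp P.N P.b t) (fun t => mp_chirp P.N P.a t)
    (fun t => (mp_chirp_lt P.N hN0 1 t).le) (fun t => (mp_chirp_lt P.N hN0 P.b t).le)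
    (fun t => (mp_chirp_lt P.N hN0 P.a t).le)
    (fun n => ((lval (blk0 P ent n) : ℕ) : ZMod (2 ^ P.m + 1)))
    (fun n => ((lval (blk1 P ent n) : ℕ) : ZMod (2 ^ P.m + 1)))
    (fun n => ((lval (blk2 P ent n) : ℕ) : ZMod (2 ^ P.m + 1)))
    (fun n => ((lval (blk3 P ent n) : ℕ) : ZMod (2 ^ P.m + 1)))
    (fun n => ((lval (blk4 P ent n) : ℕ) : ZMod (2 ^ P.m + 1)))
    (fun q hq => mm_rel1 P hV h2 ent hent q hq) (fun q hq => mm_rel2 P hV h2 ent q hq)
    (fun q hq => mm_rel3 P hV h2 ent q hq) (fun q hq => mm_rel4 P hV h2 ent q hq) p hp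
  rw [h]
  push_cast
  rfl

/-- The congruence modulo `2^m - 1`: everything vanishes. -/
theorem mm_minus (P : Par) (hV : P.Valid) (ent : ℕ → List Bool)
    (hent : ∀ j, (ent j).length = P.e) (p : ℕ) (hp : p < P.N) (y : ℕ) :
    ((lval (blk4 P ent p) : ℕ) : ZMod (2 ^ P.m - 1))
      = ((P.N * lval (blk0 P ent y) : ℕ) : ZMod (2 ^ P.m - 1)) := by
  have hm1 : (2 : ZMod (2 ^ P.m - 1)) ^ P.m = 1 := mr_two_pow_minus P.m
  have h2 : (2 : ZMod (2 ^ P.m - 1)) ^ (2 * P.m) = 1 := by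
    rw [Nat.mul_comm, pow_mul, hm1]; norm_num
  have hb0 : 0 < P.b := by have := hV.b2; omega
  have z0 : ∀ n, ((lval (blk0 P ent n) : ℕ) : ZMod (2 ^ P.m - 1)) = 0 := by
    intro n
    unfold blk0
    exact me_enc_cast_minus P.f _ P.m (by rw [hent]; exact hV.hf) hm1
  have z1 : ∀ n, n < P.N → ((lval (blk1 P ent n) : ℕ) : ZMod (2 ^ P.m - 1)) = 0 := by
    intro n hn
    rw [mm_rel1 P hV h2 ent hent n hn]
    exact mk_stage_zero _ _ _ _ _ _ 1 (by ring) (by norm_num) _ (fun q _ => z0 q) n hn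
  have z2 : ∀ n, n < P.N → ((lval (blk2 P ent n) : ℕ) : ZMod (2 ^ P.m - 1)) = 0 := by
    intro n hn
    rw [mm_rel2 P hV h2 ent n hn]
    exact mk_stage_zero _ _ _ _ _ _ 1 (by unfold Par.N; ring) hb0 _ z1 n hn
  have z3 : ∀ n, n < P.N → ((lval (blk3 P ent n) : ℕ) : ZMod (2 ^ P.m - 1)) = 0 := by
    intro n hn
    rw [mm_rel3 P hV h2 ent n hn]
    exact mk_stage_zero _ _ _ _ _ _ P.a (by unfold Par.N; ring) (by norm_num) _ z2 n hn
  rw [mm_rel4 P hV h2 ent p hp, z3 p hp]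
  push_cast
  rw [z0 y]
  ring

/-- The final blocks decode to the entries of the transposed matrix. -/
theorem pipe_decodes (P : Par) (al be : ℕ) (hF : P.Fat al be) (ent : ℕ → List Bool)
    (hent : ∀ j, (ent j).length = P.e) (j : ℕ) (hj : j < P.N) :
    Decodes (blk4 P ent j) (ent (trIdx P.a P.b j)) := by
  have hV : P.Valid := hF.toValid
  have hb0 : 0 < P.b := by have := hV.b2; omega
  have hm : 1 ≤ P.m := by have := hV.hf; omega
  have hy : j / P.b + P.a * (j % P.b) < P.N := by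
    have h5 : j / P.b < P.a := by
      rw [Nat.div_lt_iff_lt_mul hb0]
      exact hj
    have h6 : j % P.b < P.b := Nat.mod_lt _ hb0
    calc j / P.b + P.a * (j % P.b) < P.a + P.a * (j % P.b) := by omega
      _ = P.a * (j % P.b + 1) := by ring
      _ ≤ P.a * P.b := Nat.mul_le_mul_left _ h6
      _ = P.N := rfl
  have hc := mr_crt P.m _ _ hm (mm_plus P al be hF ent hent j hj)
    (mm_minus P hV ent hent j hj (P.N - 1 - (j / P.b + P.a * (j % P.b))))
  have hidx : P.N - 1 - (P.N - 1 - (j / P.b + P.a * (j % P.b))) = trIdx P.a P.b j := by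
    have h7 : trIdx P.a P.b j = j / P.b + P.a * (j % P.b) := by
      unfold trIdx
      rw [Nat.mul_comm (j % P.b) P.a, Nat.add_comm]
    rw [h7]
    generalize j / P.b + P.a * (j % P.b) = y at hy ⊢
    generalize P.N = M at hy ⊢
    omega
  have hblk0 : blk0 P ent (P.N - 1 - (j / P.b + P.a * (j % P.b)))
      = encBlock P.f (ent (trIdx P.a P.b j)) := by
    unfold blk0
    rw [hidx]
  rw [hblk0] at hc
  have hNν : P.N = 2 ^ (al + be) := by
    unfold Par.N
    rw [hF.ha, hF.hb, ← pow_add]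
  rw [hNν] at hc
  have hlen : (blk4 P ent j).length = 2 * P.m + 2 := slices_length _ _ _
  have hlt : lval (blk4 P ent j) < 2 ^ (2 * P.m + 2) := by
    have := mb_lval_lt (blk4 P ent j)
    rwa [hlen] at this
  have hd := me_decode P.m (al + be) P.f (ent (trIdx P.a P.b j)) (by rw [hent]; exact hV.hf)
    hF.hnu (lval (blk4 P ent j)) hlt hc
  rw [← hlen, mb_lbits_lval] at hd
  exact hd

end Vale.Agent.P338.TM
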