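import Mathlib

/-!
Roots of unity of two-power order, the rings `ZMod (2^m + 1)` and `ZMod (2^m - 1)`, and the
passage to the modulus `2^(2m) - 1`.
-/

namespace Vale.Agent.P338.TM

open Finset

theorem mr_pow_eq {A : Type*} [Monoid A] (ω : A) (N : ℕ) (hω : ω ^ N = 1) {x y : ℕ}
    (h : x ≡ y [MOD N]) : ω ^ x = ω ^ y := by
  have hx : ω ^ x = ω ^ (x % N) := by
    conv_lhs => rw [← Nat.div_add_mod x N]
    rw [pow_add, pow_mul, hω, one_pow, one_mul]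
  have hy : ω ^ y = ω ^ (y % N) := by
    conv_lhs => rw [← Nat.div_add_mod y N]
    rw [pow_add, pow_mul, hω, one_pow, one_mul]
  rw [hx, hy]
  have : x % N = y % N := h
  rw [this]

/-- `1 + y + ... + y^(2^ν - 1) = (1 + y)(1 + y^2)(1 + y^4) ...`. -/
theorem mr_geom_prod {A : Type*} [CommRing A] (y : A) (ν : ℕ) :
    ∑ n ∈ range (2 ^ ν), y ^ n = ∏ t ∈ range ν, (1 + y ^ (2 ^ t)) := by
  induction ν with
  | zero => simp
  | succ ν ih =>
    rw [prod_range_succ, ← ih, pow_succ, mul_two, sum_range_add, mul_add, mul_one, sum_mul]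
    congr 1
    refine sum_congr rfl (fun n _ => ?_)
    rw [pow_add, mul_comm]

/-- Orthogonality.  Write `x = 2^s * u` with `u` odd, `s ≤ ν`; the factor `t = ν - s` of
`mr_geom_prod` for `y = ω ^ x` is `1 + (ω ^ (2^ν)) ^ u = 0`. -/
theorem mr_orth {A : Type*} [CommRing A] (ω : A) (ν : ℕ) (hω : ω ^ (2 ^ ν) = -1) (x : ℕ)
    (hx : ¬ 2 ^ (ν + 1) ∣ x) : ∑ n ∈ range (2 ^ (ν + 1)), ω ^ (n * x) = 0 := by
  have hx0 : x ≠ 0 := by
    rintro rfl
    exact hx (dvd_zero _)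
  obtain ⟨s, u, hu, rfl⟩ := Nat.exists_eq_two_pow_mul_odd hx0
  have hs : s ≤ ν := by
    by_contra hcon
    have h1 : ν + 1 ≤ s := by omega
    exact hx (Dvd.dvd.mul_right (pow_dvd_pow 2 h1) u)
  have h1 : ∑ n ∈ range (2 ^ (ν + 1)), ω ^ (n * (2 ^ s * u))
      = ∑ n ∈ range (2 ^ (ν + 1)), (ω ^ (2 ^ s * u)) ^ n := by
    refine sum_congr rfl (fun n _ => ?_)
    rw [← pow_mul, mul_comm]
  rw [h1, mr_geom_prod]
  refine prod_eq_zero (i := ν - s) (mem_range.mpr (by omega)) ?_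
  have h2 : (ω ^ (2 ^ s * u)) ^ (2 ^ (ν - s)) = (ω ^ (2 ^ ν)) ^ u := by
    rw [← pow_mul, ← pow_mul]
    congr 1
    have : 2 ^ ν = 2 ^ s * 2 ^ (ν - s) := by
      rw [← pow_add]
      congr 1
      omega
    rw [this]
    ring
  rw [h2, hω, hu.neg_one_pow]
  ring

theorem mr_orth_dvd {A : Type*} [CommRing A] (ω : A) (N : ℕ) (hω : ω ^ N = 1) (x : ℕ)
    (hx : N ∣ x) : ∑ n ∈ range N, ω ^ (n * x) = (N : A) := by
  obtain ⟨k, rfl⟩ := hx
  have : ∀ n ∈ range N, ω ^ (n * (N * k)) = 1 := by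
    intro n _
    rw [mul_comm n, mul_assoc, pow_mul, hω, one_pow]
  rw [sum_congr rfl this]
  simp

theorem mr_two_pow_plus (m : ℕ) : (2 : ZMod (2 ^ m + 1)) ^ m = -1 := by
  have h : ((2 ^ m + 1 : ℕ) : ZMod (2 ^ m + 1)) = 0 := ZMod.natCast_self _
  push_cast at h
  exact eq_neg_of_add_eq_zero_left h

theorem mr_two_pow_minus (m : ℕ) : (2 : ZMod (2 ^ m - 1)) ^ m = 1 := by
  have h : ((2 ^ m - 1 : ℕ) : ZMod (2 ^ m - 1)) = 0 := ZMod.natCast_self _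
  rw [Nat.cast_sub Nat.one_le_two_pow] at h
  push_cast at h
  exact sub_eq_zero.mp h

/-- `2^m + 1` and `2^m - 1` are coprime and their product is `2^(2m) - 1`. -/
theorem mr_crt (m x y : ℕ) (hm : 1 ≤ m) (h1 : (x : ZMod (2 ^ m + 1)) = (y : ZMod (2 ^ m + 1)))
    (h2 : (x : ZMod (2 ^ m - 1)) = (y : ZMod (2 ^ m - 1))) : x ≡ y [MOD 2 ^ (2 * m) - 1] := by
  have e1 : x ≡ y [MOD 2 ^ m + 1] := (ZMod.natCast_eq_natCast_iff _ _ _).mp h1
  have e2 : x ≡ y [MOD 2 ^ m - 1] := (ZMod.natCast_eq_natCast_iff _ _ _).mp h2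
  have hp : 2 ≤ 2 ^ m := by
    calc 2 = 2 ^ 1 := by norm_num
      _ ≤ 2 ^ m := Nat.pow_le_pow_right (by norm_num) hm
  have hodd : Odd (2 ^ m - 1) := by
    have he : Even (2 ^ m) := (Nat.even_pow).mpr ⟨even_two, by omega⟩
    exact Nat.Even.sub_odd (by omega) he odd_one
  have hcop : Nat.Coprime (2 ^ m + 1) (2 ^ m - 1) := by
    have h3 : 2 ^ m + 1 = (2 ^ m - 1) + 2 := by omega
    rw [h3, Nat.coprime_self_add_left]
    exact (Nat.coprime_two_left.mpr hodd)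
  have hprod : (2 ^ m + 1) * (2 ^ m - 1) = 2 ^ (2 * m) - 1 := by
    have h4 : 2 ^ (2 * m) = 2 ^ m * 2 ^ m := by rw [two_mul, pow_add]
    rw [h4]
    obtain ⟨k, hk⟩ : ∃ k, 2 ^ m = k + 1 := ⟨2 ^ m - 1, by omega⟩
    rw [hk]
    simp only [Nat.add_sub_cancel]
    have : (k + 1) * (k + 1) = (k + 1 + 1) * k + 1 := by ring
    rw [this, Nat.add_sub_cancel]
  rw [← hprod]
  exact (Nat.modEq_and_modEq_iff_modEq_mul hcop).mp ⟨e1, e2⟩

end Vale.Agent.P338.TM
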