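import Vale.Agent.P338.TM.MathBits
import Vale.Agent.P338.TM.MathConv

/-!
The two operands of a multiplication as concatenations of slots of `P.w` bits.
-/

namespace Vale.Agent.P338.TM

open Vale.Agent.P338

/-- Slot `τ` of the first operand (`Q` = number of blocks of a group, `s` = phases). -/
def msX (P : Par) (s : ℕ → ℕ) (blk : ℕ → List Bool) (Q τ : ℕ) : List Bool :=
  if τ % (4 * Q) < Q then slotX P (s (posN Q τ)) (blk (posN Q τ)) else zs P.w

/-- Slot `τ` of the second operand (`c` = chirp phases, `st` = stride). -/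
def msY (P : Par) (c : ℕ → ℕ) (l st τ : ℕ) : List Bool :=
  if τ % st = 0 ∧ τ / st < 3 * l then slotY P (c (τ / st)) else zs P.w

theorem ms_zs_length (k : ℕ) : (zs k).length = k := by
  simp [zs]

theorem ms_split_mul (N S g : ℕ) (hS : S ≤ N) : S * g + (N - S) * g = N * g := by
  rw [← Nat.add_mul]
  congr 1
  omega

theorem ms_slotX_length (P : Par) (hL : 2 * P.m = P.N * P.g) (S : ℕ) (hS : S ≤ P.N)
    (blk : List Bool) (hb : blk.length = 2 * P.m + 2) : (slotX P S blk).length = P.w := by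
  unfold slotX Par.w
  simp only [List.length_append, ms_zs_length, hb]
  have := ms_split_mul P.N S P.g hS
  omega

theorem ms_lval_slotX (P : Par) (S : ℕ) (blk : List Bool) :
    lval (slotX P S blk) = lval blk * 2 ^ (S * P.g) := by
  unfold slotX
  simp only [mb_lval_append, mb_lval_zs, ms_zs_length]
  ring

theorem ms_slotY_length (P : Par) (hL : 2 * P.m = P.N * P.g) (S : ℕ) (hS : S ≤ P.N) :
    (slotY P S).length = P.w := by
  unfold slotY Par.w
  simp only [List.length_append, List.length_cons, ms_zs_length]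
  have := ms_split_mul P.N S P.g hS
  omega

theorem ms_lval_slotY (P : Par) (S : ℕ) : lval (slotY P S) = 2 ^ ((P.N - S) * P.g) := by
  unfold slotY
  simp only [mb_lval_append, mb_lval_zs, ms_zs_length, lval, Bool.toNat_true]
  ring

theorem ms_msX_length (P : Par) (hL : 2 * P.m = P.N * P.g) (s : ℕ → ℕ) (hs : ∀ n, s n ≤ P.N)
    (blk : ℕ → List Bool) (hb : ∀ n, (blk n).length = 2 * P.m + 2) (Q τ : ℕ) :
    (msX P s blk Q τ).length = P.w := by
  unfold msX
  split_ifs
  · exact ms_slotX_length P hL _ (hs _) _ (hb _)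
  · exact ms_zs_length _

theorem ms_msY_length (P : Par) (hL : 2 * P.m = P.N * P.g) (c : ℕ → ℕ) (hc : ∀ n, c n ≤ P.N)
    (l st τ : ℕ) : (msY P c l st τ).length = P.w := by
  unfold msY
  split_ifs
  · exact ms_slotY_length P hL _ (hc _)
  · exact ms_zs_length _

theorem ms_lval_msX (P : Par) (s : ℕ → ℕ) (blk : ℕ → List Bool) (Q τ : ℕ) :
    lval (msX P s blk Q τ)
      = if τ % (4 * Q) < Q then lval (blk (posN Q τ)) * 2 ^ (s (posN Q τ) * P.g) else 0 := by
  unfold msX
  split_ifs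
  · exact ms_lval_slotX P _ _
  · exact mb_lval_zs _

theorem ms_lval_msY (P : Par) (c : ℕ → ℕ) (l st τ : ℕ) :
    lval (msY P c l st τ)
      = if τ % st = 0 ∧ τ / st < 3 * l then 2 ^ ((P.N - c (τ / st)) * P.g) else 0 := by
  unfold msY
  split_ifs
  · exact ms_lval_slotY P _
  · exact mb_lval_zs _

theorem ms_cat_const (w i k : ℕ) : cat (fun _ => zs w) i k = zs (k * w) :=
  (mb_zs_eq_cat w k).symm

theorem ms_rows_add (N b E1 E2 E3 : ℕ) (p : Ph) (r r' : ℕ) :
    (p.rows N b E1 E2 E3 r).rows N b E1 E2 E3 r' = p.rows N b E1 E2 E3 (r + r') := by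
  unfold Ph.rows
  rw [Nat.add_comm, Function.iterate_add_apply]

theorem ms_div_block (k i j : ℕ) (hj : j < k) : (i * k + j) / k = i := by
  have hk : 0 < k := by omega
  rw [Nat.add_comm, Nat.add_mul_div_right _ _ hk, Nat.div_eq_of_lt hj, Nat.zero_add]

theorem ms_mod_block (k i j : ℕ) (hj : j < k) : (i * k + j) % k = j := by
  rw [Nat.add_comm, Nat.add_mul_mod_self_right, Nat.mod_eq_of_lt hj]

/-- The rows of a group. -/
theorem ms_rowsOut (P : Par) (E1 E2 E3 : ℕ) (blk : ℕ → List Bool) (p : Ph)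
    (R i : ℕ) :
    xRowsOut P E1 E2 E3 (fun n => blk (i * (R * P.b) + n)) (p.rows P.N P.b E1 E2 E3 (i * R)) R
      = cat (fun n => slotX P (phAt P E1 E2 E3 p (i * (R * P.b) + n)) (blk (i * (R * P.b) + n)))
          0 (R * P.b) := by
  rw [← mb_cat_cat]
  unfold xRowsOut xRowOut
  apply mb_cat_congr
  intro r _
  apply mb_cat_congr
  intro j hj
  simp only [Nat.zero_add]
  congr 1
  unfold phAt
  have e : i * (R * P.b) + (r * P.b + j) = (i * R + r) * P.b + j := by ring
  rw [e, ms_div_block _ _ _ hj, ms_mod_block _ _ _ hj, ms_rows_add]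

/-- One group. -/
theorem ms_group (P : Par) (E1 E2 E3 : ℕ) (blk : ℕ → List Bool) (p : Ph)
    (R : ℕ) (i : ℕ) :
    xGroupOut P E1 E2 E3 (fun n => blk (i * (R * P.b) + n)) (p.rows P.N P.b E1 E2 E3 (i * R)) R
      = cat (fun j => msX P (phAt P E1 E2 E3 p) blk (R * P.b) (i * (4 * (R * P.b)) + j)) 0
          (4 * (R * P.b)) := by
  unfold xGroupOut
  rw [ms_rowsOut P]
  have e4 : 4 * (R * P.b) = R * P.b + 3 * (R * P.b) := by ring
  have ez : 3 * (R * (P.b * P.w)) = 3 * (R * P.b) * P.w := by ring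
  rw [ez]
  generalize R * P.b = Q at *
  conv_rhs => rw [e4]
  rw [mb_cat_add, Nat.zero_add]
  congr 1
  · apply mb_cat_congr
    intro j hj
    simp only [Nat.zero_add]
    have hj4 : j < 4 * Q := by omega
    unfold msX posN
    rw [← e4, ms_mod_block _ _ _ hj4, ms_div_block _ _ _ hj4, if_pos hj]
  · rw [← ms_cat_const P.w Q (3 * Q)]
    apply mb_cat_congr
    intro j hj
    have hj4 : Q + j < 4 * Q := by omega
    unfold msX
    rw [← e4, ms_mod_block _ _ _ hj4, if_neg (by omega)]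

/-- The rows of a group are flattened with `mb_cat_cat`; `(p.rows .. (i*R)).rows .. r = p.rows .. (i*R+r)`
by `Function.iterate_add_apply`; the zero slots by `mb_zs_eq_cat`; then the groups are flattened
with `mb_cat_cat` again (`mb_cat_add`, `mb_cat_congr`, `mb_cat_shift`). -/
theorem ms_xOut (P : Par) (hb : 0 < P.b) (E1 E2 E3 : ℕ) (blk : ℕ → List Bool) (p : Ph)
    (R G : ℕ) (hR : 0 < R) :
    xOut P E1 E2 E3 blk p R G
      = cat (msX P (phAt P E1 E2 E3 p) blk (R * P.b)) 0 (G * (4 * (R * P.b))) := by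
  rw [← mb_cat_cat]
  unfold xOut
  apply mb_cat_congr
  intro i _
  simp only [Nat.zero_add]
  exact ms_group P E1 E2 E3 blk p R i

theorem ms_yOut (P : Par) (E2 s1 : ℕ) (p : Ph) (l : ℕ) (h : 3 * l * (s1 + 1) ≤ 4 * P.N) :
    yOut P E2 s1 p (3 * l) ++ zs (4 * (P.N * P.w) - 3 * l * ((s1 + 1) * P.w))
      = cat (msY P (fun t => (p.yrows P.N E2 t).S) l (s1 + 1)) 0 (4 * P.N) := by
  obtain ⟨rest, hrest⟩ : ∃ rest, 4 * P.N = 3 * l * (s1 + 1) + rest := ⟨_, (Nat.add_sub_cancel' h).symm⟩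
  have ez : 4 * (P.N * P.w) - 3 * l * ((s1 + 1) * P.w) = rest * P.w := by
    have e1 : 4 * (P.N * P.w) = (4 * P.N) * P.w := by ring
    have e2 : 3 * l * ((s1 + 1) * P.w) = (3 * l * (s1 + 1)) * P.w := by ring
    rw [e1, e2, hrest, Nat.add_mul, Nat.add_sub_cancel_left]
  rw [ez, hrest, mb_cat_add, Nat.zero_add]
  congr 1
  · rw [← mb_cat_cat]
    unfold yOut
    apply mb_cat_congr
    intro i hi
    simp only [Nat.zero_add]
    rw [Nat.add_comm s1 1, mb_cat_add, Nat.zero_add]
    congr 1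
    · have e1 : cat (fun j => msY P (fun t => (p.yrows P.N E2 t).S) l (1 + s1) (i * (1 + s1) + j)) 0 1
          = msY P (fun t => (p.yrows P.N E2 t).S) l (1 + s1) (i * (1 + s1) + 0) := by
        rw [show (1 : ℕ) = 0 + 1 from rfl, mb_cat_succ, mb_cat_zero]
        simp
      rw [e1]
      unfold msY
      have h0 : 0 < 1 + s1 := by omega
      rw [ms_mod_block _ _ _ h0, ms_div_block _ _ _ h0, if_pos ⟨rfl, hi⟩]
    · rw [← ms_cat_const P.w 1 s1]
      apply mb_cat_congr
      intro j hj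
      have hj' : 1 + j < 1 + s1 := by omega
      unfold msY
      rw [ms_mod_block _ _ _ hj', if_neg (by omega)]
  · rw [← ms_cat_const P.w (3 * l * (s1 + 1)) rest]
    apply mb_cat_congr
    intro j _
    unfold msY
    rw [if_neg]
    rintro ⟨_, h2⟩
    have h3 : 3 * l ≤ (3 * l * (s1 + 1) + j) / (s1 + 1) := by
      rw [Nat.le_div_iff_mul_le (by omega)]
      omega
    omega

end Vale.Agent.P338.TM
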