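import Vale.Agent.P338.TM.MathSlots
import Vale.Agent.P338.TM.MathFold
import Vale.Agent.P338.TM.MathPhase

/-!
One stage on the level of values: the new blocks are the folded convolution sums.
-/

namespace Vale.Agent.P338.TM

open Vale.Agent.P338
open Finset

/-- The convolution sum read off at the slot of the output block `p`
(`s` = phases, `c` = chirp phases, `l` = transform length, `st` = stride, `v` = block values). -/
def convW (P : Par) (s c : ℕ → ℕ) (l st : ℕ) (v : ℕ → ℕ) (p : ℕ) : ℕ :=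
  ∑ i ∈ range l,
    (v (p / (l * st) * (l * st) + i * st + p % st)
      * 2 ^ (s (p / (l * st) * (l * st) + i * st + p % st) * P.g))
      * 2 ^ ((P.N - c (2 * l + p % (l * st) / st - i)) * P.g)

theorem mt_hL (P : Par) (hV : P.Valid) : 2 * P.m = P.N * P.g := hV.hm

theorem mt_N_pos (P : Par) (hV : P.Valid) : 0 < P.N := by
  have h1 := hV.a2
  have h2 := hV.b2
  exact Nat.mul_pos (by omega) (by omega)

theorem mt_four_N_lt (P : Par) (hV : P.Valid) : 4 * P.N < 2 ^ (2 * P.m) := by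
  have hm : 7 ≤ P.m := by have := hV.hf; omega
  have hN : P.N ≤ 2 * P.m := by
    rw [mt_hL P hV]
    exact Nat.le_mul_of_pos_right _ hV.g1
  have h1 : P.m < 2 ^ P.m := Nat.lt_two_pow_self
  have h2 : 8 ≤ 2 ^ P.m := by
    calc 8 = 2 ^ 3 := by norm_num
      _ ≤ 2 ^ P.m := Nat.pow_le_pow_right (by norm_num) (by omega)
  have h3 : 2 ^ (2 * P.m) = 2 ^ P.m * 2 ^ P.m := by rw [two_mul, pow_add]
  rw [h3]
  calc 4 * P.N ≤ 8 * P.m := by omega
    _ < 8 * 2 ^ P.m := by omega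
    _ ≤ 2 ^ P.m * 2 ^ P.m := Nat.mul_le_mul_right _ h2

/-- Every term is `< 2^(L+2) * 2^L * 2^L` (`L = 2m = N*g`), there are `l ≤ N` terms and
`4 * N < 2^L`. -/
theorem mt_convW_lt (P : Par) (hV : P.Valid) (s c : ℕ → ℕ) (hs : ∀ n, s n ≤ P.N) (l st : ℕ)
    (hl : l ≤ P.N) (v : ℕ → ℕ) (hv : ∀ n, v n < 2 ^ (2 * P.m + 2)) (p : ℕ) :
    convW P s c l st v p < 2 ^ (4 * (2 * P.m)) := by
  unfold convW
  have hL := mt_hL P hV
  have h4 := mt_four_N_lt P hV
  generalize 2 * P.m = L at *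
  have hterm : ∀ i ∈ range l,
      (v (p / (l * st) * (l * st) + i * st + p % st)
        * 2 ^ (s (p / (l * st) * (l * st) + i * st + p % st) * P.g))
        * 2 ^ ((P.N - c (2 * l + p % (l * st) / st - i)) * P.g) ≤ 2 ^ (L + 2) * 2 ^ L * 2 ^ L := by
    intro i _
    refine Nat.mul_le_mul (Nat.mul_le_mul (hv _).le ?_) ?_
    · apply Nat.pow_le_pow_right (by norm_num)
      rw [hL]
      exact Nat.mul_le_mul_right _ (hs _)
    · apply Nat.pow_le_pow_right (by norm_num)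
      rw [hL]
      exact Nat.mul_le_mul_right _ (Nat.sub_le _ _)
  have h := Finset.sum_le_card_nsmul _ _ _ hterm
  rw [card_range, smul_eq_mul] at h
  refine lt_of_le_of_lt h ?_
  calc l * (2 ^ (L + 2) * 2 ^ L * 2 ^ L) ≤ P.N * (2 ^ (L + 2) * 2 ^ L * 2 ^ L) :=
        Nat.mul_le_mul_right _ hl
    _ = (4 * P.N) * (2 ^ L * 2 ^ L * 2 ^ L) := by rw [pow_add]; ring
    _ < 2 ^ L * (2 ^ L * 2 ^ L * 2 ^ L) := Nat.mul_lt_mul_of_pos_right h4 (by positivity)
    _ = 2 ^ (4 * L) := by ring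

/-- `mf_dmT`, `mf_fold_slices` with `σ n = slotX ..` (`ms_slotX_length`, `mp_phAt_lt`),
`ms_lval_slotX`; `P.N = P.a * P.b` by definition. -/
theorem mt_last_value (P : Par) (hV : P.Valid) (E1 E2 E3 iD iF : ℕ)
    (blk : ℕ → List Bool) (hblk : ∀ n, (blk n).length = 2 * P.m + 2) (p : ℕ) (hp : p < P.N) :
    lastModel P E1 E2 E3 iD iF blk p
      = lbits (2 * P.m + 2) (fold4 (2 * P.m)
          (lval (blk p) * 2 ^ (phAt P E1 E2 E3 ⟨0, iD, iF⟩ p * P.g))) := by
  unfold lastModel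
  have e : dmT P (fun n => slotX P (phAt P E1 E2 E3 ⟨0, iD, iF⟩ n) (blk n)) P.a
      = fun i => cat (fun p => chunk P i (slotX P (phAt P E1 E2 E3 ⟨0, iD, iF⟩ p) (blk p))
          ++ [false, false]) 0 P.N := by
    funext i
    rw [mf_dmT]
    rfl
  rw [e, mf_fold_slices P P.N (fun n => slotX P (phAt P E1 E2 E3 ⟨0, iD, iF⟩ n) (blk n))
    (fun n => ms_slotX_length P (mt_hL P hV) _
      (mp_phAt_lt P (mt_N_pos P hV) E1 E2 E3 iD iF n).le _ (hblk n)) p hp, ms_lval_slotX]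

end Vale.Agent.P338.TM
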