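import Vale.Agent.P338.TM.MathStage

/-!
One stage with a multiplication, on the level of values.
-/

namespace Vale.Agent.P338.TM

open Vale.Agent.P338
open Finset

/-- the slot that is read off lies among the first `4 * N` slots -/
theorem mt_tau_lt (Q G N p : ℕ) (hQ : 0 < Q) (hG : G * Q = N) (hp : p < N) :
    p / Q * (4 * Q) + 2 * Q + p % Q < 4 * N := by
  have h1 : p / Q < G := by
    apply Nat.div_lt_of_lt_mul
    rw [Nat.mul_comm, hG]; exact hp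
  have h2 : p % Q < Q := Nat.mod_lt _ hQ
  have h3 : (p / Q + 1) * (4 * Q) ≤ G * (4 * Q) := Nat.mul_le_mul_right _ h1
  have h4 : G * (4 * Q) = 4 * N := by rw [← hG]; ring
  have h5 : (p / Q + 1) * (4 * Q) = p / Q * (4 * Q) + 4 * Q := by ring
  omega

/-- bound for the digits of the first operand -/
theorem mt_x_le (P : Par) (hL : 2 * P.m = P.N * P.g) (s : ℕ → ℕ) (hs : ∀ n, s n ≤ P.N)
    (blk : ℕ → List Bool) (hblk : ∀ n, (blk n).length = 2 * P.m + 2) (Q j : ℕ) :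
    lval (msX P s blk Q j) ≤ 2 ^ (2 * (2 * P.m) + 2) := by
  rw [ms_lval_msX]
  split_ifs with h
  · have h1 : lval (blk (posN Q j)) < 2 ^ (2 * P.m + 2) := by
      have := mb_lval_lt (blk (posN Q j))
      rwa [hblk] at this
    have h2 : 2 ^ (s (posN Q j) * P.g) ≤ 2 ^ (2 * P.m) := by
      apply Nat.pow_le_pow_right (by norm_num)
      rw [hL]
      exact Nat.mul_le_mul_right _ (hs _)
    calc lval (blk (posN Q j)) * 2 ^ (s (posN Q j) * P.g)
        ≤ 2 ^ (2 * P.m + 2) * 2 ^ (2 * P.m) := Nat.mul_le_mul h1.le h2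
      _ = 2 ^ (2 * (2 * P.m) + 2) := by rw [← pow_add]; congr 1; ring
  · exact Nat.zero_le _

/-- bound for the digits of the second operand -/
theorem mt_y_le (P : Par) (hL : 2 * P.m = P.N * P.g) (c : ℕ → ℕ) (l st j : ℕ) :
    lval (msY P c l st j) ≤ 2 ^ (2 * P.m) := by
  rw [ms_lval_msY]
  split_ifs with h
  · apply Nat.pow_le_pow_right (by norm_num)
    rw [hL]
    exact Nat.mul_le_mul_right _ (Nat.sub_le _ _)
  · exact Nat.zero_le _

/-- Plan.  Put `Q = R * P.b = l * (s1+1)`, `K = 4 * P.N = G * (4 * Q)`, `B = 2 ^ P.w`,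
`τ = p / Q * (4 * Q) + 2 * Q + p % Q < K`.
1. `ms_xOut`, `ms_yOut` (`3 * l * (s1+1) = 3 * Q ≤ 4 * P.N`) and `mb_lval_cat`
   (`ms_msX_length`, `ms_msY_length`, `mp_phAt_lt`, `mp_chirp_lt`) write the two factors as digit
   sums in base `B` over `range K`.
2. `mf_exT` (under `funext i`) and `mf_fold_slices` with `K := P.N`,
   `σ p = slices P.w (..) (p / Q * (4 * Q) + 2 * Q + p % Q)` (`slices_length`) reduce the claim to
   `lval (slices P.w (lbits (2 * (4 * (P.N * P.w))) (X * Y)) τ) = convW ..`.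
3. `mb_slices_lbits`, `mb_lval_lbits`, `md_conv_digit`; the bound `hB` from `mc_conv_bound` with
   `X0 = 2^(2*L+2)`, `Y0 = 2^L` (`L = 2 * P.m = P.N * P.g`), `τ' + 1 ≤ 4 * P.N < 2^L`
   (`mt_four_N_lt`) and `P.w = 4 * L + 2`.
4. `ms_lval_msX`, `ms_lval_msY`, `mc_conv_eval` with `A n = lval (blk n) * 2 ^ (s n * P.g)`,
   `Bf T = 2 ^ ((P.N - c T) * P.g)`; unfold `convW` and rewrite `Q`. -/
theorem mt_conv_value (P : Par) (hV : P.Valid) (E1 E2 E3 iD iF R G l s1 E2y : ℕ)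
    (hQ : R * P.b = l * (s1 + 1)) (hG : G * (R * P.b) = P.N) (hl : 0 < l)
    (blk : ℕ → List Bool) (hblk : ∀ n, (blk n).length = 2 * P.m + 2) (p : ℕ) (hp : p < P.N) :
    convModel P E1 E2 E3 iD iF R G l s1 E2y blk p
      = lbits (2 * P.m + 2) (fold4 (2 * P.m)
          (convW P (phAt P E1 E2 E3 ⟨0, iD, iF⟩) (fun t => (Ph.yrows P.N E2y ⟨0, 0, 0⟩ t).S)
            l (s1 + 1) (fun n => lval (blk n)) p)) := by
  have hN : 0 < P.N := mt_N_pos P hV
  have hL : 2 * P.m = P.N * P.g := mt_hL P hV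
  have hst : 0 < s1 + 1 := Nat.succ_pos _
  have hQpos : 0 < R * P.b := by rw [hQ]; exact Nat.mul_pos hl hst
  have hR : 0 < R := Nat.pos_of_ne_zero (by rintro rfl; simp at hQpos)
  have hb : 0 < P.b := Nat.pos_of_ne_zero (by intro h; rw [h] at hQpos; simp at hQpos)
  have hGpos : 0 < G := Nat.pos_of_ne_zero (by rintro rfl; simp at hG; omega)
  obtain ⟨s, hs⟩ : ∃ s, s = phAt P E1 E2 E3 ⟨0, iD, iF⟩ := ⟨_, rfl⟩
  obtain ⟨c, hc⟩ : ∃ c : ℕ → ℕ, c = fun t => (Ph.yrows P.N E2y ⟨0, 0, 0⟩ t).S := ⟨_, rfl⟩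
  have hsle : ∀ n, s n ≤ P.N := fun n => by
    rw [hs]; exact (mp_phAt_lt P hN E1 E2 E3 iD iF n).le
  have hcle : ∀ n, c n ≤ P.N := fun n => by
    rw [hc]; exact (mp_chirp_lt P.N hN E2y n).le
  have hK : G * (4 * (R * P.b)) = 4 * P.N := by rw [← hG]; ring
  have hQN : R * P.b ≤ P.N := by rw [← hG]; exact Nat.le_mul_of_pos_left _ hGpos
  have h3 : 3 * l * (s1 + 1) ≤ 4 * P.N := by
    have : 3 * l * (s1 + 1) = 3 * (R * P.b) := by rw [hQ]; ring
    omega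
  have eX := ms_xOut P hb E1 E2 E3 blk ⟨0, iD, iF⟩ R G hR
  rw [hK, ← hs] at eX
  have eY := ms_yOut P E2y s1 ⟨0, 0, 0⟩ l h3
  rw [← hc] at eY
  rw [← hs, ← hc]
  unfold convModel
  rw [eX, eY, mb_lval_cat _ P.w (ms_msX_length P hL s hsle blk hblk (R * P.b)),
    mb_lval_cat _ P.w (ms_msY_length P hL c hcle l (s1 + 1))]
  -- the digits
  obtain ⟨x, hx⟩ : ∃ x : ℕ → ℕ, x = fun j => lval (msX P s blk (R * P.b) j) := ⟨_, rfl⟩
  obtain ⟨y, hy⟩ : ∃ y : ℕ → ℕ, y = fun j => lval (msY P c l (s1 + 1) j) := ⟨_, rfl⟩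
  have hxs : ∑ j ∈ range (4 * P.N), lval (msX P s blk (R * P.b) j) * (2 ^ P.w) ^ j
      = ∑ j ∈ range (4 * P.N), x j * (2 ^ P.w) ^ j := by rw [hx]
  have hys : ∑ j ∈ range (4 * P.N), lval (msY P c l (s1 + 1) j) * (2 ^ P.w) ^ j
      = ∑ j ∈ range (4 * P.N), y j * (2 ^ P.w) ^ j := by rw [hy]
  rw [hxs, hys]
  obtain ⟨Z, hZ⟩ : ∃ Z, Z = (∑ j ∈ range (4 * P.N), x j * (2 ^ P.w) ^ j) *
      (∑ j ∈ range (4 * P.N), y j * (2 ^ P.w) ^ j) := ⟨_, rfl⟩
  rw [← hZ]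
  -- step 2
  have eT : exT P (slices P.w (lbits (2 * (4 * (P.N * P.w))) Z)) R G
      = fun i => cat (fun p => chunk P i
          (slices P.w (lbits (2 * (4 * (P.N * P.w))) Z)
            (p / (R * P.b) * (4 * (R * P.b)) + 2 * (R * P.b) + p % (R * P.b)))
          ++ [false, false]) 0 P.N := by
    funext i
    rw [mf_exT _ _ _ _ _ hQpos, hG]
  rw [eT, mf_fold_slices P P.N (fun p => slices P.w (lbits (2 * (4 * (P.N * P.w))) Z)
            (p / (R * P.b) * (4 * (R * P.b)) + 2 * (R * P.b) + p % (R * P.b)))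
      (fun p => slices_length _ _ _) p hp]
  -- step 3
  have hτ : p / (R * P.b) * (4 * (R * P.b)) + 2 * (R * P.b) + p % (R * P.b) < 4 * P.N :=
    mt_tau_lt (R * P.b) G P.N p hQpos hG hp
  have hlen : (p / (R * P.b) * (4 * (R * P.b)) + 2 * (R * P.b) + p % (R * P.b) + 1) * P.w
      ≤ 2 * (4 * (P.N * P.w)) := by
    have h1 : (p / (R * P.b) * (4 * (R * P.b)) + 2 * (R * P.b) + p % (R * P.b) + 1) * P.w
        ≤ (4 * P.N) * P.w := Nat.mul_le_mul_right _ hτ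
    have h2 : (4 * P.N) * P.w = 4 * (P.N * P.w) := by ring
    omega
  have hB : ∀ τ', τ' ≤ p / (R * P.b) * (4 * (R * P.b)) + 2 * (R * P.b) + p % (R * P.b) →
      ∑ q ∈ antidiagonal τ', x q.1 * y q.2 < 2 ^ P.w := by
    intro τ' hτ'
    have h1 := mc_conv_bound x y (2 ^ (2 * (2 * P.m) + 2)) (2 ^ (2 * P.m))
      (fun j => by rw [hx]; exact mt_x_le P hL s hsle blk hblk (R * P.b) j)
      (fun j => by rw [hy]; exact mt_y_le P hL c l (s1 + 1) j) τ'
    have h2 : τ' + 1 < 2 ^ (2 * P.m) := lt_of_le_of_lt (by omega) (mt_four_N_lt P hV)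
    have h4 : 0 < 2 ^ (2 * (2 * P.m) + 2) * 2 ^ (2 * P.m) := by positivity
    calc ∑ q ∈ antidiagonal τ', x q.1 * y q.2
        ≤ (τ' + 1) * (2 ^ (2 * (2 * P.m) + 2) * 2 ^ (2 * P.m)) := h1
      _ < 2 ^ (2 * P.m) * (2 ^ (2 * (2 * P.m) + 2) * 2 ^ (2 * P.m)) :=
          Nat.mul_lt_mul_of_pos_right h2 h4
      _ = 2 ^ P.w := by
          rw [← pow_add, ← pow_add]
          congr 1
          unfold Par.w
          ring
  have hval : lval (slices P.w (lbits (2 * (4 * (P.N * P.w))) Z)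
      (p / (R * P.b) * (4 * (R * P.b)) + 2 * (R * P.b) + p % (R * P.b)))
      = convW P s c l (s1 + 1) (fun n => lval (blk n)) p := by
    rw [mb_slices_lbits _ _ _ _ hlen, mb_lval_lbits, hZ,
      md_conv_digit (2 ^ P.w) (4 * P.N) x y _ hτ hB, hx, hy]
    simp only [ms_lval_msX, ms_lval_msY]
    rw [mc_conv_eval (R * P.b) l (s1 + 1) hQ hst hl
      (fun n => lval (blk n) * 2 ^ (s n * P.g)) (fun T => 2 ^ ((P.N - c T) * P.g)) p]
    unfold convW
    rw [hQ]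
  show lbits (2 * P.m + 2) (fold4 (2 * P.m) (lval (slices P.w (lbits (2 * (4 * (P.N * P.w))) Z)
      (p / (R * P.b) * (4 * (R * P.b)) + 2 * (R * P.b) + p % (R * P.b))))) = _
  rw [hval]

end Vale.Agent.P338.TM
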