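import Vale.Agent.P338.TM.Model

/-! More conventions and cost functions. -/

namespace Vale.Agent.P338.TM

open Vale.Agent.P338

variable {Γ : Type} [TapeAlpha Γ]

/-- The registers `rS rD rF` hold the values `p`. -/
def HasPh (P : Par) (p : Ph) (s : St Own Γ) : Prop :=
  s Own.rS = Z [] (oh P.N p.S) ∧ s Own.rD = Z [] (oh P.N p.D) ∧ s Own.rF = Z [] (oh P.N p.F)

/-- Set the registers `rS rD rF` to the values `p`. -/
def setPh (P : Par) (p : Ph) (s : St Own Γ) : St Own Γ :=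
  Function.update (Function.update (Function.update s Own.rS (Z [] (oh P.N p.S)))
    Own.rD (Z [] (oh P.N p.D))) Own.rF (Z [] (oh P.N p.F))

/-- Admissible pairs of loop tapes (groups, rows per group). -/
def LoopPair (tG tR : Own) : Prop :=
  (tG = Own.t1 ∧ tR = Own.ta) ∨ (tG = Own.ta ∧ tR = Own.t1)

def cPadSame (n : ℕ) : ℕ := 3 * n + 8
def cPreMul (P : Par) (R G l s1 : ℕ) : ℕ :=
  5 * (3 * (P.N + 1) + 8) + cStageX P R G + cStageY P l s1 + cPadSame (4 * (P.N * P.w)) + 7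

def cSkipSlot (P : Par) : ℕ := 56 * P.m + 61
def cDemuxSlot (P : Par) : ℕ := 56 * P.m + 90
def cLoop2 (P : Par) (R c : ℕ) : ℕ := R * ((P.b * (c + 6) + 6) + 6) + 6
def cExtract (P : Par) (R G : ℕ) : ℕ :=
  G * ((2 * (cLoop2 P R (cSkipSlot P) + 1) + cLoop2 P R (cDemuxSlot P) + cLoop2 P R (cSkipSlot P) + 2)
    + 6) + 6
def cFoldAdd (n : ℕ) : ℕ := 14 * n + 60
def cPostMul (P : Par) (R G : ℕ) : ℕ :=
  2 * (8 * (P.N * P.w) + 5) + (2 * (P.N * (2 * P.m + 2)) + 5) + (8 * (P.N * P.w) + 3)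
    + cExtract P R G + (16 * (P.N * P.w) + 5) + cFoldAdd (P.N * (2 * P.m + 2)) + 6
def cLastStage (P : Par) : ℕ :=
  3 * (3 * (P.N + 1) + 8) + cStageX P P.a 1 + (2 * (P.N * (2 * P.m + 2)) + 5) + (4 * (P.N * P.w) + 3)
    + cLoop2 P P.a (cDemuxSlot P) + (8 * (P.N * P.w) + 5) + cFoldAdd (P.N * (2 * P.m + 2)) + 8
def cDecBlock (P : Par) : ℕ := cCpBlk P + 7 * P.e + 10 * P.m + 60
def cDecMat (P : Par) : ℕ := cLoop2 P P.a (cDecBlock P) + (2 * (P.N * (2 * P.m + 2)) + 5) + 1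

end Vale.Agent.P338.TM
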