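import Vale.Agent.P338.TM.Model2

/-! List level description of the steps after the multiplication. -/

namespace Vale.Agent.P338.TM

open Vale.Agent.P338

/-- The `i`-th chunk (`2*m` bits) of a slot. -/
def chunk (P : Par) (i : ℕ) (σ : List Bool) : List Bool := (σ.drop (i * (2 * P.m))).take (2 * P.m)

/-- What tape `T i` receives from `R * b` consecutive slots `sl 0, sl 1, ...`. -/
def dmT (P : Par) (sl : ℕ → List Bool) (R i : ℕ) : List Bool :=
  cat (fun r => cat (fun c => chunk P i (sl (r * P.b + c)) ++ [false, false]) 0 P.b) 0 R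

/-- What tape `T i` receives from the product: in each of the `G` groups of `4*Q` slots
(`Q = R*b`) the slots `2*Q, ..., 3*Q-1` are used. -/
def exT (P : Par) (sl : ℕ → List Bool) (R G i : ℕ) : List Bool :=
  cat (fun gi => dmT P (fun t => sl (gi * (4 * (R * P.b)) + 2 * (R * P.b) + t)) R i) 0 G

/-- The sum of four numbers, as `n` bits. -/
def sum4 (n : ℕ) (t : ℕ → List Bool) : List Bool :=
  lbits n (lval (t 0) + lval (t 1) + lval (t 2) + lval (t 3))

/-- The phase of block `n` of the first operand. -/
def phAt (P : Par) (E1 E2 E3 : ℕ) (p : Ph) (n : ℕ) : ℕ :=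
  ((p.rows P.N P.b E1 E2 E3 (n / P.b)).blks P.N E1 (n % P.b)).S

/-- The block `blk` decodes to the entry `u`. -/
def Decodes (blk u : List Bool) : Prop :=
  ∃ (g3 : List Bool) (ν : ℕ) (rest : List Bool), g3.length = 3 ∧
    blk = g3 ++ os ν ++ [false, false, false, true] ++ u ++ rest

end Vale.Agent.P338.TM
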