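import Vale.Agent.P338.TM.Model3

/-! List level description of the treatment of one matrix. -/

namespace Vale.Agent.P338.TM

open Vale.Agent.P338

/-- The `t`-th piece of length `w` of a list (padded with `false` beyond the end of the list). -/
def slices (w : ℕ) (l : List Bool) : ℕ → List Bool :=
  fun t => (List.range w).map fun i => l.getD (t * w + i) false

theorem slices_length (w : ℕ) (l : List Bool) (t : ℕ) : (slices w l t).length = w := by
  simp [slices]

/-- One stage with a multiplication: blocks in, blocks out. -/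
def convModel (P : Par) (E1 E2 E3 iD iF R G l s1 E2y : ℕ) (blk : ℕ → List Bool) :
    ℕ → List Bool :=
  slices (2 * P.m + 2) (sum4 (P.N * (2 * P.m + 2))
    (exT P (slices P.w (lbits (2 * (4 * (P.N * P.w)))
      (lval (xOut P E1 E2 E3 blk ⟨0, iD, iF⟩ R G) *
        lval (yOut P E2y s1 ⟨0, 0, 0⟩ (3 * l) ++
          zs (4 * (P.N * P.w) - 3 * l * ((s1 + 1) * P.w)))))) R G))

/-- The last stage (no multiplication). -/
def lastModel (P : Par) (E1 E2 E3 iD iF : ℕ) (blk : ℕ → List Bool) : ℕ → List Bool :=
  slices (2 * P.m + 2) (sum4 (P.N * (2 * P.m + 2))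
    (dmT P (fun n => slotX P (phAt P E1 E2 E3 ⟨0, iD, iF⟩ n) (blk n)) P.a))

/-- The blocks after encoding. -/
def blk0 (P : Par) (ent : ℕ → List Bool) : ℕ → List Bool :=
  fun j => encBlock P.f (ent (P.N - 1 - j))

/-- After the first stage. -/
def blk1 (P : Par) (ent : ℕ → List Bool) : ℕ → List Bool :=
  convModel P 1 0 0 1 0 P.a 1 (P.a * P.b) 0 1 (blk0 P ent)

/-- After the second stage. -/
def blk2 (P : Par) (ent : ℕ → List Bool) : ℕ → List Bool :=
  convModel P 1 P.b 0 1 P.b P.a 1 P.a (P.b - 1) P.b (blk1 P ent)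

/-- After the third stage. -/
def blk3 (P : Par) (ent : ℕ → List Bool) : ℕ → List Bool :=
  convModel P P.a 0 1 P.a P.H 1 P.a P.b 0 P.a (blk2 P ent)

/-- After the last stage. -/
def blk4 (P : Par) (ent : ℕ → List Bool) : ℕ → List Bool :=
  lastModel P P.a 0 0 0 P.H (blk3 P ent)

/-- Index map of the transposition of a `b × a` matrix: position `j = k1*b + k2` of the result
receives the entry at position `k2*a + k1`. -/
def trIdx (a b j : ℕ) : ℕ := (j % b) * a + j / b

/-- The extra conditions under which the treatment of a matrix is correct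
(`a = 2^al`, `b = 2^be`). -/
structure Par.Fat (P : Par) (al be : ℕ) : Prop extends P.Valid where
  ha : P.a = 2 ^ al
  hb : P.b = 2 ^ be
  hH2 : 2 * P.H = P.a * P.b
  hnu : al + be ≤ P.f

end Vale.Agent.P338.TM
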