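import Vale.Agent.P338.TM.Progs5

/-! Conventions and costs for the driver. -/

namespace Vale.Agent.P338.TM

open Vale.Agent.P338

/-- Admissible operations on data of `2^κ2` bits. -/
def OkOp (κ2 : ℕ) (op : Op) : Prop :=
  op.2.1 + op.2.2 ≤ op.1 + 2 ∧ op.1 + op.2.1 + op.2.2 ≤ κ2

def cInterp (tA : ℕ → ℕ) (κ2 : ℕ) (l : List Op) : ℕ :=
  (l.map fun op => cOpStep tA op.1 op.2.1 op.2.2 (2 ^ (κ2 - op.1 - op.2.1 - op.2.2))
    + 10 * (op.1 + op.2.1 + op.2.2) + 60).sum + 2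

def cMain (tA : ℕ → ℕ) (κ : ℕ) : ℕ :=
  1 + (3 * (2 ^ κ * (2 ^ κ + 1)) + 20) + (100 * 2 ^ κ + 100) + 4000 * (κ + 1)
    + cInterp tA (2 * κ) (sched κ) + (7 * (2 ^ κ * 2 ^ κ) + 30 * 2 ^ κ + 40) + 20

/-- The transposed `n × n` matrix, as a list (row after row). -/
def trList (n : ℕ) (D : List Bool) : List Bool :=
  (List.range (n * n)).map fun t => D.getD ((t % n) * n + t / n) false

end Vale.Agent.P338.TM
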