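import Vale.Agent.P338.TM.MulADefs

/-!
Most significant bit first (`val`, `bin` of Defs.lean) versus least significant bit first
(`lval`, `lbits` of Model.lean).

PLAN.  `ofFn_revB`: `List.ext_getElem` (lengths; `List.getElem_ofFn`, `List.getElem_reverse`,
`List.getD_eq_getElem`).  `val_revB`: first `lval u = ∑ j : Fin n, (u.getD j false).toNat * 2 ^ j`
(induction on `u` generalising `n`, `Fin.sum_univ_succ`, `pow_succ`, `Finset.mul_sum`), then reindex the sum
in `val` by `Fin.revPerm` (`Equiv.sum_comp`, `Fin.val_rev`): `n - 1 - (n - 1 - j) = j`.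
`ofFn_bin`: `List.ext_getElem` with `lbits m z = (List.range m).map z.testBit`.
-/

namespace Vale.Agent.P338.TM

open Vale.Agent.P338

theorem ofFn_revB (u : List Bool) (n : ℕ) (hu : u.length = n) :
    List.ofFn (revB u n) = u.reverse := by
  apply List.ext_getElem
  · simp [hu]
  · intro i h1 h2
    have hi : i < n := by simpa using h1
    have h3 : n - 1 - i < u.length := by omega
    rw [List.getElem_ofFn, List.getElem_reverse]
    simp only [revB]
    rw [List.getD_eq_getElem _ _ h3]
    simp only [hu]

theorem lval_eq_sum (u : List Bool) : ∀ (n : ℕ), u.length = n →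
    lval u = ∑ j : Fin n, (u.getD (j : ℕ) false).toNat * 2 ^ (j : ℕ) := by
  induction u with
  | nil =>
    intro n hn
    subst hn
    simp [lval]
  | cons b t ih =>
    intro n hn
    obtain ⟨m, rfl⟩ : ∃ m, n = m + 1 := ⟨t.length, by simpa using hn.symm⟩
    have hm : t.length = m := by simpa using hn
    rw [Fin.sum_univ_succ, lval, ih m hm, Finset.mul_sum]
    simp only [Fin.val_zero, List.getD_cons_zero, pow_zero, mul_one, Fin.val_succ,
      List.getD_cons_succ]
    congr 1
    apply Finset.sum_congr rfl
    intro j _
    rw [pow_succ]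
    ring

theorem val_revB (u : List Bool) (n : ℕ) (hu : u.length = n) : val (revB u n) = lval u := by
  rw [lval_eq_sum u n hu, val]
  rw [← Equiv.sum_comp Fin.revPerm]
  apply Finset.sum_congr rfl
  intro j _
  have hj := j.2
  simp only [revB, Fin.revPerm_apply, Fin.val_rev]
  have e : n - 1 - (n - (↑j + 1)) = (j : ℕ) := by omega
  rw [e]

theorem ofFn_bin (m z : ℕ) : List.ofFn (bin m z) = (lbits m z).reverse := by
  apply List.ext_getElem
  · simp [lbits]
  · intro i h1 h2
    have hi : i < m := by simpa using h1
    rw [List.getElem_ofFn, List.getElem_reverse]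
    simp only [bin, lbits, List.getElem_map, List.getElem_range, List.length_map,
      List.length_range]

end Vale.Agent.P338.TM
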