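import Vale.Agent.P338.TM.MulAHyb

/-!
`backA`: all heads of `A` and the clock head go back to the left end.

PLAN.  Work with `Prog.Runs` on hybrid configurations (rules in MulAHyb.lean): `scan_step`,
`scan_stop`, `seq_runs`, `prim_runs`, `reads_hyb_clk`, `reads_hyb_inl`, `clkTp_read`, `allA_app`,
`Tp.act_read`, `clkTp_act_read`, `clkTp_act_erase`, `clkTp_act_blank`, `Instr.app_set`,
`Instr.app_nil`, `update_hyb_clk`, `hyb_clk`.
* scan of `backA A id` from `hyb cA (clkTp L h) sO`: induction on `h` generalising `cA`: `h` steps to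
  `hyb (fun i => ⟨(cA i).cells, (cA i).head - h⟩) (clkTp L 0) sO`.  (`bit true ≠ lend`, `blank ≠ lend`
  from `TapeAlpha`; `Move.left.apply n = n - 1` by `rfl`; `n - 1 - h = n - (h + 1)`.)
* then `mv (inr clk) right` (`mv` unfolds to `prim`): `clkTp L 0` becomes `clkTp L 1`.
* for `fun _ => blank`: first step `clkTp L (L+1)` to `clkTp L L` (`clkTp_act_blank`), then by induction
  on `h`: from `clkTp h h` in `h` steps to `clkTp 0 0` (`clkTp_act_erase`).
-/

namespace Vale.Agent.P338.TM

open Vale.Agent.P338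

variable {k : ℕ}

theorem back_scan_id (A : Machine k) (g : (Fin k ⊕ Own → GA A) → Option (Instr (Fin k ⊕ Own) (GA A)))
    (hg0 : ∀ a, a (Sum.inr Own.clk) = lend → g a = none)
    (hg1 : ∀ a, a (Sum.inr Own.clk) ≠ lend → g a = some (allA A id Move.left id Move.left a))
    (L : ℕ) (sO : St Own (GA A)) : ∀ (h : ℕ) (cA : Fin k → Tp (GA A)),
    (scan g).Runs (hyb cA (clkTp L h) sO) h
      (hyb (fun i => ⟨(cA i).cells, (cA i).head - h⟩) (clkTp L 0) sO) true := by
  intro h
  induction h with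
  | zero =>
    intro cA
    exact scan_stop g _ (hg0 _ (by rw [reads_hyb_clk, clkTp_read, if_pos rfl]))
  | succ h ih =>
    intro cA
    have hne : reads (hyb cA (clkTp L (h + 1)) sO) (Sum.inr Own.clk) ≠ lend := by
      rw [reads_hyb_clk, clkTp_read, if_neg (Nat.succ_ne_zero h)]
      by_cases h1 : h + 1 ≤ L
      · rw [if_pos h1]; exact TapeAlpha.bit_ne_lend true
      · rw [if_neg h1]; exact fun e => TapeAlpha.lend_ne_blank e.symm
    refine scan_step g _ _ (hg1 _ hne) ?_
    rw [allA_app]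
    have e1 : (fun j => (cA j).act (id (reads (hyb cA (clkTp L (h + 1)) sO) (Sum.inl j))) Move.left)
        = fun j => (⟨(cA j).cells, (cA j).head - 1⟩ : Tp (GA A)) := by
      funext j
      rw [reads_hyb_inl]
      exact Tp.act_read (cA j) Move.left
    have e2 : (clkTp L (h + 1) : Tp (GA A)).act
        (id (reads (hyb cA (clkTp L (h + 1)) sO) (Sum.inr Own.clk))) Move.left = clkTp L h := by
      rw [reads_hyb_clk]
      exact clkTp_act_read L (h + 1) Move.left
    rw [e1, e2]
    have h3 := ih (fun j => (⟨(cA j).cells, (cA j).head - 1⟩ : Tp (GA A)))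
    have e3 : (fun i => (⟨(cA i).cells, (cA i).head - 1 - h⟩ : Tp (GA A)))
        = fun i => ⟨(cA i).cells, (cA i).head - (h + 1)⟩ := by
      funext i
      rw [Nat.sub_sub, Nat.add_comm 1 h]
    simp only [] at h3
    rw [e3] at h3
    exact h3

theorem back_scan_blank (A : Machine k)
    (g : (Fin k ⊕ Own → GA A) → Option (Instr (Fin k ⊕ Own) (GA A)))
    (hg0 : ∀ a, a (Sum.inr Own.clk) = lend → g a = none)
    (hg1 : ∀ a, a (Sum.inr Own.clk) ≠ lend →
      g a = some (allA A id Move.left (fun _ => blank) Move.left a))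
    (sO : St Own (GA A)) : ∀ (h : ℕ) (cA : Fin k → Tp (GA A)),
    (scan g).Runs (hyb cA (clkTp h h) sO) h
      (hyb (fun i => ⟨(cA i).cells, (cA i).head - h⟩) (clkTp 0 0) sO) true := by
  intro h
  induction h with
  | zero =>
    intro cA
    exact scan_stop g _ (hg0 _ (by rw [reads_hyb_clk, clkTp_read, if_pos rfl]))
  | succ h ih =>
    intro cA
    have hne : reads (hyb cA (clkTp (h + 1) (h + 1)) sO) (Sum.inr Own.clk) ≠ lend := by
      rw [reads_hyb_clk, clkTp_read, if_neg (Nat.succ_ne_zero h), if_pos le_rfl]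
      exact TapeAlpha.bit_ne_lend true
    refine scan_step g _ _ (hg1 _ hne) ?_
    rw [allA_app]
    have e1 : (fun j => (cA j).act (id (reads (hyb cA (clkTp (h + 1) (h + 1)) sO) (Sum.inl j)))
        Move.left) = fun j => (⟨(cA j).cells, (cA j).head - 1⟩ : Tp (GA A)) := by
      funext j
      rw [reads_hyb_inl]
      exact Tp.act_read (cA j) Move.left
    have e2 : (clkTp (h + 1) (h + 1) : Tp (GA A)).act blank Move.left = clkTp h h :=
      clkTp_act_erase (h + 1) (Nat.succ_le_succ (Nat.zero_le h))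
    rw [e1, e2]
    have h3 := ih (fun j => (⟨(cA j).cells, (cA j).head - 1⟩ : Tp (GA A)))
    have e3 : (fun i => (⟨(cA i).cells, (cA i).head - 1 - h⟩ : Tp (GA A)))
        = fun i => ⟨(cA i).cells, (cA i).head - (h + 1)⟩ := by
      funext i
      rw [Nat.sub_sub, Nat.add_comm 1 h]
    simp only [] at h3
    rw [e3] at h3
    exact h3

theorem back_mv_clk (A : Machine k) (cA : Fin k → Tp (GA A)) (L : ℕ) (sO : St Own (GA A)) :
    (mv (Sum.inr Own.clk) Move.right : Prog (Fin k ⊕ Own) (GA A)).Runs (hyb cA (clkTp L 0) sO) 1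
      (hyb cA (clkTp L 1) sO) true := by
  have h := prim_runs (fun a : Fin k ⊕ Own → GA A =>
    (Instr.nil : Instr (Fin k ⊕ Own) (GA A)).set (Sum.inr Own.clk) (a (Sum.inr Own.clk)) Move.right)
    (hyb cA (clkTp L 0) sO)
  rw [Instr.app_set, Instr.app_nil, hyb_clk, reads_hyb_clk, clkTp_act_read, update_hyb_clk] at h
  exact h

theorem backA_id_runs (A : Machine k) (cA : Fin k → Tp (GA A)) (L h : ℕ) (sO : St Own (GA A)) :
    (backA A id).Runs (hyb cA (clkTp L h) sO) (h + 2)
      (hyb (fun i => ⟨(cA i).cells, (cA i).head - h⟩) (clkTp L 1) sO) true := by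
  unfold backA
  exact seq_runs (back_scan_id A _ (fun a ha => if_pos ha) (fun a ha => if_neg ha) L sO h cA)
    (back_mv_clk A _ L sO)

theorem backA_blank_runs (A : Machine k) (cA : Fin k → Tp (GA A)) (L : ℕ) (sO : St Own (GA A)) :
    (backA A fun _ => blank).Runs (hyb cA (clkTp L (L + 1)) sO) (L + 3)
      (hyb (fun i => ⟨(cA i).cells, (cA i).head - (L + 1)⟩) (clkTp 0 1) sO) true := by
  unfold backA
  refine seq_runs (T1 := L + 1) (b1 := true) ?_ (back_mv_clk A _ 0 sO)
  have hne : reads (hyb cA (clkTp L (L + 1)) sO) (Sum.inr Own.clk) ≠ lend := by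
    rw [reads_hyb_clk, clkTp_read, if_neg (Nat.succ_ne_zero L), if_neg (Nat.not_succ_le_self L)]
    exact fun e => TapeAlpha.lend_ne_blank e.symm
  refine scan_step _ _ _ (if_neg hne) ?_
  rw [allA_app]
  have e1 : (fun j => (cA j).act (id (reads (hyb cA (clkTp L (L + 1)) sO) (Sum.inl j)))
      Move.left) = fun j => (⟨(cA j).cells, (cA j).head - 1⟩ : Tp (GA A)) := by
    funext j
    rw [reads_hyb_inl]
    exact Tp.act_read (cA j) Move.left
  rw [e1, clkTp_act_blank]
  have e3 : (fun i => (⟨(cA i).cells, (cA i).head - (L + 1)⟩ : Tp (GA A)))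
      = fun i => ⟨(cA i).cells, (cA i).head - 1 - L⟩ := by
    funext i
    rw [Nat.sub_sub, Nat.add_comm 1 L]
  rw [e3]
  exact back_scan_blank A _ (fun a ha => if_pos ha) (fun a ha => if_neg ha) sO L
    (fun j => (⟨(cA j).cells, (cA j).head - 1⟩ : Tp (GA A)))

end Vale.Agent.P338.TM
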