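import Vale.Agent.P338.TM.MulAHyb

/-!
`liftA A` simulates `A`; invariants of runs of `A`.

PLAN.
* `liftA_step`: if `A.step c = some c'` then
  `(liftA A).step (c.state, hyb (tpOf c) (clkTp L h) sO) = some (c'.state, hyb (tpOf c') (clkTp (max L h) (h+1)) sO)`
  for `1 ≤ h ≤ L + 1`.  Unfold `Prog.step`, `liftA`, `Machine.step`; the symbols read are
  `(reads _ (inl i)).elim id _ = c.tape i (c.head i)`; the new configuration is compared tape by tape
  (`funext`, `rcases` on `Sum`, `by_cases x = Own.clk`): tapes of `A`: `Tp.act` of `tpOf` (the update of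
  `fun j => Sum.inl (c.tape i j)` is `fun j => Sum.inl (update ..)`, `Function.update_apply` or
  `Function.comp_update`-like), the clock: `clkTp_act_mark`, other tapes: `Tp.act_read_stay`.
  If `A.step c = none` then `(liftA A).step (c.state, hyb (tpOf c) ck sO) = none`.
* `liftA_reach`: induction on `t` (`Machine.run`, `Option.bind_eq_some_iff`):
  `A.run t c = some c'` gives `Reach t (c.state, hyb (tpOf c) (clkTp L h) sO)
  (c'.state, hyb (tpOf c') (clkTp (max L (h + t - 1)) (h + t)) sO)` for `1 ≤ h ≤ L + 1`
  (for `t = 0` note `max L (h - 1) = L`).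
* `run_inv`: induction on `t` generalising `m` and `c`.
-/

namespace Vale.Agent.P338.TM

open Vale.Agent.P338

variable {k : ℕ}

/-- The symbols that `liftA A` hands to the transition function of `A`. -/
theorem liftA_reads (A : Machine k) (c : Cfg A) (ck : Tp (GA A)) (sO : St Own (GA A)) :
    (fun i => ((reads (hyb (tpOf c) ck sO) (Sum.inl i)).elim id fun _ => A.blank : A.Sym))
      = fun i => c.tape i (c.head i) := by
  funext i
  rfl

theorem tpOf_act (A : Machine k) (c : Cfg A) (i : Fin k) (w : A.Sym) (m : Move) :
    (tpOf c i).act (Sum.inl w) m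
      = ⟨fun j => Sum.inl (Function.update (c.tape i) (c.head i) w j), m.apply (c.head i)⟩ := by
  simp only [tpOf, Tp.act, Tp.mk.injEq, and_true]
  funext j
  by_cases hj : j = c.head i
  · subst hj
    simp
  · rw [Function.update_of_ne hj, Function.update_of_ne hj]

theorem liftA_step (A : Machine k) (c c' : Cfg A) (h : A.step c = some c') (L hd : ℕ)
    (h1 : 1 ≤ hd) (h2 : hd ≤ L + 1) (sO : St Own (GA A)) :
    (liftA A).step (c.state, hyb (tpOf c) (clkTp L hd) sO)
      = some (c'.state, hyb (tpOf c') (clkTp (max L hd) (hd + 1)) sO) := by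
  unfold Machine.step at h
  rw [Option.map_eq_some_iff] at h
  obtain ⟨r, hr, hc⟩ := h
  subst hc
  simp only [Prog.step, liftA]
  rw [liftA_reads, hr]
  simp only [Option.map_some, Option.some.injEq, Prod.mk.injEq, true_and]
  funext i
  rcases i with i | x
  · simp only [Sum.elim_inl, hyb_inl]
    rw [tpOf_act]
    rfl
  · by_cases hx : x = Own.clk
    · subst hx
      simp only [Sum.elim_inr, if_true, hyb_clk]
      exact clkTp_act_mark L hd h1 h2
    · simp only [Sum.elim_inr, if_neg hx, hyb_inr _ _ _ _ hx]
      have : reads (hyb (tpOf c) (clkTp L hd) sO) (Sum.inr x) = ((sO x).toTp).read := by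
        simp [reads, hyb_inr _ _ _ _ hx]
      rw [this]
      exact Tp.act_read_stay _

theorem liftA_step_none (A : Machine k) (c : Cfg A) (h : A.step c = none) (ck : Tp (GA A))
    (sO : St Own (GA A)) :
    (liftA A).step (c.state, hyb (tpOf c) ck sO) = none := by
  unfold Machine.step at h
  rw [Option.map_eq_none_iff] at h
  simp only [Prog.step, liftA]
  rw [liftA_reads, h]
  rfl

theorem liftA_reach (A : Machine k) (sO : St Own (GA A)) : ∀ (t : ℕ) (c c' : Cfg A) (L hd : ℕ),
    A.run t c = some c' → 1 ≤ hd → hd ≤ L + 1 →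
    (liftA A).Reach t (c.state, hyb (tpOf c) (clkTp L hd) sO)
      (c'.state, hyb (tpOf c') (clkTp (max L (hd + t - 1)) (hd + t)) sO) := by
  intro t
  induction t with
  | zero =>
    intro c c' L hd hrun h1 h2
    simp only [Machine.run, Option.some.injEq] at hrun
    subst hrun
    have e : max L (hd + 0 - 1) = L := by
      apply max_eq_left
      omega
    rw [e]
    exact Prog.Reach.zero _
  | succ t ih =>
    intro c c' L hd hrun h1 h2
    simp only [Machine.run] at hrun
    rw [Option.bind_eq_some_iff] at hrun
    obtain ⟨c1, hc1, hrun1⟩ := hrun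
    have hs := liftA_step A c c1 hc1 L hd h1 h2 sO
    have hle : hd + 1 ≤ max L hd + 1 := Nat.succ_le_succ (le_max_right _ _)
    have hr := ih c1 c' (max L hd) (hd + 1) hrun1 (by omega) hle
    have e1 : max (max L hd) (hd + 1 + t - 1) = max L (hd + (t + 1) - 1) := by
      have e3 : hd + 1 + t - 1 = hd + t := by omega
      have e4 : hd + (t + 1) - 1 = hd + t := by omega
      rw [e3, e4, max_assoc, max_eq_right (Nat.le_add_right hd t)]
    have e2 : hd + 1 + t = hd + (t + 1) := by omega
    rw [e1, e2] at hr
    exact Prog.Reach.succ hs hr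

theorem liftA_runs (A : Machine k) (c c' : Cfg A) (t : ℕ) (hs : c.state = A.start)
    (hrun : A.HaltsAt c t c') (L : ℕ) (sO : St Own (GA A)) :
    (liftA A).Runs (hyb (tpOf c) (clkTp L 1) sO) t
      (hyb (tpOf c') (clkTp (max L t) (t + 1)) sO) true := by
  obtain ⟨h1, h2⟩ := hrun
  have hr := liftA_reach A sO t c c' L 1 h1 (le_refl _) (by omega)
  have e1 : 1 + t - 1 = t := by omega
  have e2 : 1 + t = t + 1 := by omega
  rw [e1, e2, hs] at hr
  exact ⟨t, le_refl _, c'.state, hr, liftA_step_none A c' h2 _ sO, rfl⟩

theorem moveA_apply_le (m : Move) (h : ℕ) : m.apply h ≤ h + 1 := by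
  cases m
  · simp only [Move.apply]; omega
  · simp only [Move.apply]; omega
  · simp only [Move.apply]; omega

/-- Heads move at most one cell per step, and cells that were never reached keep their blank. -/
theorem run_inv (A : Machine k) (B : ℕ) : ∀ (t m : ℕ) (c c' : Cfg A), A.run t c = some c' →
    (∀ i, c.head i ≤ m) → (∀ i j, max m B ≤ j → c.tape i j = A.blank) →
    (∀ i, c'.head i ≤ m + t) ∧ (∀ i j, max (m + t) B ≤ j → c'.tape i j = A.blank) := by
  intro t
  induction t with
  | zero =>
    intro m c c' hrun hh hb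
    simp only [Machine.run, Option.some.injEq] at hrun
    subst hrun
    exact ⟨hh, hb⟩
  | succ t ih =>
    intro m c c' hrun hh hb
    simp only [Machine.run] at hrun
    rw [Option.bind_eq_some_iff] at hrun
    obtain ⟨c1, hc1, hrun1⟩ := hrun
    unfold Machine.step at hc1
    rw [Option.map_eq_some_iff] at hc1
    obtain ⟨r, hr, hc⟩ := hc1
    subst hc
    have e : m + 1 + t = m + (t + 1) := by omega
    have := ih (m + 1) _ c' hrun1 ?_ ?_
    · rw [e] at this
      exact this
    · intro i
      exact le_trans (moveA_apply_le _ _) (Nat.succ_le_succ (hh i))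
    · intro i j hj
      have hj1 : m + 1 ≤ j := le_trans (le_max_left _ _) hj
      have hj2 : B ≤ j := le_trans (le_max_right _ _) hj
      have hne : j ≠ c.head i := by
        have := hh i
        omega
      simp only [Function.update_of_ne hne]
      exact hb i j (max_le (by omega) hj2)

end Vale.Agent.P338.TM
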