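import Vale.Agent.P338.TM.MulAHyb

/-!
`outA A`: copy the output of `A` backwards onto `Pd`.

PLAN.  `Prog.Runs` on hybrid configurations (rules in MulAHyb.lean).  Let `m = ob.length`,
`o = A.out`, `f = (cA o).cells`.
1. first scan: by induction (on `m - j`, or on `j` downwards): from
   `hyb (update cA o ⟨f, j⟩) (clkTp L (j+1)) sO`, `j ≤ m`, in `m - j` steps to
   `hyb (update cA o ⟨f, m⟩) (clkTp L (m+1)) sO`.  (`f j = ob[j] ≠ blank` for `j < m`, `f m = blank`;
   `Instr.app_set`, `Instr.app_nil`, `update_hyb_inl`, `update_hyb_clk`, `Tp.act_read`, `clkTp_act_read`,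
   `Function.update_idem`.)
2. `prim`: to `hyb (update cA o ⟨f, m - 1⟩) (clkTp L m) sO`.
3. second scan: from `hyb (update cA o ⟨f, j - 1⟩) (clkTp L j) (update sO Pd (Z (d ++ (ob.drop j).reverse) []))`
   in `j` steps to `hyb (update cA o ⟨f, 0⟩) (clkTp L 0) (update sO Pd (Z (d ++ ob.reverse) []))`
   (induction on `j ≤ m`; `update_hyb_inr`, `Zip.toTp_act`, `Z_act_right`;
   `ob.drop (j-1) = ob[j-1] :: ob.drop j`).
4. `mv` the clock right; `update cA o ⟨f, 0⟩ = cA`.
-/

namespace Vale.Agent.P338.TM

open Vale.Agent.P338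

open Classical

variable {k : ℕ}

/-- Effect of the instruction that moves the output head and the clock head. -/
theorem outA_app2 (A : Machine k) (cA : Fin k → Tp (GA A)) (L : ℕ) (sO : St Own (GA A))
    (f : ℕ → GA A) (j h : ℕ) (mo : Move) :
    ((Instr.nil.set (Sum.inl A.out)
        (reads (hyb (Function.update cA A.out ⟨f, j⟩) (clkTp L h) sO) (Sum.inl A.out)) mo).set
        (Sum.inr Own.clk)
        (reads (hyb (Function.update cA A.out ⟨f, j⟩) (clkTp L h) sO) (Sum.inr Own.clk)) mo).app
      (hyb (Function.update cA A.out ⟨f, j⟩) (clkTp L h) sO)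
      = hyb (Function.update cA A.out ⟨f, mo.apply j⟩) (clkTp L (mo.apply h)) sO := by
  rw [Instr.app_set, Instr.app_set, Instr.app_nil, reads_hyb_inl, reads_hyb_clk, hyb_inl, hyb_clk,
    Function.update_self, Tp.act_read, clkTp_act_read, update_hyb_inl, update_hyb_clk,
    Function.update_idem]

theorem outA_scan1 (A : Machine k) (cA : Fin k → Tp (GA A)) (L : ℕ) (sO : St Own (GA A))
    (ob : List (GA A)) (hob : ∀ y ∈ ob, y ≠ blank) (n : ℕ) : ∀ j, j + n = ob.length →
    (scan fun a => if a (Sum.inl A.out) = blank then none else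
      some ((Instr.nil.set (Sum.inl A.out) (a (Sum.inl A.out)) Move.right).set (Sum.inr Own.clk)
        (a (Sum.inr Own.clk)) Move.right)).Runs
      (hyb (Function.update cA A.out ⟨fun j => ob.getD j blank, j⟩) (clkTp L (j + 1)) sO) n
      (hyb (Function.update cA A.out ⟨fun j => ob.getD j blank, ob.length⟩)
        (clkTp L (ob.length + 1)) sO) true := by
  induction n with
  | zero =>
    intro j hj
    have hj' : j = ob.length := by omega
    subst hj'
    apply scan_stop
    have hr : reads (hyb (Function.update cA A.out ⟨fun j => ob.getD j blank, ob.length⟩)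
        (clkTp L (ob.length + 1)) sO) (Sum.inl A.out) = blank := by
      rw [reads_hyb_inl, Function.update_self]
      simp [Tp.read]
    rw [if_pos hr]
  | succ n ih =>
    intro j hj
    have hlt : j < ob.length := by omega
    have hr : reads (hyb (Function.update cA A.out ⟨fun j => ob.getD j blank, j⟩)
        (clkTp L (j + 1)) sO) (Sum.inl A.out) ≠ blank := by
      rw [reads_hyb_inl, Function.update_self]
      simp only [Tp.read]
      rw [List.getD_eq_getElem _ _ hlt]
      exact hob _ (List.getElem_mem _)
    refine scan_step _ _ _ (if_neg hr) ?_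
    rw [outA_app2]
    exact ih (j + 1) (by omega)

theorem outA_scan2 (A : Machine k) (cA : Fin k → Tp (GA A)) (L : ℕ) (sO : St Own (GA A))
    (ob : List (GA A)) (d : List (GA A)) (j : ℕ) : j ≤ ob.length →
    (scan fun a => if a (Sum.inr Own.clk) = lend then none else
      some (((Instr.nil.set (Sum.inl A.out) (a (Sum.inl A.out)) Move.left).set (Sum.inr Own.clk)
        (a (Sum.inr Own.clk)) Move.left).set (Sum.inr Own.Pd) (a (Sum.inl A.out)) Move.right)).Runs
      (hyb (Function.update cA A.out ⟨fun j => ob.getD j blank, j - 1⟩) (clkTp L j)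
        (Function.update sO Own.Pd (Z (d ++ (ob.drop j).reverse) []))) j
      (hyb (Function.update cA A.out ⟨fun j => ob.getD j blank, 0⟩) (clkTp L 0)
        (Function.update sO Own.Pd (Z (d ++ ob.reverse) []))) true := by
  induction j with
  | zero =>
    intro _
    rw [List.drop_zero]
    apply scan_stop
    have hr : reads (hyb (Function.update cA A.out ⟨fun j => ob.getD j blank, 0 - 1⟩) (clkTp L 0)
        (Function.update sO Own.Pd (Z (d ++ ob.reverse) []))) (Sum.inr Own.clk) = lend := by
      rw [reads_hyb_clk, clkTp_read, if_pos rfl]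
    rw [if_pos hr]
  | succ j ih =>
    intro hj
    have hlt : j < ob.length := by omega
    have hr : reads (hyb (Function.update cA A.out ⟨fun j => ob.getD j blank, j + 1 - 1⟩)
        (clkTp L (j + 1))
        (Function.update sO Own.Pd (Z (d ++ (ob.drop (j + 1)).reverse) []))) (Sum.inr Own.clk)
        ≠ lend := by
      rw [reads_hyb_clk, clkTp_read, if_neg (Nat.succ_ne_zero j)]
      split_ifs
      · exact TapeAlpha.bit_ne_lend true
      · exact fun h => TapeAlpha.lend_ne_blank h.symm
    refine scan_step _ _ _ (if_neg hr) ?_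
    have hPc : Own.Pd ≠ Own.clk := by decide
    rw [Instr.app_set, outA_app2, hyb_inr _ _ _ _ hPc, Function.update_self, Zip.toTp_act,
      Z_act_right, update_hyb_inr _ _ _ _ hPc, Function.update_idem, reads_hyb_inl,
      Function.update_self]
    have hd : (ob.drop j).reverse = (ob.drop (j + 1)).reverse ++ [ob.getD j blank] := by
      rw [List.drop_eq_getElem_cons hlt, List.reverse_cons, List.getD_eq_getElem _ _ hlt]
    have := ih (by omega)
    rw [hd, ← List.append_assoc] at this
    exact this

theorem outA_runs (A : Machine k) (cA : Fin k → Tp (GA A)) (L : ℕ) (sO : St Own (GA A))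
    (ob : List (GA A)) (hob : ∀ y ∈ ob, y ≠ blank) (hh : (cA A.out).head = 0)
    (hcells : (cA A.out).cells = fun j => ob.getD j blank) (d : List (GA A))
    (hP : sO Own.Pd = Z d []) :
    (outA A).Runs (hyb cA (clkTp L 1) sO) (2 * ob.length + 5)
      (hyb cA (clkTp L 1) (Function.update sO Own.Pd (Z (d ++ ob.reverse) []))) true := by
  have hcA : Function.update cA A.out ⟨fun j => ob.getD j blank, 0⟩ = cA := by
    have : (⟨fun j => ob.getD j blank, 0⟩ : Tp (GA A)) = cA A.out := by
      rw [← hcells, ← hh]
    rw [this, Function.update_eq_self]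
  have h1 := outA_scan1 A cA L sO ob hob ob.length 0 (by omega)
  rw [hcA] at h1
  have h2 := prim_runs (fun a => (Instr.nil.set (Sum.inl A.out) (a (Sum.inl A.out)) Move.left).set
      (Sum.inr Own.clk) (a (Sum.inr Own.clk)) Move.left)
    (hyb (Function.update cA A.out ⟨fun j => ob.getD j blank, ob.length⟩)
        (clkTp L (ob.length + 1)) sO)
  rw [outA_app2] at h2
  have h3 := outA_scan2 A cA L sO ob d ob.length le_rfl
  rw [List.drop_length, List.reverse_nil, List.append_nil, ← hP, Function.update_eq_self, hcA] at h3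
  have h4 := prim_runs (fun a => Instr.nil.set (Sum.inr Own.clk) (a (Sum.inr Own.clk)) Move.right)
    (hyb cA (clkTp L 0) (Function.update sO Own.Pd (Z (d ++ ob.reverse) [])))
  rw [Instr.app_set, Instr.app_nil, reads_hyb_clk, hyb_clk, clkTp_act_read, update_hyb_clk] at h4
  have := seq_runs h1 (seq_runs h2 (seq_runs h3 h4))
  refine Prog.Runs.mono this (by omega)

end Vale.Agent.P338.TM
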