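import Vale.Agent.P338.TM.MulAHyb

/-!
`wipeA A`: blank the cells of the tapes of `A` below the clock marks.

PLAN.  `Prog.Runs` on hybrid configurations (rules in MulAHyb.lean: `scan_step`, `scan_stop`,
`reads_hyb_clk`, `clkTp_read`, `allA_app`, `clkTp_act_read`).  General claim, by induction on `L - j`
(or on `r` with `j + r = L`): from
`hyb (fun i => ⟨fun x => if x < j then blank else (cA i).cells x, j⟩) (clkTp L (j+1)) sO`, `j ≤ L`, in
`L - j` steps to the final configuration.  One step: `Tp.act _ blank Move.right` on
`⟨fun x => if x < j then blank else g x, j⟩` gives `⟨fun x => if x < j+1 then blank else g x, j+1⟩`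
(`funext`, `Function.update_apply`, `omega`).
-/

namespace Vale.Agent.P338.TM

open Vale.Agent.P338

variable {k : ℕ}

theorem wipeA_aux (A : Machine k) (cA : Fin k → Tp (GA A)) (L : ℕ) (sO : St Own (GA A)) :
    ∀ (r j : ℕ), j + r = L →
    (wipeA A).Runs
      (hyb (fun i => ⟨fun x => if x < j then blank else (cA i).cells x, j⟩) (clkTp L (j + 1)) sO) r
      (hyb (fun i => ⟨fun x => if x < L then blank else (cA i).cells x, L⟩)
        (clkTp L (L + 1)) sO) true := by
  intro r
  induction r with
  | zero =>
    intro j hj
    have hjL : j = L := by omega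
    subst hjL
    apply scan_stop
    rw [reads_hyb_clk, clkTp_read]
    have h1 : ¬ (j + 1 = 0) := by omega
    have h2 : ¬ (j + 1 ≤ j) := by omega
    rw [if_neg h1, if_neg h2, if_pos rfl]
  | succ r ih =>
    intro j hj
    have hread : reads (hyb (fun i => (⟨fun x => if x < j then blank else (cA i).cells x, j⟩ :
        Tp (GA A))) (clkTp L (j + 1)) sO) (Sum.inr Own.clk) = bit true := by
      rw [reads_hyb_clk, clkTp_read]
      have h1 : ¬ (j + 1 = 0) := by omega
      have h2 : j + 1 ≤ L := by omega
      rw [if_neg h1, if_pos h2]
    apply scan_step _ _ (allA A (fun _ => blank) Move.right id Move.right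
      (reads (hyb (fun i => (⟨fun x => if x < j then blank else (cA i).cells x, j⟩ :
        Tp (GA A))) (clkTp L (j + 1)) sO)))
    · rw [hread, if_neg (TapeAlpha.bit_ne_blank true)]
    · rw [allA_app]
      have e1 : (clkTp L (j + 1) : Tp (GA A)).act
          (id (reads (hyb (fun i => (⟨fun x => if x < j then blank else (cA i).cells x, j⟩ :
            Tp (GA A))) (clkTp L (j + 1)) sO) (Sum.inr Own.clk))) Move.right
          = clkTp L (j + 1 + 1) := by
        rw [reads_hyb_clk]
        exact clkTp_act_read L (j + 1) Move.right
      rw [e1]
      have e2 : (fun i => ((⟨fun x => if x < j then blank else (cA i).cells x, j⟩ :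
          Tp (GA A))).act blank Move.right)
          = fun i => (⟨fun x => if x < j + 1 then blank else (cA i).cells x, j + 1⟩ :
            Tp (GA A)) := by
        funext i
        simp only [Tp.act, Move.apply, Tp.mk.injEq, and_true]
        funext x
        by_cases hx : x = j
        · subst hx
          simp
        · rw [Function.update_of_ne hx]
          by_cases h1 : x < j
          · rw [if_pos h1, if_pos (by omega)]
          · rw [if_neg h1, if_neg (by omega)]
      rw [e2]
      exact ih (j + 1) (by omega)

theorem wipeA_runs (A : Machine k) (cA : Fin k → Tp (GA A)) (L : ℕ) (sO : St Own (GA A))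
    (hh : ∀ i, (cA i).head = 0) :
    (wipeA A).Runs (hyb cA (clkTp L 1) sO) L
      (hyb (fun i => ⟨fun j => if j < L then blank else (cA i).cells j, L⟩)
        (clkTp L (L + 1)) sO) true := by
  have h := wipeA_aux A cA L sO L 0 (by omega)
  have e : (fun i => (⟨fun x => if x < 0 then blank else (cA i).cells x, 0⟩ : Tp (GA A))) = cA := by
    funext i
    have h0 := hh i
    cases hc : cA i with
    | mk cells head =>
      rw [hc] at h0
      simp only at h0
      subst h0
      simp
  rw [e] at h
  exact h

end Vale.Agent.P338.TM
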