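import Vale.Agent.P338.TM.MulARev
import Vale.Agent.P338.TM.MulABack
import Vale.Agent.P338.TM.MulALift
import Vale.Agent.P338.TM.MulAOut
import Vale.Agent.P338.TM.MulAWipe
import Vale.Agent.P338.TM.MulAArith

/-!
Calling the multiplier `A` as a subroutine: assembly (the programs are in MulADefs.lean).
-/

set_option linter.unusedSectionVars false

namespace Vale.Agent.P338.TM

open Vale.Agent.P338

variable {k : ℕ} [NeZero k]

/-- The input word of `A` as a list of symbols of the big machine. -/
theorem map_input (A : Machine k) (n : ℕ) (u v : List Bool) (hu : u.length = n)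
    (hv : v.length = n) :
    (A.input (revB u n) (revB v n)).map (Sum.inl : A.Sym → GA A)
      = (bits v ++ sep :: bits u : List (GA A)).reverse := by
  have h1 : (List.ofFn fun i => A.bit (revB u n i)) = u.reverse.map A.bit := by
    rw [← ofFn_revB u n hu, List.map_ofFn]
    rfl
  have h2 : (List.ofFn fun i => A.bit (revB v n i)) = v.reverse.map A.bit := by
    rw [← ofFn_revB v n hv, List.map_ofFn]
    rfl
  unfold Machine.input
  rw [h1, h2]
  simp [bits, List.map_reverse]
  constructor

theorem length_input (A : Machine k) (n : ℕ) (x y : Fin n → Bool) :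
    (A.input x y).length = 2 * n + 1 := by
  simp [Machine.input]
  omega

theorem inl_word (A : Machine k) (w : List A.Sym) (j : ℕ) :
    (Sum.inl (A.word w j) : GA A) = (w.map (Sum.inl : A.Sym → GA A)).getD j blank := by
  unfold Machine.word
  have : (blank : GA A) = Sum.inl A.blank := rfl
  rw [this, List.getD_map]

/-- The output word of `A` as a list of symbols of the big machine. -/
theorem map_output (A : Machine k) (m z : ℕ) :
    (List.ofFn fun j => A.bit (bin m z j)).map (Sum.inl : A.Sym → GA A)
      = (bits (lbits m z) : List (GA A)).reverse := by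
  have h1 : (List.ofFn fun j => A.bit (bin m z j)) = (lbits m z).reverse.map A.bit := by
    rw [← ofFn_bin, List.map_ofFn]
    rfl
  rw [h1]
  simp [bits, List.map_reverse]
  exact ⟨fun _ => rfl, fun _ => rfl⟩

theorem time_le_worstTime (A : Machine k) (n : ℕ) (x y : Fin n → Bool) :
    A.time (A.init (A.input x y)) ≤ A.worstTime n := by
  unfold Machine.worstTime
  exact Finset.le_sup (f := fun p : (Fin n → Bool) × (Fin n → Bool) =>
    A.time (A.init (A.input p.1 p.2))) (Finset.mem_univ (x, y))

/-- The first three phases: the input of `A` is written. -/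
theorem mulA_write (A : Machine k) (sO : St Own (GA A)) (n : ℕ) (hn : 1 ≤ n)
    (u v : List Bool) (hu : u.length = n) (hv : v.length = n)
    (hU : sO Own.U = Z (bits u) []) (hV : sO Own.V = Z (bits v) [])
    (hc : sO Own.clk = Z [] []) {R : Prog (Fin k ⊕ Own) (GA A)} {T : ℕ}
    {cF : Conf (Fin k ⊕ Own) (GA A)} {b : Bool}
    (hR : R.Runs (hyb (fun i => if i = 0 then
        (⟨bits v ++ sep :: bits u, []⟩ : Zip (GA A)).toTp else ⟨fun _ => blank, 0⟩)
        (clkTp (2 * n + 1) (2 * n + 2))
        (Function.update (Function.update sO Own.U (Z [] (bits u))) Own.V (Z [] (bits v)))) T cF b) :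
    (seq (revTo A Own.U)
      (seq (prim fun _ => (Instr.nil.set (Sum.inl 0) sep Move.right).set (Sum.inr Own.clk) (bit true)
        Move.right)
      (seq (revTo A Own.V) R))).Runs (conc (glue blankA sO)) (2 * n + 12 + T) cF b := by
  have hune : u ≠ [] := by
    intro h; rw [h] at hu; simp at hu; omega
  have hvne : v ≠ [] := by
    intro h; rw [h] at hv; simp at hv; omega
  have r1 := revTo_spec A Own.U (by decide) (glue blankA sO) u hune [] [] (by simpa using hU) rfl
    (by simpa using hc)
  set s1 : St (Fin k ⊕ Own) (GA A) :=
    Function.update (Function.update (Function.update (glue blankA sO) (Sum.inr Own.U)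
    (Z [] (bits u))) (Sum.inl 0) ⟨bits u ++ [], []⟩) (Sum.inr Own.clk) (Z ([] ++ un u.length) [])
    with hs1
  have r2 := prim_sruns (fun _ => ((Instr.nil : Instr (Fin k ⊕ Own) (GA A)).set (Sum.inl 0) sep
    Move.right).set (Sum.inr Own.clk) (bit true) Move.right) s1
  simp only [Instr.sapp_set, Instr.sapp_nil] at r2
  have e10 : s1 (Sum.inl 0) = ⟨bits u, []⟩ := by simp [hs1]
  have e1c : s1 (Sum.inr Own.clk) = Z (un n) [] := by simp [hs1, hu]
  rw [e10, e1c, Z_act_right] at r2
  set s2 : St (Fin k ⊕ Own) (GA A) := Function.update (Function.update s1 (Sum.inl 0)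
    ((⟨bits u, []⟩ : Zip (GA A)).act sep Move.right)) (Sum.inr Own.clk)
    (Z (un n ++ [bit true]) ([] : List (GA A)).tail) with hs2
  have r3 := revTo_spec A Own.V (by decide) s2 v hvne (sep :: bits u) (un n ++ [bit true])
    (by simp [hs2, hs1, hV]) (by simp [hs2, Zip.act]) (by simp [hs2])
  set s3 : St (Fin k ⊕ Own) (GA A) :=
    Function.update (Function.update (Function.update s2 (Sum.inr Own.V) (Z [] (bits v)))
    (Sum.inl 0) ⟨bits v ++ sep :: bits u, []⟩) (Sum.inr Own.clk)
    (Z (un n ++ [bit true] ++ un v.length) []) with hs3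
  have e3 : conc s3 = hyb (fun i => if i = 0 then
        (⟨bits v ++ sep :: bits u, []⟩ : Zip (GA A)).toTp else ⟨fun _ => blank, 0⟩)
        (clkTp (2 * n + 1) (2 * n + 2))
        (Function.update (Function.update sO Own.U (Z [] (bits u))) Own.V (Z [] (bits v))) := by
    rw [conc_eq_hyb]
    apply hyb_congr
    · intro i
      by_cases hi : i = 0
      · subst hi
        simp [hs3]
      · have hi' : (Sum.inl i : Fin k ⊕ Own) ≠ Sum.inl 0 := fun e => hi (Sum.inl.inj e)
        simp only [hs3, hs2, hs1, if_neg hi]
        rw [Function.update_of_ne (by simp), Function.update_of_ne hi',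
          Function.update_of_ne (by simp), Function.update_of_ne (by simp),
          Function.update_of_ne hi', Function.update_of_ne (by simp),
          Function.update_of_ne hi', Function.update_of_ne (by simp)]
        exact toTp_blankA i
    · have : (un n ++ [bit true] ++ un v.length : List (GA A)) = un (2 * n + 1) := by
        rw [hv]
        simp only [un]
        rw [← List.replicate_succ', List.replicate_append_replicate]
        congr 1
        omega
      simp only [hs3, Function.update_self]
      rw [this]
      have h0 := toTp_clk (Γ := GA A) (2 * n + 1) 0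
      simpa [un] using h0
    · intro x hx
      have hx' : (Sum.inr x : Fin k ⊕ Own) ≠ Sum.inr Own.clk := fun e => hx (Sum.inr.inj e)
      simp only [hs3, hs2, hs1]
      rw [Function.update_of_ne hx', Function.update_of_ne (by simp)]
      by_cases hxV : x = Own.V
      · subst hxV
        simp
      · have hxV' : (Sum.inr x : Fin k ⊕ Own) ≠ Sum.inr Own.V := fun e => hxV (Sum.inr.inj e)
        rw [Function.update_of_ne hxV', Function.update_of_ne hx', Function.update_of_ne (by simp),
          Function.update_of_ne hx', Function.update_of_ne (by simp), Function.update_of_ne hxV]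
        by_cases hxU : x = Own.U
        · subst hxU
          simp
        · have hxU' : (Sum.inr x : Fin k ⊕ Own) ≠ Sum.inr Own.U := fun e => hxU (Sum.inr.inj e)
          rw [Function.update_of_ne hxU', Function.update_of_ne hxU]
          rfl
  rw [← e3] at hR
  have hall := seq_runs r1 (seq_runs r2 (seq_runs r3 hR))
  refine Prog.Runs.mono hall ?_
  rw [hu, hv]
  omega

/-- The call of the multiplier. Before: `U`, `V` hold `n`-bit numbers (heads at the end), `Pd` and
the clock are empty, the tapes of `A` are blank. After: `Pd` holds the `2n`-bit product (head at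
the end), `U`, `V` are rewound, everything else is as before. -/
theorem mulA_spec (A : Machine k) (hA : A.Multiplies) (sO : St Own (GA A)) (n : ℕ) (hn : 1 ≤ n)
    (u v : List Bool) (hu : u.length = n) (hv : v.length = n)
    (hU : sO Own.U = Z (bits u) []) (hV : sO Own.V = Z (bits v) [])
    (hP : sO Own.Pd = Z [] []) (hc : sO Own.clk = Z [] []) :
    (mulA A).SRuns (glue blankA sO) (cMulA (A.worstTime n) n)
      (glue blankA (Function.update (Function.update (Function.update sO
        Own.U (Z [] (bits u)))
        Own.V (Z [] (bits v)))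
        Own.Pd (Z (bits (lbits (2 * n) (lval u * lval v))) []))) true := by
  set x := revB u n with hx
  set y := revB v n with hy
  obtain ⟨t, c', hhalt, hout⟩ := hA n hn x y
  rw [hx, hy, val_revB u n hu, val_revB v n hv] at hout
  set z := lval u * lval v with hz
  set c0 := A.init (A.input x y) with hc0
  -- time
  have ht : t ≤ A.worstTime n := by
    have h1 : A.time c0 = t := time_eq A hhalt
    rw [← h1]
    exact time_le_worstTime A n x y
  -- invariants of the run
  obtain ⟨hhead, hblank⟩ := run_inv A (2 * n + 1) t 0 c0 c' hhalt.1 (fun i => le_rfl) (by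
    intro i j hj
    have hj' : 2 * n + 1 ≤ j := le_trans (le_max_right _ _) hj
    simp only [hc0, Machine.init]
    split_ifs
    · unfold Machine.word
      rw [List.getD_eq_default _ _ (by rw [length_input]; exact hj')]
    · rfl)
  set sO' := Function.update (Function.update sO Own.U (Z [] (bits u))) Own.V (Z [] (bits v))
    with hsO'
  set Lm := max (2 * n + 1) t with hLm
  set cA3 : Fin k → Tp (GA A) := fun i => if i = 0 then
        (⟨bits v ++ sep :: bits u, []⟩ : Zip (GA A)).toTp else ⟨fun _ => blank, 0⟩ with hcA3
  -- phase 4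
  have b4 := backA_id_runs A cA3 (2 * n + 1) (2 * n + 2) sO'
  have e4 : (fun i => (⟨(cA3 i).cells, (cA3 i).head - (2 * n + 2)⟩ : Tp (GA A))) = tpOf c0 := by
    funext i
    by_cases hi : i = 0
    · subst hi
      simp only [hcA3, if_true, tpOf, hc0, Machine.init, Zip.toTp, Tp.mk.injEq]
      constructor
      · funext j
        rw [inl_word, hx, hy, map_input A n u v hu hv, List.append_nil]
      · simp [bits, hu, hv]
        omega
    · simp only [hcA3, if_neg hi, tpOf, hc0, Machine.init, Tp.mk.injEq]
      exact ⟨rfl, by omega⟩
  rw [e4] at b4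
  -- phase 5
  have l5 := liftA_runs A c0 c' t rfl hhalt (2 * n + 1) sO'
  -- phase 6
  have b6 := backA_id_runs A (tpOf c') Lm (t + 1) sO'
  set cA6 : Fin k → Tp (GA A) := fun i => ⟨fun j => Sum.inl (c'.tape i j), 0⟩ with hcA6
  have e6 : (fun i => (⟨(tpOf c' i).cells, (tpOf c' i).head - (t + 1)⟩ : Tp (GA A))) = cA6 := by
    funext i
    have := hhead i
    simp only [hcA6, tpOf, Tp.mk.injEq, true_and]
    omega
  rw [e6] at b6
  -- phase 7
  set ob : List (GA A) := (bits (lbits (2 * n) z)).reverse with hob
  have o7 := outA_runs A cA6 Lm sO' ob (by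
      intro w hw
      rw [hob, List.mem_reverse] at hw
      obtain ⟨b, -, rfl⟩ := List.mem_map.mp hw
      exact TapeAlpha.bit_ne_blank b) rfl (by
      simp only [hcA6]
      funext j
      rw [hout, inl_word, map_output]) [] (by simp [hsO', hP])
  have hoblen : ob.length = 2 * n := by simp [hob, bits, lbits]
  rw [hoblen, hob, List.reverse_reverse, List.nil_append] at o7
  set sF := Function.update sO' Own.Pd (Z (bits (lbits (2 * n) z)) []) with hsF
  -- phase 8
  have w8 := wipeA_runs A cA6 Lm sF (fun i => rfl)
  -- phase 9
  have b9 := backA_blank_runs A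
    (fun i => (⟨fun j => if j < Lm then blank else (cA6 i).cells j, Lm⟩ : Tp (GA A))) Lm sF
  have e9 : hyb (fun i => (⟨fun j => if j < Lm then blank else (cA6 i).cells j,
      Lm - (Lm + 1)⟩ : Tp (GA A))) (clkTp 0 1) sF = conc (glue blankA sF) := by
    rw [conc_glue]
    apply hyb_congr
    · intro i
      rw [toTp_blankA]
      simp only [hcA6, Tp.mk.injEq]
      constructor
      · funext j
        split_ifs with hj
        · rfl
        · rw [hblank i j (by rw [zero_add, max_comm]; omega)]
          rfl
      · omega
    · have h0 := toTp_clk (Γ := GA A) 0 0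
      have h1 : sF Own.clk = Z [] [] := by simp [hsF, hsO', hc]
      rw [h1]
      simpa [un] using h0.symm
    · intro x _
      rfl
  rw [e9] at b9
  have hrest := seq_runs b4 (seq_runs l5 (seq_runs b6 (seq_runs o7 (seq_runs w8 b9))))
  have hall := mulA_write A sO n hn u v hu hv hU hV hc hrest
  refine Prog.Runs.mono hall ?_
  have hL : Lm ≤ 2 * n + 1 + t := max_le (by omega) (by omega)
  simp only [cMulA]
  omega

end Vale.Agent.P338.TM
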