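import Vale.Agent.P338.TM.Lift
import Vale.Agent.P338.Bridge

/-!
Calling the multiplier `A` as a subroutine.
-/

namespace Vale.Agent.P338.TM

open Vale.Agent.P338

/-- The two extra tape symbols. -/
inductive Mark
  | lend
  | rend
  deriving DecidableEq

instance : Fintype Mark := Fintype.ofList [Mark.lend, Mark.rend] (by intro x; cases x <;> simp)

variable {k : ℕ}

/-- The tape alphabet of the big machine. -/
abbrev GA (A : Machine k) : Type := A.Sym ⊕ Mark

instance (A : Machine k) : TapeAlpha (GA A) where
  blank := Sum.inl A.blank
  bit := fun b => Sum.inl (A.bit b)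
  sep := Sum.inl A.sep
  lend := Sum.inr Mark.lend
  rend := Sum.inr Mark.rend
  bit_injective := fun _ _ h => A.bit_injective (Sum.inl.inj h)
  bit_ne_blank := fun b h => A.bit_ne_blank b (Sum.inl.inj h)
  bit_ne_sep := fun b h => A.bit_ne_sep b (Sum.inl.inj h)
  bit_ne_lend := fun _ h => by cases h
  bit_ne_rend := fun _ h => by cases h
  sep_ne_blank := fun h => A.sep_ne_blank (Sum.inl.inj h)
  lend_ne_blank := fun h => by cases h
  rend_ne_blank := fun h => by cases h
  sep_ne_lend := fun h => by cases h
  sep_ne_rend := fun h => by cases h
  lend_ne_rend := fun h => by cases h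

open Classical

noncomputable section

/-- `A` running on its own tapes; at every step the clock tape gets a mark and its head moves
right. -/
def liftA (A : Machine k) : Prog (Fin k ⊕ Own) (GA A) where
  Q := A.State
  finQ := A.stateFin
  start := A.start
  δ := fun q a =>
    (A.trans q fun i => (a (Sum.inl i)).elim id fun _ => A.blank).map fun r =>
      (r.1,
        Sum.elim (fun i => Sum.inl (r.2.1 i))
          (fun x => if x = Own.clk then bit true else a (Sum.inr x)),
        Sum.elim r.2.2 (fun x => if x = Own.clk then Move.right else Move.stay))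
  lab := fun _ => true

/-- The instruction that acts in the same way on all tapes of `A` and on the clock. -/
def allA (A : Machine k) (wA : GA A → GA A) (mA : Move) (wc : GA A → GA A) (mc : Move)
    (a : Fin k ⊕ Own → GA A) : Instr (Fin k ⊕ Own) (GA A) := fun i =>
  match i with
  | Sum.inl j => some (wA (a (Sum.inl j)), mA)
  | Sum.inr x => if x = Own.clk then some (wc (a (Sum.inr Own.clk)), mc) else none

variable [NeZero k]

/-- Copy tape `x` (head at its end) backwards onto the first tape of `A`; one clock mark per cell.
The head of `x` ends at the start. -/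
def revTo (A : Machine k) (x : Own) : Prog (Fin k ⊕ Own) (GA A) :=
  seq (mv (Sum.inr x) Move.left)
  (seq (scan fun a => if a (Sum.inr x) = lend then none else
    some (((Instr.nil.set (Sum.inr x) (a (Sum.inr x)) Move.left).set (Sum.inl 0) (a (Sum.inr x))
      Move.right).set (Sum.inr Own.clk) (bit true) Move.right))
  (mv (Sum.inr x) Move.right))

/-- All heads of `A` and the clock head go left until the clock head is on its left end mark;
then the clock head steps right. `wc` = what is written on the clock cells. -/
def backA (A : Machine k) (wc : GA A → GA A) : Prog (Fin k ⊕ Own) (GA A) :=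
  seq (scan fun a => if a (Sum.inr Own.clk) = lend then none else
    some (allA A id Move.left wc Move.left a))
  (mv (Sum.inr Own.clk) Move.right)

/-- Copy the output of `A` backwards onto `Pd`. -/
def outA (A : Machine k) : Prog (Fin k ⊕ Own) (GA A) :=
  seq (scan fun a => if a (Sum.inl A.out) = blank then none else
    some ((Instr.nil.set (Sum.inl A.out) (a (Sum.inl A.out)) Move.right).set (Sum.inr Own.clk)
      (a (Sum.inr Own.clk)) Move.right))
  (seq (prim fun a => (Instr.nil.set (Sum.inl A.out) (a (Sum.inl A.out)) Move.left).set
      (Sum.inr Own.clk) (a (Sum.inr Own.clk)) Move.left)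
  (seq (scan fun a => if a (Sum.inr Own.clk) = lend then none else
    some (((Instr.nil.set (Sum.inl A.out) (a (Sum.inl A.out)) Move.left).set (Sum.inr Own.clk)
      (a (Sum.inr Own.clk)) Move.left).set (Sum.inr Own.Pd) (a (Sum.inl A.out)) Move.right))
  (mv (Sum.inr Own.clk) Move.right)))

/-- Blank all cells of the tapes of `A` below the clock marks. -/
def wipeA (A : Machine k) : Prog (Fin k ⊕ Own) (GA A) :=
  scan fun a => if a (Sum.inr Own.clk) = blank then none else
    some (allA A (fun _ => blank) Move.right id Move.right a)

/-- `Pd := U * V` (numbers, least significant bit first). -/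
def mulA (A : Machine k) : Prog (Fin k ⊕ Own) (GA A) :=
  seq (revTo A Own.U)
  (seq (prim fun _ => (Instr.nil.set (Sum.inl 0) sep Move.right).set (Sum.inr Own.clk) (bit true)
      Move.right)
  (seq (revTo A Own.V)
  (seq (backA A id)
  (seq (liftA A)
  (seq (backA A id)
  (seq (outA A)
  (seq (wipeA A) (backA A fun _ => blank))))))))

/-- Cost of a call. -/
def cMulA (tA n : ℕ) : ℕ := 4 * tA + 24 * n + 100

end

section hybrid

variable {Γ : Type} [TapeAlpha Γ]

/-- Hybrid description of all tapes: the tapes of `A` and the clock concretely, the other work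
tapes by zippers (the entry `sO Own.clk` is ignored). -/
def hyb (cA : Fin k → Tp Γ) (ck : Tp Γ) (sO : St Own Γ) : Conf (Fin k ⊕ Own) Γ :=
  Sum.elim cA (Function.update (conc sO) Own.clk ck)

/-- The clock tape with marks on the cells `1, ..., L` and the head on cell `h`. -/
def clkTp (L h : ℕ) : Tp Γ :=
  ⟨fun j => if j = 0 then lend else if j ≤ L then bit true else blank, h⟩

end hybrid

/-- The tapes of `A` in a configuration of `A`. -/
def tpOf {A : Machine k} (c : Cfg A) : Fin k → Tp (GA A) :=
  fun i => ⟨fun j => Sum.inl (c.tape i j), c.head i⟩

/-- The bit string `u` (least significant bit first) as an input of the model (most significant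
bit first). -/
def revB (u : List Bool) (n : ℕ) : Fin n → Bool := fun i => u.getD (n - 1 - (i : ℕ)) false

end Vale.Agent.P338.TM
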