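import Vale.Agent.P338.TM.MulADefs

/-!
Basic rules for hybrid configurations `hyb cA ck sO` (tapes of `A` and the clock concretely, the
other work tapes by zippers).
-/

set_option linter.unusedSectionVars false

namespace Vale.Agent.P338.TM

open Vale.Agent.P338

variable {k : ℕ} {Γ : Type}

section conf

variable {ι : Type} [DecidableEq ι]

theorem Instr.app_nil (c : Conf ι Γ) : (Instr.nil : Instr ι Γ).app c = c := rfl

theorem Instr.app_set (f : Instr ι Γ) (x : ι) (w : Γ) (m : Move) (c : Conf ι Γ) :
    (f.set x w m).app c = Function.update (f.app c) x ((c x).act w m) := by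
  funext i
  by_cases h : i = x
  · subst h; simp [Instr.app, Instr.set]
  · simp [Instr.app, Instr.set, Function.update_of_ne h]

end conf

/-- Writing the scanned symbol does not change the cells. -/
theorem Tp.act_read (t : Tp Γ) (m : Move) : t.act t.read m = ⟨t.cells, m.apply t.head⟩ := by
  cases t with
  | mk cells head => simp [Tp.act, Tp.read]

variable [TapeAlpha Γ]

theorem conc_glue (sA : St (Fin k) Γ) (sO : St Own Γ) :
    conc (glue sA sO) = hyb (fun i => (sA i).toTp) ((sO Own.clk).toTp) sO := by
  funext i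
  rcases i with i | x
  · rfl
  · by_cases h : x = Own.clk
    · subst h; simp [hyb, conc, glue]
    · simp [hyb, conc, glue, Function.update_of_ne h]

theorem toTp_clk (a b : ℕ) : (Z (un a) (un b) : Zip Γ).toTp = clkTp (a + b) (a + 1) := by
  simp only [Z, Zip.toTp, clkTp, Tp.mk.injEq]
  constructor
  · funext j
    simp only [List.reverse_append, List.reverse_cons, List.reverse_nil, List.nil_append,
      List.reverse_reverse, List.cons_append]
    cases j with
    | zero => simp
    | succ j =>
      have hu : (un a ++ un b : List Γ) = List.replicate (a + b) (bit true) := by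
        simp [un]
      rw [List.getD_cons_succ, hu]
      by_cases hj : j < a + b
      · rw [List.getD_eq_getElem _ _ (by simpa using hj)]
        have : j + 1 ≤ a + b := hj
        simp [this]
      · rw [List.getD_eq_default _ _ (by simpa using hj)]
        have : ¬ (j + 1 ≤ a + b) := hj
        simp [this]
  · simp [un]

theorem toTp_blankA (i : Fin k) : ((blankA : St (Fin k) Γ) i).toTp = ⟨fun _ => blank, 0⟩ := by
  simp [blankA, Zip.toTp]

/-- The entry of the clock in `sO` is irrelevant. -/
theorem hyb_update_clk (cA : Fin k → Tp Γ) (ck : Tp Γ) (sO : St Own Γ) (z : Zip Γ) :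
    hyb cA ck (Function.update sO Own.clk z) = hyb cA ck sO := by
  funext i
  rcases i with i | x
  · rfl
  · by_cases h : x = Own.clk
    · subst h; simp [hyb]
    · simp [hyb, conc, Function.update_of_ne h]

theorem hyb_inl (cA : Fin k → Tp Γ) (ck : Tp Γ) (sO : St Own Γ) (i : Fin k) :
    hyb cA ck sO (Sum.inl i) = cA i := rfl

theorem hyb_clk (cA : Fin k → Tp Γ) (ck : Tp Γ) (sO : St Own Γ) :
    hyb cA ck sO (Sum.inr Own.clk) = ck := by
  simp [hyb]

theorem hyb_inr (cA : Fin k → Tp Γ) (ck : Tp Γ) (sO : St Own Γ) (x : Own) (hx : x ≠ Own.clk) :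
    hyb cA ck sO (Sum.inr x) = (sO x).toTp := by
  simp [hyb, conc, Function.update_of_ne hx]

theorem reads_hyb_inl (cA : Fin k → Tp Γ) (ck : Tp Γ) (sO : St Own Γ) (i : Fin k) :
    reads (hyb cA ck sO) (Sum.inl i) = (cA i).read := rfl

theorem reads_hyb_clk (cA : Fin k → Tp Γ) (ck : Tp Γ) (sO : St Own Γ) :
    reads (hyb cA ck sO) (Sum.inr Own.clk) = ck.read := by
  simp [reads, hyb_clk]

theorem reads_hyb_inr (cA : Fin k → Tp Γ) (ck : Tp Γ) (sO : St Own Γ) (x : Own)
    (hx : x ≠ Own.clk) : reads (hyb cA ck sO) (Sum.inr x) = (sO x).read := by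
  simp [reads, hyb_inr _ _ _ _ hx, Zip.toTp_read]

theorem update_hyb_inl (cA : Fin k → Tp Γ) (ck : Tp Γ) (sO : St Own Γ) (i : Fin k) (t : Tp Γ) :
    Function.update (hyb cA ck sO) (Sum.inl i) t = hyb (Function.update cA i t) ck sO := by
  funext j
  rcases j with j | x
  · by_cases h : j = i
    · subst h
      rw [Function.update_self, hyb_inl, Function.update_self]
    · have h' : (Sum.inl j : Fin k ⊕ Own) ≠ Sum.inl i := fun e => h (Sum.inl.inj e)
      rw [Function.update_of_ne h', hyb_inl, hyb_inl, Function.update_of_ne h]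
  · have h' : (Sum.inr x : Fin k ⊕ Own) ≠ Sum.inl i := fun e => by cases e
    rw [Function.update_of_ne h']
    rfl

theorem update_hyb_clk (cA : Fin k → Tp Γ) (ck : Tp Γ) (sO : St Own Γ) (t : Tp Γ) :
    Function.update (hyb cA ck sO) (Sum.inr Own.clk) t = hyb cA t sO := by
  funext j
  rcases j with j | x
  · have h' : (Sum.inl j : Fin k ⊕ Own) ≠ Sum.inr Own.clk := fun e => by cases e
    rw [Function.update_of_ne h']
    rfl
  · by_cases h : x = Own.clk
    · subst h
      rw [Function.update_self, hyb_clk]
    · have h' : (Sum.inr x : Fin k ⊕ Own) ≠ Sum.inr Own.clk := fun e => h (Sum.inr.inj e)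
      rw [Function.update_of_ne h', hyb_inr _ _ _ _ h, hyb_inr _ _ _ _ h]

theorem update_hyb_inr (cA : Fin k → Tp Γ) (ck : Tp Γ) (sO : St Own Γ) (x : Own)
    (hx : x ≠ Own.clk) (z : Zip Γ) :
    Function.update (hyb cA ck sO) (Sum.inr x) z.toTp = hyb cA ck (Function.update sO x z) := by
  funext j
  rcases j with j | y
  · have h' : (Sum.inl j : Fin k ⊕ Own) ≠ Sum.inr x := fun e => by cases e
    rw [Function.update_of_ne h']
    rfl
  · by_cases h2 : y = x
    · subst h2
      rw [Function.update_self, hyb_inr _ _ _ _ hx, Function.update_self]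
    · have h' : (Sum.inr y : Fin k ⊕ Own) ≠ Sum.inr x := fun e => h2 (Sum.inr.inj e)
      rw [Function.update_of_ne h']
      by_cases h : y = Own.clk
      · subst h
        rw [hyb_clk, hyb_clk]
      · rw [hyb_inr _ _ _ _ h, hyb_inr _ _ _ _ h, Function.update_of_ne h2]

theorem hyb_congr {cA cA' : Fin k → Tp Γ} {ck ck' : Tp Γ} {sO sO' : St Own Γ}
    (h1 : ∀ i, cA i = cA' i) (h2 : ck = ck')
    (h3 : ∀ x, x ≠ Own.clk → (sO x).toTp = (sO' x).toTp) : hyb cA ck sO = hyb cA' ck' sO' := by
  funext j
  rcases j with j | x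
  · exact h1 j
  · by_cases h : x = Own.clk
    · subst h
      rw [hyb_clk, hyb_clk, h2]
    · rw [hyb_inr _ _ _ _ h, hyb_inr _ _ _ _ h, h3 x h]

/-- Every abstract state in hybrid form. -/
theorem conc_eq_hyb (s : St (Fin k ⊕ Own) Γ) :
    conc s = hyb (fun i => (s (Sum.inl i)).toTp) ((s (Sum.inr Own.clk)).toTp)
      (fun x => s (Sum.inr x)) := by
  funext j
  rcases j with j | x
  · rfl
  · by_cases h : x = Own.clk
    · subst h
      rw [hyb_clk]
      rfl
    · rw [hyb_inr _ _ _ _ h]
      rfl

/-- The scanned symbol of the clock. -/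
theorem clkTp_read (L h : ℕ) :
    (clkTp L h : Tp Γ).read = if h = 0 then lend else if h ≤ L then bit true else blank := rfl

/-- Moving the clock head. -/
theorem clkTp_act_read (L h : ℕ) (m : Move) :
    (clkTp L h : Tp Γ).act (clkTp L h : Tp Γ).read m = clkTp L (m.apply h) := by
  rw [Tp.act_read]
  rfl

/-- One more mark. -/
theorem clkTp_act_mark (L h : ℕ) (hh : 1 ≤ h) (hL : h ≤ L + 1) :
    (clkTp L h : Tp Γ).act (bit true) Move.right = clkTp (max L h) (h + 1) := by
  simp only [clkTp, Tp.act, Move.apply, Tp.mk.injEq, and_true]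
  funext j
  by_cases hj : j = h
  · subst hj
    have h0 : j ≠ 0 := by omega
    simp [h0]
  · rw [Function.update_of_ne hj]
    by_cases h0 : j = 0
    · simp [h0]
    · have : (j ≤ L) ↔ (j ≤ max L h) := by
        constructor
        · intro h1; exact le_trans h1 (le_max_left _ _)
        · intro h1
          rcases le_max_iff.mp h1 with h2 | h2
          · exact h2
          · omega
      simp only [h0, if_false]
      by_cases h3 : j ≤ L
      · rw [if_pos h3, if_pos (this.mp h3)]
      · rw [if_neg h3, if_neg (fun h4 => h3 (this.mpr h4))]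

/-- Erasing the last mark. -/
theorem clkTp_act_erase (h : ℕ) (hh : 1 ≤ h) :
    (clkTp h h : Tp Γ).act blank Move.left = clkTp (h - 1) (h - 1) := by
  simp only [clkTp, Tp.act, Move.apply, Tp.mk.injEq, and_true]
  funext j
  by_cases hj : j = h
  · subst hj
    have h0 : j ≠ 0 := by omega
    have h1 : ¬ (j ≤ j - 1) := by omega
    simp [h0, h1]
  · rw [Function.update_of_ne hj]
    by_cases h0 : j = 0
    · simp [h0]
    · have : (j ≤ h) ↔ (j ≤ h - 1) := by omega
      simp [h0, this]

/-- Writing a blank behind the last mark. -/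
theorem clkTp_act_blank (L : ℕ) :
    (clkTp L (L + 1) : Tp Γ).act blank Move.left = clkTp L L := by
  simp only [clkTp, Tp.act, Move.apply, Tp.mk.injEq]
  constructor
  · funext j
    by_cases hj : j = L + 1
    · subst hj
      simp
    · rw [Function.update_of_ne hj]
  · omega

/-- Effect of the instruction `allA` on a hybrid configuration. -/
theorem allA_app (A : Machine k) (wA : GA A → GA A) (mA : Move) (wc : GA A → GA A) (mc : Move)
    (a : Fin k ⊕ Own → GA A) (cA : Fin k → Tp (GA A)) (ck : Tp (GA A)) (sO : St Own (GA A)) :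
    (allA A wA mA wc mc a).app (hyb cA ck sO)
      = hyb (fun j => (cA j).act (wA (a (Sum.inl j))) mA)
          (ck.act (wc (a (Sum.inr Own.clk))) mc) sO := by
  funext i
  rcases i with i | x
  · rfl
  · by_cases h : x = Own.clk
    · subst h
      simp [Instr.app, allA, hyb]
    · simp [Instr.app, allA, hyb, h]

end Vale.Agent.P338.TM
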