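import Vale.Agent.P338.TM.MulADefs

/-!
`revTo A x`: copy tape `x` backwards onto the first tape of `A`.

PLAN.  `bits w = d ++ [y]` (as `w` is not empty).  `mv` left: `Z (d ++ [y]) []` becomes
`Z d [y, blank]` (`prim_sruns`, `Instr.sapp_set`, `Z_act_left_snoc`).  Scan: by induction on `d`
from the right (`List.reverseRecOn` / `List.reverseRec`, generalising the state, `y`, the list right
of the head, `lA`, `dc`): if `s (inr x) = Z d (y :: t)`, no symbol of `d ++ [y]` is `lend`,
`s (inl 0) = ⟨lA, []⟩`, `s (inr clk) = Z dc []`, then the scan takes `d.length + 1` steps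
(`scan_sstep`, at the end `scan_sstop`) to the state with `inr x ↦ ⟨[], lend :: (d ++ y :: t)⟩`
(`Z_act_left_nil`), `inl 0 ↦ ⟨d ++ y :: lA, []⟩`, `inr clk ↦ Z (dc ++ un (d.length + 1)) []`.
Last `mv` right: `⟨[], lend :: r⟩` becomes `⟨[lend], r⟩ = Z [] r`.  The trailing blank
(`Z [] (bits w ++ [blank])`) is removed with `Prog.SRuns.congr_right` and `Zip.toTp_trim`.
-/

namespace Vale.Agent.P338.TM

open Vale.Agent.P338

variable {k : ℕ} [NeZero k]

theorem upd3_rev {ι Γ : Type} [DecidableEq ι] (s : St ι Γ) (i j l : ι) (a1 b1 c1 a2 b2 c2 : Zip Γ) :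
    Function.update (Function.update (Function.update (Function.update (Function.update
      (Function.update s i a1) j b1) l c1) i a2) j b2) l c2 =
    Function.update (Function.update (Function.update s i a2) j b2) l c2 := by
  funext q
  simp only [Function.update_apply]
  split_ifs <;> rfl

/-- the scan of `revTo` -/
noncomputable def revScan (A : Machine k) (x : Own) : Prog (Fin k ⊕ Own) (GA A) :=
  open Classical in
  scan fun a => if a (Sum.inr x) = lend then none else
    some (((Instr.nil.set (Sum.inr x) (a (Sum.inr x)) Move.left).set (Sum.inl 0) (a (Sum.inr x))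
      Move.right).set (Sum.inr Own.clk) (bit true) Move.right)

theorem revTo_eq (A : Machine k) (x : Own) :
    revTo A x = seq (mv (Sum.inr x) Move.left) (seq (revScan A x) (mv (Sum.inr x) Move.right)) :=
  rfl

theorem revScan_step (A : Machine k) (x : Own) (s : St (Fin k ⊕ Own) (GA A))
    (zx : Zip (GA A)) (y : GA A) (lA dc : List (GA A)) (hy : y ≠ lend)
    (hxs : s (Sum.inr x) = zx) (hr : zx.read = y) (hA0 : s (Sum.inl 0) = ⟨lA, []⟩)
    (hck : s (Sum.inr Own.clk) = Z dc []) {T : ℕ} {s' : St (Fin k ⊕ Own) (GA A)} {b : Bool}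
    (h' : (revScan A x).SRuns (Function.update (Function.update (Function.update s (Sum.inr x)
      (zx.act y Move.left)) (Sum.inl 0) ⟨y :: lA, []⟩) (Sum.inr Own.clk)
      (Z (dc ++ [bit true]) [])) T s' b) :
    (revScan A x).SRuns s (T + 1) s' b := by
  have hrd : sreads s (Sum.inr x) = y := by rw [sreads_apply, hxs, hr]
  refine scan_sstep _ s (((Instr.nil.set (Sum.inr x) y Move.left).set (Sum.inl 0) y
      Move.right).set (Sum.inr Own.clk) (bit true) Move.right) ?_ ?_
  · rw [if_neg (by rw [hrd]; exact hy), hrd]
  · rw [Instr.sapp_set, Instr.sapp_set, Instr.sapp_set, Instr.sapp_nil, hxs, hA0, hck,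
      Z_act_right]
    exact h'

theorem revScan_aux (A : Machine k) (x : Own) (hx : x ≠ Own.clk) : ∀ (d : List (GA A))
    (s : St (Fin k ⊕ Own) (GA A)) (y : GA A) (t lA dc : List (GA A)),
    s (Sum.inr x) = Z d (y :: t) → lend ∉ d → y ≠ lend → s (Sum.inl 0) = ⟨lA, []⟩ →
    s (Sum.inr Own.clk) = Z dc [] →
    (revScan A x).SRuns s (d.length + 1)
      (Function.update (Function.update (Function.update s (Sum.inr x)
        ⟨[], lend :: (d ++ y :: t)⟩) (Sum.inl 0) ⟨d ++ y :: lA, []⟩) (Sum.inr Own.clk)
        (Z (dc ++ un (d.length + 1)) [])) true := by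
  have hne1 : (Sum.inr x : Fin k ⊕ Own) ≠ Sum.inl 0 := fun e => by cases e
  have hne2 : (Sum.inr x : Fin k ⊕ Own) ≠ Sum.inr Own.clk := fun e => hx (Sum.inr.inj e)
  have hne3 : (Sum.inl 0 : Fin k ⊕ Own) ≠ Sum.inr Own.clk := fun e => by cases e
  intro d
  induction d using List.reverseRecOn with
  | nil =>
    intro s y t lA dc hxs _ hy hA0 hck
    refine revScan_step A x s (Z [] (y :: t)) y lA dc hy hxs rfl hA0 hck ?_
    rw [Z_act_left_nil]
    apply scan_sstop
    rw [if_pos]
    rw [sreads_apply, Function.update_of_ne hne2, Function.update_of_ne hne1,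
      Function.update_self]
    rfl
  | append_singleton d z ih =>
    intro s y t lA dc hxs hd hy hA0 hck
    have hd' : lend ∉ d := fun h => hd (by simp [h])
    have hz : z ≠ lend := fun h => hd (by simp [h])
    rw [List.length_append, List.length_singleton]
    refine revScan_step A x s (Z (d ++ [z]) (y :: t)) y lA dc hy hxs rfl hA0 hck ?_
    rw [Z_act_left_snoc]
    have h := ih (Function.update (Function.update (Function.update s (Sum.inr x)
      (Z d (z :: y :: (y :: t).tail))) (Sum.inl 0) ⟨y :: lA, []⟩) (Sum.inr Own.clk)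
      (Z (dc ++ [bit true]) [])) z (y :: t) (y :: lA) (dc ++ [bit true])
      (by rw [Function.update_of_ne hne2, Function.update_of_ne hne1, Function.update_self]; rfl)
      hd' hz
      (by rw [Function.update_of_ne hne3, Function.update_self])
      (by rw [Function.update_self])
    rw [upd3_rev] at h
    have e1 : d ++ z :: y :: t = d ++ [z] ++ y :: t := by simp
    have e2 : d ++ z :: y :: lA = d ++ [z] ++ y :: lA := by simp
    have e3 : dc ++ [bit true] ++ un (d.length + 1) = dc ++ (un (d.length + 1 + 1) : List (GA A)) := by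
      rw [List.append_assoc]
      rfl
    rw [e1, e2, e3] at h
    exact h

theorem mv_right_lend_rev {ι Γ : Type} [TapeAlpha Γ] [DecidableEq ι] (x : ι) (s : St ι Γ)
    (r : List Γ) (hx : s x = ⟨[], lend :: r⟩) :
    (mv x Move.right).SRuns s 1 (Function.update s x (Z [] r)) true := by
  have h := prim_sruns (fun a => (Instr.nil : Instr ι Γ).set x (a x) Move.right) s
  rw [Instr.sapp_set, Instr.sapp_nil, sreads_apply, hx] at h
  exact h

theorem revTo_spec (A : Machine k) (x : Own) (hx : x ≠ Own.clk) (s : St (Fin k ⊕ Own) (GA A))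
    (w : List Bool) (hw : w ≠ []) (lA dc : List (GA A))
    (hxs : s (Sum.inr x) = Z (bits w) []) (hA0 : s (Sum.inl 0) = ⟨lA, []⟩)
    (hck : s (Sum.inr Own.clk) = Z dc []) :
    (revTo A x).SRuns s (w.length + 4)
      (Function.update (Function.update (Function.update s (Sum.inr x) (Z [] (bits w)))
        (Sum.inl 0) ⟨bits w ++ lA, []⟩) (Sum.inr Own.clk) (Z (dc ++ un w.length) [])) true := by
  have hne1 : (Sum.inr x : Fin k ⊕ Own) ≠ Sum.inl 0 := fun e => by cases e
  have hne2 : (Sum.inr x : Fin k ⊕ Own) ≠ Sum.inr Own.clk := fun e => hx (Sum.inr.inj e)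
  have hne3 : (Sum.inl 0 : Fin k ⊕ Own) ≠ Sum.inr Own.clk := fun e => by cases e
  obtain ⟨w', b, rfl⟩ : ∃ w' b, w = w' ++ [b] :=
    ⟨w.dropLast, w.getLast hw, (List.dropLast_append_getLast hw).symm⟩
  have hb : (bits (w' ++ [b]) : List (GA A)) = bits w' ++ [bit b] := by simp [bits]
  have hlen : (bits w' : List (GA A)).length = w'.length := by simp [bits]
  have hlend : (lend : GA A) ∉ (bits w' : List (GA A)) := by
    intro h
    obtain ⟨c, _, hc⟩ := List.mem_map.1 h
    exact TapeAlpha.bit_ne_lend c hc
  rw [hb] at hxs ⊢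
  -- first move
  have h1 := prim_sruns (fun a => (Instr.nil : Instr (Fin k ⊕ Own) (GA A)).set (Sum.inr x)
    (a (Sum.inr x)) Move.left) s
  rw [Instr.sapp_set, Instr.sapp_nil, sreads_apply, hxs, Z_act_left_snoc] at h1
  -- the scan
  have h2 := revScan_aux A x hx (bits w') (Function.update s (Sum.inr x)
    (Z (bits w') (bit b :: (Z (bits w' ++ [bit b]) ([] : List (GA A))).read ::
      ([] : List (GA A)).tail))) (bit b) _ lA dc
    (Function.update_self _ _ _) hlend (TapeAlpha.bit_ne_lend b)
    (by rw [Function.update_of_ne hne1.symm]; exact hA0)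
    (by rw [Function.update_of_ne hne2.symm]; exact hck)
  rw [Function.update_idem] at h2
  -- last move
  have h3 := mv_right_lend_rev (Sum.inr x : Fin k ⊕ Own) _ _
    (show (Function.update (Function.update (Function.update s (Sum.inr x)
      (⟨[], lend :: (bits w' ++ bit b :: (Z (bits w' ++ [bit b]) ([] : List (GA A))).read ::
      ([] : List (GA A)).tail)⟩ : Zip (GA A))) (Sum.inl 0) ⟨bits w' ++ bit b :: lA, []⟩)
      (Sum.inr Own.clk) (Z (dc ++ un ((bits w' : List (GA A)).length + 1)) [])) (Sum.inr x) = _ by
      rw [Function.update_of_ne hne2, Function.update_of_ne hne1, Function.update_self])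
  have h4 := seq_sruns h1 (seq_sruns h2 h3)
  rw [revTo_eq]
  refine Prog.SRuns.congr_right (h4.mono ?_) ?_
  · rw [hlen, List.length_append, List.length_singleton]
    omega
  · intro i
    by_cases hi : i = Sum.inr x
    · subst hi
      rw [Function.update_self, Function.update_of_ne hne2, Function.update_of_ne hne1,
        Function.update_self]
      have := Zip.toTp_trim ([lend] : List (GA A)) (bits w' ++ [bit b]) 1
      rw [Z_read_nil]
      simpa [Z] using this
    · rw [Function.update_of_ne hi]
      by_cases hi2 : i = Sum.inr Own.clk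
      · subst hi2
        rw [Function.update_self, Function.update_self, hlen, List.length_append,
          List.length_singleton]
      · rw [Function.update_of_ne hi2, Function.update_of_ne hi2]
        by_cases hi3 : i = Sum.inl 0
        · subst hi3
          rw [Function.update_self, Function.update_self]
          simp
        · rw [Function.update_of_ne hi3, Function.update_of_ne hi3, Function.update_of_ne hi,
            Function.update_of_ne hi]

end Vale.Agent.P338.TM
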