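import Vale.Agent.P338.TM.Kit

/-!
Basic programs (definitions only): rewinding, erasing, sweeps, loops over unary tapes,
one-hot registers modulo `N`.
-/

namespace Vale.Agent.P338.TM

open Vale.Agent.P338
open Classical

noncomputable section

variable {ι Γ : Type} [TapeAlpha Γ] [DecidableEq ι]

/-- Exit label: does tape `x` scan `w`? -/
def isSym (x : ι) (w : Γ) : Prog ι Γ := test fun a => decide (a x = w)

/-- Exit label: does tape `x` scan something else than `w`? -/
def notSym (x : ι) (w : Γ) : Prog ι Γ := test fun a => decide (a x ≠ w)

/-- Move left up to the left end mark. -/
def scanL (x : ι) : Prog ι Γ :=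
  scan fun a => if a x = lend then none else some (Instr.nil.set x (a x) Move.left)

/-- Back to the first cell after the left end mark. -/
def rewind (x : ι) : Prog ι Γ := seq (scanL x) (mv x Move.right)

/-- Move right up to the first blank. -/
def toEnd (x : ι) : Prog ι Γ :=
  scan fun a => if a x = blank then none else some (Instr.nil.set x (a x) Move.right)

/-- Move left up to the left end mark, writing blanks. -/
def wipeL (x : ι) : Prog ι Γ :=
  scan fun a => if a x = lend then none else some (Instr.nil.set x blank Move.left)

/-- Erase the tape (keeping the left end mark). -/
def erase (x : ι) : Prog ι Γ := seq (toEnd x) (seq (wipeL x) (mv x Move.right))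

/-- While tape `p` scans a symbol satisfying `cond`: do `body`, then move `p` right. -/
def sweep (p : ι) (cond : Γ → Bool) (body : Prog ι Γ) : Prog ι Γ :=
  while_ (test fun a => cond (a p)) (seq body (mv p Move.right))

/-- `body` once for every `1` of the unary tape `p`; then `p` is rewound. -/
def forU (p : ι) (body : Prog ι Γ) : Prog ι Γ :=
  seq (sweep p (fun y => decide (y = bit true)) body) (rewind p)

/-- Append `0` to tape `x`, once for every `1` of the unary tape `p`. -/
def zerosU (p x : ι) : Prog ι Γ := forU p (wr x (bit false) Move.right)

/-- Copy from `x` to `y`, one cell for every `1` of the unary tape `p`. -/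
def cpU (p x y : ι) : Prog ι Γ := forU p (cp x y)

/-- Move the head of `x`, once for every `1` of the unary tape `p`. -/
def mvU (p x : ι) (m : Move) : Prog ι Γ := forU p (mv x m)

/-- Contents of a one-hot register with `N` slots and value `v < N` (followed by `rend`). -/
def oh (N v : ℕ) : List Γ :=
  List.replicate v (bit false) ++ bit true :: List.replicate (N - v - 1) (bit false) ++ [rend]

/-- Register `x` := (`x` + `y`) mod `N`. -/
def addReg (x y : ι) : Prog ι Γ :=
  seq (scan fun a => if a x = bit true then none else some (Instr.nil.set x (a x) Move.right))
  (seq (wr x (bit false) Move.stay)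
  (seq (sweep y (fun z => decide (z = bit false))
        (seq (mv x Move.right) (ite (isSym x rend) (rewind x) skip)))
  (seq (wr x (bit true) Move.stay)
  (seq (rewind x) (rewind y)))))

/-- Overwrite tape `y` (from its head on) by the rest of tape `x`, then rewind both. -/
def copyOver (x y : ι) : Prog ι Γ :=
  seq (scan fun a => if a x = blank then none
        else some ((Instr.nil.set x (a x) Move.right).set y (a x) Move.right))
  (seq (rewind x) (rewind y))

/-- Append the rest of tape `x` to `y` (heads stay at the ends). -/
def appendAll (x y : ι) : Prog ι Γ :=
  scan fun a => if a x = blank then none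
        else some ((Instr.nil.set x (a x) Move.right).set y (a x) Move.right)

end

end Vale.Agent.P338.TM
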