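import Vale.Agent.P338.TM.Progs1

/-!
The programs of one `fat` transposition step (definitions only), on the named work tapes `Own`.

Parameters (unary tapes): `ta = a`, `tb = b`, `tg = g`, `te = e`, `tm = m`, `tN = N = a*b`,
`tb1 = b-1`, `t1 = 1`, `t0 = 0`, `tf = m-7-e`, where `2*m = L = N*g`.
A block has `L+2` bits, a slot has `w = 4*L+2 = 8*m+2` bits.
Registers (one-hot, `N` slots): `rS rD rF`; constants `cZ = 0`, `cO = 1`, `cA = a`, `cB = b`, `cH`.
-/

namespace Vale.Agent.P338.TM

open Vale.Agent.P338

/-- The work tapes. -/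
inductive Own
  | inp | outp | X | Y | Bk | U | V | Pd | T0 | T1 | T2 | T3 | W
  | ta | tb | tg | te | tm | tN | tb1 | t1 | t0 | tf
  | rS | rD | rF | cZ | cO | cA | cB | cH
  | clk
  | d1 | d2 | d3 | d4 | d5 | d6 | d7 | d8
  deriving DecidableEq

instance : Fintype Own :=
  Fintype.ofList [Own.inp, Own.outp, Own.X, Own.Y, Own.Bk, Own.U, Own.V, Own.Pd, Own.T0, Own.T1, Own.T2, Own.T3, Own.W, Own.ta, Own.tb, Own.tg, Own.te, Own.tm, Own.tN, Own.tb1, Own.t1, Own.t0, Own.tf, Own.rS, Own.rD, Own.rF, Own.cZ, Own.cO, Own.cA, Own.cB, Own.cH, Own.clk, Own.d1, Own.d2, Own.d3, Own.d4, Own.d5, Own.d6, Own.d7, Own.d8]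
    (by intro x; cases x <;> simp)

open Classical

noncomputable section

variable {ι Γ : Type} [TapeAlpha Γ] [DecidableEq ι]

/-- Write a word, moving right. -/
def wrs (x : ι) : List Γ → Prog ι Γ
  | [] => skip
  | c :: l => seq (wr x c Move.right) (wrs x l)

/-- The complemented bit. -/
def negSym (c : Γ) : Γ := if c = bit true then bit false else bit true

/-- Copy the complement of the scanned bit of `x` to `y`; both heads move right. -/
def cpNot (x y : ι) : Prog ι Γ :=
  prim fun a => (Instr.nil.set x (a x) Move.right).set y (negSym (a x)) Move.right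

/-- Append `1` to tape `x`, once for every `1` of the unary tape `p`. -/
def onesU (p x : ι) : Prog ι Γ := forU p (wr x (bit true) Move.right)

/-- Move right up to the first cell holding `1`. -/
def seekOne (x : ι) : Prog ι Γ :=
  scan fun a => if a x = bit true then none else some (Instr.nil.set x (a x) Move.right)

/-- Move right over the cells holding `1`. -/
def skipOnes (x : ι) : Prog ι Γ :=
  scan fun a => if a x = bit true then some (Instr.nil.set x (a x) Move.right) else none

/-! ### Encoding -/

/-- Move the head of `X` over one matrix (`a*b*e` cells). -/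
def skipMat (m : Move) : Prog Own Γ := forU Own.ta (forU Own.tb (mvU Own.te Own.X m))

/-- Encode the entry that ends at the head of `X`; the head ends at the start of that entry. -/
def encEntry : Prog Own Γ :=
  seq (mvU Own.te Own.X Move.left)
  (seq (wrs Own.Bk (bits [true, true, true, false, false, false, true]))
  (seq (cpU Own.te Own.X Own.Bk)
  (seq (zerosU Own.tf Own.Bk)
  (seq (mvU Own.te Own.X Move.left)
  (seq (wrs Own.Bk (bits [false, false, false, true, true, true, false]))
  (seq (forU Own.te (cpNot Own.X Own.Bk))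
  (seq (onesU Own.tf Own.Bk)
  (seq (wrs Own.Bk (bits [false, false]))
  (mvU Own.te Own.X Move.left)))))))))

/-- Encode one matrix (entries in reversed order); the head of `X` ends after the matrix. -/
def encMat : Prog Own Γ :=
  seq (skipMat Move.right) (seq (forU Own.ta (forU Own.tb encEntry)) (skipMat Move.right))

/-! ### The first operand -/

/-- `g` zeros on `x` for every slot of `rS` before the mark. -/
def preZ (x : Own) : Prog Own Γ :=
  sweep Own.rS (fun y => decide (y = bit false)) (zerosU Own.tg x)

/-- `g` zeros on `x` for every slot of `rS` from the head up to the right end mark. -/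
def postZ (x : Own) : Prog Own Γ :=
  sweep Own.rS (fun y => decide (y ≠ rend)) (zerosU Own.tg x)

/-- Copy one block (`2*m+2` cells) from `x` to `y`. -/
def cpBlk (x y : Own) : Prog Own Γ := seq (rep 2 (cpU Own.tm x y)) (rep 2 (cp x y))

/-- One slot of the first operand, then the register updates `rS += rD`, `rD += E1`. -/
def xBlock (E1 : Own) : Prog Own Γ :=
  seq (preZ Own.U)
  (seq (cpBlk Own.Bk Own.U)
  (seq (postZ Own.U)
  (seq (rewind Own.rS)
  (seq (rep 4 (zerosU Own.tm Own.U))
  (seq (addReg Own.rS Own.rD) (addReg Own.rD E1))))))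

/-- One row, then `rS += rF`, `rF += E2`, `rD += E3`. -/
def xRowP (E1 E2 E3 : Own) : Prog Own Γ :=
  seq (forU Own.tb (xBlock E1))
  (seq (addReg Own.rS Own.rF) (seq (addReg Own.rF E2) (addReg Own.rD E3)))

/-- A slot of zeros (`8*m+2` cells). -/
def zeroSlot (x : Own) : Prog Own Γ :=
  seq (rep 8 (zerosU Own.tm x)) (wrs x (bits [false, false]))

/-- One group: `R` rows, then `3*R*b` zero slots. -/
def xGroupP (tR E1 E2 E3 : Own) : Prog Own Γ :=
  seq (forU tR (xRowP E1 E2 E3)) (rep 3 (forU tR (forU Own.tb (zeroSlot Own.U))))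

/-- The first operand. -/
def stageX (tG tR E1 E2 E3 : Own) : Prog Own Γ := forU tG (xGroupP tR E1 E2 E3)

/-! ### The second operand (chirp) -/

/-- One chirp slot: `(N-S)*g` zeros, `1`, `2*m+1` zeros, `S*g` zeros, `4*m` zeros. -/
def ySlot : Prog Own Γ :=
  seq (seekOne Own.rS)
  (seq (postZ Own.V)
  (seq (rewind Own.rS)
  (seq (wr Own.V (bit true) Move.right)
  (seq (rep 2 (zerosU Own.tm Own.V))
  (seq (wr Own.V (bit false) Move.right)
  (seq (preZ Own.V)
  (seq (rewind Own.rS) (rep 4 (zerosU Own.tm Own.V)))))))))

/-- One chirp slot, `stride-1` zero slots, then `rS += rF`, `rF += E2`. -/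
def yRowP (ts1 E2 : Own) : Prog Own Γ :=
  seq ySlot (seq (forU ts1 (zeroSlot Own.V)) (seq (addReg Own.rS Own.rF) (addReg Own.rF E2)))

/-- The chirp: `3*l` rows. -/
def stageY (tl ts1 E2 : Own) : Prog Own Γ := rep 3 (forU tl (yRowP ts1 E2))

/-- Pad `V` with zeros to the length of `U`; both heads end at the end. -/
def padSame : Prog Own Γ :=
  seq (rewind Own.U) (seq (rewind Own.V)
  (scan fun a => if a Own.U = blank then none else
    some ((Instr.nil.set Own.U (a Own.U) Move.right).set Own.V
      (if a Own.V = blank then bit false else a Own.V) Move.right)))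

/-- Everything before the multiplication: registers, first operand, chirp, padding. -/
def preMul (tG tR E1 E2 E3 iD iF tl ts1 E2y : Own) : Prog Own Γ :=
  seq (copyOver Own.cZ Own.rS) (seq (copyOver iD Own.rD) (seq (copyOver iF Own.rF)
  (seq (stageX tG tR E1 E2 E3)
  (seq (copyOver Own.cZ Own.rS) (seq (copyOver Own.cZ Own.rF)
  (seq (stageY tl ts1 E2y) padSame))))))

/-! ### After the multiplication -/

/-- Move the head of `x` over one slot. -/
def skipSlot (x : Own) : Prog Own Γ :=
  seq (rep 8 (mvU Own.tm x Move.right)) (rep 2 (mv x Move.right))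

/-- Copy one chunk (`2*m` cells) from `x` to `T`, followed by two zeros. -/
def demuxChunk (x T : Own) : Prog Own Γ :=
  seq (rep 2 (cpU Own.tm x T)) (wrs T (bits [false, false]))

/-- Distribute the four chunks of a slot of `x` to `T0 .. T3`; skip the last two cells. -/
def demuxSlot (x : Own) : Prog Own Γ :=
  seq (demuxChunk x Own.T0) (seq (demuxChunk x Own.T1) (seq (demuxChunk x Own.T2)
  (seq (demuxChunk x Own.T3) (rep 2 (mv x Move.right)))))

/-- For each group: skip `2*R*b` slots, distribute `R*b` slots, skip `R*b` slots. -/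
def extract (tG tR : Own) : Prog Own Γ :=
  forU tG
    (seq (rep 2 (forU tR (forU Own.tb (skipSlot Own.Pd))))
    (seq (forU tR (forU Own.tb (demuxSlot Own.Pd)))
      (forU tR (forU Own.tb (skipSlot Own.Pd)))))

/-- The value of a scanned symbol as a bit. -/
def symVal (c : Γ) : ℕ := if c = bit true then 1 else 0

/-- Add the four numbers on `T0 .. T3` (least significant bit first, equal lengths, heads at the
start); the sum bits are appended to `Bk`. The state is the carry. -/
def add4 : Prog Own Γ where
  Q := Fin 4
  start := 0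
  δ := fun q a =>
    if a Own.T0 = blank then none else
      let t := q.val + symVal (a Own.T0) + symVal (a Own.T1) + symVal (a Own.T2) + symVal (a Own.T3)
      let f : Instr Own Γ :=
        ((((Instr.nil.set Own.T0 (a Own.T0) Move.right).set Own.T1 (a Own.T1) Move.right).set
          Own.T2 (a Own.T2) Move.right).set Own.T3 (a Own.T3) Move.right).set
          Own.Bk (bit (decide (t % 2 = 1))) Move.right
      some (⟨(t / 2) % 4, Nat.mod_lt _ (by norm_num)⟩, f.wr a, f.mv)
  lab := fun _ => true

/-- Rewind `T0 .. T3`, add them onto `Bk`, erase them, rewind `Bk`. -/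
def foldAdd : Prog Own Γ :=
  seq (rewind Own.T0) (seq (rewind Own.T1) (seq (rewind Own.T2) (seq (rewind Own.T3)
  (seq add4
  (seq (erase Own.T0) (seq (erase Own.T1) (seq (erase Own.T2) (seq (erase Own.T3)
  (rewind Own.Bk)))))))))

/-- Everything after the multiplication. -/
def postMul (tG tR : Own) : Prog Own Γ :=
  seq (erase Own.U) (seq (erase Own.V) (seq (erase Own.Bk) (seq (rewind Own.Pd)
  (seq (extract tG tR) (seq (erase Own.Pd) foldAdd)))))

/-- The last phase multiplication (no product). -/
def lastStage (E1 E2 E3 iD iF : Own) : Prog Own Γ :=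
  seq (copyOver Own.cZ Own.rS) (seq (copyOver iD Own.rD) (seq (copyOver iF Own.rF)
  (seq (stageX Own.t1 Own.ta E1 E2 E3)
  (seq (erase Own.Bk) (seq (rewind Own.U)
  (seq (forU Own.ta (forU Own.tb (demuxSlot Own.U)))
  (seq (erase Own.U) foldAdd)))))))

/-! ### Decoding -/

/-- Decode one block of `Bk`, appending the entry to `Y`. -/
def decBlock : Prog Own Γ :=
  seq (cpBlk Own.Bk Own.W)
  (seq (rewind Own.W)
  (seq (rep 3 (mv Own.W Move.right))
  (seq (skipOnes Own.W)
  (seq (rep 4 (mv Own.W Move.right))
  (seq (cpU Own.te Own.W Own.Y) (erase Own.W))))))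

/-- Decode all blocks, then erase `Bk`. -/
def decMat : Prog Own Γ := seq (forU Own.ta (forU Own.tb decBlock)) (erase Own.Bk)

end

end Vale.Agent.P338.TM
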