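import Vale.Agent.P338.TM.MulA
import Vale.Agent.P338.TM.Model4

/-!
Programs on all tapes: one stage with a multiplication, one matrix, one fat step.
-/

namespace Vale.Agent.P338.TM

open Vale.Agent.P338
open Classical

noncomputable section

variable {k : ℕ} [NeZero k]

/-- One stage with a multiplication. -/
def conv (A : Machine k) (tG tR E1 E2 E3 iD iF tl ts1 E2y : Own) : Prog (Fin k ⊕ Own) (GA A) :=
  seq (liftO (preMul tG tR E1 E2 E3 iD iF tl ts1 E2y)) (seq (mulA A) (liftO (postMul tG tR)))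

/-- The treatment of one matrix. -/
def matPipe (A : Machine k) : Prog (Fin k ⊕ Own) (GA A) :=
  seq (liftO (seq encMat (rewind Own.Bk)))
  (seq (conv A Own.t1 Own.ta Own.cO Own.cZ Own.cZ Own.cO Own.cZ Own.tN Own.t0 Own.cO)
  (seq (conv A Own.t1 Own.ta Own.cO Own.cB Own.cZ Own.cO Own.cB Own.ta Own.tb1 Own.cB)
  (seq (conv A Own.ta Own.t1 Own.cA Own.cZ Own.cO Own.cA Own.cH Own.tb Own.t0 Own.cA)
  (liftO (seq (lastStage Own.cA Own.cZ Own.cZ Own.cZ Own.cH) decMat)))))

/-- Replace the contents of `X` by those of `Y`, erase `Y`. -/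
def copyBack {Γ : Type} [TapeAlpha Γ] : Prog Own Γ :=
  seq (erase Own.X) (seq (rewind Own.Y) (seq (appendAll Own.Y Own.X)
  (seq (erase Own.Y) (rewind Own.X))))

/-- One fat step: all matrices on `X` are transposed. -/
def fatOp (A : Machine k) : Prog (Fin k ⊕ Own) (GA A) :=
  seq (while_ (liftO (notSym Own.X blank)) (matPipe A)) (liftO copyBack)

/-- The scratch tapes are empty. -/
def Clean {Γ : Type} [TapeAlpha Γ] (s : St Own Γ) : Prop :=
  ∀ x ∈ [Own.Bk, Own.U, Own.V, Own.Pd, Own.T0, Own.T1, Own.T2, Own.T3, Own.W, Own.clk],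
    s x = Z [] []

/-- All parameter tapes and constant registers. -/
def allPar : List Own :=
  [Own.ta, Own.tb, Own.tg, Own.te, Own.tm, Own.tN, Own.tb1, Own.t1, Own.t0, Own.tf,
    Own.cZ, Own.cO, Own.cA, Own.cB, Own.cH]

def cConv (P : Par) (tA R G l s1 : ℕ) : ℕ :=
  cPreMul P R G l s1 + cMulA tA (4 * (P.N * P.w)) + cPostMul P R G + 2

def cMatPipe (P : Par) (tA : ℕ) : ℕ :=
  (cEncMat P + (P.N * (2 * P.m + 2) + 3) + 1) + cConv P tA P.a 1 (P.a * P.b) 0
    + cConv P tA P.a 1 P.a (P.b - 1) + cConv P tA 1 P.a P.b 0 + (cLastStage P + cDecMat P + 1) + 4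

def cFatOp (P : Par) (tA q : ℕ) : ℕ :=
  q * (cMatPipe P tA + 3) + 2 + (8 * (q * (P.N * P.e)) + 30) + 1

end

end Vale.Agent.P338.TM
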