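import Vale.Agent.P338.TM.Progs3

/-!
Setting up and clearing the parameter tapes of a fat step from the three exponents
`d1 = sigma`, `d2 = lo`, `d3 = up` (unary):  `e = 2^sigma`, `a = 2^lo`, `b = 2^up`,
`g = 2^(sigma+5-lo-up)`, `m = 16*e`, `f = m-7-e`.
-/

namespace Vale.Agent.P338.TM

open Vale.Agent.P338
open Classical

noncomputable section

section generic

variable {ι Γ : Type} [TapeAlpha Γ] [DecidableEq ι]

/-- `x := 2*x` (unary, head at the start); `tmp` is empty before and after. -/
def dbl (x tmp : ι) : Prog ι Γ :=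
  seq (appendAll x tmp) (seq (rewind tmp) (seq (appendAll tmp x) (seq (erase tmp) (rewind x))))

/-- `x := 2^p`; `x` and `tmp` are empty before. -/
def pow2 (p x tmp : ι) : Prog ι Γ := seq (wr x (bit true) Move.stay) (forU p (dbl x tmp))

/-- Run the programs of a list one after the other. -/
def seqs : List (Prog ι Γ) → Prog ι Γ
  | [] => skip
  | P :: l => seq P (seqs l)

end generic

variable {Γ : Type} [TapeAlpha Γ]

/-- The unary parameter tapes. -/
def setUn : Prog Own Γ :=
  seqs [pow2 Own.d2 Own.ta Own.d5, pow2 Own.d3 Own.tb Own.d5, pow2 Own.d1 Own.te Own.d5,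
    rep 16 (onesU Own.te Own.tm), rewind Own.tm,
    onesU Own.d1 Own.d4, wrs Own.d4 (un 5), rewind Own.d4,
    mvU Own.d2 Own.d4 Move.right, mvU Own.d3 Own.d4 Move.right,
    appendAll Own.d4 Own.d6, rewind Own.d6, erase Own.d4,
    pow2 Own.d6 Own.tg Own.d5, erase Own.d6,
    forU Own.ta (onesU Own.tb Own.tN), rewind Own.tN,
    mv Own.tb Move.right, appendAll Own.tb Own.tb1, rewind Own.tb, rewind Own.tb1,
    wr Own.t1 (bit true) Move.stay,
    mvU Own.te Own.tm Move.right, rep 7 (mv Own.tm Move.right), appendAll Own.tm Own.tf,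
    rewind Own.tm, rewind Own.tf]

/-- Make tape `x` (empty before) a register with value `0`. -/
def mkReg (x : Own) : Prog Own Γ :=
  seqs [zerosU Own.tN x, wr x rend Move.right, rewind x, wr x (bit true) Move.stay]

/-- Make tape `x` (empty before) a register whose value is the number on the unary tape `p`. -/
def mkRegU (x p : Own) : Prog Own Γ :=
  seqs [zerosU Own.tN x, wr x rend Move.right, rewind x, mvU p x Move.right,
    wr x (bit true) Move.stay, rewind x]

/-- All registers. -/
def setRegs : Prog Own Γ :=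
  seqs [mkReg Own.rS, mkReg Own.rD, mkReg Own.rF, mkReg Own.cZ, mkReg Own.cH,
    mkRegU Own.cO Own.t1, mkRegU Own.cA Own.ta, mkRegU Own.cB Own.tb,
    copyOver Own.cA Own.rD,
    forU Own.tb (seq (addReg Own.cH Own.rD) (addReg Own.rD Own.cA))]

/-- All parameters. -/
def setPar : Prog Own Γ := seq setUn setRegs

/-- The tapes written by `setPar` (except the scratch tapes `d4 d5 d6`, which are empty again). -/
def parTapes : List Own :=
  [Own.ta, Own.tb, Own.tg, Own.te, Own.tm, Own.tN, Own.tb1, Own.t1, Own.tf,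
    Own.rS, Own.rD, Own.rF, Own.cZ, Own.cO, Own.cA, Own.cB, Own.cH]

/-- Erase all parameters. -/
def clearPar : Prog Own Γ := seqs (parTapes.map erase)

/-- The parameters belonging to the exponents. -/
def parOf (σ lo up : ℕ) : Par where
  a := 2 ^ lo
  b := 2 ^ up
  g := 2 ^ (σ + 5 - lo - up)
  e := 2 ^ σ
  m := 16 * 2 ^ σ
  f := 16 * 2 ^ σ - 7 - 2 ^ σ
  H := 2 ^ lo * 2 ^ up / 2

def cSetPar (σ lo up : ℕ) : ℕ :=
  500 * (2 ^ lo * 2 ^ up * 2 ^ up + 2 ^ σ + 2 ^ (σ + 5 - lo - up) + σ + 10)

def cClearPar (σ lo up : ℕ) : ℕ :=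
  100 * (2 ^ lo * 2 ^ up + 2 ^ σ + 2 ^ (σ + 5 - lo - up) + 10)

variable {k : ℕ} [NeZero k]

/-- One complete step: set the parameters, transpose all matrices on `X`, clear the parameters. -/
def opStep (A : Machine k) : Prog (Fin k ⊕ Own) (GA A) :=
  seq (liftO setPar) (seq (fatOp A) (liftO clearPar))

/-- What a step does to the data: the data are cut into entries of `2^σ` bits; each group of
`2^lo * 2^up` entries is a `2^up × 2^lo` matrix, which is transposed. -/
def opList (σ lo up : ℕ) (D : List Bool) : List Bool :=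
  cat (fun n => slices (2 ^ σ) D
    (n / (2 ^ lo * 2 ^ up) * (2 ^ lo * 2 ^ up) + trIdx (2 ^ lo) (2 ^ up) (n % (2 ^ lo * 2 ^ up))))
    0 (D.length / 2 ^ σ)

/-- All tapes used inside a step are empty. -/
def Idle (s : St Own Γ) : Prop :=
  ∀ x ∈ parTapes ++ [Own.t0, Own.d4, Own.d5, Own.d6, Own.Y, Own.Bk, Own.U, Own.V, Own.Pd, Own.T0,
    Own.T1, Own.T2, Own.T3, Own.W, Own.clk], s x = Z [] []

def cOpStep (tA : ℕ → ℕ) (σ lo up q : ℕ) : ℕ :=
  cSetPar σ lo up + cFatOp (parOf σ lo up) (tA (4 * ((parOf σ lo up).N * (parOf σ lo up).w))) q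
    + cClearPar σ lo up + 2

end

end Vale.Agent.P338.TM
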