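import Vale.Agent.P338.TM.Progs4

/-!
The driver: parsing, the schedule of steps, its interpretation, the output.
An operation `(σ, lo, up)` is written `1^σ # 1^lo # 1^up #` on the schedule tape `d7`.
-/

namespace Vale.Agent.P338.TM

open Vale.Agent.P338
open Classical

noncomputable section

section generic

variable {ι Γ : Type} [TapeAlpha Γ] [DecidableEq ι]

/-- Exit label: does the unary tape `x` (head at the start) hold a number `≥ 2`? -/
def ge2 (x : ι) : Prog ι Γ :=
  ite (seq (mv x Move.right) (isSym x (bit true)))
    (seq (mv x Move.left) (test fun _ => true))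
    (seq (mv x Move.left) (test fun _ => false))

/-- Append `⌈c/2⌉` ones to `yc` and `⌊c/2⌋` ones to `yf`, where `c` is the number on `x`. -/
def halves (x yc yf : ι) : Prog ι Γ :=
  while_ (isSym x (bit true))
    (seq (prim fun a => (Instr.nil.set x (a x) Move.right).set yc (bit true) Move.right)
      (ite (isSym x (bit true))
        (prim fun a => (Instr.nil.set x (a x) Move.right).set yf (bit true) Move.right) skip))

/-- Append the contents of `x` (head at its end) backwards to `y`; `x` ends rewound. -/
def revAppend (x y : ι) : Prog ι Γ :=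
  seq (mv x Move.left)
  (seq (scan fun a => if a x = lend then none else
    some ((Instr.nil.set x (a x) Move.left).set y (a x) Move.right))
  (mv x Move.right))

/-- Append `1^(sum of ps) # 1^lo # 1^up #` to `dst`. -/
def emitOp (dst : ι) (ps : List ι) (lo up : ι) : Prog ι Γ :=
  seqs (ps.map (fun p => onesU p dst) ++
    [wr dst sep Move.right, onesU lo dst, wr dst sep Move.right, onesU up dst,
      wr dst sep Move.right])

/-- Append the mirror image `# 1^up # 1^lo # 1^(sum of ps)` to `dst`. -/
def emitRev (dst : ι) (ps : List ι) (lo up : ι) : Prog ι Γ :=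
  seqs ([wr dst sep Move.right, onesU up dst, wr dst sep Move.right, onesU lo dst,
      wr dst sep Move.right] ++ ps.map (fun p => onesU p dst))

end generic

variable {Γ : Type} [TapeAlpha Γ]

/-- One level of the schedule. `T0 = K`; afterwards `T0 = ⌈K/2⌉`. -/
def genLevel : Prog Own Γ :=
  seqs [halves Own.T0 Own.T1 Own.T2, rewind Own.T1, rewind Own.T2,
    halves Own.T1 Own.T3 Own.W, rewind Own.T1, rewind Own.T3, rewind Own.W,
    halves Own.T2 Own.U Own.V, rewind Own.T2, rewind Own.U, rewind Own.V,
    emitOp Own.d7 [Own.T1, Own.U] Own.V Own.T1,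
    emitOp Own.d7 [Own.T1] Own.U Own.W,
    emitOp Own.d7 [Own.T1, Own.W] Own.U Own.T3,
    emitRev Own.Pd [Own.T1, Own.V] Own.T3 Own.U,
    emitRev Own.Pd [Own.T1] Own.T3 Own.V,
    emitRev Own.Pd [Own.T1, Own.T3] Own.W Own.T2,
    emitRev Own.Pd [Own.T1, Own.T1] Own.T2 Own.T2,
    erase Own.T0, appendAll Own.T1 Own.T0, rewind Own.T0,
    erase Own.T1, erase Own.T2, erase Own.T3, erase Own.W, erase Own.U, erase Own.V]

/-- The whole schedule for `T0 = K` is written on `d7`. -/
def genAll : Prog Own Γ :=
  seqs [while_ (ge2 Own.T0) genLevel,
    ite (isSym Own.T0 (bit true)) (wrs Own.d7 [sep, bit true, sep, bit true, sep]) skip,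
    erase Own.T0, revAppend Own.Pd Own.d7, erase Own.Pd, rewind Own.d7]

/-- `T0 := log2 (d8)` for a power of two on `d8`. -/
def log2P : Prog Own Γ :=
  seqs [appendAll Own.d8 Own.U, rewind Own.d8, rewind Own.U,
    while_ (ge2 Own.U)
      (seqs [halves Own.U Own.V Own.W, erase Own.U, rewind Own.V, appendAll Own.V Own.U,
        rewind Own.U, erase Own.V, erase Own.W, wr Own.T0 (bit true) Move.right]),
    erase Own.U, rewind Own.T0]

/-- Write the left end mark on every work tape except `inp` and `outp`. -/
def initAll : Prog Own Γ :=
  prim fun _ x => if x = Own.inp ∨ x = Own.outp then none else some (lend, Move.right)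

/-- Copy the matrix bits to `X`, the length of the first row (in unary) to `d8`. -/
def parse : Prog Own Γ :=
  seqs [scan fun a => if a Own.inp = sep ∨ a Own.inp = blank then none else
      some (((Instr.nil.set Own.inp (a Own.inp) Move.right).set Own.X (a Own.inp) Move.right).set
        Own.d8 (bit true) Move.right),
    scan fun a => if a Own.inp = blank then none else
      if a Own.inp = sep then some (Instr.nil.set Own.inp (a Own.inp) Move.right) else
      some ((Instr.nil.set Own.inp (a Own.inp) Move.right).set Own.X (a Own.inp) Move.right),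
    rewind Own.X, rewind Own.d8]

/-- Write `X` on the output tape, a separator after every `d8` bits. -/
def output : Prog Own Γ :=
  seqs [appendAll Own.d8 Own.Y, rewind Own.d8, rewind Own.Y,
    forU Own.d8 (seq (cpU Own.Y Own.X Own.outp) (wr Own.outp sep Move.right))]

/-- Read one unary field of the schedule into `dst`. -/
def readField (dst : Own) : Prog Own Γ :=
  seq (scan fun a => if a Own.d7 = bit true then
      some ((Instr.nil.set Own.d7 (a Own.d7) Move.right).set dst (bit true) Move.right) else none)
  (seq (mv Own.d7 Move.right) (rewind dst))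

variable {k : ℕ} [NeZero k]

/-- Execute the schedule. -/
def interp (A : Machine k) : Prog (Fin k ⊕ Own) (GA A) :=
  while_ (liftO (notSym Own.d7 blank))
    (seqs [liftO (seqs [readField Own.d1, readField Own.d2, readField Own.d3]),
      ite (liftO (isSym Own.d2 (bit true)))
        (ite (liftO (isSym Own.d3 (bit true))) (opStep A) skip) skip,
      liftO (seqs [erase Own.d1, erase Own.d2, erase Own.d3])])

/-- The transposition program. -/
def mainP (A : Machine k) : Prog (Fin k ⊕ Own) (GA A) :=
  seqs [liftO (seqs [initAll, parse, log2P, genAll]), interp A, liftO output]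

end

/-! ### The schedule -/

/-- An operation `(σ, lo, up)`. -/
abbrev Op := ℕ × ℕ × ℕ

/-- Swap the upper group of `p` address bits with the lower group of `q` address bits, above a
suffix of `σ` address bits. -/
def opsX (p q σ : ℕ) : List Op :=
  [(σ + (q + 1) / 2, q / 2, p), (σ, (q + 1) / 2, p / 2), (σ + p / 2, (q + 1) / 2, (p + 1) / 2)]

/-- The operations of level `K` before the recursive call. -/
def opsDown (K : ℕ) : List Op := opsX ((K + 1) / 2) (K / 2) ((K + 1) / 2)

/-- The operations of level `K` after the recursive call. -/
def opsUp (K : ℕ) : List Op :=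
  (2 * ((K + 1) / 2), K / 2, K / 2) :: opsX (K / 2) ((K + 1) / 2) ((K + 1) / 2)

/-- All operations before the turning point. -/
def downAll : ℕ → List Op
  | 0 => []
  | 1 => [(0, 1, 1)]
  | K + 2 => opsDown (K + 2) ++ downAll ((K + 3) / 2)
decreasing_by omega

/-- All operations after the turning point. -/
def upAll : ℕ → List Op
  | 0 => []
  | 1 => []
  | K + 2 => upAll ((K + 3) / 2) ++ opsUp (K + 2)
decreasing_by omega

/-- The schedule for `2^K × 2^K` matrices. -/
def sched (K : ℕ) : List Op := downAll K ++ upAll K

/-- Execute a list of operations on the data (operations with an empty group are skipped). -/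
def runOps (l : List Op) (D : List Bool) : List Bool :=
  l.foldl (fun D op => if op.2.1 = 0 ∨ op.2.2 = 0 then D else opList op.1 op.2.1 op.2.2 D) D

section

variable {Γ : Type} [TapeAlpha Γ]

/-- The code of an operation. -/
def encOp (op : Op) : List Γ := un op.1 ++ sep :: un op.2.1 ++ sep :: un op.2.2 ++ [sep]

/-- The code of a list of operations. -/
def encOps (l : List Op) : List Γ := l.flatMap encOp

end

end Vale.Agent.P338.TM
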