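import Vale.Agent.P338.TM.Model5

/-!
Index maps of the operations of the schedule: definitions.
-/

namespace Vale.Agent.P338.TM

open Vale.Agent.P338

/-- The index map of an operation: position `t` of the result receives the bit at position
`swF σ lo up t` of the data. -/
def swF (σ lo up t : ℕ) : ℕ :=
  (t / 2 ^ σ / (2 ^ lo * 2 ^ up) * (2 ^ lo * 2 ^ up)
    + trIdx (2 ^ lo) (2 ^ up) (t / 2 ^ σ % (2 ^ lo * 2 ^ up))) * 2 ^ σ + t % 2 ^ σ

/-- The same map on the positions of the address bits: bit `i` of `swF σ lo up t` is bit
`swP σ lo up i` of `t`. -/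
def swP (σ lo up i : ℕ) : ℕ :=
  if i < σ then i else if i < σ + lo then i + up else if i < σ + lo + up then i - lo else i

/-- The composed index map of a list of operations. -/
def opsF : List Op → ℕ → ℕ
  | [], t => t
  | op :: l, t => swF op.1 op.2.1 op.2.2 (opsF l t)

/-- The composed map on the positions of the address bits. -/
def opsP : List Op → ℕ → ℕ
  | [], i => i
  | op :: l, i => opsP l (swP op.1 op.2.1 op.2.2 i)

/-- Rearrangement of a list along an index map. -/
def gather (L : ℕ) (φ : ℕ → ℕ) (D : List Bool) : List Bool :=
  (List.range L).map fun t => D.getD (φ t) false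

end Vale.Agent.P338.TM
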