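import Vale.Agent.P338.TM.Sched0

/-! The index map of an operation permutes the address bits. -/

namespace Vale.Agent.P338.TM

open Vale.Agent.P338

theorem s1_testBit_mul_add (a b i j : ℕ) (hb : b < 2 ^ i) :
    (a * 2 ^ i + b).testBit j = if j < i then b.testBit j else a.testBit (j - i) := by
  rw [mul_comm]
  exact Nat.testBit_two_pow_mul_add a hb j

theorem testBit_swF (σ lo up t i : ℕ) :
    (swF σ lo up t).testBit i = t.testBit (swP σ lo up i) := by
  unfold swF trIdx swP
  rw [← pow_add]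
  set q := t / 2 ^ σ with hq
  have hr : t % 2 ^ σ < 2 ^ σ := Nat.mod_lt _ (by positivity)
  have hj : q % 2 ^ (lo + up) < 2 ^ (lo + up) := Nat.mod_lt _ (by positivity)
  have hk1 : q % 2 ^ (lo + up) / 2 ^ up < 2 ^ lo := by
    rw [Nat.div_lt_iff_lt_mul (by positivity), ← pow_add]
    exact hj
  have hk2 : q % 2 ^ (lo + up) % 2 ^ up < 2 ^ up := Nat.mod_lt _ (by positivity)
  have htr : q % 2 ^ (lo + up) % 2 ^ up * 2 ^ lo + q % 2 ^ (lo + up) / 2 ^ up < 2 ^ (lo + up) := by
    have h1 : q % 2 ^ (lo + up) % 2 ^ up + 1 ≤ 2 ^ up := hk2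
    calc q % 2 ^ (lo + up) % 2 ^ up * 2 ^ lo + q % 2 ^ (lo + up) / 2 ^ up
        < q % 2 ^ (lo + up) % 2 ^ up * 2 ^ lo + 2 ^ lo := by omega
      _ = (q % 2 ^ (lo + up) % 2 ^ up + 1) * 2 ^ lo := by ring
      _ ≤ 2 ^ up * 2 ^ lo := Nat.mul_le_mul_right _ h1
      _ = 2 ^ (lo + up) := by rw [← pow_add, add_comm]
  rw [s1_testBit_mul_add _ _ _ _ hr]
  by_cases h1 : i < σ
  · rw [if_pos h1, if_pos h1, Nat.testBit_mod_two_pow]
    simp [h1]
  · rw [if_neg h1, if_neg h1, s1_testBit_mul_add _ _ _ _ htr]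
    by_cases h2 : i < σ + lo
    · have h3 : i - σ < lo + up := by omega
      have h4 : i - σ < lo := by omega
      rw [if_pos h3, if_pos h2, s1_testBit_mul_add _ _ _ _ hk1, if_pos h4,
        Nat.testBit_div_two_pow, Nat.testBit_mod_two_pow, hq, Nat.testBit_div_two_pow]
      have h5 : i - σ + up < lo + up := by omega
      have h6 : i - σ + up + σ = i + up := by omega
      simp [h5, h6]
    · rw [if_neg h2]
      by_cases h3 : i < σ + lo + up
      · have h4 : i - σ < lo + up := by omega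
        have h5 : ¬ i - σ < lo := by omega
        rw [if_pos h4, if_pos h3, s1_testBit_mul_add _ _ _ _ hk1, if_neg h5,
          Nat.testBit_mod_two_pow, Nat.testBit_mod_two_pow, hq, Nat.testBit_div_two_pow]
        have h6 : i - σ - lo < up := by omega
        have h7 : i - σ - lo < lo + up := by omega
        have h8 : i - σ - lo + σ = i - lo := by omega
        simp [h6, h7, h8]
      · have h4 : ¬ i - σ < lo + up := by omega
        rw [if_neg h4, if_neg h3, Nat.testBit_div_two_pow, hq, Nat.testBit_div_two_pow]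
        have h5 : i - σ - (lo + up) + (lo + up) + σ = i := by omega
        rw [h5]

theorem swP_lt (σ lo up T i : ℕ) (h : σ + lo + up ≤ T) : swP σ lo up i < T ↔ i < T := by
  unfold swP
  split_ifs <;> omega

theorem swF_lt (σ lo up T t : ℕ) (h : σ + lo + up ≤ T) (ht : t < 2 ^ T) :
    swF σ lo up t < 2 ^ T := by
  apply Nat.lt_pow_two_of_testBit
  intro i hi
  rw [testBit_swF]
  have h1 : ¬ swP σ lo up i < T := by
    rw [swP_lt σ lo up T i h]
    omega
  apply Nat.testBit_lt_two_pow
  calc t < 2 ^ T := ht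
    _ ≤ 2 ^ (swP σ lo up i) := Nat.pow_le_pow_right (by norm_num) (by omega)

theorem testBit_opsF (l : List Op) (t i : ℕ) : (opsF l t).testBit i = t.testBit (opsP l i) := by
  induction l generalizing i with
  | nil => rfl
  | cons op l ih =>
    show (swF op.1 op.2.1 op.2.2 (opsF l t)).testBit i
      = t.testBit (opsP l (swP op.1 op.2.1 op.2.2 i))
    rw [testBit_swF, ih]

theorem opsF_lt (T : ℕ) (l : List Op) (hl : ∀ op ∈ l, OkOp T op) (t : ℕ) (ht : t < 2 ^ T) :
    opsF l t < 2 ^ T := by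
  induction l with
  | nil => exact ht
  | cons op l ih =>
    show swF op.1 op.2.1 op.2.2 (opsF l t) < 2 ^ T
    have h1 : OkOp T op := hl op (List.mem_cons_self)
    exact swF_lt _ _ _ T _ h1.2 (ih (fun o ho => hl o (List.mem_cons_of_mem _ ho)))

theorem opsP_append (l1 l2 : List Op) (i : ℕ) : opsP (l1 ++ l2) i = opsP l2 (opsP l1 i) := by
  induction l1 generalizing i with
  | nil => rfl
  | cons op l ih =>
    show opsP (l ++ l2) (swP op.1 op.2.1 op.2.2 i) = opsP l2 (opsP l (swP op.1 op.2.1 op.2.2 i))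
    exact ih _

/-- An operation with an empty group does nothing. -/
theorem swF_empty (σ lo up t : ℕ) (h : lo = 0 ∨ up = 0) : swF σ lo up t = t := by
  apply Nat.eq_of_testBit_eq
  intro i
  rw [testBit_swF]
  congr 1
  unfold swP
  split_ifs <;> omega

end Vale.Agent.P338.TM
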