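import Vale.Agent.P338.TM.Sched0

/-! The operations on lists as rearrangements along index maps. -/

namespace Vale.Agent.P338.TM

open Vale.Agent.P338

theorem gather_length (L : ℕ) (φ : ℕ → ℕ) (D : List Bool) : (gather L φ D).length = L := by
  simp [gather]

theorem gather_id (D : List Bool) : gather D.length (fun t => t) D = D := by
  apply List.ext_getElem (by simp [gather])
  intro i h1 h2
  simp only [gather, List.getElem_map, List.getElem_range]
  exact List.getD_eq_getElem _ _ h2

theorem gather_congr (L : ℕ) (φ ψ : ℕ → ℕ) (D : List Bool) (h : ∀ t, t < L → φ t = ψ t) :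
    gather L φ D = gather L ψ D := by
  unfold gather
  apply List.map_congr_left
  intro t ht
  rw [h t (List.mem_range.1 ht)]

theorem gather_gather (L : ℕ) (φ ψ : ℕ → ℕ) (D : List Bool) (h : ∀ t, t < L → ψ t < L) :
    gather L ψ (gather L φ D) = gather L (fun t => φ (ψ t)) D := by
  conv_lhs => unfold gather
  conv_rhs => unfold gather
  apply List.map_congr_left
  intro t ht
  have h1 : ψ t < L := h t (List.mem_range.1 ht)
  rw [List.getD_eq_getElem _ _ (by simpa using h1)]
  simp

theorem sc_cat_succ (f : ℕ → List Bool) (i k : ℕ) : cat f i (k + 1) = cat f i k ++ f (i + k) := by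
  simp [cat, List.range_succ, List.flatMap_append]

/-- A concatenation of `k` lists of length `w`. -/
theorem cat_map_range (w k : ℕ) (hw : 0 < w) (h : ℕ → ℕ → Bool) :
    cat (fun n => (List.range w).map (h n)) 0 k =
      (List.range (k * w)).map fun t => h (t / w) (t % w) := by
  induction k with
  | zero => simp [cat]
  | succ k ih =>
    have e : (k + 1) * w = k * w + w := by ring
    rw [sc_cat_succ, ih, e, List.range_add, List.map_append, List.map_map, Nat.zero_add]
    congr 1
    apply List.map_congr_left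
    intro i hi
    have hi' : i < w := List.mem_range.1 hi
    have e1 : (k * w + i) / w = k := by
      rw [Nat.mul_comm, Nat.mul_add_div hw, Nat.div_eq_of_lt hi', Nat.add_zero]
    have e2 : (k * w + i) % w = i := by
      rw [Nat.mul_comm, Nat.mul_add_mod, Nat.mod_eq_of_lt hi']
    simp only [Function.comp_apply, e1, e2]

theorem opList_eq_gather (σ lo up T : ℕ) (h : σ ≤ T) (D : List Bool) (hD : D.length = 2 ^ T) :
    opList σ lo up D = gather (2 ^ T) (swF σ lo up) D := by
  have e1 : D.length / 2 ^ σ = 2 ^ (T - σ) := by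
    rw [hD, Nat.pow_div h (by norm_num)]
  have e2 : 2 ^ (T - σ) * 2 ^ σ = 2 ^ T := by
    rw [← pow_add, Nat.sub_add_cancel h]
  unfold opList
  rw [e1]
  have e3 := cat_map_range (2 ^ σ) (2 ^ (T - σ)) (by positivity)
    (fun n i => D.getD ((n / (2 ^ lo * 2 ^ up) * (2 ^ lo * 2 ^ up)
      + trIdx (2 ^ lo) (2 ^ up) (n % (2 ^ lo * 2 ^ up))) * 2 ^ σ + i) false)
  rw [e2] at e3
  exact e3

theorem trList_eq_gather (κ : ℕ) (D : List Bool) :
    trList (2 ^ κ) D = gather (2 ^ (2 * κ)) (swF 0 κ κ) D := by
  have e : 2 ^ (2 * κ) = 2 ^ κ * 2 ^ κ := by rw [two_mul, pow_add]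
  unfold trList gather
  rw [e]
  apply List.map_congr_left
  intro t ht
  have ht' : t < 2 ^ κ * 2 ^ κ := List.mem_range.1 ht
  have e1 : swF 0 κ κ t = (t % 2 ^ κ) * 2 ^ κ + t / 2 ^ κ := by
    unfold swF trIdx
    simp only [pow_zero, Nat.div_one, Nat.mod_one, Nat.mul_one, Nat.add_zero]
    rw [Nat.div_eq_of_lt ht', Nat.mod_eq_of_lt ht', Nat.zero_mul, Nat.zero_add]
  rw [e1]

end Vale.Agent.P338.TM
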