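import Vale.Agent.P338.TM.SpecRewind
import Vale.Agent.P338.TM.Model3

namespace Vale.Agent.P338.TM

open Vale.Agent.P338

variable {Γ : Type} [TapeAlpha Γ]

/-- The total (carry plus the four scanned bits). -/
noncomputable def add4T (q : ℕ) (a : Own → Γ) : ℕ :=
  q + symVal (a Own.T0) + symVal (a Own.T1) + symVal (a Own.T2) + symVal (a Own.T3)

/-- The instruction of one step of `add4`. -/
noncomputable def add4I (q : ℕ) (a : Own → Γ) : Instr Own Γ :=
  ((((Instr.nil.set Own.T0 (a Own.T0) Move.right).set Own.T1 (a Own.T1) Move.right).set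
    Own.T2 (a Own.T2) Move.right).set Own.T3 (a Own.T3) Move.right).set
    Own.Bk (bit (decide (add4T q a % 2 = 1))) Move.right

theorem add4_step (q : Fin 4) (c : Conf Own Γ) (h : reads c Own.T0 ≠ blank) :
    (add4 : Prog Own Γ).step (q, c) =
      some (⟨(add4T q.val (reads c) / 2) % 4, Nat.mod_lt _ (by norm_num)⟩,
        (add4I q.val (reads c)).app c) := by
  simp only [Prog.step, add4]
  rw [if_neg h]
  simp only [Option.map_some]
  rw [Instr.app_eq]
  rfl

theorem add4_stop (q : Fin 4) (c : Conf Own Γ) (h : reads c Own.T0 = blank) :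
    (add4 : Prog Own Γ).step (q, c) = none := by
  simp only [Prog.step, add4]
  rw [if_pos h]
  rfl

theorem symVal_bit (b : Bool) : symVal (bit b : Γ) = b.toNat := by
  unfold symVal
  cases b with
  | true => simp
  | false =>
    rw [if_neg]
    · rfl
    · intro h
      have := TapeAlpha.bit_injective h
      simp at this

/-- Simultaneous update of the five tapes used by `add4`. -/
def upd5 (s : St Own Γ) (z0 z1 z2 z3 zB : Zip Γ) : St Own Γ :=
  Function.update (Function.update (Function.update (Function.update (Function.update s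
    Own.T0 z0) Own.T1 z1) Own.T2 z2) Own.T3 z3) Own.Bk zB

omit [TapeAlpha Γ] in
theorem upd5_upd5 (s : St Own Γ) (a0 a1 a2 a3 aB z0 z1 z2 z3 zB : Zip Γ) :
    upd5 (upd5 s a0 a1 a2 a3 aB) z0 z1 z2 z3 zB = upd5 s z0 z1 z2 z3 zB := by
  funext i
  simp only [upd5, Function.update_apply]
  split_ifs <;> rfl

omit [TapeAlpha Γ] in
theorem upd5_self (s : St Own Γ) (z0 z1 z2 z3 zB : Zip Γ) (h0 : s Own.T0 = z0)
    (h1 : s Own.T1 = z1) (h2 : s Own.T2 = z2) (h3 : s Own.T3 = z3) (hB : s Own.Bk = zB) :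
    upd5 s z0 z1 z2 z3 zB = s := by
  funext i
  simp only [upd5, Function.update_apply]
  split_ifs with e1 e2 e3 e4 e5
  · rw [e1, hB]
  · rw [e2, h3]
  · rw [e3, h2]
  · rw [e4, h1]
  · rw [e5, h0]
  · rfl

theorem lbits_succ (k z : ℕ) : lbits (k + 1) z = decide (z % 2 = 1) :: lbits k (z / 2) := by
  unfold lbits
  rw [List.range_succ_eq_map, List.map_cons, List.map_map, Nat.testBit_zero]
  congr 1
  apply List.map_congr_left
  intro i _
  simp [Nat.testBit_succ]

theorem add4_aux : ∀ (n : ℕ) (q : Fin 4) (s : St Own Γ) (t0 t1 t2 t3 : List Bool)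
    (d0 d1 d2 d3 dB : List Γ), t0.length = n → t1.length = n → t2.length = n → t3.length = n →
    s Own.T0 = Z d0 (bits t0) → s Own.T1 = Z d1 (bits t1) → s Own.T2 = Z d2 (bits t2) →
    s Own.T3 = Z d3 (bits t3) → s Own.Bk = Z dB [] →
    ∃ q' : Fin 4, (add4 : Prog Own Γ).Reach n (q, conc s)
      (q', conc (upd5 s (Z (d0 ++ bits t0) []) (Z (d1 ++ bits t1) []) (Z (d2 ++ bits t2) [])
        (Z (d3 ++ bits t3) [])
        (Z (dB ++ bits (lbits n (q.val + lval t0 + lval t1 + lval t2 + lval t3))) []))) ∧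
      (add4 : Prog Own Γ).step (q', conc (upd5 s (Z (d0 ++ bits t0) []) (Z (d1 ++ bits t1) [])
        (Z (d2 ++ bits t2) []) (Z (d3 ++ bits t3) [])
        (Z (dB ++ bits (lbits n (q.val + lval t0 + lval t1 + lval t2 + lval t3))) []))) = none := by
  intro n
  induction n with
  | zero =>
    intro q s t0 t1 t2 t3 d0 d1 d2 d3 dB l0 l1 l2 l3 h0 h1 h2 h3 hB
    obtain rfl := List.length_eq_zero_iff.1 l0
    obtain rfl := List.length_eq_zero_iff.1 l1
    obtain rfl := List.length_eq_zero_iff.1 l2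
    obtain rfl := List.length_eq_zero_iff.1 l3
    have hs : upd5 s (Z (d0 ++ bits []) []) (Z (d1 ++ bits []) []) (Z (d2 ++ bits []) [])
        (Z (d3 ++ bits []) [])
        (Z (dB ++ bits (lbits 0 (q.val + lval [] + lval [] + lval [] + lval []))) []) = s := by
      apply upd5_self
      · simpa [bits] using h0
      · simpa [bits] using h1
      · simpa [bits] using h2
      · simpa [bits] using h3
      · simpa [bits, lbits] using hB
    rw [hs]
    refine ⟨q, Prog.Reach.zero _, add4_stop q _ ?_⟩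
    rw [reads_conc, sreads_apply, h0]
    rfl
  | succ n ih =>
    intro q s t0 t1 t2 t3 d0 d1 d2 d3 dB l0 l1 l2 l3 h0 h1 h2 h3 hB
    obtain ⟨b0, t0, rfl⟩ := List.exists_cons_of_length_eq_add_one l0
    obtain ⟨b1, t1, rfl⟩ := List.exists_cons_of_length_eq_add_one l1
    obtain ⟨b2, t2, rfl⟩ := List.exists_cons_of_length_eq_add_one l2
    obtain ⟨b3, t3, rfl⟩ := List.exists_cons_of_length_eq_add_one l3
    have r0 : sreads s Own.T0 = bit b0 := by rw [sreads_apply, h0]; rfl
    have r1 : sreads s Own.T1 = bit b1 := by rw [sreads_apply, h1]; rfl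
    have r2 : sreads s Own.T2 = bit b2 := by rw [sreads_apply, h2]; rfl
    have r3 : sreads s Own.T3 = bit b3 := by rw [sreads_apply, h3]; rfl
    have hT : add4T q.val (sreads s) = q.val + b0.toNat + b1.toNat + b2.toNat + b3.toNat := by
      simp only [add4T, r0, r1, r2, r3, symVal_bit]
    set tt := q.val + b0.toNat + b1.toNat + b2.toNat + b3.toNat with htt
    have hstep := add4_step q (conc s) (by
      rw [reads_conc, r0]; exact TapeAlpha.bit_ne_blank b0)
    rw [reads_conc, app_conc, hT] at hstep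
    have hs1 : (add4I q.val (sreads s)).sapp s =
        upd5 s (Z (d0 ++ [bit b0]) (bits t0)) (Z (d1 ++ [bit b1]) (bits t1))
          (Z (d2 ++ [bit b2]) (bits t2)) (Z (d3 ++ [bit b3]) (bits t3))
          (Z (dB ++ [bit (decide (tt % 2 = 1))]) []) := by
      simp only [add4I, Instr.sapp_set, Instr.sapp_nil, hT, r0, r1, r2, r3, h0, h1, h2, h3, hB,
        Z_act_right, upd5]
      rfl
    rw [hs1] at hstep
    have hb : ∀ b : Bool, b.toNat ≤ 1 := fun b => by cases b <;> simp
    have hq := q.isLt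
    have hb0 := hb b0
    have hb1 := hb b1
    have hb2 := hb b2
    have hb3 := hb b3
    have hq1 : (tt / 2) % 4 = tt / 2 := Nat.mod_eq_of_lt (by omega)
    obtain ⟨q', hr, hstop⟩ := ih ⟨(tt / 2) % 4, Nat.mod_lt _ (by norm_num)⟩
      (upd5 s (Z (d0 ++ [bit b0]) (bits t0)) (Z (d1 ++ [bit b1]) (bits t1))
          (Z (d2 ++ [bit b2]) (bits t2)) (Z (d3 ++ [bit b3]) (bits t3))
          (Z (dB ++ [bit (decide (tt % 2 = 1))]) []))
      t0 t1 t2 t3 (d0 ++ [bit b0]) (d1 ++ [bit b1]) (d2 ++ [bit b2]) (d3 ++ [bit b3])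
      (dB ++ [bit (decide (tt % 2 = 1))])
      (by simpa using l0) (by simpa using l1) (by simpa using l2) (by simpa using l3)
      (by simp [upd5]) (by simp [upd5]) (by simp [upd5]) (by simp [upd5]) (by simp [upd5])
    rw [upd5_upd5] at hr hstop
    have hbits : lbits (n + 1) (q.val + lval (b0 :: t0) + lval (b1 :: t1) + lval (b2 :: t2)
        + lval (b3 :: t3))
        = decide (tt % 2 = 1) :: lbits n (tt / 2 + lval t0 + lval t1 + lval t2 + lval t3) := by
      rw [lbits_succ]
      simp only [lval]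
      have e1 : (q.val + (b0.toNat + 2 * lval t0) + (b1.toNat + 2 * lval t1)
          + (b2.toNat + 2 * lval t2) + (b3.toNat + 2 * lval t3)) % 2 = tt % 2 := by omega
      have e2 : (q.val + (b0.toNat + 2 * lval t0) + (b1.toNat + 2 * lval t1)
          + (b2.toNat + 2 * lval t2) + (b3.toNat + 2 * lval t3)) / 2
          = tt / 2 + lval t0 + lval t1 + lval t2 + lval t3 := by omega
      simp only [e1, e2]
    have hfin : upd5 s (Z (d0 ++ bits (b0 :: t0)) []) (Z (d1 ++ bits (b1 :: t1)) [])
        (Z (d2 ++ bits (b2 :: t2)) []) (Z (d3 ++ bits (b3 :: t3)) [])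
        (Z (dB ++ bits (lbits (n + 1) (q.val + lval (b0 :: t0) + lval (b1 :: t1)
          + lval (b2 :: t2) + lval (b3 :: t3)))) [])
        = upd5 s (Z (d0 ++ [bit b0] ++ bits t0) []) (Z (d1 ++ [bit b1] ++ bits t1) [])
        (Z (d2 ++ [bit b2] ++ bits t2) []) (Z (d3 ++ [bit b3] ++ bits t3) [])
        (Z (dB ++ [bit (decide (tt % 2 = 1))] ++ bits (lbits n ((tt / 2) % 4 + lval t0 + lval t1
          + lval t2 + lval t3))) []) := by
      rw [hbits, hq1]
      simp [bits]
    rw [hfin]
    exact ⟨q', Prog.Reach.succ hstep hr, hstop⟩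

/-- `add4` is a hand written finite-state program (state = carry): argue on `Prog.Reach` directly,
generalizing over the carry `q`: the bits written are those of `q + sum of the values`. -/
theorem add4_spec (s : St Own Γ) (n : ℕ) (t : ℕ → List Bool) (ht : ∀ i, (t i).length = n)
    (dB : List Γ)
    (h0 : s Own.T0 = Z [] (bits (t 0))) (h1 : s Own.T1 = Z [] (bits (t 1)))
    (h2 : s Own.T2 = Z [] (bits (t 2))) (h3 : s Own.T3 = Z [] (bits (t 3)))
    (hB : s Own.Bk = Z dB []) :
    (add4 : Prog Own Γ).SRuns s n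
      (Function.update (Function.update (Function.update (Function.update (Function.update s
        Own.T0 (Z (bits (t 0)) []))
        Own.T1 (Z (bits (t 1)) []))
        Own.T2 (Z (bits (t 2)) []))
        Own.T3 (Z (bits (t 3)) []))
        Own.Bk (Z (dB ++ bits (sum4 n t)) [])) true := by
  obtain ⟨q', hr, hstop⟩ := add4_aux n (0 : Fin 4) s (t 0) (t 1) (t 2) (t 3) [] [] [] [] dB
    (ht 0) (ht 1) (ht 2) (ht 3) h0 h1 h2 h3 hB
  simp only [List.nil_append, Fin.val_zero, zero_add] at hr hstop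
  exact ⟨n, le_rfl, q', hr, hstop, rfl⟩

end Vale.Agent.P338.TM
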