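import Vale.Agent.P338.TM.Progs6
import Vale.Agent.P338.TM.SpecPow2

namespace Vale.Agent.P338.TM

open Vale.Agent.P338

section aux

variable {ι Γ : Type} [TapeAlpha Γ] [DecidableEq ι]

theorem cl_un_append (m n : ℕ) : (un m ++ un n : List Γ) = un (m + n) :=
  (List.replicate_add m n _).symm

theorem cl_un_length (c : ℕ) : (un c : List Γ).length = c := List.length_replicate

theorem cl_un_zero : (un 0 : List Γ) = [] := rfl

theorem cl_un_succ (n : ℕ) : (un (n + 1) : List Γ) = bit true :: un n := List.replicate_succ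

theorem cl_un_succ' (n : ℕ) : (un (n + 1) : List Γ) = un n ++ [bit true] := List.replicate_succ'

theorem cl_blank_notMem_un (c : ℕ) : (blank : Γ) ∉ (un c : List Γ) := by
  intro h
  have := List.eq_of_mem_replicate h
  exact TapeAlpha.bit_ne_blank true this.symm

theorem cl_blank_ne : (blank : Γ) ≠ bit true := (TapeAlpha.bit_ne_blank true).symm

theorem cl_wr_stay_spec (x : ι) (w : Γ) (s : St ι Γ) (d t : List Γ) (hx : s x = Z d t) :
    (wr x w Move.stay).SRuns s 1 (Function.update s x (Z d (w :: t.tail))) true := by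
  have h := prim_sruns (fun _ => (Instr.nil : Instr ι Γ).set x w Move.stay) s
  rw [Instr.sapp_set, Instr.sapp_nil, hx, Z_act_stay] at h
  exact h

theorem cl_wr_right_spec (x : ι) (w : Γ) (s : St ι Γ) (d t : List Γ) (hx : s x = Z d t) :
    (wr x w Move.right).SRuns s 1 (Function.update s x (Z (d ++ [w]) t.tail)) true := by
  have h := prim_sruns (fun _ => (Instr.nil : Instr ι Γ).set x w Move.right) s
  rw [Instr.sapp_set, Instr.sapp_nil, hx, Z_act_right] at h
  exact h

theorem cl_read_un (d : List Γ) (c : ℕ) :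
    ((Z d (un c)).read = (bit true : Γ)) ↔ 0 < c := by
  cases c with
  | zero => simp [cl_un_zero, cl_blank_ne]
  | succ c => simp [cl_un_succ]

open Classical in
/-- The lockstep scan of `ltU`. -/
theorem cl_lock_spec (x y : ι) (hxy : x ≠ y) :
    ∀ (c c' j : ℕ) (s : St ι Γ), s x = Z (un j) (un c) → s y = Z (un j) (un c') →
    (scan fun a : ι → Γ => if a x = bit true ∧ a y = bit true then
      some ((Instr.nil.set x (a x) Move.right).set y (a y) Move.right) else none).SRuns s (min c c')
      (Function.update (Function.update s x (Z (un (j + min c c')) (un (c - min c c')))) y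
        (Z (un (j + min c c')) (un (c' - min c c')))) true := by
  intro c
  induction c with
  | zero =>
    intro c' j s hx hy
    simp only [Nat.zero_min, Nat.add_zero, Nat.sub_zero]
    rw [← hx, Function.update_eq_self, ← hy, Function.update_eq_self]
    apply scan_sstop
    simp [hx, cl_un_zero, cl_blank_ne]
  | succ c ih =>
    intro c' j s hx hy
    cases c' with
    | zero =>
      simp only [Nat.min_zero, Nat.add_zero, Nat.sub_zero]
      rw [← hx, Function.update_eq_self, ← hy, Function.update_eq_self]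
      apply scan_sstop
      simp [hy, cl_un_zero, cl_blank_ne]
    | succ c' =>
      rw [cl_un_succ] at hx hy
      have hm : min (c + 1) (c' + 1) = min c c' + 1 := by omega
      rw [hm, show j + (min c c' + 1) = j + 1 + min c c' by omega,
        show c + 1 - (min c c' + 1) = c - min c c' by omega,
        show c' + 1 - (min c c' + 1) = c' - min c c' by omega]
      refine scan_sstep _ s ((Instr.nil.set x (bit true) Move.right).set y (bit true) Move.right)
        ?_ ?_
      · simp [hx, hy]
      · have h1 := ih c' (j + 1) (Function.update (Function.update s x (Z (un (j + 1)) (un c))) y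
          (Z (un (j + 1)) (un c'))) (by simp [Function.update_of_ne hxy]) (by simp)
        have e1 : ((Instr.nil.set x (bit true) Move.right).set y (bit true) Move.right).sapp s =
            Function.update (Function.update s x (Z (un (j + 1)) (un c))) y
              (Z (un (j + 1)) (un c')) := by
          simp [hx, hy, cl_un_succ']
        rw [e1]
        have e2 : Function.update (Function.update (Function.update (Function.update s x
            (Z (un (j + 1)) (un c))) y (Z (un (j + 1)) (un c'))) x
            (Z (un (j + 1 + min c c')) (un (c - min c c')))) y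
            (Z (un (j + 1 + min c c')) (un (c' - min c c'))) =
            Function.update (Function.update s x
              (Z (un (j + 1 + min c c')) (un (c - min c c')))) y
              (Z (un (j + 1 + min c c')) (un (c' - min c c'))) := by
          funext i
          by_cases hiy : i = y
          · subst hiy; simp
          · by_cases hix : i = x
            · subst hix; simp [Function.update_of_ne hiy]
            · simp [Function.update_of_ne hiy, Function.update_of_ne hix]
        rw [e2] at h1
        exact h1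

end aux

theorem ltU_spec {ι Γ : Type} [TapeAlpha Γ] [DecidableEq ι] (x y : ι) (hxy : x ≠ y) (s : St ι Γ)
    (c c' : ℕ) (hx : s x = Z [] (un c)) (hy : s y = Z [] (un c')) :
    (ltU x y).SRuns s (3 * c + 20) s (decide (c < c')) := by
  have h1 := cl_lock_spec x y hxy c c' 0 s hx hy
  obtain ⟨m, hm⟩ : ∃ m, m = min c c' := ⟨_, rfl⟩
  rw [← hm, Nat.zero_add] at h1
  obtain ⟨s1, hs1⟩ : ∃ t, t = Function.update (Function.update s x (Z (un m) (un (c - m)))) y
        (Z (un m) (un (c' - m))) := ⟨_, rfl⟩
  rw [← hs1] at h1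
  have v1x : s1 x = Z (un m) (un (c - m)) := by simp [hs1, Function.update_of_ne hxy]
  have v1y : s1 y = Z (un m) (un (c' - m)) := by simp [hs1]
  open Classical in
  have h2 := test_sruns (fun a : ι → Γ => decide (a x ≠ bit true ∧ a y = bit true)) s1
  open Classical in
  have hb : (decide (sreads s1 x ≠ bit true ∧ sreads s1 y = bit true)) = decide (c < c') := by
    rw [sreads_apply, sreads_apply, v1x, v1y]
    simp only [ne_eq, cl_read_un, decide_eq_decide]
    omega
  simp only [hb] at h2
  have h3 := rewind_spec x s1 (un m) (un (c - m)) v1x (lend_notMem_un _) (lend_notMem_un _)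
  rw [cl_un_append, cl_un_length, show m + (c - m) = c by omega] at h3
  have h4 := rewind_spec y (Function.update s1 x (Z [] (un c))) (un m) (un (c' - m))
    (by simp [Function.update_of_ne hxy.symm, v1y]) (lend_notMem_un _) (lend_notMem_un _)
  rw [cl_un_append, cl_un_length, show m + (c' - m) = c' by omega] at h4
  have e : Function.update (Function.update s1 x (Z [] (un c))) y (Z [] (un c')) = s := by
    funext i
    by_cases hiy : i = y
    · subst hiy; simp [hy]
    · by_cases hix : i = x
      · subst hix; simp [Function.update_of_ne hiy, hx]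
      · simp [hs1, Function.update_of_ne hiy, Function.update_of_ne hix]
  rw [e] at h4
  by_cases hlt : c < c'
  · simp only [hlt, decide_true] at h2 ⊢
    have h5 := test_sruns (fun _ : ι → Γ => true) s
    have R := seq_sruns h1 (ite_sruns_true (S := seq (rewind x) (seq (rewind y)
      (test fun _ => false))) h2 (seq_sruns h3 (seq_sruns h4 h5)))
    refine Prog.SRuns.mono R ?_
    omega
  · simp only [hlt, decide_false] at h2 ⊢
    have h5 := test_sruns (fun _ : ι → Γ => false) s
    have R := seq_sruns h1 (ite_sruns_false (R := seq (rewind x) (seq (rewind y)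
      (test fun _ => true))) h2 (seq_sruns h3 (seq_sruns h4 h5)))
    refine Prog.SRuns.mono R ?_
    omega

variable {Γ : Type} [TapeAlpha Γ]

/-- The doubling loop of `ceilLog`. -/
theorem cl_loop (n κ : ℕ) (hκ : ∀ r, r < κ → 2 ^ r < n) (hκ' : n ≤ 2 ^ κ) :
    ∀ (j r : ℕ), r + j = κ → ∀ t : St Own Γ, t Own.U = Z [] (un (2 ^ r)) →
      t Own.T0 = Z (un r) [] → t Own.d8 = Z [] (un n) → t Own.d5 = Z [] [] →
      ∃ T, T + 9 * 2 ^ r ≤ 12 * 2 ^ κ + 39 * j + 21 ∧
        (while_ (ltU Own.U Own.d8)
          (seq (dbl Own.U Own.d5) (wr Own.T0 (bit true) Move.right))).SRuns t T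
          (Function.update (Function.update t Own.U (Z [] (un (2 ^ κ)))) Own.T0 (Z (un κ) []))
          true := by
  intro j
  induction j with
  | zero =>
    intro r hr t hU h0 h8 _
    have hr' : r = κ := by omega
    subst hr'
    have h1 := ltU_spec Own.U Own.d8 (by decide) t (2 ^ r) n hU h8
    have hf : decide (2 ^ r < n) = false := by simp [hκ']
    rw [hf] at h1
    refine ⟨3 * 2 ^ r + 20 + 1, by omega, ?_⟩
    rw [← hU, Function.update_eq_self, ← h0, Function.update_eq_self]
    exact while_sfalse h1
  | succ j ih =>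
    intro r hr t hU h0 h8 h5
    have h1 := ltU_spec Own.U Own.d8 (by decide) t (2 ^ r) n hU h8
    have hf : decide (2 ^ r < n) = true := by simp [hκ r (by omega)]
    rw [hf] at h1
    have h2 := dbl_spec Own.U Own.d5 (by decide) t (2 ^ r) hU h5
    have h3 := cl_wr_right_spec Own.T0 (bit true)
      (Function.update t Own.U (Z [] (un (2 * 2 ^ r)))) (un r) [] (by simp [h0])
    rw [← cl_un_succ', List.tail_nil, show 2 * 2 ^ r = 2 ^ (r + 1) by ring] at h3
    rw [show 2 * 2 ^ r = 2 ^ (r + 1) by ring] at h2
    obtain ⟨T3, hT3, h4⟩ := ih (r + 1) (by omega)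
      (Function.update (Function.update t Own.U (Z [] (un (2 ^ (r + 1))))) Own.T0
        (Z (un (r + 1)) [])) (by simp) (by simp) (by simp [h8]) (by simp [h5])
    have e : Function.update (Function.update (Function.update (Function.update t
        Own.U (Z [] (un (2 ^ (r + 1))))) Own.T0 (Z (un (r + 1)) []))
        Own.U (Z [] (un (2 ^ κ)))) Own.T0 (Z (un κ) [])
        = Function.update (Function.update t Own.U (Z [] (un (2 ^ κ)))) Own.T0 (Z (un κ) []) := by
      funext i
      by_cases hi0 : i = Own.T0
      · subst hi0; simp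
      · by_cases hiU : i = Own.U
        · subst hiU; simp
        · simp [Function.update_of_ne hi0, Function.update_of_ne hiU]
    rw [e] at h4
    have R := while_strue h1 (seq_sruns h2 h3) h4
    refine ⟨_, ?_, R⟩
    have hp : 2 ^ (r + 1) = 2 * 2 ^ r := by ring
    rw [hp] at hT3
    omega

theorem ceilLog_spec (s : St Own Γ) (n : ℕ) (hn : 1 ≤ n) (h8 : s Own.d8 = Z [] (un n))
    (hE : ∀ x ∈ [Own.U, Own.V, Own.W, Own.T0, Own.d5], s x = Z [] []) :
    (ceilLog : Prog Own Γ).SRuns s (100 * 2 ^ clog n + 200)
      (Function.update (Function.update (Function.update (Function.update s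
        Own.T0 (Z [] (un (clog n))))
        Own.U (Z [] (un (2 ^ clog n))))
        Own.V (Z [] (un (2 ^ clog n - n))))
        Own.W (Z [] (un n))) true := by
  have eU : s Own.U = Z [] [] := hE _ (by simp)
  have eV : s Own.V = Z [] [] := hE _ (by simp)
  have eW : s Own.W = Z [] [] := hE _ (by simp)
  have e0 : s Own.T0 = Z [] [] := hE _ (by simp)
  have e5 : s Own.d5 = Z [] [] := hE _ (by simp)
  obtain ⟨κ, hκd⟩ : ∃ κ, κ = clog n := ⟨_, rfl⟩
  have hκ : ∀ r, r < κ → 2 ^ r < n := by
    intro r hr
    rw [hκd] at hr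
    exact Nat.pow_lt_of_lt_clog hr
  have hκ' : n ≤ 2 ^ κ := by
    rw [hκd]
    exact Nat.le_pow_clog (by norm_num) n
  have hκ2 : κ < 2 ^ κ := Nat.lt_two_pow_self
  rw [← hκd]
  obtain ⟨s1, hs1⟩ : ∃ t, t = Function.update s Own.U (Z [] (un 1)) := ⟨_, rfl⟩
  obtain ⟨s2, hs2⟩ : ∃ t, t = Function.update (Function.update s1 Own.U (Z [] (un (2 ^ κ))))
    Own.T0 (Z (un κ) []) := ⟨_, rfl⟩
  obtain ⟨s3, hs3⟩ : ∃ t, t = Function.update s2 Own.T0 (Z [] (un κ)) := ⟨_, rfl⟩
  obtain ⟨s4, hs4⟩ : ∃ t, t = Function.update s3 Own.U (Z (un n) (un (2 ^ κ - n))) := ⟨_, rfl⟩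
  obtain ⟨s5, hs5⟩ : ∃ t, t = Function.update (Function.update s4 Own.U (Z (un (2 ^ κ)) []))
    Own.V (Z (un (2 ^ κ - n)) []) := ⟨_, rfl⟩
  obtain ⟨s6, hs6⟩ : ∃ t, t = Function.update s5 Own.U (Z [] (un (2 ^ κ))) := ⟨_, rfl⟩
  obtain ⟨s7, hs7⟩ : ∃ t, t = Function.update s6 Own.V (Z [] (un (2 ^ κ - n))) := ⟨_, rfl⟩
  obtain ⟨s8, hs8⟩ : ∃ t, t = Function.update (Function.update s7 Own.d8 (Z (un n) []))
    Own.W (Z (un n) []) := ⟨_, rfl⟩
  obtain ⟨s9, hs9⟩ : ∃ t, t = Function.update s8 Own.d8 (Z [] (un n)) := ⟨_, rfl⟩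
  obtain ⟨s10, hs10⟩ : ∃ t, t = Function.update s9 Own.W (Z [] (un n)) := ⟨_, rfl⟩
  have r1 : (wr Own.U (bit true) Move.stay).SRuns s 1 s1 true := by
    have h := cl_wr_stay_spec Own.U (bit true) s [] [] eU
    rw [hs1]
    exact h
  obtain ⟨T2, hT2, r2⟩ := cl_loop n κ hκ hκ' κ 0 (by omega) s1 (by simp [hs1])
    (by simp [hs1, e0, cl_un_zero]) (by simp [hs1, h8]) (by simp [hs1, e5])
  rw [← hs2] at r2
  have r3 : (rewind Own.T0).SRuns s2 (κ + 3) s3 true := by
    have h := rewind_spec Own.T0 s2 (un κ) [] (by simp [hs2]) (lend_notMem_un _) (by simp)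
    rw [List.append_nil, cl_un_length] at h
    rw [hs3]
    exact h
  have r4 : (mvU Own.d8 Own.U Move.right).SRuns s3 (7 * n + 6) s4 true := by
    have h := mvU_right_spec Own.d8 Own.U (by decide) s3 n [] (un n) (un (2 ^ κ - n))
      (cl_un_length _) (by simp [hs3, hs2, hs1, h8])
      (by
        rw [cl_un_append, show n + (2 ^ κ - n) = 2 ^ κ by omega]
        simp [hs3, hs2])
    rw [List.nil_append] at h
    rw [hs4]
    exact h
  have r5 : (appendAll Own.U Own.V).SRuns s4 (2 ^ κ - n) s5 true := by
    have h := appendAll_spec Own.U Own.V (by decide) s4 (un n) (un (2 ^ κ - n)) []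
      (cl_blank_notMem_un _) (by simp [hs4]) (by simp [hs4, hs3, hs2, hs1, eV])
    rw [cl_un_append, List.nil_append, cl_un_length, show n + (2 ^ κ - n) = 2 ^ κ by omega] at h
    rw [hs5]
    exact h
  have r6 : (rewind Own.U).SRuns s5 (2 ^ κ + 3) s6 true := by
    have h := rewind_spec Own.U s5 (un (2 ^ κ)) [] (by simp [hs5]) (lend_notMem_un _) (by simp)
    rw [List.append_nil, cl_un_length] at h
    rw [hs6]
    exact h
  have r7 : (rewind Own.V).SRuns s6 (2 ^ κ - n + 3) s7 true := by
    have h := rewind_spec Own.V s6 (un (2 ^ κ - n)) [] (by simp [hs6, hs5]) (lend_notMem_un _)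
      (by simp)
    rw [List.append_nil, cl_un_length] at h
    rw [hs7]
    exact h
  have r8 : (appendAll Own.d8 Own.W).SRuns s7 n s8 true := by
    have h := appendAll_spec Own.d8 Own.W (by decide) s7 [] (un n) []
      (cl_blank_notMem_un _) (by simp [hs7, hs6, hs5, hs4, hs3, hs2, hs1, h8])
      (by simp [hs7, hs6, hs5, hs4, hs3, hs2, hs1, eW])
    rw [List.nil_append, cl_un_length] at h
    rw [hs8]
    exact h
  have r9 : (rewind Own.d8).SRuns s8 (n + 3) s9 true := by
    have h := rewind_spec Own.d8 s8 (un n) [] (by simp [hs8]) (lend_notMem_un _) (by simp)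
    rw [List.append_nil, cl_un_length] at h
    rw [hs9]
    exact h
  have r10 : (rewind Own.W).SRuns s9 (n + 3) s10 true := by
    have h := rewind_spec Own.W s9 (un n) [] (by simp [hs9, hs8]) (lend_notMem_un _) (by simp)
    rw [List.append_nil, cl_un_length] at h
    rw [hs10]
    exact h
  have efin : Function.update (Function.update (Function.update (Function.update s
        Own.T0 (Z [] (un κ)))
        Own.U (Z [] (un (2 ^ κ))))
        Own.V (Z [] (un (2 ^ κ - n))))
        Own.W (Z [] (un n)) = s10 := by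
    funext x
    cases x <;>
      simp [hs10, hs9, hs8, hs7, hs6, hs5, hs4, hs3, hs2, hs1, h8]
  rw [efin]
  have R := seqs_cons r1 (seqs_cons r2 (seqs_cons r3 (seqs_cons r4 (seqs_cons r5 (seqs_cons r6
    (seqs_cons r7 (seqs_cons r8 (seqs_cons r9 (seqs_cons r10 (seqs_nil s10))))))))))
  refine Prog.SRuns.mono R ?_
  generalize 2 ^ κ = E at *
  omega

end Vale.Agent.P338.TM
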