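import Vale.Agent.P338.TM.SpecAdd4

namespace Vale.Agent.P338.TM

open Vale.Agent.P338

variable {Γ : Type} [TapeAlpha Γ]

theorem lend_notMem_bits_fa (w : List Bool) : (lend : Γ) ∉ (bits w : List Γ) := by
  intro h
  obtain ⟨b, _, hb⟩ := List.mem_map.1 h
  exact TapeAlpha.bit_ne_lend b hb

theorem foldAdd_spec (s : St Own Γ) (n : ℕ) (t : ℕ → List Bool) (ht : ∀ i, (t i).length = n)
    (h0 : s Own.T0 = Z (bits (t 0)) []) (h1 : s Own.T1 = Z (bits (t 1)) [])
    (h2 : s Own.T2 = Z (bits (t 2)) []) (h3 : s Own.T3 = Z (bits (t 3)) [])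
    (hB : s Own.Bk = Z [] []) :
    (foldAdd : Prog Own Γ).SRuns s (cFoldAdd n)
      (Function.update (Function.update (Function.update (Function.update (Function.update s
        Own.T0 (Z [] []))
        Own.T1 (Z [] []))
        Own.T2 (Z [] []))
        Own.T3 (Z [] []))
        Own.Bk (Z [] (bits (sum4 n t)))) true := by
  have hlen : ∀ i, (bits (t i) : List Γ).length = n := by
    intro i; simp [bits, ht i]
  have hlenS : (bits (sum4 n t) : List Γ).length = n := by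
    simp [bits, sum4, lbits]
  have hnil : (lend : Γ) ∉ ([] : List Γ) := by simp
  have hbnil : (blank : Γ) ∉ ([] : List Γ) := by simp
  -- the shape of all intermediate states
  obtain ⟨S, hS⟩ : ∃ S : Zip Γ → Zip Γ → Zip Γ → Zip Γ → Zip Γ → St Own Γ,
      S = fun z0 z1 z2 z3 zb =>
        Function.update (Function.update (Function.update (Function.update (Function.update s
        Own.T0 z0) Own.T1 z1) Own.T2 z2) Own.T3 z3) Own.Bk zb := ⟨_, rfl⟩
  have S0 : ∀ z0 z1 z2 z3 zb, S z0 z1 z2 z3 zb Own.T0 = z0 := by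
    intro z0 z1 z2 z3 zb; rw [hS]; simp
  have S1 : ∀ z0 z1 z2 z3 zb, S z0 z1 z2 z3 zb Own.T1 = z1 := by
    intro z0 z1 z2 z3 zb; rw [hS]; simp
  have S2 : ∀ z0 z1 z2 z3 zb, S z0 z1 z2 z3 zb Own.T2 = z2 := by
    intro z0 z1 z2 z3 zb; rw [hS]; simp
  have S3 : ∀ z0 z1 z2 z3 zb, S z0 z1 z2 z3 zb Own.T3 = z3 := by
    intro z0 z1 z2 z3 zb; rw [hS]; simp
  have SB : ∀ z0 z1 z2 z3 zb, S z0 z1 z2 z3 zb Own.Bk = zb := by
    intro z0 z1 z2 z3 zb; rw [hS]; simp
  have key : ∀ (f g : St Own Γ), (∀ i, i ≠ Own.T0 → i ≠ Own.T1 → i ≠ Own.T2 → i ≠ Own.T3 →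
      i ≠ Own.Bk → f i = g i) → f Own.T0 = g Own.T0 → f Own.T1 = g Own.T1 →
      f Own.T2 = g Own.T2 → f Own.T3 = g Own.T3 → f Own.Bk = g Own.Bk → f = g := by
    intro f g h a0 a1 a2 a3 ab
    funext i
    by_cases e0 : i = Own.T0
    · subst e0; exact a0
    by_cases e1 : i = Own.T1
    · subst e1; exact a1
    by_cases e2 : i = Own.T2
    · subst e2; exact a2
    by_cases e3 : i = Own.T3
    · subst e3; exact a3
    by_cases eb : i = Own.Bk
    · subst eb; exact ab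
    exact h i e0 e1 e2 e3 eb
  have Soth : ∀ z0 z1 z2 z3 zb i, i ≠ Own.T0 → i ≠ Own.T1 → i ≠ Own.T2 → i ≠ Own.T3 →
      i ≠ Own.Bk → S z0 z1 z2 z3 zb i = s i := by
    intro z0 z1 z2 z3 zb i e0 e1 e2 e3 eb
    rw [hS]
    simp [Function.update_of_ne e0, Function.update_of_ne e1, Function.update_of_ne e2,
      Function.update_of_ne e3, Function.update_of_ne eb]
  have u0 : ∀ z0 z1 z2 z3 zb z, Function.update (S z0 z1 z2 z3 zb) Own.T0 z = S z z1 z2 z3 zb := by
    intro z0 z1 z2 z3 zb z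
    apply key
    · intro i e0 e1 e2 e3 eb
      rw [Function.update_of_ne e0, Soth _ _ _ _ _ i e0 e1 e2 e3 eb, Soth _ _ _ _ _ i e0 e1 e2 e3 eb]
    · rw [Function.update_self, S0]
    · rw [Function.update_of_ne (by decide), S1, S1]
    · rw [Function.update_of_ne (by decide), S2, S2]
    · rw [Function.update_of_ne (by decide), S3, S3]
    · rw [Function.update_of_ne (by decide), SB, SB]
  have u1 : ∀ z0 z1 z2 z3 zb z, Function.update (S z0 z1 z2 z3 zb) Own.T1 z = S z0 z z2 z3 zb := by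
    intro z0 z1 z2 z3 zb z
    apply key
    · intro i e0 e1 e2 e3 eb
      rw [Function.update_of_ne e1, Soth _ _ _ _ _ i e0 e1 e2 e3 eb, Soth _ _ _ _ _ i e0 e1 e2 e3 eb]
    · rw [Function.update_of_ne (by decide), S0, S0]
    · rw [Function.update_self, S1]
    · rw [Function.update_of_ne (by decide), S2, S2]
    · rw [Function.update_of_ne (by decide), S3, S3]
    · rw [Function.update_of_ne (by decide), SB, SB]
  have u2 : ∀ z0 z1 z2 z3 zb z, Function.update (S z0 z1 z2 z3 zb) Own.T2 z = S z0 z1 z z3 zb := by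
    intro z0 z1 z2 z3 zb z
    apply key
    · intro i e0 e1 e2 e3 eb
      rw [Function.update_of_ne e2, Soth _ _ _ _ _ i e0 e1 e2 e3 eb, Soth _ _ _ _ _ i e0 e1 e2 e3 eb]
    · rw [Function.update_of_ne (by decide), S0, S0]
    · rw [Function.update_of_ne (by decide), S1, S1]
    · rw [Function.update_self, S2]
    · rw [Function.update_of_ne (by decide), S3, S3]
    · rw [Function.update_of_ne (by decide), SB, SB]
  have u3 : ∀ z0 z1 z2 z3 zb z, Function.update (S z0 z1 z2 z3 zb) Own.T3 z = S z0 z1 z2 z zb := by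
    intro z0 z1 z2 z3 zb z
    apply key
    · intro i e0 e1 e2 e3 eb
      rw [Function.update_of_ne e3, Soth _ _ _ _ _ i e0 e1 e2 e3 eb, Soth _ _ _ _ _ i e0 e1 e2 e3 eb]
    · rw [Function.update_of_ne (by decide), S0, S0]
    · rw [Function.update_of_ne (by decide), S1, S1]
    · rw [Function.update_of_ne (by decide), S2, S2]
    · rw [Function.update_self, S3]
    · rw [Function.update_of_ne (by decide), SB, SB]
  have uB : ∀ z0 z1 z2 z3 zb z, Function.update (S z0 z1 z2 z3 zb) Own.Bk z = S z0 z1 z2 z3 z := by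
    intro z0 z1 z2 z3 zb z
    rw [hS]; simp
  have hs : s = S (Z (bits (t 0)) []) (Z (bits (t 1)) []) (Z (bits (t 2)) []) (Z (bits (t 3)) [])
      (Z [] []) := by
    apply key
    · intro i e0 e1 e2 e3 eb
      rw [Soth _ _ _ _ _ i e0 e1 e2 e3 eb]
    · rw [S0, h0]
    · rw [S1, h1]
    · rw [S2, h2]
    · rw [S3, h3]
    · rw [SB, hB]
  have hfin : Function.update (Function.update (Function.update (Function.update (Function.update s
        Own.T0 (Z [] []))
        Own.T1 (Z [] []))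
        Own.T2 (Z [] []))
        Own.T3 (Z [] []))
        Own.Bk (Z [] (bits (sum4 n t)))
      = S (Z [] []) (Z [] []) (Z [] []) (Z [] []) (Z [] (bits (sum4 n t))) := by
    rw [hS]
  rw [hfin]
  have r0 := rewind_spec Own.T0 (S (Z (bits (t 0)) []) (Z (bits (t 1)) []) (Z (bits (t 2)) [])
    (Z (bits (t 3)) []) (Z [] [])) (bits (t 0)) [] (S0 _ _ _ _ _) (lend_notMem_bits_fa _) hnil
  rw [u0, List.append_nil] at r0
  have r1 := rewind_spec Own.T1 (S (Z [] (bits (t 0))) (Z (bits (t 1)) []) (Z (bits (t 2)) [])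
    (Z (bits (t 3)) []) (Z [] [])) (bits (t 1)) [] (S1 _ _ _ _ _) (lend_notMem_bits_fa _) hnil
  rw [u1, List.append_nil] at r1
  have r2 := rewind_spec Own.T2 (S (Z [] (bits (t 0))) (Z [] (bits (t 1))) (Z (bits (t 2)) [])
    (Z (bits (t 3)) []) (Z [] [])) (bits (t 2)) [] (S2 _ _ _ _ _) (lend_notMem_bits_fa _) hnil
  rw [u2, List.append_nil] at r2
  have r3 := rewind_spec Own.T3 (S (Z [] (bits (t 0))) (Z [] (bits (t 1))) (Z [] (bits (t 2)))
    (Z (bits (t 3)) []) (Z [] [])) (bits (t 3)) [] (S3 _ _ _ _ _) (lend_notMem_bits_fa _) hnil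
  rw [u3, List.append_nil] at r3
  have a := add4_spec (S (Z [] (bits (t 0))) (Z [] (bits (t 1))) (Z [] (bits (t 2)))
    (Z [] (bits (t 3))) (Z [] [])) n t ht [] (S0 _ _ _ _ _) (S1 _ _ _ _ _) (S2 _ _ _ _ _)
    (S3 _ _ _ _ _) (SB _ _ _ _ _)
  rw [u0, u1, u2, u3, uB, List.nil_append] at a
  have e0 := erase_spec Own.T0 (S (Z (bits (t 0)) []) (Z (bits (t 1)) []) (Z (bits (t 2)) [])
    (Z (bits (t 3)) []) (Z (bits (sum4 n t)) [])) (bits (t 0)) [] (S0 _ _ _ _ _)
    (lend_notMem_bits_fa _) hnil hbnil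
  rw [u0] at e0
  have e1 := erase_spec Own.T1 (S (Z [] []) (Z (bits (t 1)) []) (Z (bits (t 2)) [])
    (Z (bits (t 3)) []) (Z (bits (sum4 n t)) [])) (bits (t 1)) [] (S1 _ _ _ _ _)
    (lend_notMem_bits_fa _) hnil hbnil
  rw [u1] at e1
  have e2 := erase_spec Own.T2 (S (Z [] []) (Z [] []) (Z (bits (t 2)) [])
    (Z (bits (t 3)) []) (Z (bits (sum4 n t)) [])) (bits (t 2)) [] (S2 _ _ _ _ _)
    (lend_notMem_bits_fa _) hnil hbnil
  rw [u2] at e2
  have e3 := erase_spec Own.T3 (S (Z [] []) (Z [] []) (Z [] [])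
    (Z (bits (t 3)) []) (Z (bits (sum4 n t)) [])) (bits (t 3)) [] (S3 _ _ _ _ _)
    (lend_notMem_bits_fa _) hnil hbnil
  rw [u3] at e3
  have rB := rewind_spec Own.Bk (S (Z [] []) (Z [] []) (Z [] [])
    (Z [] []) (Z (bits (sum4 n t)) [])) (bits (sum4 n t)) [] (SB _ _ _ _ _)
    (lend_notMem_bits_fa _) hnil
  rw [uB, List.append_nil] at rB
  have hall := seq_sruns r0 (seq_sruns r1 (seq_sruns r2 (seq_sruns r3 (seq_sruns a
    (seq_sruns e0 (seq_sruns e1 (seq_sruns e2 (seq_sruns e3 rB))))))))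
  rw [← hs] at hall
  refine Prog.SRuns.mono hall ?_
  simp only [cFoldAdd, hlen, hlenS, List.length_nil]
  omega

end Vale.Agent.P338.TM
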