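import Vale.Agent.P338.TM.SpecExtract
import Vale.Agent.P338.TM.SpecFoldAdd

namespace Vale.Agent.P338.TM

open Vale.Agent.P338

variable {Γ : Type} [TapeAlpha Γ]

private theorem pm_cat_length (f : ℕ → List Bool) (e : ℕ) (hf : ∀ j, (f j).length = e) (i k : ℕ) :
    (cat f i k).length = k * e := by
  unfold cat
  simp [List.length_flatMap, hf]

private theorem pm_cat_add (f : ℕ → List Bool) (i k l : ℕ) :
    cat f i (k + l) = cat f i k ++ cat f (i + k) l := by
  unfold cat
  rw [List.range_add, List.flatMap_append, List.flatMap_map]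
  simp [Nat.add_assoc]

private theorem pm_lend_notMem_bits (u : List Bool) : (lend : Γ) ∉ (bits u : List Γ) := by
  unfold bits
  intro h
  obtain ⟨b, -, hb⟩ := List.mem_map.1 h
  exact TapeAlpha.bit_ne_lend b hb

private theorem pm_blank_notMem_bits (u : List Bool) : (blank : Γ) ∉ (bits u : List Γ) := by
  unfold bits
  intro h
  obtain ⟨b, -, hb⟩ := List.mem_map.1 h
  exact TapeAlpha.bit_ne_blank b hb

private theorem pm_bits_length (u : List Bool) : (bits u : List Γ).length = u.length := by
  unfold bits
  simp

private theorem pm_bits_append (u v : List Bool) :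
    (bits (u ++ v) : List Γ) = bits u ++ bits v := by
  unfold bits
  simp

private theorem pm_chunk_length (P : Par) (i : ℕ) (hi : i < 4) (σ : List Bool)
    (hσ : σ.length = P.w) : (chunk P i σ).length = 2 * P.m := by
  unfold chunk
  rw [List.length_take, List.length_drop, hσ]
  unfold Par.w
  have : i * (2 * P.m) ≤ 3 * (2 * P.m) := Nat.mul_le_mul_right _ (by omega)
  omega

theorem exT_length (P : Par) (sl : ℕ → List Bool) (hsl : ∀ t, (sl t).length = P.w) (R G i : ℕ)
    (hi : i < 4) : (exT P sl R G i).length = G * (R * (P.b * (2 * P.m + 2))) := by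
  unfold exT
  apply pm_cat_length
  intro gi
  unfold dmT
  apply pm_cat_length
  intro r
  apply pm_cat_length
  intro c
  rw [List.length_append, pm_chunk_length P i hi _ (hsl _)]
  rfl

private theorem pm_loop (P : Par) (tG tR : Own) (hGR : LoopPair tG tR) :
    P.uval tG * P.uval tR = P.a := by
  rcases hGR with ⟨h1, h2⟩ | ⟨h1, h2⟩ <;> subst h1 <;> subst h2 <;> simp [Par.uval]

/-- Everything after the multiplication. The product tape holds `8*N` slots. -/
theorem postMul_spec (P : Par) (tG tR : Own) (hGR : LoopPair tG tR) (s : St Own Γ)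
    (hN : Need P s [tG, tR, Own.tb, Own.tm]) (u v bk : List Bool)
    (hu : u.length = 4 * (P.N * P.w)) (hv : v.length = 4 * (P.N * P.w))
    (hbk : bk.length = P.N * (2 * P.m + 2)) (sl : ℕ → List Bool) (hsl : ∀ t, (sl t).length = P.w)
    (hU : s Own.U = Z [] (bits u)) (hVt : s Own.V = Z [] (bits v))
    (hB : s Own.Bk = Z (bits bk) []) (hP : s Own.Pd = Z (bits (cat sl 0 (8 * P.N))) [])
    (h0 : s Own.T0 = Z [] []) (h1 : s Own.T1 = Z [] []) (h2 : s Own.T2 = Z [] [])
    (h3 : s Own.T3 = Z [] []) :
    (postMul tG tR : Prog Own Γ).SRuns s (cPostMul P (P.uval tR) (P.uval tG))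
      (Function.update (Function.update (Function.update (Function.update s
        Own.U (Z [] []))
        Own.V (Z [] []))
        Own.Pd (Z [] []))
        Own.Bk (Z [] (bits (sum4 (P.N * (2 * P.m + 2))
          (exT P sl (P.uval tR) (P.uval tG)))))) true := by
  have hGRa := pm_loop P tG tR hGR
  have hcnt : P.uval tG * (4 * (P.uval tR * P.b)) = 4 * P.N := by
    unfold Par.N
    rw [← hGRa]; ring
  have hnotin : ∀ y : Own, y = Own.U ∨ y = Own.V ∨ y = Own.Bk ∨ y = Own.Pd →
      y ∉ [tG, tR, Own.tb, Own.tm] := by
    intro y hy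
    rcases hGR with ⟨e1, e2⟩ | ⟨e1, e2⟩ <;> subst e1 <;> subst e2 <;>
      rcases hy with rfl | rfl | rfl | rfl <;> decide
  -- erase U
  have r1 := erase_spec Own.U s [] (bits u) hU (by simp) (pm_lend_notMem_bits u)
    (pm_blank_notMem_bits u)
  set s1 := Function.update s Own.U (Z [] [] : Zip Γ) with hs1
  -- erase V
  have r2 := erase_spec Own.V s1 [] (bits v)
    (by rw [hs1, Function.update_of_ne (by decide)]; exact hVt) (by simp)
    (pm_lend_notMem_bits v) (pm_blank_notMem_bits v)
  set s2 := Function.update s1 Own.V (Z [] [] : Zip Γ) with hs2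
  -- erase Bk
  have r3 := erase_spec Own.Bk s2 (bits bk) []
    (by rw [hs2, hs1, Function.update_of_ne (by decide), Function.update_of_ne (by decide)]
        exact hB) (pm_lend_notMem_bits bk) (by simp) (by simp)
  set s3 := Function.update s2 Own.Bk (Z [] [] : Zip Γ) with hs3
  -- rewind Pd
  have r4 := rewind_spec Own.Pd s3 (bits (cat sl 0 (8 * P.N))) []
    (by rw [hs3, hs2, hs1, Function.update_of_ne (by decide), Function.update_of_ne (by decide),
          Function.update_of_ne (by decide)]
        exact hP) (pm_lend_notMem_bits _) (by simp)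
  set s4 := Function.update s3 Own.Pd
    (Z [] (bits (cat sl 0 (8 * P.N)) ++ []) : Zip Γ) with hs4
  -- extract
  have hsplit : (bits (cat sl 0 (8 * P.N)) ++ [] : List Γ)
      = bits (cat sl 0 (P.uval tG * (4 * (P.uval tR * P.b)))) ++ bits (cat sl (4 * P.N) (4 * P.N)) := by
    rw [hcnt, List.append_nil, ← pm_bits_append]
    have : 8 * P.N = 4 * P.N + 4 * P.N := by ring
    rw [this, pm_cat_add, Nat.zero_add]
  have hN4 : Need P s4 [tG, tR, Own.tb, Own.tm] := by
    rw [hs4, hs3, hs2, hs1]
    exact (((hN.update (hnotin _ (by simp)) _).update (hnotin _ (by simp)) _).update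
      (hnotin _ (by simp)) _).update (hnotin _ (by simp)) _
  have hT : ∀ y : Own, y = Own.T0 ∨ y = Own.T1 ∨ y = Own.T2 ∨ y = Own.T3 → s4 y = s y := by
    intro y hy
    rw [hs4, hs3, hs2, hs1]
    rcases hy with rfl | rfl | rfl | rfl <;>
      rw [Function.update_of_ne (by decide), Function.update_of_ne (by decide),
        Function.update_of_ne (by decide), Function.update_of_ne (by decide)]
  have r5 := extract_spec P tG tR hGR s4 hN4 [] (bits (cat sl (4 * P.N) (4 * P.N))) sl hsl
    (by rw [hs4, Function.update_self, hsplit]) [] [] [] []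
    (by rw [hT _ (by simp)]; exact h0) (by rw [hT _ (by simp)]; exact h1)
    (by rw [hT _ (by simp)]; exact h2) (by rw [hT _ (by simp)]; exact h3)
  simp only [List.nil_append] at r5
  rw [hcnt] at r5
  set R := P.uval tR with hR
  set G := P.uval tG with hG
  set s5 := (Function.update (Function.update (Function.update (Function.update (Function.update s4
        Own.Pd (Z (bits (cat sl 0 (4 * P.N))) (bits (cat sl (4 * P.N) (4 * P.N)))))
        Own.T0 (Z (bits (exT P sl R G 0)) []))
        Own.T1 (Z (bits (exT P sl R G 1)) []))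
        Own.T2 (Z (bits (exT P sl R G 2)) []))
        Own.T3 (Z (bits (exT P sl R G 3)) []) : St Own Γ) with hs5
  -- erase Pd
  have r6 := erase_spec Own.Pd s5 (bits (cat sl 0 (4 * P.N))) (bits (cat sl (4 * P.N) (4 * P.N)))
    (by rw [hs5, Function.update_of_ne (by decide), Function.update_of_ne (by decide),
          Function.update_of_ne (by decide), Function.update_of_ne (by decide),
          Function.update_self])
    (pm_lend_notMem_bits _) (pm_lend_notMem_bits _) (pm_blank_notMem_bits _)
  set s6 := Function.update s5 Own.Pd (Z [] [] : Zip Γ) with hs6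
  -- foldAdd
  have hlen : ∀ i, i < 4 → (exT P sl R G i).length = P.N * (2 * P.m + 2) := by
    intro i hi
    rw [exT_length P sl hsl R G i hi]
    unfold Par.N
    rw [← hGRa]; ring
  have r7 := foldAdd_spec s6 (P.N * (2 * P.m + 2))
    (fun i => if i < 4 then exT P sl R G i else exT P sl R G 0)
    (by
      intro i
      by_cases hi : i < 4
      · simp only [hi, if_true]; exact hlen i hi
      · simp only [hi, if_false]; exact hlen 0 (by norm_num))
    (by simp [hs6, hs5]) (by simp [hs6, hs5]) (by simp [hs6, hs5]) (by simp [hs6, hs5])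
    (by simp [hs6, hs5, hs4, hs3])
  have hsum : sum4 (P.N * (2 * P.m + 2))
      (fun i => if i < 4 then exT P sl R G i else exT P sl R G 0)
      = sum4 (P.N * (2 * P.m + 2)) (exT P sl R G) := by
    unfold sum4
    simp
  rw [hsum] at r7
  have hall := seq_sruns r1 (seq_sruns r2 (seq_sruns r3 (seq_sruns r4 (seq_sruns r5
    (seq_sruns r6 r7)))))
  have hfin : (Function.update (Function.update (Function.update (Function.update
        (Function.update s6
        Own.T0 (Z [] []))
        Own.T1 (Z [] []))
        Own.T2 (Z [] []))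
        Own.T3 (Z [] []))
        Own.Bk (Z [] (bits (sum4 (P.N * (2 * P.m + 2)) (exT P sl R G)))) : St Own Γ)
      = (Function.update (Function.update (Function.update (Function.update s
        Own.U (Z [] []))
        Own.V (Z [] []))
        Own.Pd (Z [] []))
        Own.Bk (Z [] (bits (sum4 (P.N * (2 * P.m + 2)) (exT P sl R G))))) := by
    funext i
    rw [hs6, hs5, hs4, hs3, hs2, hs1]
    cases i <;> simp [h0, h1, h2, h3]
  rw [hfin] at hall
  refine Prog.SRuns.mono hall ?_
  simp only [pm_bits_length, List.length_nil, hu, hv, hbk, pm_cat_length sl P.w hsl]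
  unfold cPostMul
  have e1 : 8 * P.N * P.w = 8 * (P.N * P.w) := by ring
  have e2 : 4 * P.N * P.w = 4 * (P.N * P.w) := by ring
  rw [e1, e2]
  omega

end Vale.Agent.P338.TM
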