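import Vale.Agent.P338.TM.SpecRewind
import Vale.Agent.P338.TM.Model2

namespace Vale.Agent.P338.TM

open Vale.Agent.P338

variable {Γ : Type} [TapeAlpha Γ]

theorem padSame_lend_notMem_bits (u : List Bool) : (lend : Γ) ∉ bits u := by
  intro h
  obtain ⟨b, -, hb⟩ := List.mem_map.1 h
  exact TapeAlpha.bit_ne_lend b hb

open Classical in
/-- the lockstep scan of `padSame` -/
theorem padScan_aux : ∀ (u2 : List Bool) (s : St Own Γ) (du dv : List Γ) (v2 : List Bool),
    v2.length ≤ u2.length → s Own.U = Z du (bits u2) → s Own.V = Z dv (bits v2) →
    (scan fun a => if a Own.U = blank then none else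
      some ((Instr.nil.set Own.U (a Own.U) Move.right).set Own.V
        (if a Own.V = blank then bit false else a Own.V) Move.right) : Prog Own Γ).SRuns s u2.length
      (Function.update (Function.update s Own.U (Z (du ++ bits u2) [])) Own.V
        (Z (dv ++ bits (v2 ++ zs (u2.length - v2.length))) [])) true := by
  intro u2
  induction u2 with
  | nil =>
    intro s du dv v2 hl hU hV
    have hv : v2 = [] := List.length_eq_zero_iff.1 (Nat.le_zero.1 hl)
    subst hv
    have hs : Function.update (Function.update s Own.U (Z (du ++ bits []) [])) Own.V
        (Z (dv ++ bits ([] ++ zs (([] : List Bool).length - ([] : List Bool).length))) []) = s := by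
      have e1 : Z (du ++ bits []) ([] : List Γ) = s Own.U := by rw [hU]; simp [bits]
      have e2 : Z (dv ++ bits ([] ++ zs (([] : List Bool).length - ([] : List Bool).length)))
          ([] : List Γ) = s Own.V := by rw [hV]; simp [bits, zs]
      rw [e1, e2, Function.update_eq_self, Function.update_eq_self]
    rw [hs]
    apply scan_sstop
    simp [hU, bits]
  | cons b u2 ih =>
    intro s du dv v2 hl hU hV
    have hrU : sreads s Own.U = bit b := by rw [sreads_apply, hU]; rfl
    have hne : (bit b : Γ) ≠ blank := TapeAlpha.bit_ne_blank b
    rw [List.length_cons]
    cases v2 with
    | nil =>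
      have hrV : sreads s Own.V = blank := by rw [sreads_apply, hV]; rfl
      refine scan_sstep _ s ((Instr.nil.set Own.U (bit b) Move.right).set Own.V
        (bit false) Move.right) ?_ ?_
      · rw [hrU, hrV, if_neg hne, if_pos rfl]
      · rw [Instr.sapp_set, Instr.sapp_set, Instr.sapp_nil, hU, hV, Z_act_right, Z_act_right]
        have h := ih (Function.update (Function.update s Own.U (Z (du ++ [bit b]) (bits u2)))
          Own.V (Z (dv ++ [bit false]) [])) (du ++ [bit b]) (dv ++ [bit false]) []
          (Nat.zero_le _) (by
            rw [Function.update_of_ne (by decide), Function.update_self]) (by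
            rw [Function.update_self]; rfl)
        have e : Function.update (Function.update (Function.update (Function.update s Own.U
            (Z (du ++ [bit b]) (bits u2))) Own.V (Z (dv ++ [bit false]) [])) Own.U
            (Z (du ++ [bit b] ++ bits u2) [])) Own.V
            (Z (dv ++ [bit false] ++ bits ([] ++ zs (u2.length - ([] : List Bool).length))) [])
            = Function.update (Function.update s Own.U (Z (du ++ bits (b :: u2)) [])) Own.V
            (Z (dv ++ bits ([] ++ zs (u2.length + 1 - ([] : List Bool).length))) []) := by
          funext i
          by_cases hV' : i = Own.V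
          · subst hV'
            simp [bits, zs, List.replicate_succ]
          · by_cases hU' : i = Own.U
            · subst hU'
              simp [bits]
            · simp [Function.update_of_ne hV', Function.update_of_ne hU']
        rw [e] at h
        exact h
    | cons c v2 =>
      have hrV : sreads s Own.V = bit c := by rw [sreads_apply, hV]; rfl
      have hnc : (bit c : Γ) ≠ blank := TapeAlpha.bit_ne_blank c
      refine scan_sstep _ s ((Instr.nil.set Own.U (bit b) Move.right).set Own.V
        (bit c) Move.right) ?_ ?_
      · rw [hrU, hrV, if_neg hne, if_neg hnc]
      · rw [Instr.sapp_set, Instr.sapp_set, Instr.sapp_nil, hU, hV, Z_act_right, Z_act_right]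
        have hl' : v2.length ≤ u2.length := by
          simp only [List.length_cons] at hl
          omega
        have h := ih (Function.update (Function.update s Own.U (Z (du ++ [bit b]) (bits u2)))
          Own.V (Z (dv ++ [bit c]) (bits v2))) (du ++ [bit b]) (dv ++ [bit c]) v2
          hl' (by
            rw [Function.update_of_ne (by decide), Function.update_self]) (by
            rw [Function.update_self])
        have e : Function.update (Function.update (Function.update (Function.update s Own.U
            (Z (du ++ [bit b]) (bits u2))) Own.V (Z (dv ++ [bit c]) (bits v2))) Own.U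
            (Z (du ++ [bit b] ++ bits u2) [])) Own.V
            (Z (dv ++ [bit c] ++ bits (v2 ++ zs (u2.length - v2.length))) [])
            = Function.update (Function.update s Own.U (Z (du ++ bits (b :: u2)) [])) Own.V
            (Z (dv ++ bits (c :: v2 ++ zs (u2.length + 1 - (c :: v2).length))) []) := by
          funext i
          by_cases hV' : i = Own.V
          · subst hV'
            simp [bits]
          · by_cases hU' : i = Own.U
            · subst hU'
              simp [bits]
            · simp [Function.update_of_ne hV', Function.update_of_ne hU']
        rw [e] at h
        exact h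

theorem padSame_spec (s : St Own Γ) (u v : List Bool) (hl : v.length ≤ u.length)
    (hU : s Own.U = Z (bits u) []) (hVt : s Own.V = Z (bits v) []) :
    (padSame : Prog Own Γ).SRuns s (cPadSame u.length)
      (Function.update s Own.V (Z (bits (v ++ zs (u.length - v.length))) [])) true := by
  have h1 := rewind_spec Own.U s (bits u) [] hU (padSame_lend_notMem_bits u) (by simp)
  have h2 := rewind_spec Own.V (Function.update s Own.U (Z [] (bits u ++ []))) (bits v) []
    (by rw [Function.update_of_ne (by decide)]; exact hVt) (padSame_lend_notMem_bits v) (by simp)
  have h3 := padScan_aux u (Function.update (Function.update s Own.U (Z [] (bits u ++ [])))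
    Own.V (Z [] (bits v ++ []))) [] [] v hl (by
      rw [Function.update_of_ne (by decide), Function.update_self, List.append_nil]) (by
      rw [Function.update_self, List.append_nil])
  have h4 := seq_sruns h1 (seq_sruns h2 h3)
  have e : Function.update (Function.update (Function.update (Function.update s Own.U
      (Z [] (bits u ++ []))) Own.V (Z [] (bits v ++ []))) Own.U (Z ([] ++ bits u) [])) Own.V
      (Z ([] ++ bits (v ++ zs (u.length - v.length))) [])
      = Function.update s Own.V (Z (bits (v ++ zs (u.length - v.length))) []) := by
    funext i
    by_cases hV' : i = Own.V
    · subst hV'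
      simp
    · by_cases hU' : i = Own.U
      · subst hU'
        simp [hU]
      · simp [Function.update_of_ne hV', Function.update_of_ne hU']
  rw [e] at h4
  refine Prog.SRuns.mono h4 ?_
  have l1 : (bits u : List Γ).length = u.length := by simp [bits]
  have l2 : (bits v : List Γ).length = v.length := by simp [bits]
  rw [l1, l2]
  unfold cPadSame
  omega

end Vale.Agent.P338.TM
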