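import Vale.Agent.P338.TM.SpecZseg
import Vale.Agent.P338.TM.SpecAddReg
import Vale.Agent.P338.TM.Model2

namespace Vale.Agent.P338.TM

open Vale.Agent.P338

variable {Γ : Type} [TapeAlpha Γ]

theorem Par.Valid.cval_lt {P : Par} (hV : P.Valid) (x : Own) : P.cval x < P.N := by
  have ha := hV.a2
  have hb := hV.b2
  have hH := hV.hH
  have h4 : 4 ≤ P.a * P.b := Nat.mul_le_mul ha hb
  have h5 : P.a * 2 ≤ P.a * P.b := Nat.mul_le_mul_left _ hb
  have h6 : 2 * P.b ≤ P.a * P.b := Nat.mul_le_mul_right _ ha
  cases x <;> simp only [Par.cval, Par.N] <;> omega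

theorem rend_notMem_ohHead (n : ℕ) :
    (rend : Γ) ∉ bit true :: List.replicate n (bit false) := by
  intro h
  rcases List.mem_cons.1 h with h | h
  · exact TapeAlpha.bit_ne_rend true h.symm
  · exact TapeAlpha.bit_ne_rend false (List.eq_of_mem_replicate h).symm

/-- One slot of the first operand and the register updates after it. -/
theorem xBlock_spec (P : Par) (hV : P.Valid) (E1 : Own) (hE1 : E1.isConst = true) (s : St Own Γ)
    (hN : Need P s [Own.tg, Own.tm, E1]) (p : Ph) (hp : p.lt P.N) (hph : HasPh P p s)
    (dB tB dU : List Γ) (blk : List Bool) (hblk : blk.length = 2 * P.m + 2)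
    (hB : s Own.Bk = Z dB (bits blk ++ tB)) (hU : s Own.U = Z dU []) :
    (xBlock E1 : Prog Own Γ).SRuns s (cXBlock P)
      (setPh P (p.blk P.N (P.cval E1))
        (Function.update (Function.update s Own.Bk (Z (dB ++ bits blk) tB)) Own.U
          (Z (dU ++ bits (slotX P p.S blk)) []))) true := by
  obtain ⟨hS, hD, hF⟩ := hph
  obtain ⟨hpS, hpD, hpF⟩ := hp
  have hE1rS : E1 ≠ Own.rS := by rintro rfl; simp [Own.isConst] at hE1
  have hE1rD : E1 ≠ Own.rD := by rintro rfl; simp [Own.isConst] at hE1
  have hE1U : E1 ≠ Own.U := by rintro rfl; simp [Own.isConst] at hE1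
  have hE1Bk : E1 ≠ Own.Bk := by rintro rfl; simp [Own.isConst] at hE1
  have hsE1 : s E1 = Z [] (oh P.N (P.cval E1)) := (hN E1 (by simp)).2 hE1
  have hNg : Need P s [Own.tg] := hN.mono (by simp)
  have hNm : Need P s [Own.tm] := hN.mono (by simp)
  set N := P.N with hNdef
  set tS : List Γ := bit true :: (List.replicate (N - p.S - 1) (bit false) ++ [rend]) with htS
  set u : List Γ := bit true :: List.replicate (N - p.S - 1) (bit false) with hu
  have hulen : u.length = N - p.S := by simp [hu]; omega
  have htSu : tS = u ++ [rend] := by simp [htS, hu]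
  -- step 1
  have h1 := preZ_spec P Own.U (by decide) (by decide) s hNg p.S [] tS dU
    (by simp [htS, bit_false_ne_true.symm]) (by rw [hS, oh_eq]) hU
  simp only [List.nil_append] at h1
  set s1 := Function.update (Function.update s Own.rS (Z (List.replicate p.S (bit false)) tS))
    Own.U (Z (dU ++ bits (zs (p.S * P.g))) []) with hs1
  -- step 2
  have h2 := cpBlk_spec P Own.Bk Own.U (by decide) (by decide) (by decide) s1
    ((hNm.update (by simp) _).update (by simp) _) dB (bits blk) tB
    (dU ++ bits (zs (p.S * P.g))) (by simp [bits, hblk])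
    (by simp [hs1, hB]) (by simp [hs1])
  set s2 := Function.update (Function.update s1 Own.Bk (Z (dB ++ bits blk) tB)) Own.U
    (Z (dU ++ bits (zs (p.S * P.g)) ++ bits blk) []) with hs2
  -- step 3
  have h3 := postZ_spec P Own.U (by decide) (by decide) s2
    ((((hNg.update (by simp) _).update (by simp) _).update (by simp) _).update (by simp) _)
    (List.replicate p.S (bit false)) u (dU ++ bits (zs (p.S * P.g)) ++ bits blk)
    (rend_notMem_ohHead _)
    (by simp [hs2, hs1, htSu]) (by simp [hs2])
  rw [hulen] at h3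
  set s3 := Function.update (Function.update s2 Own.rS (Z (List.replicate p.S (bit false) ++ u)
    [rend])) Own.U
    (Z (dU ++ bits (zs (p.S * P.g)) ++ bits blk ++ bits (zs ((N - p.S) * P.g))) []) with hs3
  -- step 4
  have h4 := rewind_spec Own.rS s3 (List.replicate p.S (bit false) ++ u) [rend]
    (by simp [hs3])
    (by
      intro h
      rcases List.mem_append.1 h with h | h
      · exact lend_notMem_replicate _ _ h
      · rcases List.mem_cons.1 h with h | h
        · exact TapeAlpha.bit_ne_lend true h.symm
        · exact lend_notMem_replicate _ _ h)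
    (by simpa using TapeAlpha.lend_ne_rend)
  have hoh : List.replicate p.S (bit false) ++ u ++ [rend] = (oh N p.S : List Γ) := by
    rw [oh_eq, List.append_assoc, ← htSu]
  rw [hoh] at h4
  have hlen4 : (List.replicate p.S (bit false) ++ u : List Γ).length = N := by
    rw [List.length_append, hulen, List.length_replicate]; omega
  rw [hlen4] at h4
  set s4 := Function.update s3 Own.rS (Z [] (oh N p.S)) with hs4
  -- step 5
  have h5 := zerosM_spec P 4 Own.U (by decide) s4
    (((((((hNm.update (by simp) _).update (by simp) _).update (by simp) _).update (by simp)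
      _).update (by simp) _).update (by simp) _).update (by simp) _)
    (dU ++ bits (zs (p.S * P.g)) ++ bits blk ++ bits (zs ((N - p.S) * P.g)))
    (by simp [hs4, hs3])
  have hslot : dU ++ bits (zs (p.S * P.g)) ++ bits blk ++ bits (zs ((N - p.S) * P.g))
      ++ bits (zs (4 * P.m)) = dU ++ (bits (slotX P p.S blk) : List Γ) := by
    simp [slotX, bits, ← hNdef]
  rw [hslot] at h5
  set s5 := Function.update s4 Own.U (Z (dU ++ bits (slotX P p.S blk)) []) with hs5
  -- step 6
  have h6 := addReg_spec Own.rS Own.rD (by decide) s5 N p.S p.D hpS hpD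
    (by simp [hs5, hs4])
    (by simp [hs5, hs4, hs3, hs2, hs1, hD])
  set s6 := Function.update s5 Own.rS (Z [] (oh N ((p.S + p.D) % N))) with hs6
  -- step 7
  have h7 := addReg_spec Own.rD E1 hE1rD.symm s6 N p.D (P.cval E1) hpD (hV.cval_lt E1)
    (by simp [hs6, hs5, hs4, hs3, hs2, hs1, hD])
    (by simp [hs6, hs5, hs4, hs3, hs2, hs1, hE1rS, hE1U, hE1Bk, hsE1])
  have hfin : Function.update s6 Own.rD (Z [] (oh N ((p.D + P.cval E1) % N))) =
      setPh P (p.blk N (P.cval E1))
        (Function.update (Function.update s Own.Bk (Z (dB ++ bits blk) tB)) Own.U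
          (Z (dU ++ bits (slotX P p.S blk)) [])) := by
    funext i
    simp only [setPh, Ph.blk, hs6, hs5, hs4, hs3, hs2, hs1, Function.update_apply, ← hNdef]
    by_cases hiF : i = Own.rF
    · subst hiF; simp [hF]
    · by_cases hiD : i = Own.rD
      · subst hiD; simp
      · by_cases hiS : i = Own.rS
        · subst hiS; simp
        · by_cases hiU : i = Own.U
          · subst hiU; simp
          · simp [hiF, hiD, hiS, hiU]
  rw [hfin] at h7
  have hall := seq_sruns h1 (seq_sruns h2 (seq_sruns h3 (seq_sruns h4 (seq_sruns h5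
    (seq_sruns h6 h7)))))
  refine Prog.SRuns.mono hall ?_
  have hsplit : p.S * (7 * P.g + 11) + (N - p.S) * (7 * P.g + 11) = N * (7 * P.g + 11) := by
    rw [← Nat.add_mul]
    congr 1
    omega
  simp only [cXBlock, cCpBlk, ← hNdef]
  omega

end Vale.Agent.P338.TM
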