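import Vale.Agent.P338.TM.SpecYSlot
import Vale.Agent.P338.TM.SpecXBlock

namespace Vale.Agent.P338.TM

open Vale.Agent.P338

variable {Γ : Type} [TapeAlpha Γ]

theorem Ph.yrows_succ_y (N E2 : ℕ) (p : Ph) (k : ℕ) :
    p.yrows N E2 (k + 1) = (p.yrows N E2 k).yrow N E2 := by
  simp only [Ph.yrows, Function.iterate_succ_apply']

theorem Ph.yrows_lt {N E2 : ℕ} (hN : 0 < N) {p : Ph} (hp : p.lt N) (k : ℕ) :
    (p.yrows N E2 k).lt N := by
  induction k with
  | zero => simpa [Ph.yrows] using hp
  | succ k ih =>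
    rw [Ph.yrows_succ_y]
    exact ⟨Nat.mod_lt _ hN, ih.2.1, Nat.mod_lt _ hN⟩

theorem isConst_ne_y {x y : Own} (hx : x.isConst = true) (hy : y.isConst = false) : x ≠ y := by
  rintro rfl
  rw [hx] at hy
  exact Bool.noConfusion hy

theorem isUn_ne_y {x y : Own} (hx : x.isUn = true) (hy : y.isUn = false) : x ≠ y := by
  rintro rfl
  rw [hx] at hy
  exact Bool.noConfusion hy

theorem setPh_rS_y (P : Par) (p : Ph) (s : St Own Γ) :
    setPh P p s Own.rS = Z [] (oh P.N p.S) := by simp [setPh]

theorem setPh_rD_y (P : Par) (p : Ph) (s : St Own Γ) :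
    setPh P p s Own.rD = Z [] (oh P.N p.D) := by simp [setPh]

theorem setPh_rF_y (P : Par) (p : Ph) (s : St Own Γ) :
    setPh P p s Own.rF = Z [] (oh P.N p.F) := by simp [setPh]

theorem setPh_of_ne_y (P : Par) (p : Ph) (s : St Own Γ) {x : Own} (h1 : x ≠ Own.rS)
    (h2 : x ≠ Own.rD) (h3 : x ≠ Own.rF) : setPh P p s x = s x := by
  simp [setPh, h1, h2, h3]

theorem hasPh_setPh_y (P : Par) (p : Ph) (s : St Own Γ) : HasPh P p (setPh P p s) :=
  ⟨setPh_rS_y P p s, setPh_rD_y P p s, setPh_rF_y P p s⟩

theorem HasPh.update_ne_y {P : Par} {p : Ph} {s : St Own Γ} (h : HasPh P p s) {x : Own}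
    (h1 : x ≠ Own.rS) (h2 : x ≠ Own.rD) (h3 : x ≠ Own.rF) (z : Zip Γ) :
    HasPh P p (Function.update s x z) := by
  obtain ⟨a, b, c⟩ := h
  exact ⟨by rw [Function.update_of_ne h1.symm]; exact a,
    by rw [Function.update_of_ne h2.symm]; exact b,
    by rw [Function.update_of_ne h3.symm]; exact c⟩

theorem Need.setPh_y {P : Par} {s : St Own Γ} {l : List Own} (h : Need P s l) (p : Ph)
    (h1 : Own.rS ∉ l) (h2 : Own.rD ∉ l) (h3 : Own.rF ∉ l) : Need P (setPh P p s) l :=
  ((h.update h1 _).update h2 _).update h3 _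

theorem setPh_setPh_y (P : Par) (p q : Ph) (s : St Own Γ) :
    setPh P q (setPh P p s) = setPh P q s := by
  funext i
  by_cases h1 : i = Own.rS
  · subst h1; rw [setPh_rS_y, setPh_rS_y]
  · by_cases h2 : i = Own.rD
    · subst h2; rw [setPh_rD_y, setPh_rD_y]
    · by_cases h3 : i = Own.rF
      · subst h3; rw [setPh_rF_y, setPh_rF_y]
      · rw [setPh_of_ne_y P q _ h1 h2 h3, setPh_of_ne_y P p _ h1 h2 h3,
          setPh_of_ne_y P q _ h1 h2 h3]

theorem setPh_update_y (P : Par) (p : Ph) (s : St Own Γ) {x : Own} (h1 : x ≠ Own.rS)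
    (h2 : x ≠ Own.rD) (h3 : x ≠ Own.rF) (z : Zip Γ) :
    setPh P p (Function.update s x z) = Function.update (setPh P p s) x z := by
  funext i
  by_cases hx : i = x
  · subst hx
    rw [setPh_of_ne_y P p _ h1 h2 h3, Function.update_self, Function.update_self]
  · rw [Function.update_of_ne hx]
    by_cases g1 : i = Own.rS
    · subst g1; rw [setPh_rS_y, setPh_rS_y]
    · by_cases g2 : i = Own.rD
      · subst g2; rw [setPh_rD_y, setPh_rD_y]
      · by_cases g3 : i = Own.rF
        · subst g3; rw [setPh_rF_y, setPh_rF_y]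
        · rw [setPh_of_ne_y P p _ g1 g2 g3, setPh_of_ne_y P p _ g1 g2 g3,
            Function.update_of_ne hx]

theorem cat_succ_y (f : ℕ → List Bool) (k : ℕ) : cat f 0 (k + 1) = cat f 0 k ++ f k := by
  simp [cat, List.range_succ, List.flatMap_append]

theorem bits_append_y (u v : List Bool) : (bits (u ++ v) : List Γ) = bits u ++ bits v := by
  simp [bits]

theorem zs_add_y (a b : ℕ) : zs (a + b) = zs a ++ zs b := by
  unfold zs
  rw [List.replicate_add]

/-- One chirp row. -/
theorem yRow_spec (P : Par) (hV : P.Valid) (ts1 E2 : Own)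
    (hts1 : ts1 = Own.t0 ∨ ts1 = Own.tb1) (hE2 : E2.isConst = true) (s : St Own Γ)
    (hN : Need P s [ts1, Own.tg, Own.tm, E2]) (p : Ph) (hp : p.lt P.N) (hph : HasPh P p s)
    (dV : List Γ) (hVt : s Own.V = Z dV []) :
    (yRowP ts1 E2 : Prog Own Γ).SRuns s (cYRow P (P.uval ts1))
      (setPh P (p.yrow P.N (P.cval E2))
        (Function.update s Own.V (Z (dV ++ bits (slotY P p.S ++ zs (P.uval ts1 * P.w))) [])))
      true := by
  obtain ⟨hS, hD, hF⟩ := hph
  obtain ⟨hpS, hpD, hpF⟩ := hp
  have hun : ts1.isUn = true := by rcases hts1 with rfl | rfl <;> rfl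
  have hts1V : ts1 ≠ Own.V := isUn_ne_y hun rfl
  have hts1m : ts1 ≠ Own.tm := by rcases hts1 with rfl | rfl <;> decide
  have hsts1 : s ts1 = Z [] (un (P.uval ts1)) := (hN ts1 (by simp)).1 hun
  have hsE2 : s E2 = Z [] (oh P.N (P.cval E2)) := (hN E2 (by simp)).2 hE2
  have hNm : Need P s [Own.tm] := hN.mono (by simp)
  set c := P.uval ts1 with hc
  -- step 1
  have h1 := ySlot_spec P hV s (hN.mono (by simp)) p.S hpS hS dV hVt
  -- step 2
  set F : ℕ → St Own Γ := fun k =>
    Function.update s Own.V (Z (dV ++ bits (slotY P p.S ++ zs (k * P.w))) []) with hFdef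
  have h2 := forU_fun ts1 (zeroSlot Own.V : Prog Own Γ) c (cZeroSlot P) F (by
    intro k _
    refine ⟨true, ?_⟩
    have h := zeroSlot_spec P Own.V (by decide)
      (Function.update (F k) ts1 (Z (un k) (un (c - k))))
      ((hNm.update (by simp) _).update (by simpa using hts1m) _)
      (dV ++ bits (slotY P p.S ++ zs (k * P.w)))
      (by rw [Function.update_of_ne hts1V.symm]; simp [hFdef])
    have e : Function.update (Function.update (F k) ts1 (Z (un k) (un (c - k)))) Own.V
        (Z (dV ++ bits (slotY P p.S ++ zs (k * P.w)) ++ bits (zs P.w)) []) =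
        Function.update (F (k + 1)) ts1 (Z (un k) (un (c - k))) := by
      rw [Function.update_comm hts1V]
      simp only [hFdef, Function.update_idem]
      rw [List.append_assoc, ← bits_append_y, List.append_assoc, ← zs_add_y, Nat.succ_mul]
    rw [e] at h
    exact h)
  have hFts : ∀ k, Function.update (F k) ts1 (Z [] (un c)) = F k := by
    intro k
    have : F k ts1 = Z [] (un c) := by
      simp only [hFdef]
      rw [Function.update_of_ne hts1V, hsts1]
    rw [← this, Function.update_eq_self]
  rw [hFts, hFts] at h2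
  have hF0 : F 0 = Function.update s Own.V (Z (dV ++ bits (slotY P p.S)) []) := by
    simp [hFdef, zs]
  rw [hF0] at h2
  -- step 3
  have h3 := addReg_spec Own.rS Own.rF (by decide) (F c) P.N p.S p.F hpS hpF
    (by simp [hFdef, hS]) (by simp [hFdef, hF])
  set s3 := Function.update (F c) Own.rS (Z [] (oh P.N ((p.S + p.F) % P.N))) with hs3
  have hE2rF : E2 ≠ Own.rF := isConst_ne_y hE2 rfl
  have hE2rS : E2 ≠ Own.rS := isConst_ne_y hE2 rfl
  have hE2V : E2 ≠ Own.V := isConst_ne_y hE2 rfl
  have h4 := addReg_spec Own.rF E2 hE2rF.symm s3 P.N p.F (P.cval E2) hpF (hV.cval_lt E2)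
    (by simp [hs3, hFdef, hF]) (by simp [hs3, hFdef, hE2rS, hE2V, hsE2])
  have hfin : Function.update s3 Own.rF (Z [] (oh P.N ((p.F + P.cval E2) % P.N))) =
      setPh P (p.yrow P.N (P.cval E2))
        (Function.update s Own.V (Z (dV ++ bits (slotY P p.S ++ zs (c * P.w))) [])) := by
    funext i
    simp only [setPh, Ph.yrow, hs3, hFdef, Function.update_apply]
    by_cases hiF : i = Own.rF
    · subst hiF; simp
    · by_cases hiD : i = Own.rD
      · subst hiD; simp [hD]
      · simp [hiF, hiD]
  rw [hfin] at h4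
  have hall := seq_sruns h1 (seq_sruns h2 (seq_sruns h3 h4))
  refine Prog.SRuns.mono hall ?_
  simp only [cYRow]
  omega

/-- The whole chirp (before padding). -/
theorem stageY_spec (P : Par) (hV : P.Valid) (tl ts1 E2 : Own)
    (htl : tl = Own.tN ∨ tl = Own.ta ∨ tl = Own.tb)
    (hts1 : ts1 = Own.t0 ∨ ts1 = Own.tb1) (hE2 : E2.isConst = true) (s : St Own Γ)
    (hN : Need P s [tl, ts1, Own.tg, Own.tm, E2]) (p : Ph) (hp : p.lt P.N) (hph : HasPh P p s)
    (dV : List Γ) (hVt : s Own.V = Z dV []) :
    (stageY tl ts1 E2 : Prog Own Γ).SRuns s (cStageY P (P.uval tl) (P.uval ts1))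
      (setPh P (p.yrows P.N (P.cval E2) (3 * P.uval tl))
        (Function.update s Own.V
          (Z (dV ++ bits (yOut P (P.cval E2) (P.uval ts1) p (3 * P.uval tl))) []))) true := by
  have hNpos : 0 < P.N := lt_of_le_of_lt (Nat.zero_le _) hp.1
  have hun : tl.isUn = true := by rcases htl with rfl | rfl | rfl <;> rfl
  have hun1 : ts1.isUn = true := by rcases hts1 with rfl | rfl <;> rfl
  have htlV : tl ≠ Own.V := isUn_ne_y hun rfl
  have htlS : tl ≠ Own.rS := isUn_ne_y hun rfl
  have htlD : tl ≠ Own.rD := isUn_ne_y hun rfl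
  have htlF : tl ≠ Own.rF := isUn_ne_y hun rfl
  have htlE : tl ≠ E2 := by
    rintro rfl
    rcases htl with rfl | rfl | rfl <;> simp [Own.isConst] at hE2
  have htl1 : tl ≠ ts1 := by
    rcases htl with rfl | rfl | rfl <;> rcases hts1 with rfl | rfl <;> decide
  have htlg : tl ≠ Own.tg := by rcases htl with rfl | rfl | rfl <;> decide
  have htlm : tl ≠ Own.tm := by rcases htl with rfl | rfl | rfl <;> decide
  have hstl : s tl = Z [] (un (P.uval tl)) := (hN tl (by simp)).1 hun
  have hN4 : Need P s [ts1, Own.tg, Own.tm, E2] := hN.mono (by simp)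
  have hmem : ∀ x : Own, x.isUn = false → x.isConst = false →
      x ∉ [ts1, Own.tg, Own.tm, E2] := by
    intro x hx1 hx2 hx
    simp only [List.mem_cons, List.not_mem_nil, or_false] at hx
    rcases hx with rfl | rfl | rfl | rfl
    · rw [hun1] at hx1; exact Bool.noConfusion hx1
    · exact Bool.noConfusion hx1
    · exact Bool.noConfusion hx1
    · rw [hE2] at hx2; exact Bool.noConfusion hx2
  set l := P.uval tl with hl
  set G : ℕ → St Own Γ := fun k => setPh P (p.yrows P.N (P.cval E2) k)
    (Function.update s Own.V (Z (dV ++ bits (yOut P (P.cval E2) (P.uval ts1) p k)) []))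
    with hG
  have hGtl : ∀ k, Function.update (G k) tl (Z [] (un l)) = G k := by
    intro k
    have : G k tl = Z [] (un l) := by
      simp only [hG]
      rw [setPh_of_ne_y P _ _ htlS htlD htlF, Function.update_of_ne htlV, hstl]
    rw [← this, Function.update_eq_self]
  have hrep := rep_fun (forU tl (yRowP ts1 E2 : Prog Own Γ)) 3
    (l * (cYRow P (P.uval ts1) + 6) + 6) (fun j => G (j * l)) (by
    intro j _
    refine ⟨true, ?_⟩
    have h := forU_fun tl (yRowP ts1 E2 : Prog Own Γ) l (cYRow P (P.uval ts1))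
      (fun k => G (j * l + k)) (by
      intro k _
      refine ⟨true, ?_⟩
      set n := j * l + k with hn
      have h := yRow_spec P hV ts1 E2 hts1 hE2
        (Function.update (G n) tl (Z (un k) (un (l - k))))
        (((hN4.update (hmem _ rfl rfl) _).setPh_y _ (hmem _ rfl rfl) (hmem _ rfl rfl)
          (hmem _ rfl rfl)).update (by
            simp only [List.mem_cons, List.not_mem_nil, or_false, not_or]
            exact ⟨htl1, htlg, htlm, htlE⟩) _)
        (p.yrows P.N (P.cval E2) n) (Ph.yrows_lt hNpos hp n)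
        ((hasPh_setPh_y P _ _).update_ne_y htlS htlD htlF _)
        (dV ++ bits (yOut P (P.cval E2) (P.uval ts1) p n))
        (by
          rw [Function.update_of_ne htlV.symm]
          simp only [hG]
          rw [setPh_of_ne_y P _ _ (by decide) (by decide) (by decide), Function.update_self])
      have e : setPh P ((p.yrows P.N (P.cval E2) n).yrow P.N (P.cval E2))
          (Function.update (Function.update (G n) tl (Z (un k) (un (l - k)))) Own.V
            (Z (dV ++ bits (yOut P (P.cval E2) (P.uval ts1) p n) ++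
              bits (slotY P (p.yrows P.N (P.cval E2) n).S ++ zs (P.uval ts1 * P.w))) [])) =
          Function.update (G (n + 1)) tl (Z (un k) (un (l - k))) := by
        rw [Function.update_comm htlV, setPh_update_y P _ _ htlS htlD htlF]
        congr 1
        simp only [hG]
        rw [← setPh_update_y P _ _ (by decide) (by decide) (by decide), setPh_setPh_y,
          Function.update_idem, Ph.yrows_succ_y, List.append_assoc, ← bits_append_y]
        congr 4
        simp only [yOut]
        rw [cat_succ_y]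
      rw [e] at h
      exact h)
    simp only [Nat.add_zero] at h
    rw [hGtl, hGtl] at h
    have e2 : j * l + l = (j + 1) * l := by ring
    rw [e2] at h
    exact h)
  have e0 : G (0 * l) = s := by
    simp only [hG, Nat.zero_mul]
    funext i
    obtain ⟨hS, hD, hF⟩ := hph
    by_cases h1 : i = Own.rS
    · subst h1; rw [setPh_rS_y, hS]; rfl
    · by_cases h2 : i = Own.rD
      · subst h2; rw [setPh_rD_y, hD]; rfl
      · by_cases h3 : i = Own.rF
        · subst h3; rw [setPh_rF_y, hF]; rfl
        · rw [setPh_of_ne_y P _ _ h1 h2 h3]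
          by_cases h4 : i = Own.V
          · subst h4; rw [Function.update_self, hVt]; simp [yOut, cat, bits]
          · rw [Function.update_of_ne h4]
  simp only [e0] at hrep
  exact hrep

end Vale.Agent.P338.TM
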