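import Vale.Agent.P338.TM.SpecStageX
import Vale.Agent.P338.TM.SpecStageY
import Vale.Agent.P338.TM.SpecPadSame

namespace Vale.Agent.P338.TM

open Vale.Agent.P338

variable {Γ : Type} [TapeAlpha Γ]

theorem cat_length_pm (f : ℕ → List Bool) (i k c : ℕ) (h : ∀ j, (f (i + j)).length = c) :
    (cat f i k).length = k * c := by
  induction k with
  | zero => simp [cat]
  | succ k ih =>
    have e : cat f i (k + 1) = cat f i k ++ f (i + k) := by
      simp [cat, List.range_succ, List.flatMap_append]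
    rw [e, List.length_append, ih, h, Nat.succ_mul]

theorem zs_length_pm (k : ℕ) : (zs k).length = k := by simp [zs]

theorem slotX_length_pm (P : Par) (hV : P.Valid) (S : ℕ) (hS : S < P.N) (blk : List Bool)
    (hblk : blk.length = 2 * P.m + 2) : (slotX P S blk).length = P.w := by
  have h1 : S * P.g + (P.N - S) * P.g = 2 * P.m := by
    rw [← Nat.add_mul, hV.hm]
    congr 1
    have : P.a * P.b = P.N := rfl
    omega
  simp only [slotX, List.length_append, zs_length_pm, hblk, Par.w]
  omega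

theorem slotY_length_pm (P : Par) (hV : P.Valid) (S : ℕ) (hS : S < P.N) :
    (slotY P S).length = P.w := by
  have h1 : S * P.g + (P.N - S) * P.g = 2 * P.m := by
    rw [← Nat.add_mul, hV.hm]
    congr 1
    have : P.a * P.b = P.N := rfl
    omega
  simp only [slotY, List.length_append, List.length_cons, zs_length_pm, Par.w]
  omega

theorem xOut_length (P : Par) (hV : P.Valid) (E1 E2 E3 : ℕ) (blk : ℕ → List Bool)
    (hblk : ∀ j, (blk j).length = 2 * P.m + 2) (p : Ph) (hp : p.lt P.N) (R G : ℕ) :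
    (xOut P E1 E2 E3 blk p R G).length = 4 * (G * (R * (P.b * P.w))) := by
  have hNpos : 0 < P.N := lt_of_le_of_lt (Nat.zero_le _) hp.1
  have hrow : ∀ (bl : ℕ → List Bool) (_ : ∀ j, (bl j).length = 2 * P.m + 2) (q : Ph)
      (_ : q.lt P.N) (k : ℕ), (xRowOut P E1 bl q k).length = k * P.w := by
    intro bl hbl q hq k
    unfold xRowOut
    apply cat_length_pm
    intro j
    exact slotX_length_pm P hV _ (Ph.blks_lt hNpos hq _).1 _ (hbl _)
  have hrows : ∀ (bl : ℕ → List Bool) (_ : ∀ j, (bl j).length = 2 * P.m + 2) (q : Ph)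
      (_ : q.lt P.N) (r : ℕ), (xRowsOut P E1 E2 E3 bl q r).length = r * (P.b * P.w) := by
    intro bl hbl q hq r
    unfold xRowsOut
    apply cat_length_pm
    intro j
    exact hrow _ (fun _ => hbl _) _ (Ph.rows_lt hNpos hq _) _
  have hgrp : ∀ (bl : ℕ → List Bool) (_ : ∀ j, (bl j).length = 2 * P.m + 2) (q : Ph)
      (_ : q.lt P.N), (xGroupOut P E1 E2 E3 bl q R).length = 4 * (R * (P.b * P.w)) := by
    intro bl hbl q hq
    unfold xGroupOut
    rw [List.length_append, hrows bl hbl q hq, zs_length_pm]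
    omega
  unfold xOut
  rw [cat_length_pm _ 0 G (4 * (R * (P.b * P.w)))]
  · ring
  · intro j
    exact hgrp _ (fun _ => hblk _) _ (Ph.rows_lt hNpos hp _)

theorem yOut_length (P : Par) (hV : P.Valid) (E2 s1 : ℕ) (p : Ph) (hp : p.lt P.N) (k : ℕ) :
    (yOut P E2 s1 p k).length = k * ((s1 + 1) * P.w) := by
  have hNpos : 0 < P.N := lt_of_le_of_lt (Nat.zero_le _) hp.1
  unfold yOut
  apply cat_length_pm
  intro j
  rw [List.length_append, slotY_length_pm P hV _ (Ph.yrows_lt hNpos hp _).1, zs_length_pm]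
  ring

theorem yrows_SF_pm (N E2 : ℕ) (p q : Ph) (hS : p.S = q.S) (hF : p.F = q.F) (k : ℕ) :
    (p.yrows N E2 k).S = (q.yrows N E2 k).S ∧ (p.yrows N E2 k).F = (q.yrows N E2 k).F := by
  induction k with
  | zero => exact ⟨hS, hF⟩
  | succ k ih =>
    rw [Ph.yrows_succ_y, Ph.yrows_succ_y]
    simp only [Ph.yrow]
    rw [ih.1, ih.2]
    exact ⟨rfl, rfl⟩

theorem yOut_congr_pm (P : Par) (E2 s1 : ℕ) (p q : Ph) (hS : p.S = q.S) (hF : p.F = q.F)
    (k : ℕ) : yOut P E2 s1 p k = yOut P E2 s1 q k := by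
  unfold yOut
  congr 1
  funext l
  rw [(yrows_SF_pm P.N E2 p q hS hF l).1]

theorem Need.update_work_pm {P : Par} {s : St Own Γ} {l : List Own} (h : Need P s l) {y : Own}
    (h1 : y.isUn = false) (h2 : y.isConst = false) (z : Zip Γ) :
    Need P (Function.update s y z) l := by
  intro x hx
  by_cases hxy : x = y
  · subst hxy
    constructor
    · intro h'; rw [h1] at h'; exact Bool.noConfusion h'
    · intro h'; rw [h2] at h'; exact Bool.noConfusion h'
  · exact (h x hx).update_ne hxy z

theorem Need.setPh_work_pm {P : Par} {s : St Own Γ} {l : List Own} (h : Need P s l) (p : Ph) :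
    Need P (setPh P p s) l :=
  ((h.update_work_pm rfl rfl _).update_work_pm rfl rfl _).update_work_pm rfl rfl _

theorem oh_length_pm (N v : ℕ) (hv : v < N) : (oh N v : List Γ).length = N + 1 := by
  simp [oh]
  omega

theorem blank_notMem_oh_pm (N v : ℕ) : (blank : Γ) ∉ (oh N v : List Γ) := by
  intro h
  simp only [oh, List.mem_append, List.mem_cons, List.not_mem_nil, or_false] at h
  rcases h with (h | h | h) | h
  · exact TapeAlpha.bit_ne_blank false (List.eq_of_mem_replicate h).symm
  · exact TapeAlpha.bit_ne_blank true h.symm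
  · exact TapeAlpha.bit_ne_blank false (List.eq_of_mem_replicate h).symm
  · exact TapeAlpha.rend_ne_blank h.symm

theorem lend_notMem_oh_pm (N v : ℕ) : (lend : Γ) ∉ (oh N v : List Γ) := by
  intro h
  simp only [oh, List.mem_append, List.mem_cons, List.not_mem_nil, or_false] at h
  rcases h with (h | h | h) | h
  · exact TapeAlpha.bit_ne_lend false (List.eq_of_mem_replicate h).symm
  · exact TapeAlpha.bit_ne_lend true h.symm
  · exact TapeAlpha.bit_ne_lend false (List.eq_of_mem_replicate h).symm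
  · exact TapeAlpha.lend_ne_rend h

/-- Load a constant into a register. -/
theorem loadReg_pm (P : Par) (hV : P.Valid) (x y : Own) (hx : x.isConst = true)
    (hy : y.isConst = false) (s : St Own Γ) (hG : Good P s x) (v : ℕ) (hv : v < P.N)
    (hsy : s y = Z [] (oh P.N v)) :
    (copyOver x y : Prog Own Γ).SRuns s (3 * (P.N + 1) + 8)
      (Function.update s y (Z [] (oh P.N (P.cval x)))) true := by
  have h := copyOver_spec x y (isConst_ne_y hx hy) s (oh P.N (P.cval x)) (oh P.N v)
    (by rw [oh_length_pm _ _ hv, oh_length_pm _ _ (hV.cval_lt x)])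
    (blank_notMem_oh_pm _ _) (lend_notMem_oh_pm _ _) (hG.2 hx) hsy
  rw [oh_length_pm _ _ (hV.cval_lt x)] at h
  exact h

/-- Everything before the multiplication. `p0` = arbitrary old register values. -/
theorem preMul_spec (P : Par) (hV : P.Valid) (tG tR E1 E2 E3 iD iF tl ts1 E2y : Own)
    (hGR : LoopPair tG tR) (hE1 : E1.isConst = true) (hE2 : E2.isConst = true)
    (hE3 : E3.isConst = true) (hiD : iD.isConst = true) (hiF : iF.isConst = true)
    (htl : tl = Own.tN ∨ tl = Own.ta ∨ tl = Own.tb)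
    (hts1 : ts1 = Own.t0 ∨ ts1 = Own.tb1) (hE2y : E2y.isConst = true)
    (hlen : 3 * (P.uval tl * (P.uval ts1 + 1)) ≤ 4 * P.N)
    (s : St Own Γ)
    (hN : Need P s [tG, tR, Own.tb, Own.tg, Own.tm, E1, E2, E3, iD, iF, tl, ts1, E2y, Own.cZ])
    (p0 : Ph) (hp0 : p0.lt P.N) (hph : HasPh P p0 s)
    (blk : ℕ → List Bool) (hblk : ∀ j, (blk j).length = 2 * P.m + 2)
    (hB : s Own.Bk = Z [] (bits (cat blk 0 P.N)))
    (hU : s Own.U = Z [] []) (hVt : s Own.V = Z [] []) :
    ∃ p1 : Ph, p1.lt P.N ∧
    (preMul tG tR E1 E2 E3 iD iF tl ts1 E2y : Prog Own Γ).SRuns s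
      (cPreMul P (P.uval tR) (P.uval tG) (P.uval tl) (P.uval ts1))
      (setPh P p1
        (Function.update (Function.update (Function.update s
          Own.Bk (Z (bits (cat blk 0 P.N)) []))
          Own.U (Z (bits (xOut P (P.cval E1) (P.cval E2) (P.cval E3) blk
            ⟨0, P.cval iD, P.cval iF⟩ (P.uval tR) (P.uval tG))) []))
          Own.V (Z (bits (yOut P (P.cval E2y) (P.uval ts1) ⟨0, 0, 0⟩ (3 * P.uval tl) ++
            zs (4 * (P.N * P.w) - 3 * P.uval tl * ((P.uval ts1 + 1) * P.w)))) []))) true := by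
  obtain ⟨hS, hD, hF⟩ := hph
  obtain ⟨hpS, hpD, hpF⟩ := hp0
  have hNpos : 0 < P.N := lt_of_le_of_lt (Nat.zero_le _) hpS
  have hGRb : P.uval tG * (P.uval tR * P.b) = P.N := by
    rcases hGR with ⟨rfl, rfl⟩ | ⟨rfl, rfl⟩ <;> simp [Par.uval, Par.N]
  set L : List Own :=
    [tG, tR, Own.tb, Own.tg, Own.tm, E1, E2, E3, iD, iF, tl, ts1, E2y, Own.cZ] with hL
  -- steps 1-3
  have h1 := loadReg_pm P hV Own.cZ Own.rS rfl rfl s (hN _ (by simp [hL])) p0.S hpS hS
  set s1 := Function.update s Own.rS (Z [] (oh P.N (P.cval Own.cZ))) with hs1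
  have hN1 : Need P s1 L := hN.update_work_pm rfl rfl _
  have h2 := loadReg_pm P hV iD Own.rD hiD rfl s1 (hN1 _ (by simp [hL])) p0.D hpD
    (by simp [hs1, hD])
  set s2 := Function.update s1 Own.rD (Z [] (oh P.N (P.cval iD))) with hs2
  have hN2 : Need P s2 L := hN1.update_work_pm rfl rfl _
  have h3 := loadReg_pm P hV iF Own.rF hiF rfl s2 (hN2 _ (by simp [hL])) p0.F hpF
    (by simp [hs2, hs1, hF])
  set pa : Ph := ⟨0, P.cval iD, P.cval iF⟩ with hpa
  have e3 : Function.update s2 Own.rF (Z [] (oh P.N (P.cval iF))) = setPh P pa s := rfl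
  rw [e3] at h3
  have hN3 : Need P (setPh P pa s) L := hN.setPh_work_pm _
  have hpalt : pa.lt P.N := ⟨hNpos, hV.cval_lt iD, hV.cval_lt iF⟩
  -- step 4
  have h4 := stageX_spec P hV tG tR E1 E2 E3 hGR hE1 hE2 hE3 (setPh P pa s)
    (hN3.mono (by simp [hL])) pa hpalt (hasPh_setPh_y P pa s) [] [] [] blk hblk
    (by
      rw [setPh_of_ne_y P _ _ (by decide) (by decide) (by decide), hB, hGRb, List.append_nil])
    (by rw [setPh_of_ne_y P _ _ (by decide) (by decide) (by decide), hU])
  rw [hGRb] at h4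
  simp only [List.nil_append] at h4
  set xo := xOut P (P.cval E1) (P.cval E2) (P.cval E3) blk pa (P.uval tR) (P.uval tG) with hxo
  set pb := pa.rows P.N P.b (P.cval E1) (P.cval E2) (P.cval E3) (P.uval tG * P.uval tR) with hpb
  have hpblt : pb.lt P.N := Ph.rows_lt hNpos hpalt _
  set sB := Function.update (Function.update s Own.Bk (Z (bits (cat blk 0 P.N)) [])) Own.U
    (Z (bits xo) []) with hsB
  have e4 : setPh P pb (Function.update (Function.update (setPh P pa s) Own.Bk
      (Z (bits (cat blk 0 P.N)) [])) Own.U (Z (bits xo) [])) = setPh P pb sB := by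
    rw [← setPh_update_y P _ _ (by decide) (by decide) (by decide),
      ← setPh_update_y P _ _ (by decide) (by decide) (by decide), setPh_setPh_y]
  rw [e4] at h4
  have hNB : Need P sB L := (hN.update_work_pm rfl rfl _).update_work_pm rfl rfl _
  have hN4 : Need P (setPh P pb sB) L := hNB.setPh_work_pm _
  -- steps 5, 6
  have h5 := loadReg_pm P hV Own.cZ Own.rS rfl rfl (setPh P pb sB) (hN4 _ (by simp [hL]))
    pb.S hpblt.1 (setPh_rS_y _ _ _)
  set s5 := Function.update (setPh P pb sB) Own.rS (Z [] (oh P.N (P.cval Own.cZ))) with hs5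
  have hN5 : Need P s5 L := hN4.update_work_pm rfl rfl _
  have h6 := loadReg_pm P hV Own.cZ Own.rF rfl rfl s5 (hN5 _ (by simp [hL]))
    pb.F hpblt.2.2 (by rw [hs5, Function.update_of_ne (by decide), setPh_rF_y])
  set pc : Ph := ⟨0, pb.D, 0⟩ with hpc
  have e6 : Function.update s5 Own.rF (Z [] (oh P.N (P.cval Own.cZ))) = setPh P pc sB := by
    funext i
    by_cases g1 : i = Own.rS
    · subst g1; rw [setPh_rS_y, Function.update_of_ne (by decide), hs5, Function.update_self]
      rfl
    · by_cases g2 : i = Own.rD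
      · subst g2
        rw [setPh_rD_y, Function.update_of_ne (by decide), hs5,
          Function.update_of_ne (by decide), setPh_rD_y]
      · by_cases g3 : i = Own.rF
        · subst g3; rw [setPh_rF_y, Function.update_self]; rfl
        · rw [Function.update_of_ne g3, hs5, Function.update_of_ne g1,
            setPh_of_ne_y P _ _ g1 g2 g3, setPh_of_ne_y P _ _ g1 g2 g3]
  rw [e6] at h6
  have hpclt : pc.lt P.N := ⟨hNpos, hpblt.2.1, hNpos⟩
  have hN6 : Need P (setPh P pc sB) L := hNB.setPh_work_pm _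
  -- step 7
  have h7 := stageY_spec P hV tl ts1 E2y htl hts1 hE2y (setPh P pc sB)
    (hN6.mono (by simp [hL])) pc hpclt (hasPh_setPh_y P pc sB) []
    (by
      rw [setPh_of_ne_y P _ _ (by decide) (by decide) (by decide), hsB,
        Function.update_of_ne (by decide), Function.update_of_ne (by decide), hVt])
  simp only [List.nil_append] at h7
  rw [yOut_congr_pm P (P.cval E2y) (P.uval ts1) pc ⟨0, 0, 0⟩ rfl rfl] at h7
  set yo := yOut P (P.cval E2y) (P.uval ts1) ⟨0, 0, 0⟩ (3 * P.uval tl) with hyo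
  set p1 := pc.yrows P.N (P.cval E2y) (3 * P.uval tl) with hp1
  have e7 : setPh P p1 (Function.update (setPh P pc sB) Own.V (Z (bits yo) [])) =
      setPh P p1 (Function.update sB Own.V (Z (bits yo) [])) := by
    rw [← setPh_update_y P _ _ (by decide) (by decide) (by decide), setPh_setPh_y]
  rw [e7] at h7
  -- step 8
  have hxl : xo.length = 4 * (P.N * P.w) := by
    rw [hxo, xOut_length P hV _ _ _ blk hblk pa hpalt]
    congr 1
    rw [← hGRb]
    ring
  have hyl : yo.length = 3 * P.uval tl * ((P.uval ts1 + 1) * P.w) :=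
    yOut_length P hV _ _ _ ⟨hNpos, hNpos, hNpos⟩ _
  have hle : yo.length ≤ xo.length := by
    rw [hxl, hyl]
    calc 3 * P.uval tl * ((P.uval ts1 + 1) * P.w)
        = (3 * (P.uval tl * (P.uval ts1 + 1))) * P.w := by ring
      _ ≤ (4 * P.N) * P.w := Nat.mul_le_mul_right _ hlen
      _ = 4 * (P.N * P.w) := by ring
  have h8 := padSame_spec (setPh P p1 (Function.update sB Own.V (Z (bits yo) []))) xo yo hle
    (by
      rw [setPh_of_ne_y P _ _ (by decide) (by decide) (by decide),
        Function.update_of_ne (by decide), hsB, Function.update_self])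
    (by rw [setPh_of_ne_y P _ _ (by decide) (by decide) (by decide), Function.update_self])
  rw [← setPh_update_y P _ _ (by decide) (by decide) (by decide), Function.update_idem, hxl,
    hyl] at h8
  refine ⟨p1, Ph.yrows_lt hNpos hpclt _, ?_⟩
  have hall := seq_sruns h1 (seq_sruns h2 (seq_sruns h3 (seq_sruns h4 (seq_sruns h5
    (seq_sruns h6 (seq_sruns h7 h8))))))
  refine Prog.SRuns.mono hall ?_
  simp only [cPreMul]
  omega

end Vale.Agent.P338.TM
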