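import Vale.Agent.P338.TM.Progs3
import Vale.Agent.P338.TM.SpecPreMul
import Vale.Agent.P338.TM.SpecPostMul
import Vale.Agent.P338.TM.MathMain

namespace Vale.Agent.P338.TM

open Vale.Agent.P338

theorem lbits_length_cv (n z : ℕ) : (lbits n z).length = n := by simp [lbits]

theorem isConst_mem_allPar_cv (x : Own) (hx : x.isConst = true) : x ∈ allPar := by
  cases x <;> first | (exact Bool.noConfusion hx) | (simp [allPar])

section

variable {Γ : Type} [TapeAlpha Γ]

/-- The state after `preMul`. -/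
def cvS1 (P : Par) (p : Ph) (s : St Own Γ) (z1 z2 z3 : Zip Γ) : St Own Γ :=
  setPh P p (Function.update (Function.update (Function.update s Own.Bk z1) Own.U z2) Own.V z3)

/-- The state after `mulA`. -/
def cvS2 (P : Par) (p : Ph) (s : St Own Γ) (z1 z2 z3 z4 z5 z6 : Zip Γ) : St Own Γ :=
  Function.update (Function.update (Function.update (cvS1 P p s z1 z2 z3) Own.U z4) Own.V z5)
    Own.Pd z6

theorem cvS1_of_ne (P : Par) (p : Ph) (s : St Own Γ) (z1 z2 z3 : Zip Γ) {x : Own}
    (h1 : x ≠ Own.rS) (h2 : x ≠ Own.rD) (h3 : x ≠ Own.rF) (h4 : x ≠ Own.Bk) (h5 : x ≠ Own.U)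
    (h6 : x ≠ Own.V) : cvS1 P p s z1 z2 z3 x = s x := by
  rw [cvS1, setPh_of_ne_y P _ _ h1 h2 h3, Function.update_of_ne h6, Function.update_of_ne h5,
    Function.update_of_ne h4]

theorem cvS1_U (P : Par) (p : Ph) (s : St Own Γ) (z1 z2 z3 : Zip Γ) :
    cvS1 P p s z1 z2 z3 Own.U = z2 := by
  rw [cvS1, setPh_of_ne_y P _ _ (by decide) (by decide) (by decide),
    Function.update_of_ne (by decide), Function.update_self]

theorem cvS1_V (P : Par) (p : Ph) (s : St Own Γ) (z1 z2 z3 : Zip Γ) :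
    cvS1 P p s z1 z2 z3 Own.V = z3 := by
  rw [cvS1, setPh_of_ne_y P _ _ (by decide) (by decide) (by decide), Function.update_self]

theorem cvS1_Bk (P : Par) (p : Ph) (s : St Own Γ) (z1 z2 z3 : Zip Γ) :
    cvS1 P p s z1 z2 z3 Own.Bk = z1 := by
  rw [cvS1, setPh_of_ne_y P _ _ (by decide) (by decide) (by decide),
    Function.update_of_ne (by decide), Function.update_of_ne (by decide), Function.update_self]

theorem cvS2_of_ne (P : Par) (p : Ph) (s : St Own Γ) (z1 z2 z3 z4 z5 z6 : Zip Γ) {x : Own}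
    (h1 : x ≠ Own.rS) (h2 : x ≠ Own.rD) (h3 : x ≠ Own.rF) (h4 : x ≠ Own.Bk) (h5 : x ≠ Own.U)
    (h6 : x ≠ Own.V) (h7 : x ≠ Own.Pd) : cvS2 P p s z1 z2 z3 z4 z5 z6 x = s x := by
  rw [cvS2, Function.update_of_ne h7, Function.update_of_ne h6, Function.update_of_ne h5,
    cvS1_of_ne P p s z1 z2 z3 h1 h2 h3 h4 h5 h6]

theorem cvS2_U (P : Par) (p : Ph) (s : St Own Γ) (z1 z2 z3 z4 z5 z6 : Zip Γ) :
    cvS2 P p s z1 z2 z3 z4 z5 z6 Own.U = z4 := by
  rw [cvS2, Function.update_of_ne (by decide), Function.update_of_ne (by decide),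
    Function.update_self]

theorem cvS2_V (P : Par) (p : Ph) (s : St Own Γ) (z1 z2 z3 z4 z5 z6 : Zip Γ) :
    cvS2 P p s z1 z2 z3 z4 z5 z6 Own.V = z5 := by
  rw [cvS2, Function.update_of_ne (by decide), Function.update_self]

theorem cvS2_Pd (P : Par) (p : Ph) (s : St Own Γ) (z1 z2 z3 z4 z5 z6 : Zip Γ) :
    cvS2 P p s z1 z2 z3 z4 z5 z6 Own.Pd = z6 := by
  rw [cvS2, Function.update_self]

theorem cvS2_Bk (P : Par) (p : Ph) (s : St Own Γ) (z1 z2 z3 z4 z5 z6 : Zip Γ) :
    cvS2 P p s z1 z2 z3 z4 z5 z6 Own.Bk = z1 := by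
  rw [cvS2, Function.update_of_ne (by decide), Function.update_of_ne (by decide),
    Function.update_of_ne (by decide), cvS1_Bk]

theorem cvS2_need (P : Par) (p : Ph) (s : St Own Γ) (z1 z2 z3 z4 z5 z6 : Zip Γ) (l : List Own)
    (h : Need P s l) : Need P (cvS2 P p s z1 z2 z3 z4 z5 z6) l := by
  have a1 : Need P (cvS1 P p s z1 z2 z3) l :=
    (((h.update_work_pm rfl rfl _).update_work_pm rfl rfl _).update_work_pm rfl rfl
      _).setPh_work_pm _
  exact ((a1.update_work_pm rfl rfl _).update_work_pm rfl rfl _).update_work_pm rfl rfl _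

/-- The state at the end. -/
theorem cv_final (P : Par) (p : Ph) (s : St Own Γ) (z1 z2 z3 z4 z5 z6 z7 : Zip Γ)
    (hU : s Own.U = Z [] []) (hV : s Own.V = Z [] []) (hP : s Own.Pd = Z [] []) :
    Function.update (Function.update (Function.update (Function.update
      (cvS2 P p s z1 z2 z3 z4 z5 z6) Own.U (Z [] [])) Own.V (Z [] [])) Own.Pd (Z [] [])) Own.Bk z7
      = setPh P p (Function.update s Own.Bk z7) := by
  funext i
  by_cases g4 : i = Own.Bk
  · subst g4
    rw [Function.update_self, setPh_of_ne_y P _ _ (by decide) (by decide) (by decide),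
      Function.update_self]
  rw [Function.update_of_ne g4]
  by_cases g7 : i = Own.Pd
  · subst g7
    rw [Function.update_self, setPh_of_ne_y P _ _ (by decide) (by decide) (by decide),
      Function.update_of_ne (by decide), hP]
  rw [Function.update_of_ne g7]
  by_cases g6 : i = Own.V
  · subst g6
    rw [Function.update_self, setPh_of_ne_y P _ _ (by decide) (by decide) (by decide),
      Function.update_of_ne (by decide), hV]
  rw [Function.update_of_ne g6]
  by_cases g5 : i = Own.U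
  · subst g5
    rw [Function.update_self, setPh_of_ne_y P _ _ (by decide) (by decide) (by decide),
      Function.update_of_ne (by decide), hU]
  rw [Function.update_of_ne g5, cvS2, Function.update_of_ne g7, Function.update_of_ne g6,
    Function.update_of_ne g5, cvS1]
  by_cases g1 : i = Own.rS
  · subst g1; rw [setPh_rS_y, setPh_rS_y]
  by_cases g2 : i = Own.rD
  · subst g2; rw [setPh_rD_y, setPh_rD_y]
  by_cases g3 : i = Own.rF
  · subst g3; rw [setPh_rF_y, setPh_rF_y]
  rw [setPh_of_ne_y P _ _ g1 g2 g3, setPh_of_ne_y P _ _ g1 g2 g3, Function.update_of_ne g6,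
    Function.update_of_ne g5, Function.update_of_ne g4, Function.update_of_ne g4]

theorem cv_need (P : Par) (s : St Own Γ) (hN : Need P s allPar)
    (tG tR E1 E2 E3 iD iF tl ts1 E2y : Own)
    (hGR : LoopPair tG tR) (hE1 : E1.isConst = true) (hE2 : E2.isConst = true)
    (hE3 : E3.isConst = true) (hiD : iD.isConst = true) (hiF : iF.isConst = true)
    (htl : tl = Own.tN ∨ tl = Own.ta ∨ tl = Own.tb)
    (hts1 : ts1 = Own.t0 ∨ ts1 = Own.tb1) (hE2y : E2y.isConst = true) :
    Need P s [tG, tR, Own.tb, Own.tg, Own.tm, E1, E2, E3, iD, iF, tl, ts1, E2y, Own.cZ] := by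
  have hGm : tG ∈ allPar ∧ tR ∈ allPar := by
    rcases hGR with ⟨rfl, rfl⟩ | ⟨rfl, rfl⟩ <;> simp [allPar]
  have htlm : tl ∈ allPar := by
    rcases htl with rfl | rfl | rfl <;> simp [allPar]
  have hts1m : ts1 ∈ allPar := by
    rcases hts1 with rfl | rfl <;> simp [allPar]
  apply hN.mono
  intro x hx
  simp only [List.mem_cons, List.not_mem_nil, or_false] at hx
  rcases hx with rfl | rfl | rfl | rfl | rfl | rfl | rfl | rfl | rfl | rfl | rfl | rfl | rfl | rfl
  · exact hGm.1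
  · exact hGm.2
  · simp [allPar]
  · simp [allPar]
  · simp [allPar]
  · exact isConst_mem_allPar_cv _ hE1
  · exact isConst_mem_allPar_cv _ hE2
  · exact isConst_mem_allPar_cv _ hE3
  · exact isConst_mem_allPar_cv _ hiD
  · exact isConst_mem_allPar_cv _ hiF
  · exact htlm
  · exact hts1m
  · exact isConst_mem_allPar_cv _ hE2y
  · simp [allPar]

theorem cv_clean (s : St Own Γ) (hC : Clean (Function.update s Own.Bk (Z [] []))) :
    s Own.U = Z [] [] ∧ s Own.V = Z [] [] ∧ s Own.Pd = Z [] [] ∧ s Own.T0 = Z [] [] ∧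
    s Own.T1 = Z [] [] ∧ s Own.T2 = Z [] [] ∧ s Own.T3 = Z [] [] ∧ s Own.clk = Z [] [] := by
  have h : ∀ x ∈ [Own.Bk, Own.U, Own.V, Own.Pd, Own.T0, Own.T1, Own.T2, Own.T3, Own.W, Own.clk],
      x ≠ Own.Bk → s x = Z [] [] := by
    intro x hx hne
    have h1 := hC x hx
    rwa [Function.update_of_ne hne] at h1
  exact ⟨h _ (by simp) (by decide), h _ (by simp) (by decide), h _ (by simp) (by decide),
    h _ (by simp) (by decide), h _ (by simp) (by decide), h _ (by simp) (by decide),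
    h _ (by simp) (by decide), h _ (by simp) (by decide)⟩

end

theorem cv_lengths (P : Par) (hV : P.Valid) (tG tR E1 E2 E3 iD iF tl ts1 E2y : Own)
    (hGR : LoopPair tG tR) (hlen : 3 * (P.uval tl * (P.uval ts1 + 1)) ≤ 4 * P.N)
    (hNpos : 0 < P.N) (blk : ℕ → List Bool) (hblk : ∀ j, (blk j).length = 2 * P.m + 2) :
    (xOut P (P.cval E1) (P.cval E2) (P.cval E3) blk
            ⟨0, P.cval iD, P.cval iF⟩ (P.uval tR) (P.uval tG)).length = 4 * (P.N * P.w) ∧
    (yOut P (P.cval E2y) (P.uval ts1) ⟨0, 0, 0⟩ (3 * P.uval tl) ++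
            zs (4 * (P.N * P.w) - 3 * P.uval tl * ((P.uval ts1 + 1) * P.w))).length
      = 4 * (P.N * P.w) := by
  have hGRb : P.uval tG * (P.uval tR * P.b) = P.N := by
    rcases hGR with ⟨rfl, rfl⟩ | ⟨rfl, rfl⟩ <;> simp [Par.uval, Par.N]
  constructor
  · rw [xOut_length P hV _ _ _ blk hblk _ ⟨hNpos, hV.cval_lt iD, hV.cval_lt iF⟩]
    congr 1
    rw [← hGRb]
    ring
  · rw [List.length_append, yOut_length P hV _ _ _ ⟨hNpos, hNpos, hNpos⟩ _, zs_length_pm]
    have : 3 * P.uval tl * ((P.uval ts1 + 1) * P.w) ≤ 4 * (P.N * P.w) := by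
      calc 3 * P.uval tl * ((P.uval ts1 + 1) * P.w)
          = (3 * (P.uval tl * (P.uval ts1 + 1))) * P.w := by ring
        _ ≤ (4 * P.N) * P.w := Nat.mul_le_mul_right _ hlen
        _ = 4 * (P.N * P.w) := by ring
    omega

variable {k : ℕ} [NeZero k]

/-- One stage with a multiplication. Uses `preMul_spec`, `mulA_spec`, `postMul_spec`,
`liftO_sruns`, `cat_slices`, `xOut_length`, `yOut_length`. -/
theorem conv_spec (A : Machine k) (hA : A.Multiplies) (P : Par) (hV : P.Valid)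
    (tG tR E1 E2 E3 iD iF tl ts1 E2y : Own)
    (hGR : LoopPair tG tR) (hE1 : E1.isConst = true) (hE2 : E2.isConst = true)
    (hE3 : E3.isConst = true) (hiD : iD.isConst = true) (hiF : iF.isConst = true)
    (htl : tl = Own.tN ∨ tl = Own.ta ∨ tl = Own.tb)
    (hts1 : ts1 = Own.t0 ∨ ts1 = Own.tb1) (hE2y : E2y.isConst = true)
    (hlen : 3 * (P.uval tl * (P.uval ts1 + 1)) ≤ 4 * P.N)
    (sO : St Own (GA A)) (hN : Need P sO allPar) (hC : Clean (Function.update sO Own.Bk (Z [] [])))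
    (p0 : Ph) (hp0 : p0.lt P.N) (hph : HasPh P p0 sO)
    (blk : ℕ → List Bool) (hblk : ∀ j, (blk j).length = 2 * P.m + 2)
    (hB : sO Own.Bk = Z [] (bits (cat blk 0 P.N))) :
    ∃ p1 : Ph, p1.lt P.N ∧
    (conv A tG tR E1 E2 E3 iD iF tl ts1 E2y).SRuns (glue blankA sO)
      (cConv P (A.worstTime (4 * (P.N * P.w))) (P.uval tR) (P.uval tG) (P.uval tl) (P.uval ts1))
      (glue blankA (setPh P p1 (Function.update sO Own.Bk
        (Z [] (bits (cat (convModel P (P.cval E1) (P.cval E2) (P.cval E3) (P.cval iD) (P.cval iF)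
          (P.uval tR) (P.uval tG) (P.uval tl) (P.uval ts1) (P.cval E2y) blk) 0 P.N)))))) true := by
  have hNpos : 0 < P.N := lt_of_le_of_lt (Nat.zero_le _) hp0.1
  have hwpos : 0 < P.w := by unfold Par.w; omega
  obtain ⟨cU, cV, cP, c0, c1, c2, c3, cc⟩ := cv_clean sO hC
  have hN1 := cv_need P sO hN tG tR E1 E2 E3 iD iF tl ts1 E2y hGR hE1 hE2 hE3 hiD hiF htl hts1 hE2y
  obtain ⟨p1, hp1, r1⟩ := preMul_spec P hV tG tR E1 E2 E3 iD iF tl ts1 E2y hGR hE1 hE2 hE3 hiD hiF
    htl hts1 hE2y hlen sO hN1 p0 hp0 hph blk hblk hB cU cV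
  refine ⟨p1, hp1, ?_⟩
  obtain ⟨hul, hvl⟩ := cv_lengths P hV tG tR E1 E2 E3 iD iF tl ts1 E2y hGR hlen hNpos blk hblk
  unfold convModel
  generalize xOut P (P.cval E1) (P.cval E2) (P.cval E3) blk
            ⟨0, P.cval iD, P.cval iF⟩ (P.uval tR) (P.uval tG) = u at r1 hul ⊢
  generalize yOut P (P.cval E2y) (P.uval ts1) ⟨0, 0, 0⟩ (3 * P.uval tl) ++
            zs (4 * (P.N * P.w) - 3 * P.uval tl * ((P.uval ts1 + 1) * P.w)) = v at r1 hvl ⊢
  have hbkl : (cat blk 0 P.N).length = P.N * (2 * P.m + 2) :=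
    cat_length_pm _ _ _ _ (fun _ => hblk _)
  generalize cat blk 0 P.N = bk at r1 hbkl
  have hn1 : 1 ≤ 4 * (P.N * P.w) := by
    have : 0 < P.N * P.w := Nat.mul_pos hNpos hwpos
    omega
  change (preMul tG tR E1 E2 E3 iD iF tl ts1 E2y : Prog Own (GA A)).SRuns sO _
    (cvS1 P p1 sO (Z (bits bk) []) (Z (bits u) []) (Z (bits v) [])) true at r1
  have r2 := mulA_spec A hA (cvS1 P p1 sO (Z (bits bk) []) (Z (bits u) []) (Z (bits v) []))
    (4 * (P.N * P.w)) hn1 u v hul hvl (cvS1_U _ _ _ _ _ _) (cvS1_V _ _ _ _ _ _)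
    (by rw [cvS1_of_ne P _ _ _ _ _ (by decide) (by decide) (by decide) (by decide) (by decide)
      (by decide), cP])
    (by rw [cvS1_of_ne P _ _ _ _ _ (by decide) (by decide) (by decide) (by decide) (by decide)
      (by decide), cc])
  have hprl : (lbits (2 * (4 * (P.N * P.w))) (lval u * lval v)).length = 8 * P.N * P.w := by
    rw [lbits_length_cv]
    ring
  generalize lbits (2 * (4 * (P.N * P.w))) (lval u * lval v) = pr at r2 hprl ⊢
  change (mulA A).SRuns _ _ (glue blankA (cvS2 P p1 sO (Z (bits bk) []) (Z (bits u) [])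
    (Z (bits v) []) (Z [] (bits u)) (Z [] (bits v)) (Z (bits pr) []))) true at r2
  have hN2 : Need P sO [tG, tR, Own.tb, Own.tm] := hN1.mono (by
      intro x hx
      simp only [List.mem_cons, List.not_mem_nil, or_false] at hx ⊢
      tauto)
  have r3 := postMul_spec P tG tR hGR (cvS2 P p1 sO (Z (bits bk) []) (Z (bits u) [])
    (Z (bits v) []) (Z [] (bits u)) (Z [] (bits v)) (Z (bits pr) []))
    (cvS2_need P _ _ _ _ _ _ _ _ _ hN2) u v bk hul hvl hbkl (slices P.w pr)
    (slices_length _ _) (cvS2_U _ _ _ _ _ _ _ _ _) (cvS2_V _ _ _ _ _ _ _ _ _)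
    (cvS2_Bk _ _ _ _ _ _ _ _ _)
    (by rw [cat_slices P.w (8 * P.N) pr hprl, cvS2_Pd])
    (by rw [cvS2_of_ne P _ _ _ _ _ _ _ _ (by decide) (by decide) (by decide) (by decide)
      (by decide) (by decide) (by decide), c0])
    (by rw [cvS2_of_ne P _ _ _ _ _ _ _ _ (by decide) (by decide) (by decide) (by decide)
      (by decide) (by decide) (by decide), c1])
    (by rw [cvS2_of_ne P _ _ _ _ _ _ _ _ (by decide) (by decide) (by decide) (by decide)
      (by decide) (by decide) (by decide), c2])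
    (by rw [cvS2_of_ne P _ _ _ _ _ _ _ _ (by decide) (by decide) (by decide) (by decide)
      (by decide) (by decide) (by decide), c3])
  rw [cv_final P p1 sO _ _ _ _ _ _ _ cU cV cP] at r3
  rw [cat_slices (2 * P.m + 2) P.N _ (by unfold sum4; rw [lbits_length_cv])]
  have hall := seq_sruns (liftO_sruns r1 (blankA : St (Fin k) (GA A)))
    (seq_sruns r2 (liftO_sruns r3 (blankA : St (Fin k) (GA A))))
  refine Prog.SRuns.mono hall ?_
  unfold cConv
  omega

end Vale.Agent.P338.TM
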