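import Vale.Agent.P338.TM.SpecZseg
import Vale.Agent.P338.TM.Model3

namespace Vale.Agent.P338.TM

open Vale.Agent.P338

variable {Γ : Type} [TapeAlpha Γ]

theorem dec_lend_notMem_bits (w : List Bool) : (lend : Γ) ∉ (bits w : List Γ) := by
  intro h
  obtain ⟨b, _, hb⟩ := List.mem_map.1 h
  exact TapeAlpha.bit_ne_lend b hb

theorem dec_blank_notMem_bits (w : List Bool) : (blank : Γ) ∉ (bits w : List Γ) := by
  intro h
  obtain ⟨b, _, hb⟩ := List.mem_map.1 h
  exact TapeAlpha.bit_ne_blank b hb

theorem dec_bits_append (a b : List Bool) : (bits (a ++ b) : List Γ) = bits a ++ bits b := by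
  simp [bits]

theorem dec_bits_length (a : List Bool) : (bits a : List Γ).length = a.length := by
  simp [bits]

/-- Moving right over a word. -/
theorem dec_mvs_spec {ι : Type} [DecidableEq ι] (x : ι) (s : St ι Γ) (w : List Γ) (d t : List Γ) :
    (rep w.length (mv x Move.right)).SRuns (Function.update s x (Z d (w ++ t))) (2 * w.length)
      (Function.update s x (Z (d ++ w) t)) true := by
  induction w generalizing d with
  | nil => simpa [rep] using skip_sruns (Function.update s x (Z d t))
  | cons y w ih =>
    have h1 := mv_right_update x s d y (w ++ t)
    have h2 := ih (d ++ [y])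
    have h3 := seq_sruns h1 h2
    rw [List.append_assoc, List.singleton_append] at h3
    refine Prog.SRuns.mono h3 ?_
    simp only [List.length_cons]
    omega

theorem decBlock_spec (P : Par) (s : St Own Γ) (hN : Need P s [Own.tm, Own.te])
    (dB tB dY : List Γ) (blk u : List Bool) (hblk : blk.length = 2 * P.m + 2)
    (hu : u.length = P.e) (hdec : Decodes blk u)
    (hB : s Own.Bk = Z dB (bits blk ++ tB)) (hW : s Own.W = Z [] []) (hY : s Own.Y = Z dY []) :
    (decBlock : Prog Own Γ).SRuns s (cDecBlock P)
      (Function.update (Function.update s Own.Bk (Z (dB ++ bits blk) tB)) Own.Y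
        (Z (dY ++ bits u) [])) true := by
  obtain ⟨g3, ν, rest, hg3, hdec⟩ := hdec
  have he : s Own.te = Z [] (un P.e) := (hN Own.te (by simp)).1 rfl
  set base : St Own Γ := Function.update s Own.Bk (Z (dB ++ bits blk) tB) with hbase
  have hbY : base Own.Y = Z dY [] := by
    rw [hbase, Function.update_of_ne (by decide)]; exact hY
  have hbW : base Own.W = Z [] [] := by
    rw [hbase, Function.update_of_ne (by decide)]; exact hW
  have hbe : base Own.te = Z [] (un P.e) := by
    rw [hbase, Function.update_of_ne (by decide)]; exact he
  -- the pieces of the block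
  have hlen : 3 + ν + 4 + u.length + rest.length = 2 * P.m + 2 := by
    rw [← hblk, hdec]
    simp [os, hg3]
    omega
  have hBB : (bits blk : List Γ) = bits g3 ++ (List.replicate ν (bit true) ++
      (bits [false, false, false, true] ++ (bits u ++ bits rest))) := by
    rw [hdec]
    simp [bits, os]
  -- step 1
  have r1 := cpBlk_spec P Own.Bk Own.W (by decide) (by decide) (by decide) s
    (hN.mono (by simp)) dB (bits blk) tB [] (by rw [dec_bits_length, hblk]) hB hW
  rw [List.nil_append, ← hbase] at r1
  -- step 2
  have r2 := rewind_spec Own.W (Function.update base Own.W (Z (bits blk) [])) (bits blk) []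
    (Function.update_self _ _ _) (dec_lend_notMem_bits blk) (by simp)
  rw [Function.update_idem, List.append_nil, dec_bits_length, hblk] at r2
  -- step 3
  have r3 := dec_mvs_spec Own.W base (bits g3) [] (List.replicate ν (bit true) ++
      (bits [false, false, false, true] ++ (bits u ++ bits rest)))
  rw [← hBB, dec_bits_length, hg3, List.nil_append] at r3
  -- step 4
  have r4 := skipOnes_spec Own.W (Function.update base Own.W (Z (bits g3)
      (List.replicate ν (bit true) ++ (bits [false, false, false, true] ++ (bits u ++ bits rest)))))
    ν (bits g3) (bits [false, false, false, true] ++ (bits u ++ bits rest))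
    (by
      have h : (bit false : Γ) ≠ bit true := fun h => by
        have := TapeAlpha.bit_injective h
        simp at this
      simpa [bits] using h)
    (Function.update_self _ _ _)
  rw [Function.update_idem] at r4
  -- step 5
  have r5 := dec_mvs_spec Own.W base (bits [false, false, false, true])
    (bits g3 ++ List.replicate ν (bit true)) (bits u ++ bits rest)
  rw [dec_bits_length] at r5
  -- step 6
  have r6 := cpU_spec Own.te Own.W Own.Y (by decide) (by decide) (by decide)
    (Function.update base Own.W (Z (bits g3 ++ List.replicate ν (bit true) ++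
      bits [false, false, false, true]) (bits u ++ bits rest))) P.e
    (bits g3 ++ List.replicate ν (bit true) ++ bits [false, false, false, true])
    (bits u) (bits rest) dY [] (by rw [dec_bits_length, hu])
    (by rw [Function.update_of_ne (by decide)]; exact hbe)
    (Function.update_self _ _ _)
    (by rw [Function.update_of_ne (by decide)]; exact hbY)
  rw [Function.update_idem, List.drop_nil] at r6
  -- step 7
  have r7 := erase_spec Own.W
    (Function.update (Function.update base Own.W (Z (bits g3 ++ List.replicate ν (bit true) ++
      bits [false, false, false, true] ++ bits u) (bits rest))) Own.Y (Z (dY ++ bits u) []))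
    (bits g3 ++ List.replicate ν (bit true) ++ bits [false, false, false, true] ++ bits u)
    (bits rest)
    (by rw [Function.update_of_ne (by decide), Function.update_self])
    (by
      have e : (bits g3 ++ List.replicate ν (bit true) ++ bits [false, false, false, true]
          ++ bits u : List Γ) = bits (g3 ++ os ν ++ [false, false, false, true] ++ u) := by
        simp [bits, os]
      rw [e]
      exact dec_lend_notMem_bits _)
    (dec_lend_notMem_bits _) (dec_blank_notMem_bits _)
  have efin : Function.update (Function.update (Function.update base Own.W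
      (Z (bits g3 ++ List.replicate ν (bit true) ++
      bits [false, false, false, true] ++ bits u) (bits rest))) Own.Y (Z (dY ++ bits u) []))
      Own.W (Z [] []) = Function.update base Own.Y (Z (dY ++ bits u) []) := by
    rw [upd_swap_collapse base Own.W Own.Y (by decide), ← hbW, Function.update_eq_self]
  rw [efin] at r7
  have q := seq_sruns r1 (seq_sruns r2 (seq_sruns r3 (seq_sruns r4 (seq_sruns r5
    (seq_sruns r6 r7)))))
  refine Prog.SRuns.mono q ?_
  simp only [List.length_append, dec_bits_length, List.length_replicate, hg3, List.length_cons,
    List.length_nil, cDecBlock]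
  omega

theorem dec_cat_succ (f : ℕ → List Bool) (j : ℕ) : cat f 0 (j + 1) = cat f 0 j ++ f j := by
  simp [cat, List.range_succ, List.flatMap_append]

theorem dec_cat_cons (f : ℕ → List Bool) (j n : ℕ) :
    cat f j (n + 1) = f j ++ cat f (j + 1) n := by
  simp only [cat, List.range_succ_eq_map, List.flatMap_cons, List.flatMap_map, Nat.add_zero]
  congr 1
  apply List.flatMap_congr
  intro a _
  congr 1
  omega

theorem dec_cat_length (f : ℕ → List Bool) (L : ℕ) (hf : ∀ j, (f j).length = L) (n : ℕ) :
    (cat f 0 n).length = n * L := by
  induction n with
  | zero => simp [cat]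
  | succ n ih =>
    rw [dec_cat_succ, List.length_append, ih, hf]
    ring

/-- The state after `j` decoded blocks. -/
def decSt (P : Par) (s : St Own Γ) (dY : List Γ) (blk u : ℕ → List Bool) (j : ℕ) : St Own Γ :=
  Function.update (Function.update s Own.Bk
    (Z (bits (cat blk 0 j)) (bits (cat blk j (P.N - j))))) Own.Y (Z (dY ++ bits (cat u 0 j)) [])

theorem dec_step (P : Par) (s : St Own Γ) (hN : Need P s [Own.ta, Own.tb, Own.tm, Own.te])
    (dY : List Γ) (blk u : ℕ → List Bool) (hblk : ∀ j, (blk j).length = 2 * P.m + 2)
    (hu : ∀ j, (u j).length = P.e) (hdec : ∀ j, j < P.N → Decodes (blk j) (u j))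
    (hW : s Own.W = Z [] []) (j : ℕ) (hj : j < P.N) (C D : Zip Γ) :
    (decBlock : Prog Own Γ).SRuns
      (Function.update (Function.update (decSt P s dY blk u j) Own.ta C) Own.tb D) (cDecBlock P)
      (Function.update (Function.update (decSt P s dY blk u (j + 1)) Own.ta C) Own.tb D) true := by
  obtain ⟨n, hn⟩ : ∃ n, P.N - j = n + 1 := ⟨P.N - j - 1, by omega⟩
  have hn' : P.N - (j + 1) = n := by omega
  have h := decBlock_spec P
    (Function.update (Function.update (decSt P s dY blk u j) Own.ta C) Own.tb D)
    (by
      unfold decSt
      exact ((((hN.mono (by simp)).update (by simp) _).update (by simp) _).update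
        (by simp) _).update (by simp) _)
    (bits (cat blk 0 j)) (bits (cat blk (j + 1) n)) (dY ++ bits (cat u 0 j)) (blk j) (u j)
    (hblk j) (hu j) (hdec j hj)
    (by
      unfold decSt
      rw [Function.update_of_ne (by decide), Function.update_of_ne (by decide),
        Function.update_of_ne (by decide), Function.update_self, hn, dec_cat_cons,
        dec_bits_append])
    (by
      unfold decSt
      rw [Function.update_of_ne (by decide), Function.update_of_ne (by decide),
        Function.update_of_ne (by decide), Function.update_of_ne (by decide)]
      exact hW)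
    (by
      unfold decSt
      rw [Function.update_of_ne (by decide), Function.update_of_ne (by decide),
        Function.update_self])
  have e : Function.update (Function.update
      (Function.update (Function.update (decSt P s dY blk u j) Own.ta C) Own.tb D) Own.Bk
      (Z (bits (cat blk 0 j) ++ bits (blk j)) (bits (cat blk (j + 1) n)))) Own.Y
      (Z (dY ++ bits (cat u 0 j) ++ bits (u j)) [])
      = Function.update (Function.update (decSt P s dY blk u (j + 1)) Own.ta C) Own.tb D := by
    unfold decSt
    rw [hn', dec_cat_succ, dec_cat_succ, dec_bits_append, dec_bits_append, List.append_assoc]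
    funext i
    simp only [Function.update_apply]
    split_ifs <;> simp_all
  rw [e] at h
  exact h

theorem decMat_spec (P : Par) (s : St Own Γ) (hN : Need P s [Own.ta, Own.tb, Own.tm, Own.te])
    (dY : List Γ) (blk u : ℕ → List Bool) (hblk : ∀ j, (blk j).length = 2 * P.m + 2)
    (hu : ∀ j, (u j).length = P.e) (hdec : ∀ j, j < P.N → Decodes (blk j) (u j))
    (hB : s Own.Bk = Z [] (bits (cat blk 0 P.N))) (hW : s Own.W = Z [] []) (hY : s Own.Y = Z dY []) :
    (decMat : Prog Own Γ).SRuns s (cDecMat P)
      (Function.update (Function.update s Own.Bk (Z [] [])) Own.Y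
        (Z (dY ++ bits (cat u 0 P.N)) [])) true := by
  have ha : s Own.ta = Z [] (un P.a) := (hN Own.ta (by simp)).1 rfl
  have hb : s Own.tb = Z [] (un P.b) := (hN Own.tb (by simp)).1 rfl
  have inner : ∀ i, i < P.a → ∀ C : Zip Γ, (forU Own.tb decBlock : Prog Own Γ).SRuns
      (Function.update (decSt P s dY blk u (i * P.b)) Own.ta C) (P.b * (cDecBlock P + 6) + 6)
      (Function.update (decSt P s dY blk u ((i + 1) * P.b)) Own.ta C) true := by
    intro i hi C
    have h := forU_fun Own.tb (decBlock : Prog Own Γ) P.b (cDecBlock P)
      (fun k => Function.update (decSt P s dY blk u (i * P.b + k)) Own.ta C) (by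
        intro k hk
        refine ⟨true, ?_⟩
        have hj : i * P.b + k < P.N := by
          have : (i + 1) * P.b ≤ P.a * P.b := Nat.mul_le_mul_right _ hi
          have e : (i + 1) * P.b = i * P.b + P.b := by ring
          unfold Par.N
          omega
        exact dec_step P s hN dY blk u hblk hu hdec hW (i * P.b + k) hj C _)
    have hself : ∀ j, Function.update (Function.update (decSt P s dY blk u j) Own.ta C) Own.tb
        (Z [] (un P.b)) = Function.update (decSt P s dY blk u j) Own.ta C := by
      intro j
      have : (Function.update (decSt P s dY blk u j) Own.ta C) Own.tb = Z [] (un P.b) := by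
        unfold decSt
        rw [Function.update_of_ne (by decide), Function.update_of_ne (by decide),
          Function.update_of_ne (by decide)]
        exact hb
      rw [← this, Function.update_eq_self]
    simp only [hself, Nat.add_zero] at h
    have e : (i + 1) * P.b = i * P.b + P.b := by ring
    rw [e]
    exact h
  have outer := forU_fun Own.ta (forU Own.tb decBlock : Prog Own Γ) P.a
    (P.b * (cDecBlock P + 6) + 6) (fun i => decSt P s dY blk u (i * P.b))
    (fun i hi => ⟨true, inner i hi _⟩)
  have hself : ∀ j, Function.update (decSt P s dY blk u j) Own.ta (Z [] (un P.a))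
      = decSt P s dY blk u j := by
    intro j
    have : (decSt P s dY blk u j) Own.ta = Z [] (un P.a) := by
      unfold decSt
      rw [Function.update_of_ne (by decide), Function.update_of_ne (by decide)]
      exact ha
    rw [← this, Function.update_eq_self]
  simp only [hself] at outer
  have e0 : decSt P s dY blk u (0 * P.b) = s := by
    unfold decSt
    have e1 : (Z (bits (cat blk 0 (0 * P.b))) (bits (cat blk (0 * P.b) (P.N - 0 * P.b))) : Zip Γ)
        = s Own.Bk := by
      rw [hB]; simp [cat, bits]
    have e2 : (Z (dY ++ bits (cat u 0 (0 * P.b))) [] : Zip Γ) = s Own.Y := by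
      rw [hY]; simp [cat, bits]
    rw [e1, e2, Function.update_eq_self, Function.update_eq_self]
  rw [e0] at outer
  have hNN : P.a * P.b = P.N := rfl
  rw [hNN] at outer
  have r2 := erase_spec Own.Bk (decSt P s dY blk u P.N) (bits (cat blk 0 P.N)) []
    (by
      unfold decSt
      rw [Function.update_of_ne (by decide), Function.update_self]
      simp [cat, bits])
    (dec_lend_notMem_bits _) (by simp) (by simp)
  have efin : Function.update (decSt P s dY blk u P.N) Own.Bk (Z [] [])
      = Function.update (Function.update s Own.Bk (Z [] [])) Own.Y
        (Z (dY ++ bits (cat u 0 P.N)) []) := by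
    unfold decSt
    rw [upd_swap_collapse s Own.Bk Own.Y (by decide)]
  rw [efin, dec_bits_length, dec_cat_length blk _ hblk] at r2
  have q := seq_sruns outer r2
  refine Prog.SRuns.mono q ?_
  simp only [cDecMat, cLoop2, List.length_nil]
  omega

end Vale.Agent.P338.TM
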