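import Vale.Agent.P338.TM.SpecWrs
import Vale.Agent.P338.TM.Model3

namespace Vale.Agent.P338.TM

open Vale.Agent.P338

section generic

variable {ι Γ : Type} [TapeAlpha Γ] [DecidableEq ι]

/-- `k` times `mvU p x right` moves over `k * c` cells. -/
theorem rep_mvU_right_spec (p x : ι) (hpx : p ≠ x) (c k : ℕ) :
    ∀ (s : St ι Γ) (dx w tx : List Γ), w.length = k * c → s p = Z [] (un c) →
      s x = Z dx (w ++ tx) →
      (rep k (mvU p x Move.right)).SRuns s (k * (7 * c + 7))
        (Function.update s x (Z (dx ++ w) tx)) true := by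
  induction k with
  | zero =>
    intro s dx w tx hw _ hx
    have hw0 : w = [] := List.eq_nil_of_length_eq_zero (by simpa using hw)
    subst hw0
    have e : Function.update s x (Z (dx ++ []) tx) = s := by
      rw [List.append_nil]
      have : Z dx tx = s x := by rw [hx]; rfl
      rw [this, Function.update_eq_self]
    rw [e]
    simpa [rep] using skip_sruns s
  | succ k ih =>
    intro s dx w tx hw hp hx
    have hlen : c ≤ w.length := by
      rw [hw, Nat.succ_mul]; omega
    have h1 := mvU_right_spec p x hpx s c dx (w.take c) (w.drop c ++ tx)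
      (by rw [List.length_take]; omega) hp
      (by rw [hx, ← List.append_assoc, List.take_append_drop])
    have h2 := ih (Function.update s x (Z (dx ++ w.take c) (w.drop c ++ tx))) (dx ++ w.take c)
      (w.drop c) tx (by rw [List.length_drop, hw, Nat.succ_mul]; omega)
      (by rw [Function.update_of_ne hpx]; exact hp) (by rw [Function.update_self])
    rw [Function.update_idem, List.append_assoc, List.take_append_drop] at h2
    have h3 := seq_sruns h1 h2
    refine Prog.SRuns.mono h3 ?_
    have : (k + 1) * (7 * c + 7) = k * (7 * c + 7) + (7 * c + 7) := by ring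
    omega

/-- `k` times `cpU p x y` copies `k * c` cells. -/
theorem rep_cpU_spec (p x y : ι) (hpx : p ≠ x) (hpy : p ≠ y) (hxy : x ≠ y) (c k : ℕ) :
    ∀ (s : St ι Γ) (dx w tx dy : List Γ), w.length = k * c → s p = Z [] (un c) →
      s x = Z dx (w ++ tx) → s y = Z dy [] →
      (rep k (cpU p x y)).SRuns s (k * (7 * c + 7))
        (Function.update (Function.update s x (Z (dx ++ w) tx)) y (Z (dy ++ w) [])) true := by
  induction k with
  | zero =>
    intro s dx w tx dy hw _ hx hy
    have hw0 : w = [] := List.eq_nil_of_length_eq_zero (by simpa using hw)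
    subst hw0
    have e : Function.update (Function.update s x (Z (dx ++ []) tx)) y (Z (dy ++ []) []) = s := by
      rw [List.append_nil, List.append_nil]
      have h1 : Z dx tx = s x := by rw [hx]; rfl
      rw [h1, Function.update_eq_self, ← hy, Function.update_eq_self]
    rw [e]
    simpa [rep] using skip_sruns s
  | succ k ih =>
    intro s dx w tx dy hw hp hx hy
    have hlen : c ≤ w.length := by
      rw [hw, Nat.succ_mul]; omega
    have h1 := cpU_spec p x y hpx hpy hxy s c dx (w.take c) (w.drop c ++ tx) dy []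
      (by rw [List.length_take]; omega) hp
      (by rw [hx, ← List.append_assoc, List.take_append_drop]) hy
    rw [List.drop_nil] at h1
    have h2 := ih (Function.update (Function.update s x (Z (dx ++ w.take c) (w.drop c ++ tx))) y
        (Z (dy ++ w.take c) [])) (dx ++ w.take c)
      (w.drop c) tx (dy ++ w.take c) (by rw [List.length_drop, hw, Nat.succ_mul]; omega)
      (by rw [Function.update_of_ne hpy, Function.update_of_ne hpx]; exact hp)
      (by rw [Function.update_of_ne hxy, Function.update_self])
      (by rw [Function.update_self])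
    have e : Function.update (Function.update (Function.update (Function.update s x
          (Z (dx ++ w.take c) (w.drop c ++ tx))) y (Z (dy ++ w.take c) [])) x
          (Z (dx ++ w.take c ++ w.drop c) tx)) y (Z (dy ++ w.take c ++ w.drop c) [])
        = Function.update (Function.update s x (Z (dx ++ w) tx)) y (Z (dy ++ w) []) := by
      rw [List.append_assoc, List.append_assoc, List.take_append_drop]
      funext i
      by_cases hiy : i = y
      · subst hiy; simp
      · by_cases hix : i = x
        · subst hix; simp [Function.update_of_ne hiy]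
        · simp [Function.update_of_ne hiy, Function.update_of_ne hix]
    rw [e] at h2
    have h3 := seq_sruns h1 h2
    refine Prog.SRuns.mono h3 ?_
    have : (k + 1) * (7 * c + 7) = k * (7 * c + 7) + (7 * c + 7) := by ring
    omega

/-- `n` single moves to the right. -/
theorem rep_mv_right_spec (x : ι) (n : ℕ) :
    ∀ (s : St ι Γ) (dx w tx : List Γ), w.length = n → s x = Z dx (w ++ tx) →
      (rep n (mv x Move.right)).SRuns s (2 * n) (Function.update s x (Z (dx ++ w) tx)) true := by
  induction n with
  | zero =>
    intro s dx w tx hw hx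
    have hw0 : w = [] := List.eq_nil_of_length_eq_zero hw
    subst hw0
    have e : Function.update s x (Z (dx ++ []) tx) = s := by
      rw [List.append_nil]
      have : Z dx tx = s x := by rw [hx]; rfl
      rw [this, Function.update_eq_self]
    rw [e]
    simpa [rep] using skip_sruns s
  | succ n ih =>
    intro s dx w tx hw hx
    cases w with
    | nil => simp at hw
    | cons a w =>
      have h1 := prim_sruns (fun a => (Instr.nil : Instr ι Γ).set x (a x) Move.right) s
      have e1 : ((Instr.nil : Instr ι Γ).set x (sreads s x) Move.right).sapp s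
          = Function.update s x (Z (dx ++ [a]) (w ++ tx)) := by
        rw [Instr.sapp_set, Instr.sapp_nil, sreads_apply, hx]
        simp
      rw [e1] at h1
      have h2 := ih (Function.update s x (Z (dx ++ [a]) (w ++ tx))) (dx ++ [a]) w tx
        (by simpa using hw) (by rw [Function.update_self])
      rw [Function.update_idem, List.append_assoc, List.singleton_append] at h2
      have h3 := seq_sruns h1 h2
      refine Prog.SRuns.mono h3 ?_
      omega

end generic

variable {Γ : Type} [TapeAlpha Γ]

theorem skipSlot_spec (P : Par) (x : Own) (hx1 : x ≠ Own.tm) (s : St Own Γ)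
    (hN : Need P s [Own.tm]) (dx σ tx : List Γ) (hσ : σ.length = P.w)
    (hx : s x = Z dx (σ ++ tx)) :
    (skipSlot x : Prog Own Γ).SRuns s (cSkipSlot P) (Function.update s x (Z (dx ++ σ) tx)) true := by
  have hm : s Own.tm = Z [] (un P.m) := (hN Own.tm (by simp)).1 rfl
  have hw : P.w = 8 * P.m + 2 := rfl
  have h1 := rep_mvU_right_spec Own.tm x hx1.symm P.m 8 s dx (σ.take (8 * P.m))
    (σ.drop (8 * P.m) ++ tx) (by rw [List.length_take]; omega) hm
    (by rw [hx, ← List.append_assoc, List.take_append_drop])
  have h2 := rep_mv_right_spec x 2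
    (Function.update s x (Z (dx ++ σ.take (8 * P.m)) (σ.drop (8 * P.m) ++ tx)))
    (dx ++ σ.take (8 * P.m)) (σ.drop (8 * P.m)) tx (by rw [List.length_drop]; omega)
    (by rw [Function.update_self])
  rw [Function.update_idem, List.append_assoc, List.take_append_drop] at h2
  have h3 := seq_sruns h1 h2
  refine Prog.SRuns.mono h3 ?_
  simp only [cSkipSlot]
  omega

theorem demuxChunk_spec (P : Par) (x T : Own) (hx1 : x ≠ Own.tm) (hT1 : T ≠ Own.tm) (hxT : x ≠ T)
    (s : St Own Γ) (hm : s Own.tm = Z [] (un P.m)) (dx tx dT : List Γ) (c : List Bool)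
    (hc : c.length = 2 * P.m) (hx : s x = Z dx (bits c ++ tx)) (hT : s T = Z dT []) :
    (demuxChunk x T : Prog Own Γ).SRuns s (14 * P.m + 19)
      (Function.update (Function.update s x (Z (dx ++ bits c) tx)) T
        (Z (dT ++ bits (c ++ [false, false])) [])) true := by
  have h1 := rep_cpU_spec Own.tm x T hx1.symm hT1.symm hxT P.m 2 s dx (bits c) tx dT
    (by simp [bits, hc]) hm hx hT
  have h2 := wrs_spec T (bits [false, false])
    (Function.update (Function.update s x (Z (dx ++ bits c) tx)) T (Z (dT ++ bits c) []))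
    (dT ++ bits c) (by rw [Function.update_self])
  rw [Function.update_idem] at h2
  have e : dT ++ bits c ++ bits [false, false] = dT ++ (bits (c ++ [false, false]) : List Γ) := by
    simp [bits]
  rw [e] at h2
  have h3 := seq_sruns h1 h2
  refine Prog.SRuns.mono h3 ?_
  simp [bits]
  omega

/-- `x` is `Pd` or `U`. -/
theorem demuxSlot_spec (P : Par) (x : Own) (hx0 : x = Own.Pd ∨ x = Own.U) (s : St Own Γ)
    (hN : Need P s [Own.tm]) (dx tx : List Γ) (σ : List Bool) (hσ : σ.length = P.w)
    (hx : s x = Z dx (bits σ ++ tx)) (d0 d1 d2 d3 : List Γ)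
    (h0 : s Own.T0 = Z d0 []) (h1 : s Own.T1 = Z d1 []) (h2 : s Own.T2 = Z d2 [])
    (h3 : s Own.T3 = Z d3 []) :
    (demuxSlot x : Prog Own Γ).SRuns s (cDemuxSlot P)
      (Function.update (Function.update (Function.update (Function.update (Function.update s
        x (Z (dx ++ bits σ) tx))
        Own.T0 (Z (d0 ++ bits (chunk P 0 σ ++ [false, false])) []))
        Own.T1 (Z (d1 ++ bits (chunk P 1 σ ++ [false, false])) []))
        Own.T2 (Z (d2 ++ bits (chunk P 2 σ ++ [false, false])) []))
        Own.T3 (Z (d3 ++ bits (chunk P 3 σ ++ [false, false])) [])) true := by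
  have hm : s Own.tm = Z [] (un P.m) := (hN Own.tm (by simp)).1 rfl
  have hw : P.w = 8 * P.m + 2 := rfl
  have hxm : x ≠ Own.tm := by rcases hx0 with rfl | rfl <;> decide
  have hx_0 : x ≠ Own.T0 := by rcases hx0 with rfl | rfl <;> decide
  have hx_1 : x ≠ Own.T1 := by rcases hx0 with rfl | rfl <;> decide
  have hx_2 : x ≠ Own.T2 := by rcases hx0 with rfl | rfl <;> decide
  have hx_3 : x ≠ Own.T3 := by rcases hx0 with rfl | rfl <;> decide
  set c0 := chunk P 0 σ with hc0
  set c1 := chunk P 1 σ with hc1
  set c2 := chunk P 2 σ with hc2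
  set c3 := chunk P 3 σ with hc3
  set r := σ.drop (8 * P.m) with hr
  have l0 : c0.length = 2 * P.m := by simp [hc0, chunk]; omega
  have l1 : c1.length = 2 * P.m := by simp [hc1, chunk]; omega
  have l2 : c2.length = 2 * P.m := by simp [hc2, chunk]; omega
  have l3 : c3.length = 2 * P.m := by simp [hc3, chunk]; omega
  have lr : r.length = 2 := by simp [hr]; omega
  have hsplit : σ = c0 ++ (c1 ++ (c2 ++ (c3 ++ r))) := by
    have a3 : σ.drop (3 * (2 * P.m)) = c3 ++ r := by
      rw [hc3, hr, chunk]
      have : σ.drop (8 * P.m) = (σ.drop (3 * (2 * P.m))).drop (2 * P.m) := by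
        rw [List.drop_drop]; congr 1; ring
      rw [this, List.take_append_drop]
    have a2 : σ.drop (2 * (2 * P.m)) = c2 ++ (c3 ++ r) := by
      rw [← a3, hc2, chunk]
      have : σ.drop (3 * (2 * P.m)) = (σ.drop (2 * (2 * P.m))).drop (2 * P.m) := by
        rw [List.drop_drop]; congr 1; ring
      rw [this, List.take_append_drop]
    have a1 : σ.drop (1 * (2 * P.m)) = c1 ++ (c2 ++ (c3 ++ r)) := by
      rw [← a2, hc1, chunk]
      have : σ.drop (2 * (2 * P.m)) = (σ.drop (1 * (2 * P.m))).drop (2 * P.m) := by
        rw [List.drop_drop]; congr 1; ring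
      rw [this, List.take_append_drop]
    have a0 : σ.drop (0 * (2 * P.m)) = c0 ++ (c1 ++ (c2 ++ (c3 ++ r))) := by
      rw [← a1, hc0, chunk]
      have : σ.drop (1 * (2 * P.m)) = (σ.drop (0 * (2 * P.m))).drop (2 * P.m) := by
        rw [List.drop_drop]; congr 1; ring
      rw [this, List.take_append_drop]
    simpa using a0
  have hb : (bits σ : List Γ) = bits c0 ++ (bits c1 ++ (bits c2 ++ (bits c3 ++ bits r))) := by
    conv_lhs => rw [hsplit]
    simp [bits]
  rw [hb] at hx
  simp only [List.append_assoc] at hx
  -- chunk 0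
  have k0 := demuxChunk_spec P x Own.T0 hxm (by decide) hx_0 s hm dx
    (bits c1 ++ (bits c2 ++ (bits c3 ++ (bits r ++ tx)))) d0 c0 l0 hx h0
  set s0 := Function.update (Function.update s x (Z (dx ++ bits c0)
    (bits c1 ++ (bits c2 ++ (bits c3 ++ (bits r ++ tx)))))) Own.T0
    (Z (d0 ++ bits (c0 ++ [false, false])) []) with hs0
  have k1 := demuxChunk_spec P x Own.T1 hxm (by decide) hx_1 s0
    (by simp [hs0, hxm.symm, hm]) (dx ++ bits c0)
    (bits c2 ++ (bits c3 ++ (bits r ++ tx))) d1 c1 l1
    (by simp [hs0, hx_0]) (by simp [hs0, hx_1.symm, h1])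
  set s1 := Function.update (Function.update s0 x (Z (dx ++ bits c0 ++ bits c1)
    (bits c2 ++ (bits c3 ++ (bits r ++ tx))))) Own.T1
    (Z (d1 ++ bits (c1 ++ [false, false])) []) with hs1
  have k2 := demuxChunk_spec P x Own.T2 hxm (by decide) hx_2 s1
    (by simp [hs1, hs0, hxm.symm, hm]) (dx ++ bits c0 ++ bits c1)
    (bits c3 ++ (bits r ++ tx)) d2 c2 l2
    (by simp [hs1, hx_1]) (by simp [hs1, hs0, hx_2.symm, h2])
  set s2 := Function.update (Function.update s1 x (Z (dx ++ bits c0 ++ bits c1 ++ bits c2)
    (bits c3 ++ (bits r ++ tx)))) Own.T2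
    (Z (d2 ++ bits (c2 ++ [false, false])) []) with hs2
  have k3 := demuxChunk_spec P x Own.T3 hxm (by decide) hx_3 s2
    (by simp [hs2, hs1, hs0, hxm.symm, hm]) (dx ++ bits c0 ++ bits c1 ++ bits c2)
    (bits r ++ tx) d3 c3 l3
    (by simp [hs2, hx_2]) (by simp [hs2, hs1, hs0, hx_3.symm, h3])
  set s3 := Function.update (Function.update s2 x
    (Z (dx ++ bits c0 ++ bits c1 ++ bits c2 ++ bits c3) (bits r ++ tx))) Own.T3
    (Z (d3 ++ bits (c3 ++ [false, false])) []) with hs3
  have k4 := rep_mv_right_spec x 2 s3 (dx ++ bits c0 ++ bits c1 ++ bits c2 ++ bits c3) (bits r) tx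
    (by simp [bits, lr]) (by simp [hs3, hx_3])
  have hfin : Function.update s3 x (Z (dx ++ bits c0 ++ bits c1 ++ bits c2 ++ bits c3 ++ bits r) tx)
      = Function.update (Function.update (Function.update (Function.update (Function.update s
        x (Z (dx ++ (bits c0 ++ (bits c1 ++ (bits c2 ++ (bits c3 ++ bits r))))) tx))
        Own.T0 (Z (d0 ++ bits (c0 ++ [false, false])) []))
        Own.T1 (Z (d1 ++ bits (c1 ++ [false, false])) []))
        Own.T2 (Z (d2 ++ bits (c2 ++ [false, false])) []))
        Own.T3 (Z (d3 ++ bits (c3 ++ [false, false])) []) := by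
    funext i
    simp only [hs3, hs2, hs1, hs0, Function.update_apply, List.append_assoc]
    by_cases hix : i = x
    · subst hix; simp [hx_0, hx_1, hx_2, hx_3]
    · simp [hix]
  rw [hfin] at k4
  rw [hb]
  have hall := seq_sruns k0 (seq_sruns k1 (seq_sruns k2 (seq_sruns k3 k4)))
  refine Prog.SRuns.mono hall ?_
  simp only [cDemuxSlot]
  omega

end Vale.Agent.P338.TM
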