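import Vale.Agent.P338.TM.SpecEncEntry

namespace Vale.Agent.P338.TM

open Vale.Agent.P338

section generic

variable {ι Γ : Type} [TapeAlpha Γ] [DecidableEq ι]

/-- Rule for two nested `forU` loops: `a * b` rounds of the body. -/
theorem forU2_fun (p q : ι) (hpq : p ≠ q) (body : Prog ι Γ) (a b τ : ℕ) (G : ℕ → St ι Γ)
    (hbody : ∀ j, j < a * b → ∀ zp zq : Zip Γ, ∃ bb,
      body.SRuns (Function.update (Function.update (G j) p zp) q zq) τ
        (Function.update (Function.update (G (j + 1)) p zp) q zq) bb) :
    (forU p (forU q body)).SRuns
      (Function.update (Function.update (G 0) p (Z [] (un a))) q (Z [] (un b)))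
      (a * (b * (τ + 6) + 12) + 6)
      (Function.update (Function.update (G (a * b)) p (Z [] (un a))) q (Z [] (un b))) true := by
  have h := forU_fun p (forU q body) a (b * (τ + 6) + 6)
    (fun k => Function.update (G (k * b)) q (Z [] (un b))) (by
      intro k hk
      refine ⟨true, ?_⟩
      have h1 := forU_fun q body b τ
        (fun l => Function.update (G (k * b + l)) p (Z (un k) (un (a - k)))) (by
          intro l hl
          have hj : k * b + l < a * b := by
            calc k * b + l < k * b + b := by omega
              _ = (k + 1) * b := by ring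
              _ ≤ a * b := Nat.mul_le_mul_right _ hk
          exact hbody (k * b + l) hj _ _)
      simp only [Nat.add_zero] at h1
      rw [Function.update_comm hpq, Function.update_comm hpq] at h1
      simp only [Nat.succ_mul]
      exact h1)
  simp only [Nat.zero_mul] at h
  rw [Function.update_comm hpq.symm, Function.update_comm hpq.symm] at h
  exact h

end generic

variable {Γ : Type} [TapeAlpha Γ]

theorem skipMat_right_spec (P : Par) (s : St Own Γ) (hN : Need P s [Own.ta, Own.tb, Own.te])
    (dX w tX : List Γ) (hw : w.length = P.a * P.b * P.e) (hX : s Own.X = Z dX (w ++ tX)) :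
    (skipMat Move.right : Prog Own Γ).SRuns s (cSkipMat P)
      (Function.update s Own.X (Z (dX ++ w) tX)) true := by
  have hta : s Own.ta = Z [] (un P.a) := (hN Own.ta (by simp)).1 rfl
  have htb : s Own.tb = Z [] (un P.b) := (hN Own.tb (by simp)).1 rfl
  have hte : s Own.te = Z [] (un P.e) := (hN Own.te (by simp)).1 rfl
  have h := forU2_fun Own.ta Own.tb (by decide) (mvU Own.te Own.X Move.right) P.a P.b
    (7 * P.e + 6)
    (fun j => Function.update s Own.X (Z (dX ++ w.take (j * P.e)) (w.drop (j * P.e) ++ tX))) (by
      intro j hj zp zq
      refine ⟨true, ?_⟩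
      have hlen : ((w.drop (j * P.e)).take P.e).length = P.e := by
        rw [List.length_take, List.length_drop, hw]
        have : (j + 1) * P.e ≤ P.a * P.b * P.e := Nat.mul_le_mul_right _ hj
        have h2 : (j + 1) * P.e = j * P.e + P.e := by ring
        omega
      have hsplit : w.drop (j * P.e) = (w.drop (j * P.e)).take P.e ++ w.drop ((j + 1) * P.e) := by
        have h2 : (j + 1) * P.e = j * P.e + P.e := by ring
        rw [h2, ← List.drop_drop, List.take_append_drop]
      have htake : w.take (j * P.e) ++ (w.drop (j * P.e)).take P.e = w.take ((j + 1) * P.e) := by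
        have h2 : (j + 1) * P.e = j * P.e + P.e := by ring
        rw [h2, List.take_add]
      have h1 := mvU_right_spec Own.te Own.X (by decide)
        (Function.update (Function.update (Function.update s Own.X
          (Z (dX ++ w.take (j * P.e)) (w.drop (j * P.e) ++ tX))) Own.ta zp) Own.tb zq) P.e
        (dX ++ w.take (j * P.e)) ((w.drop (j * P.e)).take P.e) (w.drop ((j + 1) * P.e) ++ tX)
        hlen (by simp [hte]) (by
          simp only [ne_eq, reduceCtorEq, not_false_eq_true, Function.update_of_ne,
            Function.update_self]
          rw [← List.append_assoc, ← hsplit])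
      have e : Function.update (Function.update (Function.update (Function.update s Own.X
          (Z (dX ++ w.take (j * P.e)) (w.drop (j * P.e) ++ tX))) Own.ta zp) Own.tb zq) Own.X
          (Z (dX ++ w.take (j * P.e) ++ (w.drop (j * P.e)).take P.e)
            (w.drop ((j + 1) * P.e) ++ tX))
          = Function.update (Function.update (Function.update s Own.X
          (Z (dX ++ w.take ((j + 1) * P.e)) (w.drop ((j + 1) * P.e) ++ tX))) Own.ta zp)
            Own.tb zq := by
        rw [List.append_assoc, htake]
        funext i
        by_cases h1 : i = Own.tb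
        · subst h1; simp
        by_cases h2 : i = Own.ta
        · subst h2; simp
        by_cases h3 : i = Own.X
        · subst h3; simp
        · simp [h1, h2, h3]
      rw [e] at h1
      exact h1)
  have e0 : Function.update (Function.update (Function.update s Own.X
      (Z (dX ++ w.take (0 * P.e)) (w.drop (0 * P.e) ++ tX))) Own.ta (Z [] (un P.a))) Own.tb
      (Z [] (un P.b)) = s := by
    funext i
    by_cases h1 : i = Own.tb
    · subst h1; simp [htb]
    by_cases h2 : i = Own.ta
    · subst h2; simp [hta]
    by_cases h3 : i = Own.X
    · subst h3; simp [hX]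
    · simp [h1, h2, h3]
  have e1 : Function.update (Function.update (Function.update s Own.X
      (Z (dX ++ w.take (P.a * P.b * P.e)) (w.drop (P.a * P.b * P.e) ++ tX))) Own.ta
      (Z [] (un P.a))) Own.tb (Z [] (un P.b)) = Function.update s Own.X (Z (dX ++ w) tX) := by
    rw [← hw, List.take_length, List.drop_length]
    funext i
    by_cases h1 : i = Own.tb
    · subst h1; simp [htb]
    by_cases h2 : i = Own.ta
    · subst h2; simp [hta]
    by_cases h3 : i = Own.X
    · subst h3; simp
    · simp [h1, h2, h3]
  rw [e0, e1] at h
  exact h

theorem encMat_cat_zero (f : ℕ → List Bool) (i : ℕ) : cat f i 0 = [] := by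
  simp [cat]

theorem encMat_cat_succ (f : ℕ → List Bool) (i k : ℕ) :
    cat f i (k + 1) = cat f i k ++ f (i + k) := by
  simp [cat, List.range_succ, List.flatMap_append]

theorem encMat_cat_succ' (f : ℕ → List Bool) (i k : ℕ) :
    cat f i (k + 1) = f i ++ cat f (i + 1) k := by
  simp only [cat, List.range_succ_eq_map, List.flatMap_cons, List.flatMap_map, Nat.add_zero]
  congr 2
  funext j
  congr 1
  omega

theorem encMat_cat_length (f : ℕ → List Bool) (e : ℕ) (hf : ∀ j, (f j).length = e) (i k : ℕ) :
    (cat f i k).length = k * e := by
  induction k with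
  | zero => simp [encMat_cat_zero]
  | succ k ih => rw [encMat_cat_succ, List.length_append, ih, hf]; ring

theorem encMat_bits_append (u v : List Bool) : (bits (u ++ v) : List Γ) = bits u ++ bits v := by
  simp [bits]

theorem encMat_bits_length (u : List Bool) : (bits u : List Γ).length = u.length := by
  simp [bits]

/-- The entries `ent 0, ..., ent (a*b-1)` are encoded in reversed order. -/
theorem encMat_spec (P : Par) (s : St Own Γ)
    (hN : Need P s [Own.ta, Own.tb, Own.te, Own.tf])
    (dX tX dB : List Γ) (ent : ℕ → List Bool) (hent : ∀ j, (ent j).length = P.e)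
    (hX : s Own.X = Z dX (bits (cat ent 0 (P.a * P.b)) ++ tX)) (hB : s Own.Bk = Z dB []) :
    (encMat : Prog Own Γ).SRuns s (cEncMat P)
      (Function.update (Function.update s Own.X (Z (dX ++ bits (cat ent 0 (P.a * P.b))) tX)) Own.Bk
        (Z (dB ++ bits (cat (fun j => encBlock P.f (ent (P.a * P.b - 1 - j))) 0 (P.a * P.b))) []))
      true := by
  have hta : s Own.ta = Z [] (un P.a) := (hN Own.ta (by simp)).1 rfl
  have htb : s Own.tb = Z [] (un P.b) := (hN Own.tb (by simp)).1 rfl
  set N : ℕ := P.a * P.b with hNdef
  set enc : ℕ → List Bool := fun j => encBlock P.f (ent (N - 1 - j)) with henc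
  have hlen : (bits (cat ent 0 N) : List Γ).length = P.a * P.b * P.e := by
    rw [encMat_bits_length, encMat_cat_length ent P.e hent]
  -- first pass over the matrix
  have h1 := skipMat_right_spec P s (hN.mono (by simp)) dX (bits (cat ent 0 N)) tX hlen hX
  -- the encoding loop
  have h2 := forU2_fun Own.ta Own.tb (by decide) (encEntry : Prog Own Γ) P.a P.b (cEncEntry P)
    (fun j => Function.update (Function.update s Own.X
      (Z (dX ++ bits (cat ent 0 (N - j))) (bits (cat ent (N - j) j) ++ tX))) Own.Bk
      (Z (dB ++ bits (cat enc 0 j)) [])) (by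
      intro j hj zp zq
      refine ⟨true, ?_⟩
      obtain ⟨M, hM⟩ : ∃ M, N = M + 1 + j := ⟨N - 1 - j, by omega⟩
      have m1 : N - j = M + 1 := by omega
      have m2 : N - (j + 1) = M := by omega
      have m3 : enc j = encBlock P.f (ent M) := by
        have : N - 1 - j = M := by omega
        simp only [henc, this]
      rw [m1, m2]
      have h3 := encEntry_spec P
        (Function.update (Function.update (Function.update (Function.update s Own.X
          (Z (dX ++ bits (cat ent 0 (M + 1))) (bits (cat ent (M + 1) j) ++ tX))) Own.Bk
          (Z (dB ++ bits (cat enc 0 j)) [])) Own.ta zp) Own.tb zq)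
        ((((hN.mono (l' := [Own.te, Own.tf]) (by simp)).update (by simp) _).update (by simp) _).update
          (by simp) _ |>.update (by simp) _)
        (dX ++ bits (cat ent 0 M)) (bits (cat ent (M + 1) j) ++ tX) (dB ++ bits (cat enc 0 j))
        (ent M) (hent M)
        (by
          simp only [ne_eq, reduceCtorEq, not_false_eq_true, Function.update_of_ne,
            Function.update_self]
          rw [encMat_cat_succ, encMat_bits_append, Nat.zero_add, List.append_assoc])
        (by
          simp only [ne_eq, reduceCtorEq, not_false_eq_true, Function.update_of_ne,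
            Function.update_self])
      refine Eq.subst (motive := fun t => (encEntry : Prog Own Γ).SRuns _ _ t true) ?_ h3
      rw [encMat_cat_succ' ent M j, encMat_cat_succ enc 0 j, Nat.zero_add, m3,
        encMat_bits_append, encMat_bits_append]
      funext i
      by_cases i1 : i = Own.tb
      · subst i1; simp
      by_cases i2 : i = Own.ta
      · subst i2; simp
      by_cases i3 : i = Own.Bk
      · subst i3; simp
      by_cases i4 : i = Own.X
      · subst i4; simp
      · simp [i1, i2, i3, i4])
  have e0 : Function.update (Function.update (Function.update (Function.update s Own.X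
      (Z (dX ++ bits (cat ent 0 (N - 0))) (bits (cat ent (N - 0) 0) ++ tX))) Own.Bk
      (Z (dB ++ bits (cat enc 0 0)) [])) Own.ta (Z [] (un P.a))) Own.tb (Z [] (un P.b))
      = Function.update s Own.X (Z (dX ++ bits (cat ent 0 N)) tX) := by
    rw [Nat.sub_zero, encMat_cat_zero, encMat_cat_zero]
    funext i
    by_cases i1 : i = Own.tb
    · subst i1; simp [htb]
    by_cases i2 : i = Own.ta
    · subst i2; simp [hta]
    by_cases i3 : i = Own.Bk
    · subst i3; simp [hB, bits]
    by_cases i4 : i = Own.X
    · subst i4; simp [bits]
    · simp [i1, i2, i3, i4]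
  have e1 : Function.update (Function.update (Function.update (Function.update s Own.X
      (Z (dX ++ bits (cat ent 0 (N - N))) (bits (cat ent (N - N) N) ++ tX))) Own.Bk
      (Z (dB ++ bits (cat enc 0 N)) [])) Own.ta (Z [] (un P.a))) Own.tb (Z [] (un P.b))
      = Function.update (Function.update s Own.X (Z dX (bits (cat ent 0 N) ++ tX))) Own.Bk
      (Z (dB ++ bits (cat enc 0 N)) []) := by
    rw [Nat.sub_self, encMat_cat_zero]
    funext i
    by_cases i1 : i = Own.tb
    · subst i1; simp [htb]
    by_cases i2 : i = Own.ta
    · subst i2; simp [hta]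
    by_cases i3 : i = Own.Bk
    · subst i3; simp
    by_cases i4 : i = Own.X
    · subst i4; simp [bits]
    · simp [i1, i2, i3, i4]
  rw [e0, e1] at h2
  -- last pass over the matrix
  have h4 := skipMat_right_spec P
    (Function.update (Function.update s Own.X (Z dX (bits (cat ent 0 N) ++ tX))) Own.Bk
      (Z (dB ++ bits (cat enc 0 N)) []))
    (((hN.mono (l' := [Own.ta, Own.tb, Own.te]) (by simp)).update (by simp) _).update (by simp) _)
    dX (bits (cat ent 0 N)) tX hlen (by
      simp only [ne_eq, reduceCtorEq, not_false_eq_true, Function.update_of_ne,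
        Function.update_self])
  have e2 : Function.update (Function.update (Function.update s Own.X
      (Z dX (bits (cat ent 0 N) ++ tX))) Own.Bk (Z (dB ++ bits (cat enc 0 N)) [])) Own.X
      (Z (dX ++ bits (cat ent 0 N)) tX)
      = Function.update (Function.update s Own.X (Z (dX ++ bits (cat ent 0 N)) tX)) Own.Bk
        (Z (dB ++ bits (cat enc 0 N)) []) := by
    funext i
    by_cases i3 : i = Own.Bk
    · subst i3; simp
    by_cases i4 : i = Own.X
    · subst i4; simp
    · simp [i3, i4]
  rw [e2] at h4
  have h5 := seq_sruns h1 (seq_sruns h2 h4)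
  refine Prog.SRuns.mono h5 ?_
  unfold cEncMat
  omega

end Vale.Agent.P338.TM
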