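import Vale.Agent.P338.TM.SpecDemux
import Vale.Agent.P338.TM.SpecEncMat

namespace Vale.Agent.P338.TM

open Vale.Agent.P338

theorem dmx_cat_add (f : ℕ → List Bool) (i k l : ℕ) :
    cat f i (k + l) = cat f i k ++ cat f (i + k) l := by
  induction l with
  | zero => simp [encMat_cat_zero]
  | succ l ih =>
    rw [← Nat.add_assoc, encMat_cat_succ, ih, encMat_cat_succ, List.append_assoc, Nat.add_assoc]

theorem dmx_cat_shift (f : ℕ → List Bool) (i k : ℕ) :
    cat f i k = cat (fun c => f (i + c)) 0 k := by
  simp [cat]

theorem dmx_cat_mul (f : ℕ → List Bool) (R b : ℕ) :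
    cat f 0 (R * b) = cat (fun r => cat (fun c => f (r * b + c)) 0 b) 0 R := by
  induction R with
  | zero => simp [encMat_cat_zero]
  | succ R ih =>
    rw [Nat.succ_mul, dmx_cat_add, ih, encMat_cat_succ, Nat.zero_add, Nat.zero_add,
      dmx_cat_shift f (R * b) b]

section generic

variable {ι Γ : Type} [TapeAlpha Γ] [DecidableEq ι]

/-- Two nested loops around a body that moves the head of `x` over a block of `e` cells. -/
theorem forU2_skip (p q x : ι) (hpq : p ≠ q) (hpx : p ≠ x) (hqx : q ≠ x) (body : Prog ι Γ)
    (a b e τ : ℕ) (s : St ι Γ) (hp : s p = Z [] (un a)) (hq : s q = Z [] (un b))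
    (hbody : ∀ (zp zq : Zip Γ) (dx w tx : List Γ), w.length = e →
      body.SRuns (Function.update (Function.update (Function.update s x (Z dx (w ++ tx))) p zp) q zq)
        τ (Function.update (Function.update (Function.update s x (Z (dx ++ w) tx)) p zp) q zq) true)
    (dX w tX : List Γ) (hw : w.length = a * b * e) (hX : s x = Z dX (w ++ tX)) :
    (forU p (forU q body)).SRuns s (a * (b * (τ + 6) + 12) + 6)
      (Function.update s x (Z (dX ++ w) tX)) true := by
  have h := forU2_fun p q hpq body a b τ
    (fun j => Function.update s x (Z (dX ++ w.take (j * e)) (w.drop (j * e) ++ tX))) (by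
      intro j hj zp zq
      refine ⟨true, ?_⟩
      have hlen : ((w.drop (j * e)).take e).length = e := by
        rw [List.length_take, List.length_drop, hw]
        have : (j + 1) * e ≤ a * b * e := Nat.mul_le_mul_right _ hj
        have h2 : (j + 1) * e = j * e + e := by ring
        omega
      have hsplit : w.drop (j * e) = (w.drop (j * e)).take e ++ w.drop ((j + 1) * e) := by
        have h2 : (j + 1) * e = j * e + e := by ring
        rw [h2, ← List.drop_drop, List.take_append_drop]
      have htake : w.take (j * e) ++ (w.drop (j * e)).take e = w.take ((j + 1) * e) := by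
        have h2 : (j + 1) * e = j * e + e := by ring
        rw [h2, List.take_add]
      have h1 := hbody zp zq (dX ++ w.take (j * e)) ((w.drop (j * e)).take e)
        (w.drop ((j + 1) * e) ++ tX) hlen
      rw [← List.append_assoc, ← hsplit, List.append_assoc, htake] at h1
      exact h1)
  have e0 : Function.update (Function.update (Function.update s x
      (Z (dX ++ w.take (0 * e)) (w.drop (0 * e) ++ tX))) p (Z [] (un a))) q
      (Z [] (un b)) = s := by
    funext i
    by_cases h1 : i = q
    · subst h1; simp [hq]
    by_cases h2 : i = p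
    · subst h2; simp [hp, h1]
    by_cases h3 : i = x
    · subst h3; simp [hX, h1, h2]
    · simp [h1, h2, h3]
  have e1 : Function.update (Function.update (Function.update s x
      (Z (dX ++ w.take (a * b * e)) (w.drop (a * b * e) ++ tX))) p
      (Z [] (un a))) q (Z [] (un b)) = Function.update s x (Z (dX ++ w) tX) := by
    rw [← hw, List.take_length, List.drop_length]
    funext i
    by_cases h1 : i = q
    · subst h1; simp [hq, hqx]
    by_cases h2 : i = p
    · subst h2; simp [hp, h1, hpx]
    by_cases h3 : i = x
    · subst h3; simp [h1, h2]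
    · simp [h1, h2, h3]
  rw [e0, e1] at h
  exact h

end generic

variable {Γ : Type} [TapeAlpha Γ]

theorem skipSlots_spec (P : Par) (tR : Own) (htR : tR = Own.ta ∨ tR = Own.t1) (s : St Own Γ)
    (hN : Need P s [tR, Own.tb, Own.tm]) (dx σ tx : List Γ)
    (hσ : σ.length = P.uval tR * (P.b * P.w)) (hx : s Own.Pd = Z dx (σ ++ tx)) :
    (forU tR (forU Own.tb (skipSlot Own.Pd)) : Prog Own Γ).SRuns s
      (cLoop2 P (P.uval tR) (cSkipSlot P)) (Function.update s Own.Pd (Z (dx ++ σ) tx)) true := by
  have hun : tR.isUn = true := by rcases htR with rfl | rfl <;> rfl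
  have hR : s tR = Z [] (un (P.uval tR)) := (hN tR (by simp)).1 hun
  have htb : s Own.tb = Z [] (un P.b) := (hN Own.tb (by simp)).1 rfl
  have n1 : tR ≠ Own.tb := by rcases htR with rfl | rfl <;> decide
  have n2 : tR ≠ Own.Pd := by rcases htR with rfl | rfl <;> decide
  have n3 : tR ≠ Own.tm := by rcases htR with rfl | rfl <;> decide
  have h := forU2_skip tR Own.tb Own.Pd n1 n2 (by decide) (skipSlot Own.Pd : Prog Own Γ)
    (P.uval tR) P.b P.w (cSkipSlot P) s hR htb (by
      intro zp zq dx' w' tx' hw'
      have h1 := skipSlot_spec P Own.Pd (by decide)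
        (Function.update (Function.update (Function.update s Own.Pd (Z dx' (w' ++ tx'))) tR zp)
          Own.tb zq)
        ((((hN.mono (l' := [Own.tm]) (by simp)).update (by simp) _).update
          (by simpa using n3) _).update (by simp) _)
        dx' w' tx' hw' (by
          rw [Function.update_of_ne (by decide), Function.update_of_ne n2.symm,
            Function.update_self])
      refine Eq.subst (motive := fun t => (skipSlot Own.Pd : Prog Own Γ).SRuns _ _ t true) ?_ h1
      rw [Function.update_comm (by decide : Own.tb ≠ Own.Pd), Function.update_comm n2,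
        Function.update_idem])
    dx σ tx (by rw [hσ]; ring) hx
  exact h

/-- `x` is `Pd` or `U`. -/
theorem demuxSlots_spec (P : Par) (x tR : Own) (hx0 : x = Own.Pd ∨ x = Own.U)
    (htR : tR = Own.ta ∨ tR = Own.t1) (s : St Own Γ)
    (hN : Need P s [tR, Own.tb, Own.tm]) (dx tx : List Γ) (sl : ℕ → List Bool)
    (hsl : ∀ t, (sl t).length = P.w)
    (hx : s x = Z dx (bits (cat sl 0 (P.uval tR * P.b)) ++ tx)) (d0 d1 d2 d3 : List Γ)
    (h0 : s Own.T0 = Z d0 []) (h1 : s Own.T1 = Z d1 []) (h2 : s Own.T2 = Z d2 [])
    (h3 : s Own.T3 = Z d3 []) :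
    (forU tR (forU Own.tb (demuxSlot x)) : Prog Own Γ).SRuns s
      (cLoop2 P (P.uval tR) (cDemuxSlot P))
      (Function.update (Function.update (Function.update (Function.update (Function.update s
        x (Z (dx ++ bits (cat sl 0 (P.uval tR * P.b))) tx))
        Own.T0 (Z (d0 ++ bits (dmT P sl (P.uval tR) 0)) []))
        Own.T1 (Z (d1 ++ bits (dmT P sl (P.uval tR) 1)) []))
        Own.T2 (Z (d2 ++ bits (dmT P sl (P.uval tR) 2)) []))
        Own.T3 (Z (d3 ++ bits (dmT P sl (P.uval tR) 3)) [])) true := by
  have hun : tR.isUn = true := by rcases htR with rfl | rfl <;> rfl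
  have hR : s tR = Z [] (un (P.uval tR)) := (hN tR (by simp)).1 hun
  have htb : s Own.tb = Z [] (un P.b) := (hN Own.tb (by simp)).1 rfl
  have hNm : Need P s [Own.tm] := hN.mono (by simp)
  have hdm : ∀ i, dmT P sl (P.uval tR) i
      = cat (fun t => chunk P i (sl t) ++ [false, false]) 0 (P.uval tR * P.b) := by
    intro i
    rw [dmx_cat_mul]
    rfl
  rw [hdm, hdm, hdm, hdm]
  unfold cLoop2
  generalize P.uval tR = R at *
  set N : ℕ := R * P.b with hNdef
  set ch : ℕ → ℕ → List Bool := fun i t => chunk P i (sl t) ++ [false, false] with hch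
  have n1 : tR ≠ Own.tb := by rcases htR with rfl | rfl <;> decide
  have n2 : x ∉ [Own.tm] := by rcases hx0 with rfl | rfl <;> simp
  have n3 : tR ∉ [Own.tm] := by rcases htR with rfl | rfl <;> simp
  have h := forU2_fun tR Own.tb n1 (demuxSlot x : Prog Own Γ) R P.b (cDemuxSlot P)
    (fun j => Function.update (Function.update (Function.update (Function.update
      (Function.update s x (Z (dx ++ bits (cat sl 0 j)) (bits (cat sl j (N - j)) ++ tx)))
      Own.T0 (Z (d0 ++ bits (cat (ch 0) 0 j)) []))
      Own.T1 (Z (d1 ++ bits (cat (ch 1) 0 j)) []))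
      Own.T2 (Z (d2 ++ bits (cat (ch 2) 0 j)) []))
      Own.T3 (Z (d3 ++ bits (cat (ch 3) 0 j)) [])) (by
      intro j hj zp zq
      refine ⟨true, ?_⟩
      obtain ⟨M, hM⟩ : ∃ M, N = j + 1 + M := ⟨N - (j + 1), by omega⟩
      have m1 : N - j = M + 1 := by omega
      have m2 : N - (j + 1) = M := by omega
      rw [m1, m2]
      have h5 := demuxSlot_spec P x hx0
        (Function.update (Function.update (Function.update (Function.update (Function.update
          (Function.update (Function.update s x
            (Z (dx ++ bits (cat sl 0 j)) (bits (cat sl j (M + 1)) ++ tx)))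
          Own.T0 (Z (d0 ++ bits (cat (ch 0) 0 j)) []))
          Own.T1 (Z (d1 ++ bits (cat (ch 1) 0 j)) []))
          Own.T2 (Z (d2 ++ bits (cat (ch 2) 0 j)) []))
          Own.T3 (Z (d3 ++ bits (cat (ch 3) 0 j)) [])) tR zp) Own.tb zq)
        (((((((hNm.update n2 _).update (by simp) _).update (by simp) _).update
          (by simp) _).update (by simp) _).update n3 _).update (by simp) _)
        (dx ++ bits (cat sl 0 j)) (bits (cat sl (j + 1) M) ++ tx) (sl j) (hsl j)
        (by
          rw [encMat_cat_succ', encMat_bits_append, List.append_assoc]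
          rcases hx0 with rfl | rfl <;> rcases htR with rfl | rfl <;>
          simp only [ne_eq, reduceCtorEq, not_false_eq_true, Function.update_of_ne,
            Function.update_self])
        (d0 ++ bits (cat (ch 0) 0 j)) (d1 ++ bits (cat (ch 1) 0 j))
        (d2 ++ bits (cat (ch 2) 0 j)) (d3 ++ bits (cat (ch 3) 0 j))
        (by
          rcases htR with rfl | rfl <;>
          simp only [ne_eq, reduceCtorEq, not_false_eq_true, Function.update_of_ne,
            Function.update_self])
        (by
          rcases htR with rfl | rfl <;>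
          simp only [ne_eq, reduceCtorEq, not_false_eq_true, Function.update_of_ne,
            Function.update_self])
        (by
          rcases htR with rfl | rfl <;>
          simp only [ne_eq, reduceCtorEq, not_false_eq_true, Function.update_of_ne,
            Function.update_self])
        (by
          rcases htR with rfl | rfl <;>
          simp only [ne_eq, reduceCtorEq, not_false_eq_true, Function.update_of_ne,
            Function.update_self])
      refine Eq.subst (motive := fun t => (demuxSlot x : Prog Own Γ).SRuns _ _ t true) ?_ h5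
      rw [encMat_cat_succ sl 0 j, encMat_cat_succ (ch 0) 0 j, encMat_cat_succ (ch 1) 0 j,
        encMat_cat_succ (ch 2) 0 j, encMat_cat_succ (ch 3) 0 j, Nat.zero_add]
      funext i
      rcases hx0 with rfl | rfl <;> rcases htR with rfl | rfl <;>
      · by_cases i1 : i = Own.tb
        · subst i1; simp
        by_cases i2 : i = Own.ta
        · subst i2; simp
        by_cases i2' : i = Own.t1
        · subst i2'; simp
        by_cases i3 : i = Own.T3
        · subst i3; simp [hch, encMat_bits_append]
        by_cases i4 : i = Own.T2
        · subst i4; simp [hch, encMat_bits_append]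
        by_cases i5 : i = Own.T1
        · subst i5; simp [hch, encMat_bits_append]
        by_cases i6 : i = Own.T0
        · subst i6; simp [hch, encMat_bits_append]
        by_cases i7 : i = Own.Pd
        · subst i7; simp [encMat_bits_append]
        by_cases i8 : i = Own.U
        · subst i8; simp [encMat_bits_append]
        · simp [i1, i2, i2', i3, i4, i5, i6, i7, i8])
  refine Eq.subst (motive := fun t => Prog.SRuns _ t _ _ true) ?_
    (Eq.subst (motive := fun t => Prog.SRuns _ _ _ t true) ?_ h)
  · simp only [Nat.sub_zero, encMat_cat_zero]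
    funext i
    rcases hx0 with rfl | rfl <;> rcases htR with rfl | rfl <;>
    · by_cases i1 : i = Own.tb
      · subst i1; simp [htb]
      by_cases i2 : i = Own.ta
      · subst i2; simp [hR]
      by_cases i2' : i = Own.t1
      · subst i2'; simp [hR]
      by_cases i3 : i = Own.T3
      · subst i3; simp [h3, bits]
      by_cases i4 : i = Own.T2
      · subst i4; simp [h2, bits]
      by_cases i5 : i = Own.T1
      · subst i5; simp [h1, bits]
      by_cases i6 : i = Own.T0
      · subst i6; simp [h0, bits]
      by_cases i7 : i = Own.Pd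
      · subst i7; simp [hx, bits]
      by_cases i8 : i = Own.U
      · subst i8; simp [hx, bits]
      · simp [i1, i2, i2', i3, i4, i5, i6, i7, i8]
  · simp only [← hNdef, Nat.sub_self, encMat_cat_zero]
    funext i
    rcases hx0 with rfl | rfl <;> rcases htR with rfl | rfl <;>
    · by_cases i1 : i = Own.tb
      · subst i1; simp [htb]
      by_cases i2 : i = Own.ta
      · subst i2; simp [hR]
      by_cases i2' : i = Own.t1
      · subst i2'; simp [hR]
      by_cases i3 : i = Own.T3
      · subst i3; simp [hch]
      by_cases i4 : i = Own.T2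
      · subst i4; simp [hch]
      by_cases i5 : i = Own.T1
      · subst i5; simp [hch]
      by_cases i6 : i = Own.T0
      · subst i6; simp [hch]
      by_cases i7 : i = Own.Pd
      · subst i7; simp [bits]
      by_cases i8 : i = Own.U
      · subst i8; simp [bits]
      · simp [i1, i2, i2', i3, i4, i5, i6, i7, i8]

end Vale.Agent.P338.TM
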