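import Vale.Agent.P338.TM.Progs5
import Vale.Agent.P338.TM.SpecPow2

namespace Vale.Agent.P338.TM

open Vale.Agent.P338

variable {ι Γ : Type} [TapeAlpha Γ] [DecidableEq ι]

theorem mv_spec_d1 (x : ι) (m : Move) (s : St ι Γ) :
    (mv x m).SRuns s 1 (Function.update s x ((s x).act ((s x).read) m)) true := by
  have h := prim_sruns (fun a : ι → Γ => Instr.nil.set x (a x) m) s
  simp only [Instr.sapp_set, Instr.sapp_nil, sreads_apply] at h
  exact h

omit [DecidableEq ι] in
theorem isSym_true_d1 (x : ι) (w : Γ) (s : St ι Γ) (h : (s x).read = w) :
    (isSym x w).SRuns s 1 s true := by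
  have h1 := test_sruns (fun a : ι → Γ => @decide (a x = w) (Classical.propDecidable _)) s
  have e : @decide (sreads s x = w) (Classical.propDecidable _) = true :=
    @decide_eq_true _ (Classical.propDecidable _) (by simpa using h)
  beta_reduce at h1
  rw [e] at h1
  exact h1

omit [DecidableEq ι] in
theorem isSym_false_d1 (x : ι) (w : Γ) (s : St ι Γ) (h : (s x).read ≠ w) :
    (isSym x w).SRuns s 1 s false := by
  have h1 := test_sruns (fun a : ι → Γ => @decide (a x = w) (Classical.propDecidable _)) s
  have e : @decide (sreads s x = w) (Classical.propDecidable _) = false :=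
    @decide_eq_false _ (Classical.propDecidable _) (by simpa using h)
  beta_reduce at h1
  rw [e] at h1
  exact h1

theorem blank_ne_one_d1 : (blank : Γ) ≠ bit true := (TapeAlpha.bit_ne_blank true).symm

theorem un_succ_d1 (c : ℕ) : (un (c + 1) : List Γ) = bit true :: un c := by
  simp [un, List.replicate_succ]

theorem un_zero_d1 : (un 0 : List Γ) = [] := rfl

/-- (When `c = 0` blanks appear in the zipper; remove them with `congr_right` / `toTp_trim`.) -/
theorem ge2_spec (x : ι) (s : St ι Γ) (c : ℕ) (hx : s x = Z [] (un c)) :
    (ge2 x).SRuns s 8 s (decide (2 ≤ c)) := by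
  have g1 := mv_spec_d1 x Move.right s
  rcases c with _ | _ | c
  · -- c = 0
    rw [hx, un_zero_d1, Z_read_nil, Z_act_right, List.nil_append, List.tail_nil] at g1
    have g2 := isSym_false_d1 x (bit true) (Function.update s x (Z [blank] []))
      (by rw [Function.update_self, Z_read_nil]; exact blank_ne_one_d1)
    have g3 := mv_spec_d1 x Move.left (Function.update s x (Z [blank] []))
    have e : (Z ([blank] : List Γ) []) = Z ([] ++ [blank]) [] := rfl
    rw [Function.update_self, Z_read_nil, e, Z_act_left_snoc, Function.update_idem,
      List.tail_nil] at g3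
    have g4 := test_sruns (fun _ : ι → Γ => false) (Function.update s x (Z [] [blank, blank]))
    have g5 := ite_sruns_false (R := seq (mv x Move.left) (test fun _ => true))
      (seq_sruns g1 g2) (seq_sruns g3 g4)
    refine Prog.SRuns.mono (Prog.SRuns.congr_right g5 ?_) (by norm_num)
    intro i
    by_cases hi : i = x
    · subst hi
      rw [Function.update_self, hx]
      have := Zip.toTp_trim ([lend] : List Γ) [] 2
      simpa [Z, un] using this
    · rw [Function.update_of_ne hi]
  · -- c = 1
    rw [hx, un_succ_d1, un_zero_d1, Z_read_cons, Z_act_right, List.nil_append,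
      List.tail_cons] at g1
    have g2 := isSym_false_d1 x (bit true) (Function.update s x (Z [bit true] []))
      (by rw [Function.update_self, Z_read_nil]; exact blank_ne_one_d1)
    have g3 := mv_spec_d1 x Move.left (Function.update s x (Z [bit true] []))
    have e : (Z ([bit true] : List Γ) []) = Z ([] ++ [bit true]) [] := rfl
    rw [Function.update_self, Z_read_nil, e, Z_act_left_snoc, Function.update_idem,
      List.tail_nil] at g3
    have g4 := test_sruns (fun _ : ι → Γ => false)
      (Function.update s x (Z [] [bit true, blank]))
    have g5 := ite_sruns_false (R := seq (mv x Move.left) (test fun _ => true))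
      (seq_sruns g1 g2) (seq_sruns g3 g4)
    refine Prog.SRuns.mono (Prog.SRuns.congr_right g5 ?_) (by norm_num)
    intro i
    by_cases hi : i = x
    · subst hi
      rw [Function.update_self, hx]
      have := Zip.toTp_trim ([lend] : List Γ) [bit true] 1
      simpa [Z, un] using this
    · rw [Function.update_of_ne hi]
  · -- c ≥ 2
    rw [hx, un_succ_d1, un_succ_d1, Z_read_cons, Z_act_right, List.nil_append,
      List.tail_cons] at g1
    have g2 := isSym_true_d1 x (bit true) (Function.update s x (Z [bit true] (bit true :: un c)))
      (by rw [Function.update_self, Z_read_cons])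
    have g3 := mv_spec_d1 x Move.left (Function.update s x (Z [bit true] (bit true :: un c)))
    have e : (Z ([bit true] : List Γ) (bit true :: un c)) = Z ([] ++ [bit true]) (bit true :: un c) :=
      rfl
    rw [Function.update_self, Z_read_cons, e, Z_act_left_snoc, Function.update_idem,
      List.tail_cons] at g3
    have g4 := test_sruns (fun _ : ι → Γ => true)
      (Function.update s x (Z [] (bit true :: bit true :: un c)))
    have g5 := ite_sruns_true (S := seq (mv x Move.left) (test fun _ => false))
      (seq_sruns g1 g2) (seq_sruns g3 g4)
    have e2 : Function.update s x (Z [] (bit true :: bit true :: un c)) = s := by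
      rw [← un_succ_d1, ← un_succ_d1, ← hx, Function.update_eq_self]
    rw [e2] at g5
    have e3 : decide (2 ≤ c + 1 + 1) = true := decide_eq_true (by omega)
    rw [e3]
    exact Prog.SRuns.mono g5 (by norm_num)

theorem step2_d1 (x y : ι) (s : St ι Γ) (dx tx dy : List Γ) (c : Γ)
    (hx : s x = Z dx (c :: tx)) (hy : s y = Z dy []) :
    (prim fun a : ι → Γ => (Instr.nil.set x (a x) Move.right).set y (bit true) Move.right).SRuns s 1
      (Function.update (Function.update s x (Z (dx ++ [c]) tx)) y (Z (dy ++ [bit true]) []))
      true := by
  have h := prim_sruns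
    (fun a : ι → Γ => (Instr.nil.set x (a x) Move.right).set y (bit true) Move.right) s
  simp only [Instr.sapp_set, Instr.sapp_nil, sreads_apply, hx, hy, Z_read_cons, Z_act_right,
    List.tail_cons, List.tail_nil] at h
  exact h

theorem halves_aux_d1 (x yc yf : ι) (h1 : x ≠ yc) (h2 : x ≠ yf) (h3 : yc ≠ yf) :
    ∀ (c : ℕ) (s : St ι Γ) (dx dc df : List Γ), s x = Z dx (un c) → s yc = Z dc [] →
      s yf = Z df [] →
    (halves x yc yf).SRuns s (4 * c + 10)
      (Function.update (Function.update (Function.update s x (Z (dx ++ un c) []))
        yc (Z (dc ++ un ((c + 1) / 2)) [])) yf (Z (df ++ un (c / 2)) [])) true := by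
  intro c
  induction c using Nat.twoStepInduction with
  | zero =>
    intro s dx dc df hx hc hf
    have t0 := isSym_false_d1 x (bit true) s (by
      rw [hx, un_zero_d1, Z_read_nil]; exact blank_ne_one_d1)
    have w0 := while_sfalse (R := seq (prim fun a : ι → Γ =>
        (Instr.nil.set x (a x) Move.right).set yc (bit true) Move.right)
      (ite (isSym x (bit true))
        (prim fun a : ι → Γ => (Instr.nil.set x (a x) Move.right).set yf (bit true) Move.right)
        skip)) t0
    have e : Function.update (Function.update (Function.update s x (Z (dx ++ un 0) []))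
        yc (Z (dc ++ un ((0 + 1) / 2)) [])) yf (Z (df ++ un (0 / 2)) []) = s := by
      funext i
      by_cases i1 : i = yf
      · subst i1; simp [hf, un]
      by_cases i2 : i = yc
      · subst i2; simp [hc, un, i1]
      by_cases i3 : i = x
      · subst i3; simp [hx, un, i1, i2]
      · simp [i1, i2, i3]
    rw [e]
    exact Prog.SRuns.mono w0 (by norm_num)
  | one =>
    intro s dx dc df hx hc hf
    rw [un_succ_d1, un_zero_d1] at hx
    have t0 := isSym_true_d1 x (bit true) s (by rw [hx, Z_read_cons])
    have b1 := step2_d1 x yc s dx [] dc (bit true) hx hc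
    have hx1 : (Function.update (Function.update s x (Z (dx ++ [bit true]) [])) yc
        (Z (dc ++ [bit true]) [])) x = Z (dx ++ [bit true]) [] := by
      rw [Function.update_of_ne h1, Function.update_self]
    have b2 := isSym_false_d1 x (bit true) (Function.update (Function.update s x
        (Z (dx ++ [bit true]) [])) yc (Z (dc ++ [bit true]) [])) (by
      rw [hx1, Z_read_nil]; exact blank_ne_one_d1)
    have b3 := seq_sruns b1 (ite_sruns_false
      (R := prim fun a : ι → Γ => (Instr.nil.set x (a x) Move.right).set yf (bit true) Move.right)
      b2 (skip_sruns _))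
    have w0 := while_sfalse (R := seq (prim fun a : ι → Γ =>
        (Instr.nil.set x (a x) Move.right).set yc (bit true) Move.right)
      (ite (isSym x (bit true))
        (prim fun a : ι → Γ => (Instr.nil.set x (a x) Move.right).set yf (bit true) Move.right)
        skip)) b2
    have w1 := while_strue t0 b3 w0
    have e : Function.update (Function.update (Function.update s x (Z (dx ++ un 1) []))
        yc (Z (dc ++ un ((1 + 1) / 2)) [])) yf (Z (df ++ un (1 / 2)) [])
        = Function.update (Function.update s x (Z (dx ++ [bit true]) [])) yc
        (Z (dc ++ [bit true]) []) := by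
      funext i
      by_cases i1 : i = yf
      · subst i1; simp [hf, un, h2.symm, h3.symm]
      by_cases i2 : i = yc
      · subst i2; simp [un, i1]
      by_cases i3 : i = x
      · subst i3; simp [un, i1, i2]
      · simp [i1, i2, i3]
    rw [e]
    exact Prog.SRuns.mono w1 (by norm_num)
  | more c ih _ =>
    intro s dx dc df hx hc hf
    rw [un_succ_d1, un_succ_d1] at hx
    have t0 := isSym_true_d1 x (bit true) s (by rw [hx, Z_read_cons])
    have b1 := step2_d1 x yc s dx (bit true :: un c) dc (bit true) hx hc
    have hx1 : (Function.update (Function.update s x (Z (dx ++ [bit true]) (bit true :: un c))) yc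
        (Z (dc ++ [bit true]) [])) x = Z (dx ++ [bit true]) (bit true :: un c) := by
      rw [Function.update_of_ne h1, Function.update_self]
    have hf1 : (Function.update (Function.update s x (Z (dx ++ [bit true]) (bit true :: un c))) yc
        (Z (dc ++ [bit true]) [])) yf = Z df [] := by
      rw [Function.update_of_ne h3.symm, Function.update_of_ne h2.symm, hf]
    have b2 := isSym_true_d1 x (bit true) (Function.update (Function.update s x
        (Z (dx ++ [bit true]) (bit true :: un c))) yc (Z (dc ++ [bit true]) []))
      (by rw [hx1, Z_read_cons])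
    have b3 := step2_d1 x yf _ (dx ++ [bit true]) (un c) df (bit true) hx1 hf1
    have b4 := seq_sruns b1 (ite_sruns_true (S := skip) b2 b3)
    have w0 := ih (Function.update (Function.update (Function.update (Function.update s x
        (Z (dx ++ [bit true]) (bit true :: un c))) yc (Z (dc ++ [bit true]) [])) x
        (Z (dx ++ [bit true] ++ [bit true]) (un c))) yf (Z (df ++ [bit true]) []))
      (dx ++ [bit true] ++ [bit true]) (dc ++ [bit true]) (df ++ [bit true])
      (by rw [Function.update_of_ne h2, Function.update_self])
      (by rw [Function.update_of_ne h3, Function.update_of_ne h1.symm, Function.update_self])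
      (by rw [Function.update_self])
    have w1 := while_strue t0 b4 w0
    have q1 : (c + 2 + 1) / 2 = (c + 1) / 2 + 1 := by omega
    have q2 : (c + 2) / 2 = c / 2 + 1 := by omega
    refine Eq.subst (motive := fun t => (halves x yc yf).SRuns s _ t true) ?_
      (Prog.SRuns.mono w1 (by omega : _ ≤ 4 * (c + 2) + 10))
    rw [q1, q2, un_succ_d1, un_succ_d1, un_succ_d1, un_succ_d1]
    funext i
    by_cases i1 : i = yf
    · subst i1; simp
    by_cases i2 : i = yc
    · subst i2; simp [i1]
    by_cases i3 : i = x
    · subst i3; simp [i1, i2]
    · simp [i1, i2, i3]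

theorem halves_spec (x yc yf : ι) (h1 : x ≠ yc) (h2 : x ≠ yf) (h3 : yc ≠ yf) (s : St ι Γ) (c : ℕ)
    (dc df : List Γ) (hx : s x = Z [] (un c)) (hc : s yc = Z dc []) (hf : s yf = Z df []) :
    (halves x yc yf).SRuns s (4 * c + 10)
      (Function.update (Function.update (Function.update s x (Z (un c) []))
        yc (Z (dc ++ un ((c + 1) / 2)) [])) yf (Z (df ++ un (c / 2)) [])) true := by
  have h := halves_aux_d1 x yc yf h1 h2 h3 c s [] dc df hx hc hf
  simpa only [List.nil_append] using h

open Classical in
theorem revScan_d1 (x y : ι) (hxy : x ≠ y) : ∀ (u : List Γ) (s : St ι Γ) (c : Γ) (t d : List Γ),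
    s x = Z u (c :: t) → s y = Z d [] → lend ∉ u → c ≠ lend →
    (scan fun a : ι → Γ => if a x = lend then none else
      some ((Instr.nil.set x (a x) Move.left).set y (a x) Move.right)).SRuns s (u.length + 1)
      (Function.update (Function.update s x ⟨[], lend :: (u ++ c :: t)⟩) y
        (Z (d ++ c :: u.reverse) [])) true := by
  intro u
  induction u using List.reverseRecOn with
  | nil =>
    intro s c t d hx hy _ hc
    have hr : sreads s x = c := by rw [sreads_apply, hx, Z_read_cons]
    refine scan_sstep _ s ((Instr.nil.set x c Move.left).set y c Move.right) ?_ ?_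
    · rw [if_neg (by rw [hr]; exact hc), hr]
    · rw [Instr.sapp_set, Instr.sapp_set, Instr.sapp_nil, hx, hy, Z_act_left_nil, Z_act_right]
      apply scan_sstop
      simp [Zip.read, Function.update_of_ne hxy]
  | append_singleton u z ih =>
    intro s c t d hx hy hu hc
    have hr : sreads s x = c := by rw [sreads_apply, hx, Z_read_cons]
    have hu' : lend ∉ u := fun h => hu (by simp [h])
    have hz : z ≠ lend := fun h => hu (by simp [h])
    rw [List.length_append, List.length_singleton]
    refine scan_sstep _ s ((Instr.nil.set x c Move.left).set y c Move.right) ?_ ?_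
    · rw [if_neg (by rw [hr]; exact hc), hr]
    · rw [Instr.sapp_set, Instr.sapp_set, Instr.sapp_nil, hx, hy, Z_act_left_snoc, Z_act_right]
      have h := ih (Function.update (Function.update s x (Z u (z :: c :: (c :: t).tail))) y
        (Z (d ++ [c]) ([] : List Γ).tail)) z (c :: t) (d ++ [c])
        (by rw [Function.update_of_ne hxy, Function.update_self]; rfl)
        (by rw [Function.update_self]; rfl) hu' hz
      refine Eq.subst (motive := fun t' => (scan fun a : ι → Γ => if a x = lend then none else
        some ((Instr.nil.set x (a x) Move.left).set y (a x) Move.right)).SRuns _ _ t' true) ?_ h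
      funext i
      by_cases i1 : i = y
      · subst i1; simp
      by_cases i2 : i = x
      · subst i2; simp [i1]
      · simp [i1, i2]

theorem revAppend_spec (x y : ι) (hxy : x ≠ y) (s : St ι Γ) (w d : List Γ) (hw : lend ∉ w)
    (hx : s x = Z w []) (hy : s y = Z d []) :
    (revAppend x y).SRuns s (w.length + 5)
      (Function.update (Function.update s x (Z [] w)) y (Z (d ++ w.reverse) [])) true := by
  classical
  have g1 := mv_spec_d1 x Move.left s
  rcases List.eq_nil_or_concat w with rfl | ⟨u, c, rfl⟩
  · rw [hx, Z_read_nil, Z_act_left_nil, List.tail_nil] at g1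
    have g2 : (scan fun a : ι → Γ => if a x = lend then none else
      some ((Instr.nil.set x (a x) Move.left).set y (a x) Move.right)).SRuns
        (Function.update s x ⟨[], [lend, blank]⟩) 0 (Function.update s x ⟨[], [lend, blank]⟩)
        true := by
      apply scan_sstop
      simp [Zip.read]
    have g3 := mv_right_lend x (Function.update s x ⟨[], [lend, blank]⟩) [blank]
      (Function.update_self _ _ _)
    rw [Function.update_idem] at g3
    refine Prog.SRuns.mono (Prog.SRuns.congr_right (seq_sruns g1 (seq_sruns g2 g3)) ?_)
      (by simp)
    intro i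
    by_cases i1 : i = y
    · subst i1
      simp [hy, Function.update_of_ne hxy.symm]
    by_cases i2 : i = x
    · subst i2
      rw [Function.update_self, Function.update_of_ne i1, Function.update_self]
      have := Zip.toTp_trim ([lend] : List Γ) [] 1
      simpa [Z] using this
    · simp [i1, i2]
  · rw [List.concat_eq_append] at hw hx ⊢
    have hu : lend ∉ u := fun h => hw (by simp [h])
    have hc : c ≠ lend := fun h => hw (by simp [h])
    rw [hx, Z_read_nil, Z_act_left_snoc, List.tail_nil] at g1
    have g2 := revScan_d1 x y hxy u (Function.update s x (Z u [c, blank])) c [blank] d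
      (Function.update_self _ _ _) (by rw [Function.update_of_ne hxy.symm, hy]) hu hc
    rw [Function.update_idem] at g2
    have g3 := mv_right_lend x (Function.update (Function.update s x
      ⟨[], lend :: (u ++ [c, blank])⟩) y (Z (d ++ c :: u.reverse) [])) (u ++ [c, blank])
      (by rw [Function.update_of_ne hxy, Function.update_self])
    refine Prog.SRuns.mono (Prog.SRuns.congr_right (seq_sruns g1 (seq_sruns g2 g3)) ?_)
      (by simp; omega)
    intro i
    by_cases i1 : i = y
    · subst i1
      simp [Function.update_of_ne hxy.symm]
    by_cases i2 : i = x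
    · subst i2
      rw [Function.update_self, Function.update_of_ne i1, Function.update_self]
      have := Zip.toTp_trim ([lend] : List Γ) (u ++ [c]) 1
      simpa [Z] using this
    · simp [i1, i2]

end Vale.Agent.P338.TM
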