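import Vale.Agent.P338.TM.Progs5
import Vale.Agent.P338.TM.SpecPow2

namespace Vale.Agent.P338.TM

open Vale.Agent.P338

variable {ι Γ : Type} [TapeAlpha Γ] [DecidableEq ι]

theorem drv2_onesU (p dst : ι) (hp : p ≠ dst) (s : St ι Γ) (c : ℕ) (d : List Γ)
    (hs : s p = Z [] (un c)) :
    (onesU p dst).SRuns (Function.update s dst (Z d [])) (7 * c + 6)
      (Function.update s dst (Z (d ++ un c) [])) true := by
  have h := onesU_spec p dst hp (Function.update s dst (Z d [])) c d
    (by rw [Function.update_of_ne hp, hs]) (by rw [Function.update_self])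
  rw [Function.update_idem] at h
  exact h

theorem drv2_wr (dst : ι) (w : Γ) (s : St ι Γ) (d : List Γ) :
    (wr dst w Move.right).SRuns (Function.update s dst (Z d [])) 1
      (Function.update s dst (Z (d ++ [w]) [])) true := by
  have h := prim_sruns (fun _ => (Instr.nil : Instr ι Γ).set dst w Move.right)
    (Function.update s dst (Z d []))
  have e : ((Instr.nil : Instr ι Γ).set dst w Move.right).sapp (Function.update s dst (Z d []))
      = Function.update s dst (Z (d ++ [w]) []) := by
    simp
  rw [e] at h
  exact h

theorem drv2_list (dst : ι) (ps : List ι) (val : ι → ℕ) (s : St ι Γ) (d : List Γ)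
    (hs : ∀ p ∈ ps, p ≠ dst ∧ s p = Z [] (un (val p)))
    (l : List (Prog ι Γ)) (T : ℕ) (s' : St ι Γ) (b : Bool)
    (hl : (seqs l).SRuns (Function.update s dst (Z (d ++ un (ps.map val).sum) [])) T s' b) :
    (seqs (ps.map (fun p => onesU p dst) ++ l)).SRuns (Function.update s dst (Z d []))
      (7 * (ps.map val).sum + 7 * ps.length + T) s' b := by
  induction ps generalizing d with
  | nil =>
    simp only [List.map_nil, List.sum_nil, List.nil_append, List.length_nil] at hl ⊢
    have e : (un 0 : List Γ) = [] := rfl
    rw [e, List.append_nil] at hl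
    exact hl.mono (by omega)
  | cons p ps ih =>
    have hp := hs p (by simp)
    have h1 := drv2_onesU p dst hp.1 s (val p) d hp.2
    have e : (d ++ un (val p) ++ un (ps.map val).sum : List Γ)
        = d ++ un ((p :: ps).map val).sum := by
      simp only [un, List.map_cons, List.sum_cons, List.replicate_add, List.append_assoc]
    have h2 := ih (d ++ un (val p)) (fun q hq => hs q (by simp [hq])) (by rw [e]; exact hl)
    have h3 := seqs_cons h1 h2
    simp only [List.map_cons, List.cons_append, List.sum_cons, List.length_cons]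
    exact h3.mono (by omega)

/-- `val` gives the numbers on the unary source tapes. -/
theorem emitOp_spec (dst : ι) (ps : List ι) (lo up : ι) (val : ι → ℕ) (s : St ι Γ) (d : List Γ)
    (hs : ∀ p ∈ lo :: up :: ps, p ≠ dst ∧ s p = Z [] (un (val p))) (hd : s dst = Z d []) :
    (emitOp dst ps lo up).SRuns s
      (7 * ((ps.map val).sum + val lo + val up) + 7 * ps.length + 30)
      (Function.update s dst (Z (d ++ encOp ((ps.map val).sum, val lo, val up)) [])) true := by
  have hlo := hs lo (by simp)
  have hup := hs up (by simp)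
  have e0 : Function.update s dst (Z d []) = s := by rw [← hd, Function.update_eq_self]
  set S := (ps.map val).sum with hS
  have t1 := drv2_wr dst sep s (d ++ un S)
  have t2 := drv2_onesU lo dst hlo.1 s (val lo) (d ++ un S ++ [sep]) hlo.2
  have t3 := drv2_wr dst sep s (d ++ un S ++ [sep] ++ un (val lo))
  have t4 := drv2_onesU up dst hup.1 s (val up) (d ++ un S ++ [sep] ++ un (val lo) ++ [sep]) hup.2
  have t5 := drv2_wr dst sep s (d ++ un S ++ [sep] ++ un (val lo) ++ [sep] ++ un (val up))
  have ht := seqs_cons t1 (seqs_cons t2 (seqs_cons t3 (seqs_cons t4 (seqs_cons t5 (seqs_nil _)))))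
  have h := drv2_list dst ps val s d (fun q hq => hs q (by simp [hq])) _ _ _ _ ht
  rw [e0] at h
  have e : (d ++ un S ++ [sep] ++ un (val lo) ++ [sep] ++ un (val up) ++ [sep] : List Γ)
      = d ++ encOp (S, val lo, val up) := by
    simp [encOp, List.append_assoc]
  rw [e] at h
  exact h.mono (by omega)

theorem drv2_un_reverse (c : ℕ) : (un c : List Γ).reverse = un c := by
  simp [un]

theorem emitRev_spec (dst : ι) (ps : List ι) (lo up : ι) (val : ι → ℕ) (s : St ι Γ) (d : List Γ)
    (hs : ∀ p ∈ lo :: up :: ps, p ≠ dst ∧ s p = Z [] (un (val p))) (hd : s dst = Z d []) :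
    (emitRev dst ps lo up).SRuns s
      (7 * ((ps.map val).sum + val lo + val up) + 7 * ps.length + 30)
      (Function.update s dst
        (Z (d ++ (encOp ((ps.map val).sum, val lo, val up) : List Γ).reverse) [])) true := by
  have hlo := hs lo (by simp)
  have hup := hs up (by simp)
  have e0 : Function.update s dst (Z d []) = s := by rw [← hd, Function.update_eq_self]
  set S := (ps.map val).sum with hS
  have t1 := drv2_wr dst sep s d
  have t2 := drv2_onesU up dst hup.1 s (val up) (d ++ [sep]) hup.2
  have t3 := drv2_wr dst sep s (d ++ [sep] ++ un (val up))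
  have t4 := drv2_onesU lo dst hlo.1 s (val lo) (d ++ [sep] ++ un (val up) ++ [sep]) hlo.2
  have t5 := drv2_wr dst sep s (d ++ [sep] ++ un (val up) ++ [sep] ++ un (val lo))
  have h6 := drv2_list dst ps val s (d ++ [sep] ++ un (val up) ++ [sep] ++ un (val lo) ++ [sep])
    (fun q hq => hs q (by simp [hq])) [] _ _ _ (seqs_nil _)
  rw [List.append_nil] at h6
  have h := seqs_cons t1 (seqs_cons t2 (seqs_cons t3 (seqs_cons t4 (seqs_cons t5 h6))))
  rw [e0] at h
  have e : (d ++ [sep] ++ un (val up) ++ [sep] ++ un (val lo) ++ [sep] ++ un S : List Γ)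
      = d ++ (encOp (S, val lo, val up) : List Γ).reverse := by
    simp [encOp, List.append_assoc, drv2_un_reverse]
  rw [e] at h
  exact h.mono (by omega)

end Vale.Agent.P338.TM
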