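import Vale.Agent.P338.TM.SpecWrs

namespace Vale.Agent.P338.TM

open Vale.Agent.P338

variable {Γ : Type} [TapeAlpha Γ]

theorem encEntry_spec (P : Par) (s : St Own Γ) (hN : Need P s [Own.te, Own.tf])
    (dX tX dB : List Γ) (u : List Bool) (hu : u.length = P.e)
    (hX : s Own.X = Z (dX ++ bits u) tX) (hB : s Own.Bk = Z dB []) :
    (encEntry : Prog Own Γ).SRuns s (cEncEntry P)
      (Function.update (Function.update s Own.X (Z dX (bits u ++ tX))) Own.Bk
        (Z (dB ++ bits (encBlock P.f u)) [])) true := by
  have hte : s Own.te = Z [] (un P.e) := (hN Own.te (by simp)).1 rfl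
  have htf : s Own.tf = Z [] (un P.f) := (hN Own.tf (by simp)).1 rfl
  have hbu : (bits u : List Γ).length = P.e := by simp [bits, hu]
  -- the shape of all intermediate states
  obtain ⟨S, hS⟩ : ∃ S : Zip Γ → Zip Γ → St Own Γ,
      S = fun zx zb => Function.update (Function.update s Own.X zx) Own.Bk zb := ⟨_, rfl⟩
  have Ste : ∀ zx zb, S zx zb Own.te = Z [] (un P.e) := by
    intro zx zb; rw [hS]; simp [hte]
  have Stf : ∀ zx zb, S zx zb Own.tf = Z [] (un P.f) := by
    intro zx zb; rw [hS]; simp [htf]
  have SX : ∀ zx zb, S zx zb Own.X = zx := by
    intro zx zb; rw [hS]; simp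
  have SB : ∀ zx zb, S zx zb Own.Bk = zb := by
    intro zx zb; rw [hS]; simp
  have uX : ∀ zx zb zx', Function.update (S zx zb) Own.X zx' = S zx' zb := by
    intro zx zb zx'; rw [hS]
    funext i
    by_cases h1 : i = Own.Bk
    · subst h1; simp
    · by_cases h2 : i = Own.X
      · subst h2; simp
      · simp [Function.update_of_ne h1, Function.update_of_ne h2]
  have uB : ∀ zx zb zb', Function.update (S zx zb) Own.Bk zb' = S zx zb' := by
    intro zx zb zb'; rw [hS]; simp
  have hs : s = S (Z (dX ++ bits u) tX) (Z dB []) := by
    rw [hS]
    funext i
    by_cases h1 : i = Own.Bk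
    · subst h1; simp [hB]
    · by_cases h2 : i = Own.X
      · subst h2; simp [hX]
      · simp [Function.update_of_ne h1, Function.update_of_ne h2]
  have hfin : Function.update (Function.update s Own.X (Z dX (bits u ++ tX))) Own.Bk
        (Z (dB ++ bits (encBlock P.f u)) [])
      = S (Z dX (bits u ++ tX)) (Z (dB ++ bits (encBlock P.f u)) []) := by
    rw [hS]
  rw [hfin]
  -- the ten steps
  have mvL : ∀ zb, (mvU Own.te Own.X Move.left).SRuns (S (Z (dX ++ bits u) tX) zb)
      (7 * P.e + 6) (S (Z dX (bits u ++ tX)) zb) true := by
    intro zb
    have h := mvU_left_spec Own.te Own.X (by decide) (S (Z (dX ++ bits u) tX) zb) P.e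
      dX (bits u) tX hbu (Ste _ _) (SX _ _)
    rw [uX] at h
    exact h
  have wrB : ∀ (zx : Zip Γ) (d l : List Γ), (wrs Own.Bk l).SRuns (S zx (Z d []))
      (2 * l.length) (S zx (Z (d ++ l) [])) true := by
    intro zx d l
    have h := wrs_spec Own.Bk l (S zx (Z d [])) d (SB _ _)
    rw [uB] at h
    exact h
  have h1 := mvL (Z dB [])
  have h2 := wrB (Z dX (bits u ++ tX)) dB
    (bits [true, true, true, false, false, false, true])
  have h3 := cpU_spec Own.te Own.X Own.Bk (by decide) (by decide) (by decide)
    (S (Z dX (bits u ++ tX))
      (Z (dB ++ bits [true, true, true, false, false, false, true]) [])) P.e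
    dX (bits u) tX (dB ++ bits [true, true, true, false, false, false, true]) [] hbu
    (Ste _ _) (SX _ _) (SB _ _)
  rw [uX, uB, List.drop_nil] at h3
  have h4 := zerosU_spec Own.tf Own.Bk (by decide)
    (S (Z (dX ++ bits u) tX)
      (Z (dB ++ bits [true, true, true, false, false, false, true] ++ bits u) [])) P.f
    (dB ++ bits [true, true, true, false, false, false, true] ++ bits u) (Stf _ _) (SB _ _)
  rw [uB] at h4
  have h5 := mvL (Z (dB ++ bits [true, true, true, false, false, false, true] ++ bits u
    ++ List.replicate P.f (bit false)) [])
  have h6 := wrB (Z dX (bits u ++ tX))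
    (dB ++ bits [true, true, true, false, false, false, true] ++ bits u
      ++ List.replicate P.f (bit false))
    (bits [false, false, false, true, true, true, false])
  have h7 := cpNotU_spec Own.te Own.X Own.Bk (by decide) (by decide) (by decide)
    (S (Z dX (bits u ++ tX))
      (Z (dB ++ bits [true, true, true, false, false, false, true] ++ bits u
        ++ List.replicate P.f (bit false)
        ++ bits [false, false, false, true, true, true, false]) [])) P.e
    dX tX (dB ++ bits [true, true, true, false, false, false, true] ++ bits u
        ++ List.replicate P.f (bit false)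
        ++ bits [false, false, false, true, true, true, false]) u hu
    (Ste _ _) (SX _ _) (SB _ _)
  rw [uX, uB] at h7
  have h8 := onesU_spec Own.tf Own.Bk (by decide)
    (S (Z (dX ++ bits u) tX)
      (Z (dB ++ bits [true, true, true, false, false, false, true] ++ bits u
        ++ List.replicate P.f (bit false)
        ++ bits [false, false, false, true, true, true, false]
        ++ bits (u.map not)) [])) P.f
    (dB ++ bits [true, true, true, false, false, false, true] ++ bits u
        ++ List.replicate P.f (bit false)
        ++ bits [false, false, false, true, true, true, false]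
        ++ bits (u.map not)) (Stf _ _) (SB _ _)
  rw [uB] at h8
  have h9 := wrB (Z (dX ++ bits u) tX)
    (dB ++ bits [true, true, true, false, false, false, true] ++ bits u
        ++ List.replicate P.f (bit false)
        ++ bits [false, false, false, true, true, true, false]
        ++ bits (u.map not) ++ List.replicate P.f (bit true))
    (bits [false, false])
  have h10 := mvL (Z (dB ++ bits [true, true, true, false, false, false, true] ++ bits u
        ++ List.replicate P.f (bit false)
        ++ bits [false, false, false, true, true, true, false]
        ++ bits (u.map not) ++ List.replicate P.f (bit true) ++ bits [false, false]) [])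
  have hall := seq_sruns h1 (seq_sruns h2 (seq_sruns h3 (seq_sruns h4 (seq_sruns h5
    (seq_sruns h6 (seq_sruns h7 (seq_sruns h8 (seq_sruns h9 h10))))))))
  have hword : dB ++ bits [true, true, true, false, false, false, true] ++ bits u
        ++ List.replicate P.f (bit false)
        ++ bits [false, false, false, true, true, true, false]
        ++ bits (u.map not) ++ List.replicate P.f (bit true) ++ bits [false, false]
      = dB ++ (bits (encBlock P.f u) : List Γ) := by
    simp [bits, encBlock, zs, os, List.map_append, List.map_replicate, List.append_assoc]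
  rw [hword, ← hs] at hall
  refine Prog.SRuns.mono hall ?_
  simp only [cEncEntry, bits, List.length_map, List.length_cons, List.length_nil]
  omega

end Vale.Agent.P338.TM
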