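import Vale.Agent.P338.TM.SpecDemuxLoop

namespace Vale.Agent.P338.TM

open Vale.Agent.P338

variable {Γ : Type} [TapeAlpha Γ]

theorem ex_cat_zero (f : ℕ → List Bool) (i : ℕ) : cat f i 0 = [] := by
  simp [cat]

theorem ex_cat_succ (f : ℕ → List Bool) (i k : ℕ) : cat f i (k + 1) = cat f i k ++ f (i + k) := by
  simp [cat, List.range_succ, List.flatMap_append]

theorem ex_cat_add (f : ℕ → List Bool) (i k l : ℕ) :
    cat f i (k + l) = cat f i k ++ cat f (i + k) l := by
  induction l with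
  | zero => simp [ex_cat_zero]
  | succ l ih =>
    rw [← Nat.add_assoc, ex_cat_succ, ih, ex_cat_succ, List.append_assoc, Nat.add_assoc]

theorem ex_cat_length (f : ℕ → List Bool) (e : ℕ) (hf : ∀ j, (f j).length = e) (i k : ℕ) :
    (cat f i k).length = k * e := by
  induction k with
  | zero => simp [ex_cat_zero]
  | succ k ih => rw [ex_cat_succ, List.length_append, ih, hf]; ring

theorem ex_cat_shift (f : ℕ → List Bool) (c k : ℕ) : cat (fun t => f (c + t)) 0 k = cat f c k := by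
  simp [cat]

theorem ex_bits_append (a b : List Bool) : (bits (a ++ b) : List Γ) = bits a ++ bits b := by
  simp [bits]

theorem ex_bits_length (a : List Bool) : (bits a : List Γ).length = a.length := by
  simp [bits]

/-- Simultaneous update of the five tapes used by `extract`. -/
def updE (s : St Own Γ) (zP z0 z1 z2 z3 : Zip Γ) : St Own Γ :=
  Function.update (Function.update (Function.update (Function.update (Function.update s
    Own.Pd zP) Own.T0 z0) Own.T1 z1) Own.T2 z2) Own.T3 z3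

omit [TapeAlpha Γ] in
theorem nf_updE (s : St Own Γ) (tG : Own) (hGP : tG ≠ Own.Pd) (hG0 : tG ≠ Own.T0)
    (hG1 : tG ≠ Own.T1) (hG2 : tG ≠ Own.T2) (hG3 : tG ≠ Own.T3)
    (zG aP a0 a1 a2 a3 zP z0 z1 z2 z3 : Zip Γ) :
    updE (Function.update (updE s aP a0 a1 a2 a3) tG zG) zP z0 z1 z2 z3
      = Function.update (updE s zP z0 z1 z2 z3) tG zG := by
  funext i
  simp only [updE, Function.update_apply]
  split_ifs <;> first | rfl | (exfalso; simp_all)

omit [TapeAlpha Γ] in
theorem nf_setPd (s : St Own Γ) (tG : Own) (hGP : tG ≠ Own.Pd)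
    (zG aP z0 z1 z2 z3 zP : Zip Γ) :
    Function.update (Function.update (updE s aP z0 z1 z2 z3) tG zG) Own.Pd zP
      = Function.update (updE s zP z0 z1 z2 z3) tG zG := by
  funext i
  simp only [updE, Function.update_apply]
  split_ifs <;> first | rfl | (exfalso; simp_all)

theorem extract_aux (P : Par) (tG tR : Own) (htR : tR = Own.ta ∨ tR = Own.t1)
    (hGP : tG ≠ Own.Pd) (hG0 : tG ≠ Own.T0) (hG1 : tG ≠ Own.T1) (hG2 : tG ≠ Own.T2)
    (hG3 : tG ≠ Own.T3) (hGR : tG ≠ tR) (hGb : tG ≠ Own.tb) (hGm : tG ≠ Own.tm)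
    (G R : ℕ) (hR : P.uval tR = R)
    (s : St Own Γ) (hsG : s tG = Z [] (un G))
    (hN : Need P s [tR, Own.tb, Own.tm]) (dx tx : List Γ) (sl : ℕ → List Bool)
    (hsl : ∀ t, (sl t).length = P.w)
    (hx : s Own.Pd = Z dx (bits (cat sl 0 (G * (4 * (R * P.b)))) ++ tx))
    (d0 d1 d2 d3 : List Γ)
    (h0 : s Own.T0 = Z d0 []) (h1 : s Own.T1 = Z d1 []) (h2 : s Own.T2 = Z d2 [])
    (h3 : s Own.T3 = Z d3 []) :
    (extract tG tR : Prog Own Γ).SRuns s (cExtract P R G)
      (updE s (Z (dx ++ bits (cat sl 0 (G * (4 * (R * P.b))))) tx)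
        (Z (d0 ++ bits (exT P sl R G 0)) [])
        (Z (d1 ++ bits (exT P sl R G 1)) [])
        (Z (d2 ++ bits (exT P sl R G 2)) [])
        (Z (d3 ++ bits (exT P sl R G 3)) [])) true := by
  have hRP : tR ≠ Own.Pd := by rcases htR with rfl | rfl <;> decide
  have hR0 : tR ≠ Own.T0 := by rcases htR with rfl | rfl <;> decide
  have hR1 : tR ≠ Own.T1 := by rcases htR with rfl | rfl <;> decide
  have hR2 : tR ≠ Own.T2 := by rcases htR with rfl | rfl <;> decide
  have hR3 : tR ≠ Own.T3 := by rcases htR with rfl | rfl <;> decide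
  have nP : Own.Pd ∉ [tR, Own.tb, Own.tm] := by simp [hRP.symm]
  have n0 : Own.T0 ∉ [tR, Own.tb, Own.tm] := by simp [hR0.symm]
  have n1 : Own.T1 ∉ [tR, Own.tb, Own.tm] := by simp [hR1.symm]
  have n2 : Own.T2 ∉ [tR, Own.tb, Own.tm] := by simp [hR2.symm]
  have n3 : Own.T3 ∉ [tR, Own.tb, Own.tm] := by simp [hR3.symm]
  have nG : tG ∉ [tR, Own.tb, Own.tm] := by simp [hGR, hGb, hGm]
  obtain ⟨Q, hQ⟩ : ∃ Q, Q = R * P.b := ⟨_, rfl⟩
  rw [← hQ] at hx ⊢
  have hexT : ∀ k i, exT P sl R (k + 1) i = exT P sl R k i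
      ++ dmT P (fun t => sl (k * (4 * Q) + 2 * Q + t)) R i := by
    intro k i
    unfold exT
    rw [ex_cat_succ, Nat.zero_add, hQ]
  have hlen : ∀ i, (bits (cat sl i Q) : List Γ).length = P.uval tR * (P.b * P.w) := by
    intro i
    rw [ex_bits_length, ex_cat_length sl P.w hsl, hQ, hR, Nat.mul_assoc]
  have h := forU_fun tG
    (seq (rep 2 (forU tR (forU Own.tb (skipSlot Own.Pd))))
      (seq (forU tR (forU Own.tb (demuxSlot Own.Pd)))
        (forU tR (forU Own.tb (skipSlot Own.Pd))))) G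
    (2 * (cLoop2 P R (cSkipSlot P) + 1) + cLoop2 P R (cDemuxSlot P) + cLoop2 P R (cSkipSlot P) + 2)
    (fun k => updE s
      (Z (dx ++ bits (cat sl 0 (k * (4 * Q)))) (bits (cat sl (k * (4 * Q)) ((G - k) * (4 * Q))) ++ tx))
      (Z (d0 ++ bits (exT P sl R k 0)) []) (Z (d1 ++ bits (exT P sl R k 1)) [])
      (Z (d2 ++ bits (exT P sl R k 2)) []) (Z (d3 ++ bits (exT P sl R k 3)) []))
    (by
      intro k hk
      refine ⟨true, ?_⟩
      obtain ⟨B, hB⟩ : ∃ B, B = k * (4 * Q) := ⟨_, rfl⟩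
      obtain ⟨j, hj⟩ : ∃ j, G - k = j + 1 := ⟨G - k - 1, by omega⟩
      have hj' : G - (k + 1) = j := by omega
      have hB' : (k + 1) * (4 * Q) = B + Q + Q + Q + Q := by rw [hB]; ring
      have E1 : cat sl B ((G - k) * (4 * Q)) = cat sl B Q ++ (cat sl (B + Q) Q ++
          (cat sl (B + Q + Q) Q ++ (cat sl (B + Q + Q + Q) Q ++
            cat sl ((k + 1) * (4 * Q)) ((G - (k + 1)) * (4 * Q))))) := by
        have e : (G - k) * (4 * Q) = Q + (Q + (Q + (Q + j * (4 * Q)))) := by rw [hj]; ring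
        rw [e, ex_cat_add, ex_cat_add, ex_cat_add, ex_cat_add, hj', hB']
      have E2 : cat sl 0 ((k + 1) * (4 * Q)) = cat sl 0 B ++ (cat sl B Q ++ (cat sl (B + Q) Q ++
          (cat sl (B + Q + Q) Q ++ cat sl (B + Q + Q + Q) Q))) := by
        have e : (k + 1) * (4 * Q) = B + (Q + (Q + (Q + Q))) := by rw [hB]; ring
        rw [e, ex_cat_add, ex_cat_add, ex_cat_add, ex_cat_add, Nat.zero_add]
      have E3 : cat (fun t => sl (B + 2 * Q + t)) 0 (P.uval tR * P.b) = cat sl (B + Q + Q) Q := by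
        rw [ex_cat_shift, hR, ← hQ]
        congr 1
        ring
      simp only [hexT, E2]
      rw [← hB, E1]
      simp only [ex_bits_append, List.append_assoc]
      have E3' : (bits (cat (fun t => sl (B + 2 * Q + t)) 0 (P.uval tR * P.b)) : List Γ)
          = bits (cat sl (B + Q + Q) Q) := by rw [E3]
      generalize hc1 : (bits (cat sl B Q) : List Γ) = c1
      generalize hc2 : (bits (cat sl (B + Q) Q) : List Γ) = c2
      generalize hc3 : (bits (cat sl (B + Q + Q) Q) : List Γ) = c3 at E3' ⊢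
      generalize hc4 : (bits (cat sl (B + Q + Q + Q) Q) : List Γ) = c4
      generalize (bits (cat sl ((k + 1) * (4 * Q)) ((G - (k + 1)) * (4 * Q))) : List Γ) = rest
      generalize (bits (cat sl 0 B) : List Γ) = b0
      have l1 : c1.length = P.uval tR * (P.b * P.w) := by rw [← hc1]; exact hlen _
      have l2 : c2.length = P.uval tR * (P.b * P.w) := by rw [← hc2]; exact hlen _
      have l4 : c4.length = P.uval tR * (P.b * P.w) := by rw [← hc4]; exact hlen _
      generalize (Z (un k) (un (G - k)) : Zip Γ) = zG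
      have hNF : ∀ zP z0 z1 z2 z3 : Zip Γ,
          Need P (Function.update (updE s zP z0 z1 z2 z3) tG zG) [tR, Own.tb, Own.tm] := by
        intro zP z0 z1 z2 z3
        exact (((((hN.update nP _).update n0 _).update n1 _).update n2 _).update n3 _).update nG _
      have evP : ∀ zP z0 z1 z2 z3 : Zip Γ,
          Function.update (updE s zP z0 z1 z2 z3) tG zG Own.Pd = zP := by
        intro zP z0 z1 z2 z3
        rw [Function.update_of_ne hGP.symm]; simp [updE]
      have ev0 : ∀ zP z0 z1 z2 z3 : Zip Γ,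
          Function.update (updE s zP z0 z1 z2 z3) tG zG Own.T0 = z0 := by
        intro zP z0 z1 z2 z3
        rw [Function.update_of_ne hG0.symm]; simp [updE]
      have ev1 : ∀ zP z0 z1 z2 z3 : Zip Γ,
          Function.update (updE s zP z0 z1 z2 z3) tG zG Own.T1 = z1 := by
        intro zP z0 z1 z2 z3
        rw [Function.update_of_ne hG1.symm]; simp [updE]
      have ev2 : ∀ zP z0 z1 z2 z3 : Zip Γ,
          Function.update (updE s zP z0 z1 z2 z3) tG zG Own.T2 = z2 := by
        intro zP z0 z1 z2 z3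
        rw [Function.update_of_ne hG2.symm]; simp [updE]
      have ev3 : ∀ zP z0 z1 z2 z3 : Zip Γ,
          Function.update (updE s zP z0 z1 z2 z3) tG zG Own.T3 = z3 := by
        intro zP z0 z1 z2 z3
        rw [Function.update_of_ne hG3.symm]; simp [updE]
      have s1 := skipSlots_spec P tR htR _ (hNF _ _ _ _ _) (dx ++ b0) c1
        (c2 ++ (c3 ++ (c4 ++ (rest ++ tx)))) l1 (evP _ (Z (d0 ++ bits (exT P sl R k 0)) [])
          (Z (d1 ++ bits (exT P sl R k 1)) []) (Z (d2 ++ bits (exT P sl R k 2)) [])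
          (Z (d3 ++ bits (exT P sl R k 3)) []))
      rw [nf_setPd s tG hGP] at s1
      have s2 := skipSlots_spec P tR htR _ (hNF _ _ _ _ _) (dx ++ b0 ++ c1) c2
        (c3 ++ (c4 ++ (rest ++ tx))) l2 (evP _ (Z (d0 ++ bits (exT P sl R k 0)) [])
          (Z (d1 ++ bits (exT P sl R k 1)) []) (Z (d2 ++ bits (exT P sl R k 2)) [])
          (Z (d3 ++ bits (exT P sl R k 3)) []))
      rw [nf_setPd s tG hGP] at s2
      have s3 := demuxSlots_spec P Own.Pd tR (Or.inl rfl) htR _ (hNF _ _ _ _ _)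
        (dx ++ b0 ++ c1 ++ c2) (c4 ++ (rest ++ tx)) (fun t => sl (B + 2 * Q + t))
        (fun t => hsl _)
        ((evP _ (Z (d0 ++ bits (exT P sl R k 0)) [])
          (Z (d1 ++ bits (exT P sl R k 1)) []) (Z (d2 ++ bits (exT P sl R k 2)) [])
          (Z (d3 ++ bits (exT P sl R k 3)) [])).trans (by rw [E3']))
        _ _ _ _ (ev0 _ _ _ _ _) (ev1 _ _ _ _ _) (ev2 _ _ _ _ _) (ev3 _ _ _ _ _)
      rw [E3'] at s3
      change Prog.SRuns _ _ _ (updE _ _ _ _ _ _) _ at s3
      rw [nf_updE s tG hGP hG0 hG1 hG2 hG3] at s3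
      have s4 := skipSlots_spec P tR htR _ (hNF _ _ _ _ _) (dx ++ b0 ++ c1 ++ c2 ++ c3) c4
        (rest ++ tx) l4 (evP _
          (Z (d0 ++ bits (exT P sl R k 0) ++ bits (dmT P (fun t => sl (B + 2 * Q + t)) (P.uval tR) 0)) [])
          (Z (d1 ++ bits (exT P sl R k 1) ++ bits (dmT P (fun t => sl (B + 2 * Q + t)) (P.uval tR) 1)) [])
          (Z (d2 ++ bits (exT P sl R k 2) ++ bits (dmT P (fun t => sl (B + 2 * Q + t)) (P.uval tR) 2)) [])
          (Z (d3 ++ bits (exT P sl R k 3) ++ bits (dmT P (fun t => sl (B + 2 * Q + t)) (P.uval tR) 3)) []))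
      rw [nf_setPd s tG hGP] at s4
      have hrep := seq_sruns s1 (seq_sruns s2 (skip_sruns _))
      have hall := seq_sruns hrep (seq_sruns s3 s4)
      rw [hR] at hall
      simp only [List.append_assoc] at hall
      exact hall.mono (by omega))
  have hexT0 : ∀ i, exT P sl R 0 i = [] := by
    intro i
    unfold exT
    rw [ex_cat_zero]
  have evG : ∀ zP z0 z1 z2 z3 : Zip Γ, updE s zP z0 z1 z2 z3 tG = Z [] (un G) := by
    intro zP z0 z1 z2 z3
    unfold updE
    rw [Function.update_of_ne hG3, Function.update_of_ne hG2, Function.update_of_ne hG1,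
      Function.update_of_ne hG0, Function.update_of_ne hGP, hsG]
  have e0 : updE s
      (Z (dx ++ bits (cat sl 0 (0 * (4 * Q)))) (bits (cat sl (0 * (4 * Q)) ((G - 0) * (4 * Q))) ++ tx))
      (Z (d0 ++ bits (exT P sl R 0 0)) []) (Z (d1 ++ bits (exT P sl R 0 1)) [])
      (Z (d2 ++ bits (exT P sl R 0 2)) []) (Z (d3 ++ bits (exT P sl R 0 3)) []) = s := by
    simp only [hexT0, Nat.zero_mul, ex_cat_zero, Nat.sub_zero]
    have eb : (bits ([] : List Bool) : List Γ) = [] := rfl
    simp only [eb, List.append_nil]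
    rw [← hx, ← h0, ← h1, ← h2, ← h3]
    unfold updE
    simp only [Function.update_eq_self]
  have e1 : (bits (cat sl (G * (4 * Q)) ((G - G) * (4 * Q))) ++ tx : List Γ) = tx := by
    rw [Nat.sub_self, Nat.zero_mul, ex_cat_zero]
    rfl
  rw [e0, e1, ← hsG, Function.update_eq_self, hsG, ← evG, Function.update_eq_self] at h
  exact h

theorem extract_spec (P : Par) (tG tR : Own) (hGR : LoopPair tG tR) (s : St Own Γ)
    (hN : Need P s [tG, tR, Own.tb, Own.tm]) (dx tx : List Γ) (sl : ℕ → List Bool)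
    (hsl : ∀ t, (sl t).length = P.w)
    (hx : s Own.Pd = Z dx (bits (cat sl 0 (P.uval tG * (4 * (P.uval tR * P.b)))) ++ tx))
    (d0 d1 d2 d3 : List Γ)
    (h0 : s Own.T0 = Z d0 []) (h1 : s Own.T1 = Z d1 []) (h2 : s Own.T2 = Z d2 [])
    (h3 : s Own.T3 = Z d3 []) :
    (extract tG tR : Prog Own Γ).SRuns s (cExtract P (P.uval tR) (P.uval tG))
      (Function.update (Function.update (Function.update (Function.update (Function.update s
        Own.Pd (Z (dx ++ bits (cat sl 0 (P.uval tG * (4 * (P.uval tR * P.b))))) tx))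
        Own.T0 (Z (d0 ++ bits (exT P sl (P.uval tR) (P.uval tG) 0)) []))
        Own.T1 (Z (d1 ++ bits (exT P sl (P.uval tR) (P.uval tG) 1)) []))
        Own.T2 (Z (d2 ++ bits (exT P sl (P.uval tR) (P.uval tG) 2)) []))
        Own.T3 (Z (d3 ++ bits (exT P sl (P.uval tR) (P.uval tG) 3)) [])) true := by
  have hsG : s tG = Z [] (un (P.uval tG)) := by
    have := (hN tG (by simp)).1
    rcases hGR with ⟨rfl, rfl⟩ | ⟨rfl, rfl⟩ <;> exact this rfl
  have hN' : Need P s [tR, Own.tb, Own.tm] := hN.mono (by intro x hx; simp at hx ⊢; tauto)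
  rcases hGR with ⟨rfl, rfl⟩ | ⟨rfl, rfl⟩
  · exact extract_aux P Own.t1 Own.ta (Or.inl rfl) (by decide) (by decide) (by decide) (by decide)
      (by decide) (by decide) (by decide) (by decide) _ _ rfl s hsG hN' dx tx sl hsl hx
      d0 d1 d2 d3 h0 h1 h2 h3
  · exact extract_aux P Own.ta Own.t1 (Or.inr rfl) (by decide) (by decide) (by decide) (by decide)
      (by decide) (by decide) (by decide) (by decide) _ _ rfl s hsG hN' dx tx sl hsl hx
      d0 d1 d2 d3 h0 h1 h2 h3

end Vale.Agent.P338.TM
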