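import Vale.Agent.P338.TM.SpecDrv1
import Vale.Agent.P338.TM.SpecDrv2

namespace Vale.Agent.P338.TM

open Vale.Agent.P338

variable {Γ : Type} [TapeAlpha Γ]

theorem gl_un_length (c : ℕ) : (un c : List Γ).length = c := List.length_replicate

theorem gl_blank_notMem_un (c : ℕ) : (blank : Γ) ∉ (un c : List Γ) := by
  intro h
  have := List.eq_of_mem_replicate h
  exact TapeAlpha.bit_ne_blank true this.symm

/-- One level of the schedule generator. -/
theorem genLevel_spec (s : St Own Γ) (K : ℕ) (d p : List Γ)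
    (h0 : s Own.T0 = Z [] (un K))
    (hE : ∀ x ∈ [Own.T1, Own.T2, Own.T3, Own.W, Own.U, Own.V], s x = Z [] [])
    (hd : s Own.d7 = Z d []) (hp : s Own.Pd = Z p []) :
    (genLevel : Prog Own Γ).SRuns s (200 * K + 1000)
      (Function.update (Function.update (Function.update s
        Own.T0 (Z [] (un ((K + 1) / 2))))
        Own.d7 (Z (d ++ encOps (opsDown K)) []))
        Own.Pd (Z (p ++ (encOps (opsUp K) : List Γ).reverse) [])) true := by
  have e1 : s Own.T1 = Z [] [] := hE _ (by simp)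
  have e2 : s Own.T2 = Z [] [] := hE _ (by simp)
  have e3 : s Own.T3 = Z [] [] := hE _ (by simp)
  have eW : s Own.W = Z [] [] := hE _ (by simp)
  have eU : s Own.U = Z [] [] := hE _ (by simp)
  have eV : s Own.V = Z [] [] := hE _ (by simp)
  obtain ⟨P, hP⟩ : ∃ P, P = (K + 1) / 2 := ⟨_, rfl⟩
  obtain ⟨Q, hQ⟩ : ∃ Q, Q = K / 2 := ⟨_, rfl⟩
  obtain ⟨A, hA⟩ : ∃ A, A = (P + 1) / 2 := ⟨_, rfl⟩
  obtain ⟨B, hB⟩ : ∃ B, B = P / 2 := ⟨_, rfl⟩
  obtain ⟨C, hC⟩ : ∃ C, C = (Q + 1) / 2 := ⟨_, rfl⟩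
  obtain ⟨D, hD⟩ : ∃ D, D = Q / 2 := ⟨_, rfl⟩
  have hdown : (encOps (opsDown K) : List Γ)
      = encOp (P + C, D, P) ++ encOp (P, C, B) ++ encOp (P + B, C, A) := by
    subst hA hB hC hD hP hQ
    simp [encOps, opsDown, opsX]
  have hup : (encOps (opsUp K) : List Γ).reverse
      = (encOp (P + D, A, C) : List Γ).reverse ++ (encOp (P, A, D) : List Γ).reverse
        ++ (encOp (P + A, B, Q) : List Γ).reverse ++ (encOp (2 * P, Q, Q) : List Γ).reverse := by
    subst hA hB hC hD hP hQ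
    simp only [encOps, opsUp, opsX, List.flatMap_cons, List.flatMap_nil, List.append_nil,
      List.reverse_append, List.append_assoc]
  rw [hdown, hup, ← hP]
  obtain ⟨o1, ho1⟩ : ∃ o : List Γ, o = encOp (P + C, D, P) := ⟨_, rfl⟩
  obtain ⟨o2, ho2⟩ : ∃ o : List Γ, o = encOp (P, C, B) := ⟨_, rfl⟩
  obtain ⟨o3, ho3⟩ : ∃ o : List Γ, o = encOp (P + B, C, A) := ⟨_, rfl⟩
  obtain ⟨u4, hu4⟩ : ∃ o : List Γ, o = (encOp (P + D, A, C) : List Γ).reverse := ⟨_, rfl⟩
  obtain ⟨u3, hu3⟩ : ∃ o : List Γ, o = (encOp (P, A, D) : List Γ).reverse := ⟨_, rfl⟩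
  obtain ⟨u2, hu2⟩ : ∃ o : List Γ, o = (encOp (P + A, B, Q) : List Γ).reverse := ⟨_, rfl⟩
  obtain ⟨u1, hu1⟩ : ∃ o : List Γ, o = (encOp (2 * P, Q, Q) : List Γ).reverse := ⟨_, rfl⟩
  rw [← ho1, ← ho2, ← ho3, ← hu4, ← hu3, ← hu2, ← hu1]
  obtain ⟨val, hv1, hv2, hv3, hvW, hvU, hvV⟩ : ∃ val : Own → ℕ, val Own.T1 = P ∧ val Own.T2 = Q ∧
      val Own.T3 = A ∧ val Own.W = B ∧ val Own.U = C ∧ val Own.V = D :=
    ⟨fun x => match x with
      | Own.T1 => P | Own.T2 => Q | Own.T3 => A | Own.W => B | Own.U => C | Own.V => D | _ => 0,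
      rfl, rfl, rfl, rfl, rfl, rfl⟩
  -- the states
  obtain ⟨s1, hs1⟩ : ∃ t, t = Function.update (Function.update (Function.update s
    Own.T0 (Z (un K) [])) Own.T1 (Z (un P) [])) Own.T2 (Z (un Q) []) := ⟨_, rfl⟩
  obtain ⟨s2, hs2⟩ : ∃ t, t = Function.update s1 Own.T1 (Z [] (un P)) := ⟨_, rfl⟩
  obtain ⟨s3, hs3⟩ : ∃ t, t = Function.update s2 Own.T2 (Z [] (un Q)) := ⟨_, rfl⟩
  obtain ⟨s4, hs4⟩ : ∃ t, t = Function.update (Function.update (Function.update s3
    Own.T1 (Z (un P) [])) Own.T3 (Z (un A) [])) Own.W (Z (un B) []) := ⟨_, rfl⟩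
  obtain ⟨s5, hs5⟩ : ∃ t, t = Function.update s4 Own.T1 (Z [] (un P)) := ⟨_, rfl⟩
  obtain ⟨s6, hs6⟩ : ∃ t, t = Function.update s5 Own.T3 (Z [] (un A)) := ⟨_, rfl⟩
  obtain ⟨s7, hs7⟩ : ∃ t, t = Function.update s6 Own.W (Z [] (un B)) := ⟨_, rfl⟩
  obtain ⟨s8, hs8⟩ : ∃ t, t = Function.update (Function.update (Function.update s7
    Own.T2 (Z (un Q) [])) Own.U (Z (un C) [])) Own.V (Z (un D) []) := ⟨_, rfl⟩
  obtain ⟨s9, hs9⟩ : ∃ t, t = Function.update s8 Own.T2 (Z [] (un Q)) := ⟨_, rfl⟩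
  obtain ⟨s10, hs10⟩ : ∃ t, t = Function.update s9 Own.U (Z [] (un C)) := ⟨_, rfl⟩
  obtain ⟨s11, hs11⟩ : ∃ t, t = Function.update s10 Own.V (Z [] (un D)) := ⟨_, rfl⟩
  obtain ⟨s12, hs12⟩ : ∃ t, t = Function.update s11 Own.d7 (Z (d ++ o1) []) := ⟨_, rfl⟩
  obtain ⟨s13, hs13⟩ : ∃ t, t = Function.update s12 Own.d7 (Z (d ++ o1 ++ o2) []) := ⟨_, rfl⟩
  obtain ⟨s14, hs14⟩ : ∃ t, t = Function.update s13 Own.d7 (Z (d ++ o1 ++ o2 ++ o3) []) := ⟨_, rfl⟩
  obtain ⟨s15, hs15⟩ : ∃ t, t = Function.update s14 Own.Pd (Z (p ++ u4) []) := ⟨_, rfl⟩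
  obtain ⟨s16, hs16⟩ : ∃ t, t = Function.update s15 Own.Pd (Z (p ++ u4 ++ u3) []) := ⟨_, rfl⟩
  obtain ⟨s17, hs17⟩ : ∃ t, t = Function.update s16 Own.Pd (Z (p ++ u4 ++ u3 ++ u2) []) := ⟨_, rfl⟩
  obtain ⟨s18, hs18⟩ : ∃ t, t = Function.update s17 Own.Pd (Z (p ++ u4 ++ u3 ++ u2 ++ u1) []) :=
    ⟨_, rfl⟩
  obtain ⟨s19, hs19⟩ : ∃ t, t = Function.update s18 Own.T0 (Z [] []) := ⟨_, rfl⟩
  obtain ⟨s20, hs20⟩ : ∃ t, t = Function.update (Function.update s19 Own.T1 (Z (un P) []))
    Own.T0 (Z (un P) []) := ⟨_, rfl⟩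
  obtain ⟨s21, hs21⟩ : ∃ t, t = Function.update s20 Own.T0 (Z [] (un P)) := ⟨_, rfl⟩
  obtain ⟨s22, hs22⟩ : ∃ t, t = Function.update s21 Own.T1 (Z [] []) := ⟨_, rfl⟩
  obtain ⟨s23, hs23⟩ : ∃ t, t = Function.update s22 Own.T2 (Z [] []) := ⟨_, rfl⟩
  obtain ⟨s24, hs24⟩ : ∃ t, t = Function.update s23 Own.T3 (Z [] []) := ⟨_, rfl⟩
  obtain ⟨s25, hs25⟩ : ∃ t, t = Function.update s24 Own.W (Z [] []) := ⟨_, rfl⟩
  obtain ⟨s26, hs26⟩ : ∃ t, t = Function.update s25 Own.U (Z [] []) := ⟨_, rfl⟩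
  obtain ⟨s27, hs27⟩ : ∃ t, t = Function.update s26 Own.V (Z [] []) := ⟨_, rfl⟩
  -- the steps
  have r1 : (halves Own.T0 Own.T1 Own.T2).SRuns s (4 * K + 10) s1 true := by
    have h := halves_spec Own.T0 Own.T1 Own.T2 (by decide) (by decide) (by decide) s K [] []
      h0 e1 e2
    rw [List.nil_append, List.nil_append, ← hP, ← hQ] at h
    rw [hs1]
    exact h
  have r2 : (rewind Own.T1).SRuns s1 (P + 3) s2 true := by
    have h := rewind_spec Own.T1 s1 (un P) [] (by simp [hs1]) (lend_notMem_un _) (by simp)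
    rw [List.append_nil, gl_un_length] at h
    rw [hs2]
    exact h
  have r3 : (rewind Own.T2).SRuns s2 (Q + 3) s3 true := by
    have h := rewind_spec Own.T2 s2 (un Q) [] (by simp [hs2, hs1]) (lend_notMem_un _) (by simp)
    rw [List.append_nil, gl_un_length] at h
    rw [hs3]
    exact h
  have r4 : (halves Own.T1 Own.T3 Own.W).SRuns s3 (4 * P + 10) s4 true := by
    have h := halves_spec Own.T1 Own.T3 Own.W (by decide) (by decide) (by decide) s3 P [] []
      (by simp [hs3, hs2]) (by simp [hs3, hs2, hs1, e3]) (by simp [hs3, hs2, hs1, eW])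
    rw [List.nil_append, List.nil_append, ← hA, ← hB] at h
    rw [hs4]
    exact h
  have r5 : (rewind Own.T1).SRuns s4 (P + 3) s5 true := by
    have h := rewind_spec Own.T1 s4 (un P) [] (by simp [hs4]) (lend_notMem_un _) (by simp)
    rw [List.append_nil, gl_un_length] at h
    rw [hs5]
    exact h
  have r6 : (rewind Own.T3).SRuns s5 (A + 3) s6 true := by
    have h := rewind_spec Own.T3 s5 (un A) [] (by simp [hs5, hs4]) (lend_notMem_un _) (by simp)
    rw [List.append_nil, gl_un_length] at h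
    rw [hs6]
    exact h
  have r7 : (rewind Own.W).SRuns s6 (B + 3) s7 true := by
    have h := rewind_spec Own.W s6 (un B) [] (by simp [hs6, hs5, hs4]) (lend_notMem_un _)
      (by simp)
    rw [List.append_nil, gl_un_length] at h
    rw [hs7]
    exact h
  have r8 : (halves Own.T2 Own.U Own.V).SRuns s7 (4 * Q + 10) s8 true := by
    have h := halves_spec Own.T2 Own.U Own.V (by decide) (by decide) (by decide) s7 Q [] []
      (by simp [hs7, hs6, hs5, hs4, hs3])
      (by simp [hs7, hs6, hs5, hs4, hs3, hs2, hs1, eU])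
      (by simp [hs7, hs6, hs5, hs4, hs3, hs2, hs1, eV])
    rw [List.nil_append, List.nil_append, ← hC, ← hD] at h
    rw [hs8]
    exact h
  have r9 : (rewind Own.T2).SRuns s8 (Q + 3) s9 true := by
    have h := rewind_spec Own.T2 s8 (un Q) [] (by simp [hs8]) (lend_notMem_un _) (by simp)
    rw [List.append_nil, gl_un_length] at h
    rw [hs9]
    exact h
  have r10 : (rewind Own.U).SRuns s9 (C + 3) s10 true := by
    have h := rewind_spec Own.U s9 (un C) [] (by simp [hs9, hs8]) (lend_notMem_un _) (by simp)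
    rw [List.append_nil, gl_un_length] at h
    rw [hs10]
    exact h
  have r11 : (rewind Own.V).SRuns s10 (D + 3) s11 true := by
    have h := rewind_spec Own.V s10 (un D) [] (by simp [hs10, hs9, hs8]) (lend_notMem_un _)
      (by simp)
    rw [List.append_nil, gl_un_length] at h
    rw [hs11]
    exact h
  have w1 : s11 Own.T1 = Z [] (un (val Own.T1)) := by
    simp [hs11, hs10, hs9, hs8, hs7, hs6, hs5, hv1]
  have w2 : s11 Own.T2 = Z [] (un (val Own.T2)) := by
    simp [hs11, hs10, hs9, hv2]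
  have w3 : s11 Own.T3 = Z [] (un (val Own.T3)) := by
    simp [hs11, hs10, hs9, hs8, hs7, hs6, hv3]
  have wW : s11 Own.W = Z [] (un (val Own.W)) := by
    simp [hs11, hs10, hs9, hs8, hs7, hvW]
  have wU : s11 Own.U = Z [] (un (val Own.U)) := by
    simp [hs11, hs10, hvU]
  have wV : s11 Own.V = Z [] (un (val Own.V)) := by
    simp [hs11, hvV]
  have w0 : s11 Own.T0 = Z (un K) [] := by
    simp [hs11, hs10, hs9, hs8, hs7, hs6, hs5, hs4, hs3, hs2, hs1]
  have wd : s11 Own.d7 = Z d [] := by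
    simp [hs11, hs10, hs9, hs8, hs7, hs6, hs5, hs4, hs3, hs2, hs1, hd]
  have wp : s11 Own.Pd = Z p [] := by
    simp [hs11, hs10, hs9, hs8, hs7, hs6, hs5, hs4, hs3, hs2, hs1, hp]
  have r12 : (emitOp Own.d7 [Own.T1, Own.U] Own.V Own.T1).SRuns s11
      (7 * (P + C + D + P) + 7 * 2 + 30) s12 true := by
    have h := emitOp_spec Own.d7 [Own.T1, Own.U] Own.V Own.T1 val s11 d (by
      intro x hx
      simp only [List.mem_cons, List.not_mem_nil, or_false] at hx
      rcases hx with rfl | rfl | rfl | rfl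
      · exact ⟨by decide, wV⟩
      · exact ⟨by decide, w1⟩
      · exact ⟨by decide, w1⟩
      · exact ⟨by decide, wU⟩) wd
    simp only [List.map_cons, List.map_nil, List.sum_cons, List.sum_nil, Nat.add_zero,
      List.length_cons, List.length_nil, Nat.zero_add, hv1, hv2, hv3, hvW, hvU, hvV] at h
    rw [hs12, ho1]
    exact h
  have r13 : (emitOp Own.d7 [Own.T1] Own.U Own.W).SRuns s12
      (7 * (P + C + B) + 7 * 1 + 30) s13 true := by
    have h := emitOp_spec Own.d7 [Own.T1] Own.U Own.W val s12 (d ++ o1) (by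
      intro x hx
      simp only [List.mem_cons, List.not_mem_nil, or_false] at hx
      rcases hx with rfl | rfl | rfl
      · exact ⟨by decide, by simp [hs12, wU]⟩
      · exact ⟨by decide, by simp [hs12, wW]⟩
      · exact ⟨by decide, by simp [hs12, w1]⟩) (by simp [hs12])
    simp only [List.map_cons, List.map_nil, List.sum_cons, List.sum_nil, Nat.add_zero,
      List.length_cons, List.length_nil, Nat.zero_add, hv1, hv2, hv3, hvW, hvU, hvV] at h
    rw [hs13, ho2]
    exact h
  have r14 : (emitOp Own.d7 [Own.T1, Own.W] Own.U Own.T3).SRuns s13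
      (7 * (P + B + C + A) + 7 * 2 + 30) s14 true := by
    have h := emitOp_spec Own.d7 [Own.T1, Own.W] Own.U Own.T3 val s13 (d ++ o1 ++ o2) (by
      intro x hx
      simp only [List.mem_cons, List.not_mem_nil, or_false] at hx
      rcases hx with rfl | rfl | rfl | rfl
      · exact ⟨by decide, by simp [hs13, hs12, wU]⟩
      · exact ⟨by decide, by simp [hs13, hs12, w3]⟩
      · exact ⟨by decide, by simp [hs13, hs12, w1]⟩
      · exact ⟨by decide, by simp [hs13, hs12, wW]⟩) (by simp [hs13])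
    simp only [List.map_cons, List.map_nil, List.sum_cons, List.sum_nil, Nat.add_zero,
      List.length_cons, List.length_nil, Nat.zero_add, hv1, hv2, hv3, hvW, hvU, hvV] at h
    rw [hs14, ho3]
    exact h
  have r15 : (emitRev Own.Pd [Own.T1, Own.V] Own.T3 Own.U).SRuns s14
      (7 * (P + D + A + C) + 7 * 2 + 30) s15 true := by
    have h := emitRev_spec Own.Pd [Own.T1, Own.V] Own.T3 Own.U val s14 p (by
      intro x hx
      simp only [List.mem_cons, List.not_mem_nil, or_false] at hx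
      rcases hx with rfl | rfl | rfl | rfl
      · exact ⟨by decide, by simp [hs14, hs13, hs12, w3]⟩
      · exact ⟨by decide, by simp [hs14, hs13, hs12, wU]⟩
      · exact ⟨by decide, by simp [hs14, hs13, hs12, w1]⟩
      · exact ⟨by decide, by simp [hs14, hs13, hs12, wV]⟩) (by simp [hs14, hs13, hs12, wp])
    simp only [List.map_cons, List.map_nil, List.sum_cons, List.sum_nil, Nat.add_zero,
      List.length_cons, List.length_nil, Nat.zero_add, hv1, hv2, hv3, hvW, hvU, hvV] at h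
    rw [hs15, hu4]
    exact h
  have r16 : (emitRev Own.Pd [Own.T1] Own.T3 Own.V).SRuns s15
      (7 * (P + A + D) + 7 * 1 + 30) s16 true := by
    have h := emitRev_spec Own.Pd [Own.T1] Own.T3 Own.V val s15 (p ++ u4) (by
      intro x hx
      simp only [List.mem_cons, List.not_mem_nil, or_false] at hx
      rcases hx with rfl | rfl | rfl
      · exact ⟨by decide, by simp [hs15, hs14, hs13, hs12, w3]⟩
      · exact ⟨by decide, by simp [hs15, hs14, hs13, hs12, wV]⟩
      · exact ⟨by decide, by simp [hs15, hs14, hs13, hs12, w1]⟩) (by simp [hs15])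
    simp only [List.map_cons, List.map_nil, List.sum_cons, List.sum_nil, Nat.add_zero,
      List.length_cons, List.length_nil, Nat.zero_add, hv1, hv2, hv3, hvW, hvU, hvV] at h
    rw [hs16, hu3]
    exact h
  have r17 : (emitRev Own.Pd [Own.T1, Own.T3] Own.W Own.T2).SRuns s16
      (7 * (P + A + B + Q) + 7 * 2 + 30) s17 true := by
    have h := emitRev_spec Own.Pd [Own.T1, Own.T3] Own.W Own.T2 val s16 (p ++ u4 ++ u3) (by
      intro x hx
      simp only [List.mem_cons, List.not_mem_nil, or_false] at hx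
      rcases hx with rfl | rfl | rfl | rfl
      · exact ⟨by decide, by simp [hs16, hs15, hs14, hs13, hs12, wW]⟩
      · exact ⟨by decide, by simp [hs16, hs15, hs14, hs13, hs12, w2]⟩
      · exact ⟨by decide, by simp [hs16, hs15, hs14, hs13, hs12, w1]⟩
      · exact ⟨by decide, by simp [hs16, hs15, hs14, hs13, hs12, w3]⟩) (by simp [hs16])
    simp only [List.map_cons, List.map_nil, List.sum_cons, List.sum_nil, Nat.add_zero,
      List.length_cons, List.length_nil, Nat.zero_add, hv1, hv2, hv3, hvW, hvU, hvV] at h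
    rw [hs17, hu2]
    exact h
  have r18 : (emitRev Own.Pd [Own.T1, Own.T1] Own.T2 Own.T2).SRuns s17
      (7 * (P + P + Q + Q) + 7 * 2 + 30) s18 true := by
    have h := emitRev_spec Own.Pd [Own.T1, Own.T1] Own.T2 Own.T2 val s17 (p ++ u4 ++ u3 ++ u2) (by
      intro x hx
      simp only [List.mem_cons, List.not_mem_nil, or_false] at hx
      rcases hx with rfl | rfl | rfl | rfl
      · exact ⟨by decide, by simp [hs17, hs16, hs15, hs14, hs13, hs12, w2]⟩
      · exact ⟨by decide, by simp [hs17, hs16, hs15, hs14, hs13, hs12, w2]⟩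
      · exact ⟨by decide, by simp [hs17, hs16, hs15, hs14, hs13, hs12, w1]⟩
      · exact ⟨by decide, by simp [hs17, hs16, hs15, hs14, hs13, hs12, w1]⟩) (by simp [hs17])
    simp only [List.map_cons, List.map_nil, List.sum_cons, List.sum_nil, Nat.add_zero,
      List.length_cons, List.length_nil, Nat.zero_add, hv1, hv2, hv3, hvW, hvU, hvV] at h
    rw [hs18, hu1, two_mul]
    exact h
  have r19 : (erase Own.T0).SRuns s18 (K + 5) s19 true := by
    have h := erase_spec Own.T0 s18 (un K) []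
      (by simp [hs18, hs17, hs16, hs15, hs14, hs13, hs12, w0]) (lend_notMem_un _)
      (by simp) (by simp)
    rw [gl_un_length] at h
    rw [hs19]
    exact h
  have r20 : (appendAll Own.T1 Own.T0).SRuns s19 P s20 true := by
    have h := appendAll_spec Own.T1 Own.T0 (by decide) s19 [] (un P) []
      (gl_blank_notMem_un _)
      (by simp [hs19, hs18, hs17, hs16, hs15, hs14, hs13, hs12, w1, hv1]) (by simp [hs19])
    rw [List.nil_append, gl_un_length] at h
    rw [hs20]
    exact h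
  have r21 : (rewind Own.T0).SRuns s20 (P + 3) s21 true := by
    have h := rewind_spec Own.T0 s20 (un P) [] (by simp [hs20]) (lend_notMem_un _) (by simp)
    rw [List.append_nil, gl_un_length] at h
    rw [hs21]
    exact h
  have r22 : (erase Own.T1).SRuns s21 (P + 5) s22 true := by
    have h := erase_spec Own.T1 s21 (un P) [] (by simp [hs21, hs20]) (lend_notMem_un _)
      (by simp) (by simp)
    rw [gl_un_length] at h
    rw [hs22]
    exact h
  have r23 : (erase Own.T2).SRuns s22 (2 * Q + 5) s23 true := by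
    have h := erase_spec Own.T2 s22 [] (un Q)
      (by simp [hs22, hs21, hs20, hs19, hs18, hs17, hs16, hs15, hs14, hs13, hs12, w2, hv2])
      (by simp) (lend_notMem_un _) (gl_blank_notMem_un _)
    rw [gl_un_length] at h
    rw [hs23]
    exact h.mono (by simp)
  have r24 : (erase Own.T3).SRuns s23 (2 * A + 5) s24 true := by
    have h := erase_spec Own.T3 s23 [] (un A)
      (by simp [hs23, hs22, hs21, hs20, hs19, hs18, hs17, hs16, hs15, hs14, hs13, hs12, w3, hv3])
      (by simp) (lend_notMem_un _) (gl_blank_notMem_un _)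
    rw [gl_un_length] at h
    rw [hs24]
    exact h.mono (by simp)
  have r25 : (erase Own.W).SRuns s24 (2 * B + 5) s25 true := by
    have h := erase_spec Own.W s24 [] (un B)
      (by simp [hs24, hs23, hs22, hs21, hs20, hs19, hs18, hs17, hs16, hs15, hs14, hs13, hs12, wW,
        hvW])
      (by simp) (lend_notMem_un _) (gl_blank_notMem_un _)
    rw [gl_un_length] at h
    rw [hs25]
    exact h.mono (by simp)
  have r26 : (erase Own.U).SRuns s25 (2 * C + 5) s26 true := by
    have h := erase_spec Own.U s25 [] (un C)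
      (by simp [hs25, hs24, hs23, hs22, hs21, hs20, hs19, hs18, hs17, hs16, hs15, hs14, hs13, hs12,
        wU, hvU])
      (by simp) (lend_notMem_un _) (gl_blank_notMem_un _)
    rw [gl_un_length] at h
    rw [hs26]
    exact h.mono (by simp)
  have r27 : (erase Own.V).SRuns s26 (2 * D + 5) s27 true := by
    have h := erase_spec Own.V s26 [] (un D)
      (by simp [hs26, hs25, hs24, hs23, hs22, hs21, hs20, hs19, hs18, hs17, hs16, hs15, hs14, hs13,
        hs12, wV, hvV])
      (by simp) (lend_notMem_un _) (gl_blank_notMem_un _)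
    rw [gl_un_length] at h
    rw [hs27]
    exact h.mono (by simp)
  have efin : Function.update (Function.update (Function.update s
        Own.T0 (Z [] (un P)))
        Own.d7 (Z (d ++ (o1 ++ o2 ++ o3)) []))
        Own.Pd (Z (p ++ (u4 ++ u3 ++ u2 ++ u1)) []) = s27 := by
    funext x
    cases x <;>
      simp [hs27, hs26, hs25, hs24, hs23, hs22, hs21, hs20,
        hs19, hs18, hs17, hs16, hs15, hs14, hs13, hs12, hs11, hs10, hs9, hs8, hs7, hs6, hs5, hs4,
        hs3, hs2, hs1, e1, e2, e3, eW, eU, eV]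
  rw [efin]
  have R := seqs_cons r1 (seqs_cons r2 (seqs_cons r3 (seqs_cons r4 (seqs_cons r5 (seqs_cons r6
    (seqs_cons r7 (seqs_cons r8 (seqs_cons r9 (seqs_cons r10 (seqs_cons r11 (seqs_cons r12
    (seqs_cons r13 (seqs_cons r14 (seqs_cons r15 (seqs_cons r16 (seqs_cons r17 (seqs_cons r18
    (seqs_cons r19 (seqs_cons r20 (seqs_cons r21 (seqs_cons r22 (seqs_cons r23 (seqs_cons r24
    (seqs_cons r25 (seqs_cons r26 (seqs_cons r27 (seqs_nil s27)))))))))))))))))))))))))))
  refine Prog.SRuns.mono R ?_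
  omega

end Vale.Agent.P338.TM
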