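import Vale.Agent.P338.TM.SpecStageX
import Vale.Agent.P338.TM.SpecDemuxLoop
import Vale.Agent.P338.TM.SpecFoldAdd

namespace Vale.Agent.P338.TM

open Vale.Agent.P338

variable {Γ : Type} [TapeAlpha Γ]

theorem ls_cat_succ (f : ℕ → List Bool) (i k : ℕ) : cat f i (k + 1) = cat f i k ++ f (i + k) := by
  simp [cat, List.range_succ, List.flatMap_append]

theorem ls_cat_zero (f : ℕ → List Bool) (i : ℕ) : cat f i 0 = [] := by
  simp [cat]

theorem ls_cat_add (f : ℕ → List Bool) (i k l : ℕ) :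
    cat f i (k + l) = cat f i k ++ cat f (i + k) l := by
  induction l with
  | zero => simp [ls_cat_zero]
  | succ l ih =>
    rw [← Nat.add_assoc, ls_cat_succ, ih, ls_cat_succ, List.append_assoc, Nat.add_assoc]

theorem ls_cat_congr (f g : ℕ → List Bool) (i k : ℕ) (h : ∀ j < k, f (i + j) = g (i + j)) :
    cat f i k = cat g i k := by
  induction k with
  | zero => simp [ls_cat_zero]
  | succ k ih =>
    rw [ls_cat_succ, ls_cat_succ, ih fun j hj => h j (Nat.lt_succ_of_lt hj), h k (Nat.lt_succ_self k)]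

theorem ls_cat_shift (f : ℕ → List Bool) (i k : ℕ) : cat f i k = cat (fun j => f (i + j)) 0 k := by
  simp [cat]

theorem ls_length_cat (f : ℕ → List Bool) (i k c : ℕ) (h : ∀ j, (f j).length = c) :
    (cat f i k).length = k * c := by
  induction k with
  | zero => simp [ls_cat_zero]
  | succ k ih => rw [ls_cat_succ, List.length_append, ih, h, Nat.succ_mul]

theorem ls_cat_cat (f : ℕ → List Bool) (b r : ℕ) :
    cat (fun i => cat (fun j => f (i * b + j)) 0 b) 0 r = cat f 0 (r * b) := by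
  induction r with
  | zero => simp [ls_cat_zero]
  | succ r ih =>
    rw [ls_cat_succ, ih, Nat.succ_mul, ls_cat_add, Nat.zero_add, Nat.zero_add,
      ls_cat_shift f (r * b) b]

/-- The rows of the first operand, slot by slot. -/
theorem xRowsOut_eq_cat (P : Par) (E1 E2 E3 : ℕ) (blk : ℕ → List Bool) (p : Ph) (r : ℕ)
    (hb : 0 < P.b) :
    xRowsOut P E1 E2 E3 blk p r =
      cat (fun n => slotX P (phAt P E1 E2 E3 p n) (blk n)) 0 (r * P.b) := by
  rw [← ls_cat_cat]
  unfold xRowsOut xRowOut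
  refine ls_cat_congr _ _ _ _ fun i _ => ?_
  refine ls_cat_congr _ _ _ _ fun j hj => ?_
  simp only [Nat.zero_add]
  unfold phAt
  have h1 : (i * P.b + j) / P.b = i := by
    rw [Nat.mul_comm, Nat.mul_add_div hb, Nat.div_eq_of_lt hj, Nat.add_zero]
  have h2 : (i * P.b + j) % P.b = j := by
    rw [Nat.mul_comm, Nat.mul_add_mod, Nat.mod_eq_of_lt hj]
  rw [h1, h2]

theorem ls_length_bits (u : List Bool) : (bits u : List Γ).length = u.length := by
  simp [bits]

theorem ls_bits_append (u v : List Bool) : (bits (u ++ v) : List Γ) = bits u ++ bits v := by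
  simp [bits]

theorem ls_lend_notMem_bits (u : List Bool) : (lend : Γ) ∉ bits u := by
  intro h
  obtain ⟨b, -, hb⟩ := List.mem_map.1 h
  exact TapeAlpha.bit_ne_lend b hb

theorem ls_blank_notMem_bits (u : List Bool) : (blank : Γ) ∉ bits u := by
  intro h
  obtain ⟨b, -, hb⟩ := List.mem_map.1 h
  exact TapeAlpha.bit_ne_blank b hb

theorem ls_length_oh (N v : ℕ) (hv : v < N) : (oh N v : List Γ).length = N + 1 := by
  simp [oh]
  omega

theorem ls_lend_notMem_oh (N v : ℕ) : (lend : Γ) ∉ (oh N v : List Γ) := by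
  rw [oh_eq]
  intro h
  rcases List.mem_append.1 h with h | h
  · exact lend_notMem_replicate v false h
  · exact lend_notMem_ohTail _ h

theorem ls_blank_notMem_oh (N v : ℕ) : (blank : Γ) ∉ (oh N v : List Γ) := by
  rw [oh_eq]
  intro h
  rcases List.mem_append.1 h with h | h
  · exact TapeAlpha.bit_ne_blank false (List.eq_of_mem_replicate h).symm
  · rcases List.mem_cons.1 h with h | h
    · exact TapeAlpha.bit_ne_blank true h.symm
    · rcases List.mem_append.1 h with h | h
      · exact TapeAlpha.bit_ne_blank false (List.eq_of_mem_replicate h).symm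
      · exact TapeAlpha.rend_ne_blank (List.mem_singleton.1 h).symm

theorem ls_length_slotX (P : Par) (hV : P.Valid) (S : ℕ) (hS : S ≤ P.N) (blk : List Bool)
    (hblk : blk.length = 2 * P.m + 2) : (slotX P S blk).length = P.w := by
  unfold slotX zs Par.w
  simp only [List.length_append, List.length_replicate, hblk]
  have h1 : S * P.g + (P.N - S) * P.g = 2 * P.m := by
    rw [← Nat.add_mul, Nat.add_sub_cancel' hS, hV.hm, Par.N]
  omega

theorem ls_need_congr {P : Par} {s s' : St Own Γ} {l l' : List Own} (h : Need P s l)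
    (hl : ∀ x ∈ l', x ∈ l)
    (he : ∀ x : Own, (x.isUn = true ∨ x.isConst = true) → s' x = s x) : Need P s' l' := by
  intro x hx
  have hg := h x (hl x hx)
  refine ⟨fun hu => ?_, fun hc => ?_⟩
  · rw [he x (Or.inl hu)]; exact hg.1 hu
  · rw [he x (Or.inr hc)]; exact hg.2 hc

theorem ls_ne_of_const {E x : Own} (hE : E.isConst = true) (hx : x.isConst = false) : E ≠ x := by
  intro h
  rw [h, hx] at hE
  exact Bool.false_ne_true hE

theorem ls_length_dmT (P : Par) (sl : ℕ → List Bool) (hsl : ∀ t, (sl t).length = P.w) (R i : ℕ)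
    (hi : i < 4) : (dmT P sl R i).length = R * P.b * (2 * P.m + 2) := by
  unfold dmT
  rw [ls_length_cat _ _ _ (P.b * (2 * P.m + 2)), Nat.mul_assoc]
  intro r
  rw [ls_length_cat _ _ _ (2 * P.m + 2)]
  intro c
  unfold chunk
  simp only [List.length_append, List.length_take, List.length_drop, hsl, Par.w,
    List.length_cons, List.length_nil]
  have h4 : i * (2 * P.m) ≤ 3 * (2 * P.m) := Nat.mul_le_mul_right _ (by omega)
  omega

/-- The last multiplication by phases (no product). `p0` = arbitrary old register values. -/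
theorem lastStage_spec (P : Par) (hV : P.Valid) (E1 E2 E3 iD iF : Own)
    (hE1 : E1.isConst = true) (hE2 : E2.isConst = true)
    (hE3 : E3.isConst = true) (hiD : iD.isConst = true) (hiF : iF.isConst = true)
    (s : St Own Γ)
    (hN : Need P s [Own.t1, Own.ta, Own.tb, Own.tg, Own.tm, E1, E2, E3, iD, iF, Own.cZ])
    (p0 : Ph) (hp0 : p0.lt P.N) (hph : HasPh P p0 s)
    (blk : ℕ → List Bool) (hblk : ∀ j, (blk j).length = 2 * P.m + 2)
    (hB : s Own.Bk = Z [] (bits (cat blk 0 P.N))) (hU : s Own.U = Z [] [])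
    (h0 : s Own.T0 = Z [] []) (h1 : s Own.T1 = Z [] []) (h2 : s Own.T2 = Z [] [])
    (h3 : s Own.T3 = Z [] []) :
    ∃ p1 : Ph, p1.lt P.N ∧
    (lastStage E1 E2 E3 iD iF : Prog Own Γ).SRuns s (cLastStage P)
      (setPh P p1 (Function.update s Own.Bk (Z [] (bits (sum4 (P.N * (2 * P.m + 2))
        (dmT P (fun n => slotX P (phAt P (P.cval E1) (P.cval E2) (P.cval E3)
          ⟨0, P.cval iD, P.cval iF⟩ n) (blk n)) P.a)))))) true := by
  have hNpos : 0 < P.N := by
    have := hV.cval_lt Own.cZ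
    omega
  have hbpos : 0 < P.b := by have := hV.b2; omega
  obtain ⟨p, hpdef⟩ : ∃ p : Ph, p = ⟨0, P.cval iD, P.cval iF⟩ := ⟨_, rfl⟩
  have hplt : p.lt P.N := by
    rw [hpdef]
    exact ⟨hNpos, hV.cval_lt iD, hV.cval_lt iF⟩
  obtain ⟨p1, hp1def⟩ : ∃ p1 : Ph,
      p1 = p.rows P.N P.b (P.cval E1) (P.cval E2) (P.cval E3) (1 * P.a) := ⟨_, rfl⟩
  obtain ⟨sl, hsldef⟩ : ∃ sl : ℕ → List Bool, sl = fun n => slotX P (phAt P (P.cval E1) (P.cval E2)
      (P.cval E3) p n) (blk n) := ⟨_, rfl⟩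
  have hsl : ∀ t, (sl t).length = P.w := by
    intro t
    rw [hsldef]
    refine ls_length_slotX P hV _ ?_ _ (hblk t)
    exact (Ph.blks_lt hNpos (Ph.rows_lt hNpos hplt _) _).1.le
  rw [← hpdef, ← hsldef]
  refine ⟨p1, by rw [hp1def]; exact Ph.rows_lt hNpos hplt _, ?_⟩
  -- the three registers
  have gZ : s Own.cZ = Z [] (oh P.N 0) := (hN Own.cZ (by simp)).2 rfl
  have gD : s iD = Z [] (oh P.N (P.cval iD)) := (hN iD (by simp)).2 hiD
  have gF : s iF = Z [] (oh P.N (P.cval iF)) := (hN iF (by simp)).2 hiF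
  have c1 := copyOver_spec Own.cZ Own.rS (by decide) s (oh P.N 0) (oh P.N p0.S)
    (by rw [ls_length_oh _ _ hp0.1, ls_length_oh _ _ hNpos]) (ls_blank_notMem_oh _ _)
    (ls_lend_notMem_oh _ _) gZ hph.1
  obtain ⟨s1, hs1⟩ : ∃ s1 : St Own Γ, s1 = Function.update s Own.rS (Z [] (oh P.N 0)) := ⟨_, rfl⟩
  rw [← hs1] at c1
  have c2 := copyOver_spec iD Own.rD (ls_ne_of_const hiD rfl) s1 (oh P.N (P.cval iD))
    (oh P.N p0.D)
    (by rw [ls_length_oh _ _ hp0.2.1, ls_length_oh _ _ (hV.cval_lt iD)]) (ls_blank_notMem_oh _ _)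
    (ls_lend_notMem_oh _ _)
    (by rw [hs1, Function.update_of_ne (ls_ne_of_const hiD rfl)]; exact gD)
    (by rw [hs1, Function.update_of_ne (by decide)]; exact hph.2.1)
  obtain ⟨s2, hs2⟩ : ∃ s2 : St Own Γ,
      s2 = Function.update s1 Own.rD (Z [] (oh P.N (P.cval iD))) := ⟨_, rfl⟩
  rw [← hs2] at c2
  have c3 := copyOver_spec iF Own.rF (ls_ne_of_const hiF rfl) s2 (oh P.N (P.cval iF))
    (oh P.N p0.F)
    (by rw [ls_length_oh _ _ hp0.2.2, ls_length_oh _ _ (hV.cval_lt iF)]) (ls_blank_notMem_oh _ _)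
    (ls_lend_notMem_oh _ _)
    (by rw [hs2, hs1, Function.update_of_ne (ls_ne_of_const hiF rfl),
      Function.update_of_ne (ls_ne_of_const hiF rfl)]; exact gF)
    (by rw [hs2, hs1, Function.update_of_ne (by decide), Function.update_of_ne (by decide)]
        exact hph.2.2)
  obtain ⟨s3, hs3⟩ : ∃ s3 : St Own Γ,
      s3 = Function.update s2 Own.rF (Z [] (oh P.N (P.cval iF))) := ⟨_, rfl⟩
  rw [← hs3] at c3
  have hs3' : s3 = setPh P p s := by rw [hs3, hs2, hs1, hpdef]; rfl
  have e3 : ∀ x : Own, x ≠ Own.rS → x ≠ Own.rD → x ≠ Own.rF → s3 x = s x := by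
    intro x a b c
    rw [hs3', setPh, Function.update_of_ne c, Function.update_of_ne b, Function.update_of_ne a]
  have hN3 : Need P s3 [Own.t1, Own.ta, Own.tb, Own.tg, Own.tm, E1, E2, E3] :=
    ls_need_congr hN (by intro x hx; simp at hx ⊢; tauto) (by
      intro x hx
      apply e3 <;> (rintro rfl; simp [Own.isUn, Own.isConst] at hx))
  have hph3 : HasPh P p s3 := by
    rw [hs3']
    refine ⟨?_, ?_, ?_⟩ <;> simp [setPh]
  have c4 := stageX_spec P hV Own.t1 Own.ta E1 E2 E3 (Or.inl ⟨rfl, rfl⟩) hE1 hE2 hE3 s3 hN3 p hplt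
    hph3 [] [] [] blk hblk (by
      rw [e3 _ (by decide) (by decide) (by decide), hB, List.append_nil]
      show Z [] (bits (cat blk 0 P.N)) = Z [] (bits (cat blk 0 (1 * (P.a * P.b))))
      rw [Nat.one_mul]; rfl) (by rw [e3 _ (by decide) (by decide) (by decide)]; exact hU)
  simp only [Par.uval, List.nil_append] at c4
  rw [← hp1def] at c4
  -- the contents of `U`
  have hxo : xOut P (P.cval E1) (P.cval E2) (P.cval E3) blk p P.a 1
      = cat sl 0 (P.a * P.b) ++ zs (3 * (P.a * (P.b * P.w))) := by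
    unfold xOut
    rw [ls_cat_succ, ls_cat_zero]
    simp only [List.nil_append, Nat.zero_add, Nat.zero_mul]
    unfold xGroupOut
    rw [xRowsOut_eq_cat P _ _ _ _ _ _ hbpos, hsldef]
    rfl
  rw [hxo] at c4
  obtain ⟨s4, hs4⟩ : ∃ s4 : St Own Γ, s4 = setPh P p1 (Function.update (Function.update s3 Own.Bk
      (Z (bits (cat blk 0 (1 * (P.a * P.b)))) [])) Own.U
      (Z (bits (cat sl 0 (P.a * P.b) ++ zs (3 * (P.a * (P.b * P.w))))) [])) := ⟨_, rfl⟩
  rw [← hs4] at c4
  have c5 := erase_spec Own.Bk s4 (bits (cat blk 0 (1 * (P.a * P.b)))) []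
    (by rw [hs4]; simp [setPh]) (ls_lend_notMem_bits _) (by simp) (by simp)
  obtain ⟨s5, hs5⟩ : ∃ s5 : St Own Γ, s5 = Function.update s4 Own.Bk (Z [] []) := ⟨_, rfl⟩
  rw [← hs5] at c5
  have c6 := rewind_spec Own.U s5 (bits (cat sl 0 (P.a * P.b) ++ zs (3 * (P.a * (P.b * P.w))))) []
    (by rw [hs5, hs4]; simp [setPh]) (ls_lend_notMem_bits _) (by simp)
  rw [List.append_nil, ls_bits_append] at c6
  obtain ⟨s6, hs6⟩ : ∃ s6 : St Own Γ, s6 = Function.update s5 Own.U
      (Z [] (bits (cat sl 0 (P.a * P.b)) ++ bits (zs (3 * (P.a * (P.b * P.w)))))) := ⟨_, rfl⟩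
  rw [← hs6] at c6
  have e6 : ∀ x : Own, x ≠ Own.rS → x ≠ Own.rD → x ≠ Own.rF → x ≠ Own.Bk → x ≠ Own.U →
      s6 x = s x := by
    intro x a b c d e
    rw [hs6, Function.update_of_ne e, hs5, Function.update_of_ne d, hs4, setPh,
      Function.update_of_ne c, Function.update_of_ne b, Function.update_of_ne a,
      Function.update_of_ne e, Function.update_of_ne d, e3 x a b c]
  have hN6 : Need P s6 [Own.ta, Own.tb, Own.tm] :=
    ls_need_congr hN (by intro x hx; simp at hx ⊢; tauto) (by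
      intro x hx
      apply e6 <;> (rintro rfl; simp [Own.isUn, Own.isConst] at hx))
  have c7 := demuxSlots_spec P Own.U Own.ta (Or.inr rfl) (Or.inl rfl) s6 hN6 []
    (bits (zs (3 * (P.a * (P.b * P.w))))) sl hsl (by rw [hs6, Function.update_self]; rfl)
    [] [] [] []
    (by rw [e6 _ (by decide) (by decide) (by decide) (by decide) (by decide)]; exact h0)
    (by rw [e6 _ (by decide) (by decide) (by decide) (by decide) (by decide)]; exact h1)
    (by rw [e6 _ (by decide) (by decide) (by decide) (by decide) (by decide)]; exact h2)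
    (by rw [e6 _ (by decide) (by decide) (by decide) (by decide) (by decide)]; exact h3)
  simp only [Par.uval, List.nil_append] at c7
  obtain ⟨s7, hs7⟩ : ∃ s7 : St Own Γ, s7 = Function.update (Function.update (Function.update
      (Function.update (Function.update s6
        Own.U (Z (bits (cat sl 0 (P.a * P.b))) (bits (zs (3 * (P.a * (P.b * P.w)))))))
        Own.T0 (Z (bits (dmT P sl P.a 0)) []))
        Own.T1 (Z (bits (dmT P sl P.a 1)) []))
        Own.T2 (Z (bits (dmT P sl P.a 2)) []))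
        Own.T3 (Z (bits (dmT P sl P.a 3)) []) := ⟨_, rfl⟩
  rw [← hs7] at c7
  have c8 := erase_spec Own.U s7 (bits (cat sl 0 (P.a * P.b))) (bits (zs (3 * (P.a * (P.b * P.w)))))
    (by rw [hs7]; simp) (ls_lend_notMem_bits _) (ls_lend_notMem_bits _)
    (ls_blank_notMem_bits _)
  obtain ⟨s8, hs8⟩ : ∃ s8 : St Own Γ, s8 = Function.update s7 Own.U (Z [] []) := ⟨_, rfl⟩
  rw [← hs8] at c8
  obtain ⟨t', ht'⟩ : ∃ t' : ℕ → List Bool, t' = fun i => if i < 4 then dmT P sl P.a i
      else zs (P.N * (2 * P.m + 2)) := ⟨_, rfl⟩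
  have hlen : ∀ i, (t' i).length = P.N * (2 * P.m + 2) := by
    intro i
    rw [ht']
    by_cases hi : i < 4
    · simp only [hi, if_true]
      rw [ls_length_dmT P sl hsl P.a i hi]
      rfl
    · simp only [hi, if_false]
      simp [zs]
  have c9 := foldAdd_spec s8 (P.N * (2 * P.m + 2)) t' hlen
    (by rw [hs8, hs7, ht']; simp)
    (by rw [hs8, hs7, ht']; simp)
    (by rw [hs8, hs7, ht']; simp)
    (by rw [hs8, hs7, ht']; simp)
    (by rw [hs8, hs7, hs6, hs5]; simp)
  have hsum : sum4 (P.N * (2 * P.m + 2)) t' = sum4 (P.N * (2 * P.m + 2)) (dmT P sl P.a) := by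
    rw [ht']
    simp [sum4]
  rw [hsum] at c9
  have hall := seq_sruns c1 (seq_sruns c2 (seq_sruns c3 (seq_sruns c4 (seq_sruns c5 (seq_sruns c6
    (seq_sruns c7 (seq_sruns c8 c9)))))))
  have efin : Function.update (Function.update (Function.update (Function.update (Function.update s8
        Own.T0 (Z [] []))
        Own.T1 (Z [] []))
        Own.T2 (Z [] []))
        Own.T3 (Z [] []))
        Own.Bk (Z [] (bits (sum4 (P.N * (2 * P.m + 2)) (dmT P sl P.a))))
      = setPh P p1 (Function.update s Own.Bk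
        (Z [] (bits (sum4 (P.N * (2 * P.m + 2)) (dmT P sl P.a))))) := by
    funext i
    cases i <;> simp [hs8, hs7, hs6, hs5, hs4, hs3', setPh, hU, h0, h1, h2, h3]
  rw [efin] at hall
  have L0 : (oh P.N 0 : List Γ).length = P.N + 1 := ls_length_oh _ _ hNpos
  have LD : (oh P.N (P.cval iD) : List Γ).length = P.N + 1 := ls_length_oh _ _ (hV.cval_lt iD)
  have LF : (oh P.N (P.cval iF) : List Γ).length = P.N + 1 := ls_length_oh _ _ (hV.cval_lt iF)
  have LB : (bits (cat blk 0 (1 * (P.a * P.b))) : List Γ).length = P.N * (2 * P.m + 2) := by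
    rw [ls_length_bits, ls_length_cat _ _ _ _ hblk, Nat.one_mul]; rfl
  have LS : (bits (cat sl 0 (P.a * P.b)) : List Γ).length = P.N * P.w := by
    rw [ls_length_bits, ls_length_cat _ _ _ _ hsl]; rfl
  have LZ : (bits (zs (3 * (P.a * (P.b * P.w)))) : List Γ).length = 3 * (P.N * P.w) := by
    rw [ls_length_bits]; simp [zs, Par.N, Nat.mul_assoc]
  refine hall.mono ?_
  rw [List.length_append, L0, LD, LF, LB, LS, LZ]
  unfold cLastStage
  simp only [List.length_nil]
  omega

end Vale.Agent.P338.TM
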