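import Vale.Agent.P338.TM.SpecDrv1

namespace Vale.Agent.P338.TM

open Vale.Agent.P338

variable {Γ : Type} [TapeAlpha Γ]

/-- A state with five distinguished tapes `U V W T0 d8`. -/
def LS (s : St Own Γ) (zU zV zW zT z8 : Zip Γ) : St Own Γ :=
  Function.update (Function.update (Function.update (Function.update (Function.update s
    Own.U zU) Own.V zV) Own.W zW) Own.T0 zT) Own.d8 z8

omit [TapeAlpha Γ] in
theorem LS_U (s : St Own Γ) (zU zV zW zT z8 : Zip Γ) : LS s zU zV zW zT z8 Own.U = zU := by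
  simp [LS]

omit [TapeAlpha Γ] in
theorem LS_V (s : St Own Γ) (zU zV zW zT z8 : Zip Γ) : LS s zU zV zW zT z8 Own.V = zV := by
  simp [LS]

omit [TapeAlpha Γ] in
theorem LS_W (s : St Own Γ) (zU zV zW zT z8 : Zip Γ) : LS s zU zV zW zT z8 Own.W = zW := by
  simp [LS]

omit [TapeAlpha Γ] in
theorem LS_T (s : St Own Γ) (zU zV zW zT z8 : Zip Γ) : LS s zU zV zW zT z8 Own.T0 = zT := by
  simp [LS]

omit [TapeAlpha Γ] in
theorem LS_8 (s : St Own Γ) (zU zV zW zT z8 : Zip Γ) : LS s zU zV zW zT z8 Own.d8 = z8 := by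
  simp [LS]

omit [TapeAlpha Γ] in
theorem upd_U (s : St Own Γ) (zU zV zW zT z8 z : Zip Γ) :
    Function.update (LS s zU zV zW zT z8) Own.U z = LS s z zV zW zT z8 := by
  funext i
  cases i <;> simp [LS]

omit [TapeAlpha Γ] in
theorem upd_V (s : St Own Γ) (zU zV zW zT z8 z : Zip Γ) :
    Function.update (LS s zU zV zW zT z8) Own.V z = LS s zU z zW zT z8 := by
  funext i
  cases i <;> simp [LS]

omit [TapeAlpha Γ] in
theorem upd_W (s : St Own Γ) (zU zV zW zT z8 z : Zip Γ) :
    Function.update (LS s zU zV zW zT z8) Own.W z = LS s zU zV z zT z8 := by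
  funext i
  cases i <;> simp [LS]

omit [TapeAlpha Γ] in
theorem upd_T (s : St Own Γ) (zU zV zW zT z8 z : Zip Γ) :
    Function.update (LS s zU zV zW zT z8) Own.T0 z = LS s zU zV zW z z8 := by
  funext i
  cases i <;> simp [LS]

omit [TapeAlpha Γ] in
theorem upd_8 (s : St Own Γ) (zU zV zW zT z8 z : Zip Γ) :
    Function.update (LS s zU zV zW zT z8) Own.d8 z = LS s zU zV zW zT z := by
  funext i
  cases i <;> simp [LS]

theorem un_len (c : ℕ) : (un c : List Γ).length = c := List.length_replicate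

theorem un_snoc (c : ℕ) : (un c ++ [bit true] : List Γ) = un (c + 1) := by
  simp [un, List.replicate_succ']

/-- The body of the loop of `log2P`. -/
theorem log2_body (s : St Own Γ) (h c : ℕ) (z8 : Zip Γ) :
    (seqs [halves Own.U Own.V Own.W, erase Own.U, rewind Own.V, appendAll Own.V Own.U,
        rewind Own.U, erase Own.V, erase Own.W, wr Own.T0 (bit true) Move.right] :
        Prog Own Γ).SRuns
      (LS s (Z [] (un (2 * h))) (Z [] []) (Z [] []) (Z (un c) []) z8) (15 * h + 40)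
      (LS s (Z [] (un h)) (Z [] []) (Z [] []) (Z (un (c + 1)) []) z8) true := by
  have e1 : (2 * h + 1) / 2 = h := by omega
  have e2 : 2 * h / 2 = h := by omega
  have hn : (lend : Γ) ∉ ([] : List Γ) := by simp
  have hbn : (blank : Γ) ∉ ([] : List Γ) := by simp
  have h1 := halves_spec Own.U Own.V Own.W (by decide) (by decide) (by decide)
    (LS s (Z [] (un (2 * h))) (Z [] []) (Z [] []) (Z (un c) []) z8) (2 * h) [] []
    (LS_U ..) (LS_V ..) (LS_W ..)
  simp only [upd_U, upd_V, upd_W, List.nil_append, e1, e2] at h1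
  have h2 := erase_spec Own.U _ (un (2 * h)) [] (LS_U s (Z (un (2 * h)) []) (Z (un h) [])
    (Z (un h) []) (Z (un c) []) z8) (lend_notMem_un _) hn hbn
  simp only [upd_U, un_len, List.length_nil, Nat.mul_zero, Nat.add_zero] at h2
  have h3 := rewind_spec Own.V _ (un h) [] (LS_V s (Z [] []) (Z (un h) [])
    (Z (un h) []) (Z (un c) []) z8) (lend_notMem_un _) hn
  simp only [upd_V, un_len, List.append_nil] at h3
  have h4 := appendAll_spec Own.V Own.U (by decide) _ [] (un h) [] (blank_notMem_un_pow2 h)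
    (LS_V s (Z [] []) (Z [] (un h)) (Z (un h) []) (Z (un c) []) z8) (LS_U ..)
  simp only [upd_U, upd_V, un_len, List.nil_append] at h4
  have h5 := rewind_spec Own.U _ (un h) [] (LS_U s (Z (un h) []) (Z (un h) [])
    (Z (un h) []) (Z (un c) []) z8) (lend_notMem_un _) hn
  simp only [upd_U, un_len, List.append_nil] at h5
  have h6 := erase_spec Own.V _ (un h) [] (LS_V s (Z [] (un h)) (Z (un h) [])
    (Z (un h) []) (Z (un c) []) z8) (lend_notMem_un _) hn hbn
  simp only [upd_V, un_len, List.length_nil, Nat.mul_zero, Nat.add_zero] at h6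
  have h7 := erase_spec Own.W _ (un h) [] (LS_W s (Z [] (un h)) (Z [] [])
    (Z (un h) []) (Z (un c) []) z8) (lend_notMem_un _) hn hbn
  simp only [upd_W, un_len, List.length_nil, Nat.mul_zero, Nat.add_zero] at h7
  have h8 := prim_sruns (fun _ : Own → Γ => Instr.nil.set Own.T0 (bit true) Move.right)
    (LS s (Z [] (un h)) (Z [] []) (Z [] []) (Z (un c) []) z8)
  simp only [Instr.sapp_set, Instr.sapp_nil, LS_T, Z_act_right, List.tail_nil, upd_T,
    un_snoc] at h8
  have hh := seqs_cons h1 (seqs_cons h2 (seqs_cons h3 (seqs_cons h4 (seqs_cons h5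
    (seqs_cons h6 (seqs_cons h7 (seqs_cons h8 (seqs_nil _))))))))
  refine Prog.SRuns.mono hh ?_
  omega

/-- The loop of `log2P`. -/
theorem log2_loop (s : St Own Γ) (z8 : Zip Γ) (j c : ℕ) :
    (while_ (ge2 Own.U)
      (seqs [halves Own.U Own.V Own.W, erase Own.U, rewind Own.V, appendAll Own.V Own.U,
        rewind Own.U, erase Own.V, erase Own.W, wr Own.T0 (bit true) Move.right]) :
        Prog Own Γ).SRuns
      (LS s (Z [] (un (2 ^ j))) (Z [] []) (Z [] []) (Z (un c) []) z8) (15 * 2 ^ j + 50 * j + 9)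
      (LS s (Z [] (un 1)) (Z [] []) (Z [] []) (Z (un (c + j)) []) z8) true := by
  induction j generalizing c with
  | zero =>
    have h1 := ge2_spec Own.U (LS s (Z [] (un (2 ^ 0))) (Z [] []) (Z [] []) (Z (un c) []) z8)
      (2 ^ 0) (LS_U ..)
    have hd : decide (2 ≤ 2 ^ 0) = false := by decide
    rw [hd] at h1
    have h2 := while_sfalse (R := (seqs [halves Own.U Own.V Own.W, erase Own.U, rewind Own.V,
      appendAll Own.V Own.U, rewind Own.U, erase Own.V, erase Own.W,
      wr Own.T0 (bit true) Move.right] : Prog Own Γ)) h1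
    simp only [pow_zero, Nat.add_zero] at h2 ⊢
    exact Prog.SRuns.mono h2 (by omega)
  | succ j ih =>
    have h1 := ge2_spec Own.U (LS s (Z [] (un (2 ^ (j + 1)))) (Z [] []) (Z [] []) (Z (un c) []) z8)
      (2 ^ (j + 1)) (LS_U ..)
    have hp : 0 < 2 ^ j := by positivity
    have e : 2 ^ (j + 1) = 2 * 2 ^ j := by ring
    have hd : decide (2 ≤ 2 ^ (j + 1)) = true := by
      rw [decide_eq_true_eq, e]
      omega
    rw [hd] at h1
    have h2 := log2_body s (2 ^ j) c z8
    rw [← e] at h2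
    have h3 := ih (c + 1)
    have h4 := while_strue h1 h2 h3
    have e3 : c + 1 + j = c + (j + 1) := by omega
    rw [e3] at h4
    refine Prog.SRuns.mono h4 ?_
    rw [e]
    omega

theorem log2P_spec (κ : ℕ) (s : St Own Γ) (h8 : s Own.d8 = Z [] (un (2 ^ κ)))
    (hE : ∀ x ∈ [Own.U, Own.V, Own.W, Own.T0], s x = Z [] []) :
    (log2P : Prog Own Γ).SRuns s (100 * 2 ^ κ + 100)
      (Function.update s Own.T0 (Z [] (un κ))) true := by
  have hU : s Own.U = Z [] [] := hE _ (by simp)
  have hV : s Own.V = Z [] [] := hE _ (by simp)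
  have hW : s Own.W = Z [] [] := hE _ (by simp)
  have hT : s Own.T0 = Z [] [] := hE _ (by simp)
  have hn : (lend : Γ) ∉ ([] : List Γ) := by simp
  have hs : s = LS s (Z [] []) (Z [] []) (Z [] []) (Z [] []) (Z [] (un (2 ^ κ))) := by
    funext i
    cases i <;> simp [LS, hU, hV, hW, hT, h8]
  have hfin : Function.update s Own.T0 (Z [] (un κ))
      = LS s (Z [] []) (Z [] []) (Z [] []) (Z [] (un κ)) (Z [] (un (2 ^ κ))) := by
    funext i
    cases i <;> simp [LS, hU, hV, hW, h8]
  rw [hfin]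
  have h1 := appendAll_spec Own.d8 Own.U (by decide) _ [] (un (2 ^ κ)) []
    (blank_notMem_un_pow2 _)
    (LS_8 s (Z [] []) (Z [] []) (Z [] []) (Z [] []) (Z [] (un (2 ^ κ)))) (LS_U ..)
  simp only [upd_U, upd_8, un_len, List.nil_append] at h1
  have h2 := rewind_spec Own.d8 _ (un (2 ^ κ)) [] (LS_8 s (Z (un (2 ^ κ)) []) (Z [] []) (Z [] [])
    (Z [] []) (Z (un (2 ^ κ)) [])) (lend_notMem_un _) hn
  simp only [upd_8, un_len, List.append_nil] at h2
  have h3 := rewind_spec Own.U _ (un (2 ^ κ)) [] (LS_U s (Z (un (2 ^ κ)) []) (Z [] []) (Z [] [])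
    (Z [] []) (Z [] (un (2 ^ κ)))) (lend_notMem_un _) hn
  simp only [upd_U, un_len, List.append_nil] at h3
  have h4 := log2_loop s (Z [] (un (2 ^ κ))) κ 0
  have e0 : (un 0 : List Γ) = [] := rfl
  rw [e0, Nat.zero_add] at h4
  have h5 := erase_spec Own.U _ [] (un 1) (LS_U s (Z [] (un 1)) (Z [] []) (Z [] [])
    (Z (un κ) []) (Z [] (un (2 ^ κ)))) hn (lend_notMem_un _) (blank_notMem_un_pow2 _)
  simp only [upd_U, un_len, List.length_nil] at h5
  have h6 := rewind_spec Own.T0 _ (un κ) [] (LS_T s (Z [] []) (Z [] []) (Z [] [])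
    (Z (un κ) []) (Z [] (un (2 ^ κ)))) (lend_notMem_un _) hn
  simp only [upd_T, un_len, List.append_nil] at h6
  have hh := seqs_cons h1 (seqs_cons h2 (seqs_cons h3 (seqs_cons h4 (seqs_cons h5
    (seqs_cons h6 (seqs_nil _))))))
  rw [← hs] at hh
  refine Prog.SRuns.mono hh ?_
  have hk : κ < 2 ^ κ := Nat.lt_two_pow_self
  omega

end Vale.Agent.P338.TM
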