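import Vale.Agent.P338.TM.SpecInterp
import Vale.Agent.P338.TM.SpecGenAll
import Vale.Agent.P338.TM.SpecLog2
import Vale.Agent.P338.TM.SchedMath
import Vale.Agent.P338.TM.ToMachine

namespace Vale.Agent.P338.TM

open Vale.Agent.P338

theorem flatten_length_sm (n : ℕ) (rows : List (List Bool)) (hrow : ∀ r ∈ rows, r.length = n) :
    rows.flatten.length = rows.length * n := by
  induction rows with
  | nil => simp
  | cons r rows ih =>
    rw [List.flatten_cons, List.length_append, hrow r (by simp),
      ih (fun r' hr' => hrow r' (by simp [hr'])), List.length_cons]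
    ring

theorem flatten_getD_sm (n : ℕ) (rows : List (List Bool)) (hrow : ∀ r ∈ rows, r.length = n) :
    ∀ (a b : ℕ), b < n → rows.flatten.getD (a * n + b) false = (rows.getD a []).getD b false := by
  induction rows with
  | nil => intro a b _; simp
  | cons r rows ih =>
    intro a b hb
    have hr : r.length = n := hrow r (by simp)
    rw [List.flatten_cons]
    cases a with
    | zero =>
      rw [Nat.zero_mul, Nat.zero_add, List.getD_append _ _ _ _ (by omega)]
      simp
    | succ a =>
      have e : (a + 1) * n + b = a * n + b + r.length := by rw [hr]; ring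
      rw [List.getD_append_right _ _ _ _ (by omega), e, Nat.add_sub_cancel,
        ih (fun r' hr' => hrow r' (by simp [hr'])) a b hb]
      simp

/-- The rows of a matrix. -/
def rowsOf_sm {n : ℕ} (X : Fin n → Fin n → Bool) : List (List Bool) :=
  List.ofFn fun i => List.ofFn fun j => X i j

theorem rowsOf_length_sm {n : ℕ} (X : Fin n → Fin n → Bool) : (rowsOf_sm X).length = n := by
  simp [rowsOf_sm]

theorem rowsOf_row_sm {n : ℕ} (X : Fin n → Fin n → Bool) : ∀ r ∈ rowsOf_sm X, r.length = n := by
  intro r hr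
  simp only [rowsOf_sm, List.mem_ofFn] at hr
  obtain ⟨i, rfl⟩ := hr
  simp

theorem rowsOf_getD_sm {n : ℕ} (X : Fin n → Fin n → Bool) (a b : Fin n) :
    (rowsOf_sm X).flatten.getD (a.1 * n + b.1) false = X a b := by
  rw [flatten_getD_sm n _ (rowsOf_row_sm X) a.1 b.1 b.2]
  have h1 : (rowsOf_sm X).getD a.1 [] = List.ofFn fun j => X a j := by
    rw [List.getD_eq_getElem _ _ (by rw [rowsOf_length_sm]; exact a.2)]
    simp [rowsOf_sm]
  rw [h1, List.getD_eq_getElem _ _ (by simp)]
  simp

theorem tr_rows_sm {n : ℕ} (X : Fin n → Fin n → Bool) :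
    (List.range n).map (slices n (trList n (rowsOf_sm X).flatten))
      = rowsOf_sm fun i j => X j i := by
  apply List.ext_getElem
  · simp [rowsOf_sm]
  intro i h1 h2
  have hi : i < n := by simpa using h1
  rw [List.getElem_map, List.getElem_range]
  simp only [rowsOf_sm, List.getElem_ofFn]
  apply List.ext_getElem
  · simp [slices]
  intro j h3 h4
  have hj : j < n := by simpa [slices] using h3
  simp only [slices, List.getElem_map, List.getElem_range, List.getElem_ofFn]
  have ht : i * n + j < n * n := by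
    calc i * n + j < i * n + n := by omega
      _ = (i + 1) * n := by ring
      _ ≤ n * n := Nat.mul_le_mul_right _ hi
  have e1 : (i * n + j) % n = j := by
    rw [Nat.mul_comm, Nat.mul_add_mod, Nat.mod_eq_of_lt hj]
  have e2 : (i * n + j) / n = i := by
    rw [Nat.mul_comm, Nat.mul_add_div (by omega), Nat.div_eq_of_lt hj, Nat.add_zero]
  rw [trList, List.getD_eq_getElem _ _ (by simpa using ht), List.getElem_map, List.getElem_range,
    e1, e2]
  exact rowsOf_getD_sm X ⟨j, hj⟩ ⟨i, hi⟩

variable {k : ℕ} [NeZero k]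

omit [NeZero k] in
theorem startSt_eq_sm (A : Machine k) (w : List (GA A)) :
    startSt A w = glue blankA (fun x => if x = Own.inp then ⟨[], w⟩ else ⟨[], []⟩) := by
  funext i
  rcases i with i | x
  · simp [startSt, glue, blankA]
  · by_cases hx : x = Own.inp
    · simp [startSt, glue, hx]
    · simp [startSt, glue, hx]

/-- The whole program. -/
theorem main_spec (A : Machine k) (hA : A.Multiplies) (κ : ℕ) (rows : List (List Bool))
    (hr : rows.length = 2 ^ κ) (hrow : ∀ r ∈ rows, r.length = 2 ^ κ) :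
    ∃ s' : St (Fin k ⊕ Own) (GA A),
      (mainP A).SRuns (startSt A (rowsWord rows)) (cMain A.worstTime κ) s' true ∧
      (s' (Sum.inr Own.outp)).l.reverse ++ (s' (Sum.inr Own.outp)).r =
        rowsWord ((List.range (2 ^ κ)).map (slices (2 ^ κ) (trList (2 ^ κ) rows.flatten))) := by
  have hn1 : 1 ≤ 2 ^ κ := Nat.one_le_two_pow
  have hD : rows.flatten.length = 2 ^ κ * 2 ^ κ := by
    rw [flatten_length_sm (2 ^ κ) rows hrow, hr]
  obtain ⟨s1, hs1, h1⟩ := (initAll_spec (rowsWord rows : List (GA A))).exists_eq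
  obtain ⟨s2, hs2, h2⟩ := (parse_spec s1 (2 ^ κ) hn1 rows hr hrow (by simp [hs1])
    (by simp [hs1]) (by simp [hs1])).exists_eq
  obtain ⟨s3, hs3, h3⟩ := (log2P_spec κ s2 (by simp [hs2]) (by
    intro x hx
    simp only [List.mem_cons, List.not_mem_nil, or_false] at hx
    rcases hx with rfl | rfl | rfl | rfl <;> simp [hs2, hs1])).exists_eq
  obtain ⟨s4, hs4, h4⟩ := (genAll_spec κ s3 (by simp [hs3]) (by
    intro x hx
    simp only [List.mem_cons, List.not_mem_nil, or_false] at hx
    rcases hx with rfl | rfl | rfl | rfl | rfl | rfl | rfl | rfl <;>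
      simp [hs3, hs2, hs1])).exists_eq
  have h5 := interp_spec A hA (2 * κ) (sched κ) (sched_ok κ) s4 (by
      intro x hx
      simp only [parTapes, List.mem_append, List.mem_cons, List.not_mem_nil, or_false] at hx
      rcases hx with (rfl | rfl | rfl | rfl | rfl | rfl | rfl | rfl | rfl | rfl | rfl | rfl | rfl
        | rfl | rfl | rfl | rfl) | (rfl | rfl | rfl | rfl | rfl | rfl | rfl | rfl | rfl | rfl
        | rfl | rfl | rfl | rfl | rfl) <;> simp [hs4, hs3, hs2, hs1])
    (by simp [hs4, hs3, hs2, hs1]) (by simp [hs4, hs3, hs2, hs1]) (by simp [hs4, hs3, hs2, hs1])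
    [] (by simp [hs4]) rows.flatten (by rw [hD, two_mul, pow_add])
    (by simp [hs4, hs3, hs2])
  rw [sched_correct κ rows.flatten hD] at h5
  obtain ⟨s5, hs5, h5'⟩ : ∃ s5 : St Own (GA A), s5 = Function.update (Function.update s4
        Own.d7 (Z ([] ++ encOps (sched κ)) []))
        Own.X (Z [] (bits (trList (2 ^ κ) rows.flatten))) ∧
      (interp A).SRuns (glue blankA s4) (cInterp A.worstTime (2 * κ) (sched κ))
        (glue blankA s5) true := ⟨_, rfl, h5⟩
  have h6 := output_spec s5 (2 ^ κ) (trList (2 ^ κ) rows.flatten) (by simp [trList])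
    (by simp [hs5]) (by simp [hs5, hs4, hs3, hs2]) (by simp [hs5, hs4, hs3, hs2, hs1])
    (by simp [hs5, hs4, hs3, hs2, hs1])
  have hin := liftO_sruns (seqs_cons h1 (seqs_cons h2 (seqs_cons h3 (seqs_cons h4 (seqs_nil _)))))
    (blankA : St (Fin k) (GA A))
  have hall := seqs_cons hin (seqs_cons h5' (seqs_cons (liftO_sruns h6 blankA) (seqs_nil _)))
  rw [← startSt_eq_sm] at hall
  refine ⟨_, Prog.SRuns.mono hall ?_, ?_⟩
  · unfold cMain
    omega
  · simp

/-- The machine. -/
noncomputable def machB (A : Machine k) : Machine (bigK k) := toMachine A (mainP A)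

theorem matWord_eq_sm (A : Machine k) {n : ℕ} (X : Fin n → Fin n → Bool) :
    (machB A).matWord X = (rowsWord (rowsOf_sm X) : List (GA A)) := by
  simp only [Machine.matWord, rowsWord, rowsOf_sm, List.flatMap_def, List.map_ofFn, bits]
  congr 2
  funext i
  simp only [Function.comp, List.map_ofFn]
  rfl

theorem machB_run_sm (A : Machine k) (hA : A.Multiplies) (κ : ℕ)
    (X : Fin (2 ^ κ) → Fin (2 ^ κ) → Bool) :
    ∃ (t : ℕ) (c' : Cfg (machB A)), t ≤ cMain A.worstTime κ ∧
      (machB A).HaltsAt ((machB A).init ((machB A).matWord X)) t c' ∧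
      c'.tape (machB A).out = (machB A).word ((machB A).matWord fun i j => X j i) := by
  obtain ⟨s', h1, h2⟩ := main_spec A hA κ (rowsOf_sm X) (rowsOf_length_sm X) (rowsOf_row_sm X)
  rw [tr_rows_sm] at h2
  rw [matWord_eq_sm, matWord_eq_sm]
  exact toMachine_spec A (mainP A) _ _ _ s' true h1 h2

theorem machB_transposes (A : Machine k) (hA : A.Multiplies) (κ : ℕ) :
    (machB A).TransposesAt (2 ^ κ) := by
  intro X
  obtain ⟨t, c', _, h1, h2⟩ := machB_run_sm A hA κ X
  exact ⟨t, c', h1, h2⟩

theorem machB_time (A : Machine k) (hA : A.Multiplies) (κ : ℕ) :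
    (machB A).transTime (2 ^ κ) ≤ cMain A.worstTime κ := by
  unfold Machine.transTime
  apply Finset.sup_le
  intro X _
  obtain ⟨t, c', ht, h1, _⟩ := machB_run_sm A hA κ X
  exact le_trans (Nat.sInf_le ⟨c', h1⟩) ht

end Vale.Agent.P338.TM
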