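import Vale.Agent.P338.TM.SpecConv
import Vale.Agent.P338.TM.SpecEncMat
import Vale.Agent.P338.TM.SpecLastStage
import Vale.Agent.P338.TM.SpecDecode

namespace Vale.Agent.P338.TM

open Vale.Agent.P338

variable {k : ℕ} [NeZero k]

/-- The treatment of one matrix. Uses `encMat_spec`, `rewind_spec`, `conv_spec` (three times),
`lastStage_spec`, `decMat_spec`, `pipe_decodes`, `blk0_length`, `slices_length`, `cat_slices`. -/
theorem matPipe_spec (A : Machine k) (hA : A.Multiplies) (P : Par) (al be : ℕ) (hF : P.Fat al be)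
    (sO : St Own (GA A)) (hN : Need P sO allPar) (hC : Clean sO)
    (p0 : Ph) (hp0 : p0.lt P.N) (hph : HasPh P p0 sO)
    (dX tX dY : List (GA A)) (ent : ℕ → List Bool) (hent : ∀ j, (ent j).length = P.e)
    (hX : sO Own.X = Z dX (bits (cat ent 0 P.N) ++ tX)) (hY : sO Own.Y = Z dY []) :
    ∃ p1 : Ph, p1.lt P.N ∧
    (matPipe A).SRuns (glue blankA sO) (cMatPipe P (A.worstTime (4 * (P.N * P.w))))
      (glue blankA (setPh P p1 (Function.update (Function.update sO
        Own.X (Z (dX ++ bits (cat ent 0 P.N)) tX))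
        Own.Y (Z (dY ++ bits (cat (fun j => ent (trIdx P.a P.b j)) 0 P.N)) [])))) true := by
  have hV : P.Valid := hF.toValid
  have ha2 := hV.a2
  have hb2 := hV.b2
  have cBk : sO Own.Bk = Z [] [] := hC Own.Bk (by simp)
  have cU : sO Own.U = Z [] [] := hC Own.U (by simp)
  have cV : sO Own.V = Z [] [] := hC Own.V (by simp)
  have cPd : sO Own.Pd = Z [] [] := hC Own.Pd (by simp)
  have cT0 : sO Own.T0 = Z [] [] := hC Own.T0 (by simp)
  have cT1 : sO Own.T1 = Z [] [] := hC Own.T1 (by simp)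
  have cT2 : sO Own.T2 = Z [] [] := hC Own.T2 (by simp)
  have cT3 : sO Own.T3 = Z [] [] := hC Own.T3 (by simp)
  have cW : sO Own.W = Z [] [] := hC Own.W (by simp)
  have cclk : sO Own.clk = Z [] [] := hC Own.clk (by simp)
  -- the shape of the intermediate states
  obtain ⟨T, hT⟩ : ∃ T : Ph → Zip (GA A) → St Own (GA A),
      T = fun p zb => setPh P p (Function.update (Function.update sO
        Own.X (Z (dX ++ bits (cat ent 0 P.N)) tX)) Own.Bk zb) := ⟨_, rfl⟩
  have TN : ∀ p zb, Need P (T p zb) allPar := by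
    intro p zb
    rw [hT]
    refine ls_need_congr hN (fun x hx => hx) ?_
    intro x hx
    cases x <;> simp [Own.isUn, Own.isConst] at hx <;> simp [setPh]
  have TC : ∀ p zb, Clean (Function.update (T p zb) Own.Bk (Z [] [])) := by
    intro p zb x hx
    rw [hT]
    simp only [List.mem_cons, List.not_mem_nil, or_false] at hx
    rcases hx with h | h | h | h | h | h | h | h | h | h <;> subst h <;>
      simp [setPh, cU, cV, cPd, cT0, cT1, cT2, cT3, cW, cclk]
  have TP : ∀ p zb, HasPh P p (T p zb) := by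
    intro p zb
    rw [hT]
    refine ⟨?_, ?_, ?_⟩ <;> simp [setPh]
  have TB : ∀ p zb, T p zb Own.Bk = zb := by
    intro p zb
    rw [hT]
    simp [setPh]
  have TT : ∀ p zb p' zb', setPh P p' (Function.update (T p zb) Own.Bk zb') = T p' zb' := by
    intro p zb p' zb'
    rw [hT]
    funext i
    cases i <;> simp [setPh]
  -- encoding
  have e1 := encMat_spec P sO (hN.mono (by simp [allPar])) dX tX [] ent hent hX cBk
  have hl0 := blk0_length P hV ent hent
  have e2 := rewind_spec Own.Bk _ ([] ++ bits (cat (blk0 P ent) 0 P.N)) []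
    (Function.update_self Own.Bk (Z ([] ++ bits (cat (blk0 P ent) 0 P.N)) [])
      (Function.update sO Own.X (Z (dX ++ bits (cat ent 0 (P.a * P.b))) tX)))
    (by rw [List.nil_append]; exact ls_lend_notMem_bits _) (by simp)
  have e12 := liftO_sruns (seq_sruns e1 e2) (blankA : St (Fin k) (GA A))
  have hst1 : Function.update (Function.update (Function.update sO Own.X
      (Z (dX ++ bits (cat ent 0 (P.a * P.b))) tX)) Own.Bk
      (Z ([] ++ bits (cat (blk0 P ent) 0 P.N)) [])) Own.Bk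
      (Z [] ([] ++ bits (cat (blk0 P ent) 0 P.N) ++ []))
      = T p0 (Z [] (bits (cat (blk0 P ent) 0 P.N))) := by
    rw [hT]
    obtain ⟨q1, q2, q3⟩ := hph
    funext i
    cases i <;> simp [setPh, q1, q2, q3, Par.N]
  rw [hst1] at e12
  have hlenB : (([] : List (GA A)) ++ bits (cat (blk0 P ent) 0 P.N)).length
      = P.N * (2 * P.m + 2) := by
    rw [List.nil_append, ls_length_bits, ls_length_cat _ _ _ _ hl0]
  rw [hlenB] at e12
  -- first stage
  obtain ⟨p1, hp1, c1⟩ := conv_spec A hA P hV Own.t1 Own.ta Own.cO Own.cZ Own.cZ Own.cO Own.cZ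
    Own.tN Own.t0 Own.cO (Or.inl ⟨rfl, rfl⟩) rfl rfl rfl rfl rfl (Or.inl rfl) (Or.inl rfl) rfl
    (by simp only [Par.uval, Par.N]; omega)
    (T p0 (Z [] (bits (cat (blk0 P ent) 0 P.N)))) (TN _ _) (TC _ _) p0 hp0 (TP _ _)
    (blk0 P ent) hl0 (TB _ _)
  rw [TT] at c1
  -- second stage
  obtain ⟨p2, hp2, c2⟩ := conv_spec A hA P hV Own.t1 Own.ta Own.cO Own.cB Own.cZ Own.cO Own.cB
    Own.ta Own.tb1 Own.cB (Or.inl ⟨rfl, rfl⟩) rfl rfl rfl rfl rfl (Or.inr (Or.inl rfl))
    (Or.inr rfl) rfl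
    (by
      simp only [Par.uval, Par.N]
      have : P.b - 1 + 1 = P.b := by omega
      rw [this]; omega)
    (T p1 (Z [] (bits (cat (blk1 P ent) 0 P.N)))) (TN _ _) (TC _ _) p1 hp1 (TP _ _)
    (blk1 P ent) (fun j => slices_length _ _ _) (TB _ _)
  rw [TT] at c2
  -- third stage
  obtain ⟨p3, hp3, c3⟩ := conv_spec A hA P hV Own.ta Own.t1 Own.cA Own.cZ Own.cO Own.cA Own.cH
    Own.tb Own.t0 Own.cA (Or.inr ⟨rfl, rfl⟩) rfl rfl rfl rfl rfl (Or.inr (Or.inr rfl))
    (Or.inl rfl) rfl
    (by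
      simp only [Par.uval, Par.N]
      nlinarith)
    (T p2 (Z [] (bits (cat (blk2 P ent) 0 P.N)))) (TN _ _) (TC _ _) p2 hp2 (TP _ _)
    (blk2 P ent) (fun j => slices_length _ _ _) (TB _ _)
  rw [TT] at c3
  -- last stage
  have Toth : ∀ p zb x, x ∈ [Own.U, Own.T0, Own.T1, Own.T2, Own.T3, Own.W] →
      T p zb x = Z [] [] := by
    intro p zb x hx
    have h := TC p zb x (by
      simp only [List.mem_cons, List.not_mem_nil, or_false] at hx ⊢
      tauto)
    rw [Function.update_of_ne (by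
      simp only [List.mem_cons, List.not_mem_nil, or_false] at hx
      rcases hx with h | h | h | h | h | h <;> subst h <;> decide)] at h
    exact h
  obtain ⟨p4, hp4, c4⟩ := lastStage_spec P hV Own.cA Own.cZ Own.cZ Own.cZ Own.cH rfl rfl rfl rfl rfl
    (T p3 (Z [] (bits (cat (blk3 P ent) 0 P.N)))) ((TN _ _).mono (by simp [allPar]))
    p3 hp3 (TP _ _) (blk3 P ent) (fun j => slices_length _ _ _) (TB _ _)
    (Toth _ _ _ (by simp)) (Toth _ _ _ (by simp)) (Toth _ _ _ (by simp)) (Toth _ _ _ (by simp))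
    (Toth _ _ _ (by simp))
  rw [TT] at c4
  have hcat4 : cat (blk4 P ent) 0 P.N = sum4 (P.N * (2 * P.m + 2))
      (dmT P (fun n => slotX P (phAt P (P.cval Own.cA) (P.cval Own.cZ) (P.cval Own.cZ)
        ⟨0, P.cval Own.cZ, P.cval Own.cH⟩ n) (blk3 P ent n)) P.a) :=
    cat_slices (2 * P.m + 2) P.N _ (by simp [sum4, lbits])
  rw [← hcat4] at c4
  -- decoding
  have TY : ∀ p zb, T p zb Own.Y = Z dY [] := by
    intro p zb
    rw [hT]
    simp [setPh, hY]
  have c5 := decMat_spec P (T p4 (Z [] (bits (cat (blk4 P ent) 0 P.N))))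
    ((TN _ _).mono (by simp [allPar])) dY (blk4 P ent) (fun j => ent (trIdx P.a P.b j))
    (fun j => slices_length _ _ _) (fun j => hent _)
    (fun j hj => pipe_decodes P al be hF ent hent j hj) (TB _ _) (Toth _ _ _ (by simp)) (TY _ _)
  have c45 := liftO_sruns (seq_sruns c4 c5) (blankA : St (Fin k) (GA A))
  have hfin : Function.update (Function.update (T p4 (Z [] (bits (cat (blk4 P ent) 0 P.N))))
      Own.Bk (Z [] [])) Own.Y (Z (dY ++ bits (cat (fun j => ent (trIdx P.a P.b j)) 0 P.N)) [])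
      = setPh P p4 (Function.update (Function.update sO
        Own.X (Z (dX ++ bits (cat ent 0 P.N)) tX))
        Own.Y (Z (dY ++ bits (cat (fun j => ent (trIdx P.a P.b j)) 0 P.N)) [])) := by
    rw [hT]
    funext i
    cases i <;> simp [setPh, cBk]
  rw [hfin] at c45
  refine ⟨p4, hp4, ?_⟩
  have hall := seq_sruns e12 (seq_sruns c1 (seq_sruns c2 (seq_sruns c3 c45)))
  refine Prog.SRuns.mono hall ?_
  simp only [cMatPipe, Par.uval]
  omega

end Vale.Agent.P338.TM
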