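import Vale.Agent.P338.TM.Progs1

namespace Vale.Agent.P338.TM

open Vale.Agent.P338

variable {ι Γ : Type} [TapeAlpha Γ] [DecidableEq ι]

theorem Z_read (d t : List Γ) : (Z d t).read = t.headD blank := rfl

theorem headD_ne_lend (t : List Γ) (ht : lend ∉ t) : t.headD blank ≠ (lend : Γ) := by
  cases t with
  | nil => exact (TapeAlpha.lend_ne_blank).symm
  | cons y t => intro h; exact ht (by simp [← h])

theorem scanL_aux (x : ι) : ∀ (d : List Γ) (s : St ι Γ) (t : List Γ), s x = Z d t → lend ∉ d →
    t.headD blank ≠ lend →
    (scanL x).SRuns s (d.length + 1)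
      (Function.update s x ⟨[], lend :: (d ++ t.headD blank :: t.tail)⟩) true := by
  intro d
  induction d using List.reverseRecOn with
  | nil =>
    intro s t hx _ ht
    have hr : sreads s x = t.headD blank := by rw [sreads_apply, hx, Z_read]
    refine scan_sstep _ s (Instr.nil.set x (t.headD blank) Move.left) ?_ ?_
    · rw [if_neg (by rw [hr]; exact ht)]
      try rw [hr]
    · rw [Instr.sapp_set, Instr.sapp_nil, hx, Z_act_left_nil]
      apply scan_sstop
      simp [Zip.read]
  | append_singleton d z ih =>
    intro s t hx hd ht
    have hr : sreads s x = t.headD blank := by rw [sreads_apply, hx, Z_read]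
    have hd' : lend ∉ d := fun h => hd (by simp [h])
    have hz : z ≠ lend := fun h => hd (by simp [h])
    rw [List.length_append, List.length_singleton]
    refine scan_sstep _ s (Instr.nil.set x (t.headD blank) Move.left) ?_ ?_
    · rw [if_neg (by rw [hr]; exact ht)]
      try rw [hr]
    · rw [Instr.sapp_set, Instr.sapp_nil, hx, Z_act_left_snoc]
      have h := ih (Function.update s x (Z d (z :: t.headD blank :: t.tail)))
        (z :: t.headD blank :: t.tail) (by simp) hd' (by simpa using hz)
      change (scanL x).SRuns _ _ _ _
      simpa using h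

theorem mv_right_lend (x : ι) (s : St ι Γ) (r : List Γ) (hx : s x = ⟨[], lend :: r⟩) :
    (mv x Move.right).SRuns s 1 (Function.update s x (Z [] r)) true := by
  have h := prim_sruns (fun a => (Instr.nil : Instr ι Γ).set x (a x) Move.right) s
  rw [Instr.sapp_set, Instr.sapp_nil, sreads_apply, hx] at h
  exact h

/-- Note: when `t = []` the run leaves a trailing blank in the zipper; remove it with
`Prog.SRuns.congr_right` and `Zip.toTp_trim`. -/
theorem rewind_spec (x : ι) (s : St ι Γ) (d t : List Γ) (hx : s x = Z d t)
    (hd : lend ∉ d) (ht : lend ∉ t) :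
    (rewind x).SRuns s (d.length + 3) (Function.update s x (Z [] (d ++ t))) true := by
  have h1 := scanL_aux x d s t hx hd (headD_ne_lend t ht)
  have h2 := mv_right_lend x _ (d ++ t.headD blank :: t.tail) (Function.update_self x _ s)
  have h3 := seq_sruns h1 h2
  rw [Function.update_idem] at h3
  refine Prog.SRuns.congr_right h3 ?_
  intro i
  by_cases hi : i = x
  · subst hi
    rw [Function.update_self, Function.update_self]
    cases t with
    | nil =>
      have := Zip.toTp_trim ([lend] : List Γ) d 1
      simpa [Z] using this
    | cons y t => rfl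
  · rw [Function.update_of_ne hi, Function.update_of_ne hi]

theorem toEnd_spec (x : ι) (s : St ι Γ) (d t : List Γ) (hx : s x = Z d t) (ht : blank ∉ t) :
    (toEnd x).SRuns s t.length (Function.update s x (Z (d ++ t) [])) true := by
  induction t generalizing d s with
  | nil =>
    have hs : Function.update s x (Z (d ++ []) []) = s := by
      rw [List.append_nil, ← hx, Function.update_eq_self]
    rw [hs]
    apply scan_sstop
    simp [hx]
  | cons y t ih =>
    have hy : y ≠ blank := fun h => ht (by simp [h])
    have ht' : blank ∉ t := fun h => ht (by simp [h])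
    have hr : sreads s x = y := by rw [sreads_apply, hx, Z_read_cons]
    rw [List.length_cons]
    refine scan_sstep _ s (Instr.nil.set x y Move.right) ?_ ?_
    · rw [if_neg (by rw [hr]; exact hy), hr]
    · rw [Instr.sapp_set, Instr.sapp_nil, hx, Z_act_right]
      have h := ih (Function.update s x (Z (d ++ [y]) t)) (d ++ [y]) (by simp) ht'
      change (toEnd x).SRuns _ _ _ _
      simpa using h

theorem wipeL_aux (x : ι) : ∀ (d : List Γ) (s : St ι Γ) (t : List Γ), s x = Z d t → lend ∉ d →
    t.headD blank ≠ lend →
    (wipeL x).SRuns s (d.length + 1)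
      (Function.update s x ⟨[], lend :: (List.replicate (d.length + 1) blank ++ t.tail)⟩) true := by
  intro d
  induction d using List.reverseRecOn with
  | nil =>
    intro s t hx _ ht
    have hr : sreads s x = t.headD blank := by rw [sreads_apply, hx, Z_read]
    refine scan_sstep _ s (Instr.nil.set x blank Move.left) ?_ ?_
    · rw [if_neg (by rw [hr]; exact ht)]
      try rw [hr]
    · rw [Instr.sapp_set, Instr.sapp_nil, hx, Z_act_left_nil]
      apply scan_sstop
      simp [Zip.read]
  | append_singleton d z ih =>
    intro s t hx hd ht
    have hr : sreads s x = t.headD blank := by rw [sreads_apply, hx, Z_read]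
    have hd' : lend ∉ d := fun h => hd (by simp [h])
    have hz : z ≠ lend := fun h => hd (by simp [h])
    rw [List.length_append, List.length_singleton]
    refine scan_sstep _ s (Instr.nil.set x blank Move.left) ?_ ?_
    · rw [if_neg (by rw [hr]; exact ht)]
      try rw [hr]
    · rw [Instr.sapp_set, Instr.sapp_nil, hx, Z_act_left_snoc]
      have h := ih (Function.update s x (Z d (z :: blank :: t.tail)))
        (z :: blank :: t.tail) (by simp) hd' (by simpa using hz)
      rw [Function.update_idem, List.tail_cons] at h
      have e : List.replicate (d.length + 1) (blank : Γ) ++ blank :: t.tail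
          = List.replicate (d.length + 1 + 1) blank ++ t.tail := by
        rw [List.replicate_succ' (n := d.length + 1), List.append_assoc]
        rfl
      rw [e] at h
      exact h

theorem erase_spec (x : ι) (s : St ι Γ) (d t : List Γ) (hx : s x = Z d t)
    (hd : lend ∉ d) (ht : lend ∉ t) (hb : blank ∉ t) :
    (erase x).SRuns s (d.length + 2 * t.length + 5) (Function.update s x (Z [] [])) true := by
  have h1 := toEnd_spec x s d t hx hb
  have hdt : lend ∉ d ++ t := by
    intro h
    rcases List.mem_append.1 h with h | h
    · exact hd h
    · exact ht h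
  have h2 := wipeL_aux x (d ++ t) _ [] (Function.update_self x _ s) hdt
    (TapeAlpha.lend_ne_blank).symm
  have h3 := mv_right_lend x _ _ (Function.update_self x
    (⟨[], lend :: (List.replicate ((d ++ t).length + 1) blank ++ ([] : List Γ).tail)⟩ : Zip Γ)
    (Function.update s x (Z (d ++ t) [])))
  have h4 := seq_sruns h1 (seq_sruns h2 h3)
  rw [Function.update_idem, Function.update_idem] at h4
  have h5 : (erase x).SRuns s (d.length + 2 * t.length + 5) _ true :=
    Prog.SRuns.mono h4 (by simp only [List.length_append]; omega)
  refine Prog.SRuns.congr_right h5 ?_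
  intro i
  by_cases hi : i = x
  · subst hi
    rw [Function.update_self, Function.update_self]
    have := Zip.toTp_trim ([lend] : List Γ) [] ((d ++ t).length + 1)
    simpa [Z] using this
  · rw [Function.update_of_ne hi, Function.update_of_ne hi]

end Vale.Agent.P338.TM
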