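import Vale.Agent.P338.TM.SpecSetUn

namespace Vale.Agent.P338.TM

open Vale.Agent.P338

variable {Γ : Type} [TapeAlpha Γ]

theorem wr_spec_sr (x : Own) (w : Γ) (m : Move) (s : St Own Γ) :
    (wr x w m : Prog Own Γ).SRuns s 1 (Function.update s x ((s x).act w m)) true := by
  have h := prim_sruns (fun _ : Own → Γ => Instr.nil.set x w m) s
  simp only [Instr.sapp_set, Instr.sapp_nil] at h
  exact h

theorem lend_notMem_zr_sr (n : ℕ) :
    (lend : Γ) ∉ (List.replicate n (bit false) ++ [rend] : List Γ) := by
  intro h
  rcases List.mem_append.1 h with h | h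
  · exact lend_notMem_replicate n false h
  · exact TapeAlpha.lend_ne_rend (by simpa using h)

theorem lend_notMem_oh_sr (N v : ℕ) : (lend : Γ) ∉ (oh N v : List Γ) := by
  unfold oh
  intro h
  rcases List.mem_append.1 h with h | h
  · rcases List.mem_append.1 h with h | h
    · exact lend_notMem_replicate v false h
    · rcases List.mem_cons.1 h with h | h
      · exact TapeAlpha.bit_ne_lend true h.symm
      · exact lend_notMem_replicate _ false h
  · exact TapeAlpha.lend_ne_rend (by simpa using h)

theorem blank_notMem_oh_sr (N v : ℕ) : (blank : Γ) ∉ (oh N v : List Γ) := by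
  unfold oh
  intro h
  rcases List.mem_append.1 h with h | h
  · rcases List.mem_append.1 h with h | h
    · exact TapeAlpha.bit_ne_blank false (List.eq_of_mem_replicate h).symm
    · rcases List.mem_cons.1 h with h | h
      · exact TapeAlpha.bit_ne_blank true h.symm
      · exact TapeAlpha.bit_ne_blank false (List.eq_of_mem_replicate h).symm
  · have h' : (blank : Γ) = rend := by simpa using h
    exact TapeAlpha.rend_ne_blank h'.symm

theorem oh_length_sr (N v : ℕ) (h : v < N) : (oh N v : List Γ).length = N + 1 := by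
  unfold oh
  simp only [List.length_append, List.length_replicate, List.length_cons, List.length_nil]
  omega

/-- The first three steps of `mkReg` and `mkRegU`. -/
theorem mkZeros_sr (P : Par) (x : Own) (hx : x ≠ Own.tN) (s : St Own Γ)
    (hN : Need P s [Own.tN]) (hxe : s x = Z [] []) {l : List (Prog Own Γ)} {T : ℕ}
    {s' : St Own Γ} {b : Bool}
    (h : (seqs l).SRuns (Function.update s x (Z [] (List.replicate P.N (bit false) ++ [rend])))
      T s' b) :
    (seqs (zerosU Own.tN x :: wr x rend Move.right :: rewind x :: l) : Prog Own Γ).SRuns s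
      (8 * P.N + 14 + T) s' b := by
  have htN : s Own.tN = Z [] (un P.N) := (hN Own.tN (by simp)).1 rfl
  have h1 := zerosU_spec Own.tN x hx.symm s P.N [] htN hxe
  simp only [List.nil_append] at h1
  have h2 := wr_spec_sr x rend Move.right
    (Function.update s x (Z (List.replicate P.N (bit false)) []))
  simp only [Function.update_self, Z_act_right, List.tail_nil, Function.update_idem] at h2
  have h3 := rewind_spec x (Function.update s x (Z (List.replicate P.N (bit false) ++ [rend]) []))
    (List.replicate P.N (bit false) ++ [rend]) [] (Function.update_self _ _ _)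
    (lend_notMem_zr_sr P.N) (by simp)
  simp only [Function.update_idem, List.append_nil, List.length_append, List.length_replicate,
    List.length_cons, List.length_nil] at h3
  refine Prog.SRuns.mono (seqs_cons h1 (seqs_cons h2 (seqs_cons h3 h))) ?_
  omega

theorem mkReg_spec (P : Par) (x : Own) (hx : x ≠ Own.tN) (hN0 : 0 < P.N) (s : St Own Γ)
    (hN : Need P s [Own.tN]) (hxe : s x = Z [] []) :
    (mkReg x : Prog Own Γ).SRuns s (8 * P.N + 20) (Function.update s x (Z [] (oh P.N 0))) true := by
  have h4 := wr_spec_sr x (bit true) Move.stay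
    (Function.update s x (Z [] (List.replicate P.N (bit false) ++ [rend])))
  simp only [Function.update_self, Z_act_stay, Function.update_idem] at h4
  have e : (bit true : Γ) :: (List.replicate P.N (bit false) ++ [rend] : List Γ).tail
      = oh P.N 0 := by
    obtain ⟨m, hm⟩ : ∃ m, P.N = m + 1 := ⟨P.N - 1, by omega⟩
    rw [hm]
    simp [oh, List.replicate_succ]
  rw [e] at h4
  refine Prog.SRuns.mono (mkZeros_sr P x hx s hN hxe (seqs_cons h4 (seqs_nil _))) ?_
  omega

theorem mkRegU_spec (P : Par) (x p : Own) (hx : x ≠ Own.tN) (hxp : x ≠ p) (hp : p.isUn = true)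
    (hv : P.uval p < P.N) (s : St Own Γ)
    (hN : Need P s [Own.tN, p]) (hxe : s x = Z [] []) :
    (mkRegU x p : Prog Own Γ).SRuns s (16 * P.N + 40)
      (Function.update s x (Z [] (oh P.N (P.uval p)))) true := by
  have hsp : s p = Z [] (un (P.uval p)) := (hN p (by simp)).1 hp
  obtain ⟨m, hm⟩ : ∃ m, P.N = P.uval p + (m + 1) := ⟨P.N - P.uval p - 1, by omega⟩
  have hsplit : (List.replicate P.N (bit false) ++ [rend] : List Γ)
      = List.replicate (P.uval p) (bit false) ++
        (bit false :: (List.replicate m (bit false) ++ [rend])) := by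
    rw [hm, List.replicate_add, List.replicate_succ]
    simp
  have h4 := mvU_right_spec p x hxp.symm
    (Function.update s x (Z [] (List.replicate P.N (bit false) ++ [rend]))) (P.uval p) []
    (List.replicate (P.uval p) (bit false))
    (bit false :: (List.replicate m (bit false) ++ [rend])) (by simp)
    (by rw [Function.update_of_ne hxp.symm]; exact hsp)
    (by rw [Function.update_self, hsplit])
  simp only [Function.update_idem, List.nil_append] at h4
  have h5 := wr_spec_sr x (bit true) Move.stay
    (Function.update s x (Z (List.replicate (P.uval p) (bit false))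
      (bit false :: (List.replicate m (bit false) ++ [rend]))))
  simp only [Function.update_self, Z_act_stay, Function.update_idem, List.tail_cons] at h5
  have h6 := rewind_spec x (Function.update s x (Z (List.replicate (P.uval p) (bit false))
      (bit true :: (List.replicate m (bit false) ++ [rend]))))
    (List.replicate (P.uval p) (bit false))
    (bit true :: (List.replicate m (bit false) ++ [rend])) (Function.update_self _ _ _)
    (lend_notMem_replicate _ false) (by
      intro h
      rcases List.mem_cons.1 h with h | h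
      · exact TapeAlpha.bit_ne_lend true h.symm
      · exact lend_notMem_zr_sr m h)
  simp only [Function.update_idem, List.length_replicate] at h6
  have e : (List.replicate (P.uval p) (bit false) ++
      (bit true :: (List.replicate m (bit false) ++ [rend])) : List Γ) = oh P.N (P.uval p) := by
    have : P.N - P.uval p - 1 = m := by omega
    unfold oh
    rw [this]
    simp
  rw [e] at h6
  refine Prog.SRuns.mono (mkZeros_sr P x hx s (hN.mono (by simp)) hxe
    (seqs_cons h4 (seqs_cons h5 (seqs_cons h6 (seqs_nil _))))) ?_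
  omega

/-- The state `s` with the registers filled in. -/
def withRegs (P : Par) (p : Ph) (s : St Own Γ) : St Own Γ :=
  fun x => if x.isConst = true then Z [] (oh P.N (P.cval x)) else setPh P p s x

/-- `a * (1 + 2 + ... + b)` is `N/2` modulo `N = a*b` when `b` is even. -/
theorem half_mod (a b : ℕ) (ha : 1 ≤ a) (hb : 2 ∣ b) (hb1 : 1 ≤ b) :
    (a * (b * (b + 1) / 2)) % (a * b) = a * b / 2 := by
  obtain ⟨c, rfl⟩ := hb
  have hc : 1 ≤ c := by omega
  have e1 : 2 * c * (2 * c + 1) / 2 = c * (2 * c + 1) := by
    rw [Nat.mul_assoc, Nat.mul_div_cancel_left _ (by norm_num : 0 < 2)]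
  have e2 : a * (2 * c) / 2 = a * c := by
    have : a * (2 * c) = 2 * (a * c) := by ring
    rw [this, Nat.mul_div_cancel_left _ (by norm_num : 0 < 2)]
  have e3 : a * (c * (2 * c + 1)) = a * c + a * (2 * c) * c := by ring
  rw [e1, e2, e3, Nat.add_mul_mod_self_left, Nat.mod_eq_of_lt]
  have : 0 < a * c := Nat.mul_pos ha hc
  nlinarith

/-- Value of `cH` after `k` rounds. -/
def cHv_sr (a N k : ℕ) : ℕ := (a * (k * (k + 1) / 2)) % N

/-- Value of `rD` after `k` rounds. -/
def rDv_sr (a N k : ℕ) : ℕ := (a * (k + 1)) % N

theorem cHv_succ_sr (a N k : ℕ) : (cHv_sr a N k + rDv_sr a N k) % N = cHv_sr a N (k + 1) := by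
  unfold cHv_sr rDv_sr
  have e : (k + 1) * (k + 1 + 1) / 2 = k * (k + 1) / 2 + (k + 1) := by
    have : (k + 1) * (k + 1 + 1) = k * (k + 1) + 2 * (k + 1) := by ring
    rw [this, Nat.add_mul_div_left _ _ (by norm_num : 0 < 2)]
  rw [e, ← Nat.add_mod]
  congr 1
  ring

theorem rDv_succ_sr (a N k : ℕ) : (rDv_sr a N k + a) % N = rDv_sr a N (k + 1) := by
  unfold rDv_sr
  rw [Nat.mod_add_mod]
  congr 1

theorem setRegs_spec (P : Par) (hV : P.Valid) (hb : 2 ∣ P.b) (hH : P.H = P.a * P.b / 2)
    (s : St Own Γ) (hN : Need P s [Own.tN, Own.ta, Own.tb, Own.t1])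
    (hE : ∀ x, x.isConst = true ∨ x = Own.rS ∨ x = Own.rD ∨ x = Own.rF → s x = Z [] []) :
    ∃ p : Ph, p.lt P.N ∧
    (setRegs : Prog Own Γ).SRuns s (150 * (P.N * P.b + 10)) (withRegs P p s) true := by
  have ha2 := hV.a2
  have hb2 := hV.b2
  have hNdef : P.N = P.a * P.b := rfl
  have hN4 : 4 ≤ P.N := by
    rw [hNdef]
    exact Nat.mul_le_mul ha2 hb2
  have hN0 : 0 < P.N := by omega
  have haN : P.a < P.N := by rw [hNdef]; nlinarith
  have hbN : P.b < P.N := by rw [hNdef]; nlinarith
  have htb : s Own.tb = Z [] (un P.b) := (hN Own.tb (by simp)).1 rfl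
  refine ⟨⟨0, rDv_sr P.a P.N P.b, 0⟩, ⟨hN0, Nat.mod_lt _ hN0, hN0⟩, ?_⟩
  -- the eight registers
  have n0 := hN
  have m1 := mkReg_spec P Own.rS (by decide) hN0 s (n0.mono (by simp)) (hE _ (by simp))
  have n1 := n0.update (y := Own.rS) (by simp) (Z [] (oh P.N 0))
  have m2 := mkReg_spec P Own.rD (by decide) hN0 _ (n1.mono (by simp)) (by
    simp only [ne_eq, reduceCtorEq, not_false_eq_true, Function.update_of_ne]
    exact hE _ (by simp))
  have n2 := n1.update (y := Own.rD) (by simp) (Z [] (oh P.N 0))
  have m3 := mkReg_spec P Own.rF (by decide) hN0 _ (n2.mono (by simp)) (by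
    simp only [ne_eq, reduceCtorEq, not_false_eq_true, Function.update_of_ne]
    exact hE _ (by simp))
  have n3 := n2.update (y := Own.rF) (by simp) (Z [] (oh P.N 0))
  have m4 := mkReg_spec P Own.cZ (by decide) hN0 _ (n3.mono (by simp)) (by
    simp only [ne_eq, reduceCtorEq, not_false_eq_true, Function.update_of_ne]
    exact hE _ (Or.inl rfl))
  have n4 := n3.update (y := Own.cZ) (by simp) (Z [] (oh P.N 0))
  have m5 := mkReg_spec P Own.cH (by decide) hN0 _ (n4.mono (by simp)) (by
    simp only [ne_eq, reduceCtorEq, not_false_eq_true, Function.update_of_ne]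
    exact hE _ (Or.inl rfl))
  have n5 := n4.update (y := Own.cH) (by simp) (Z [] (oh P.N 0))
  have m6 := mkRegU_spec P Own.cO Own.t1 (by decide) (by decide) rfl
    (by show 1 < P.N; omega) _ (n5.mono (by simp)) (by
    simp only [ne_eq, reduceCtorEq, not_false_eq_true, Function.update_of_ne]
    exact hE _ (Or.inl rfl))
  have n6 := n5.update (y := Own.cO) (by simp) (Z [] (oh P.N (P.uval Own.t1)))
  have m7 := mkRegU_spec P Own.cA Own.ta (by decide) (by decide) rfl haN _
    (n6.mono (by simp)) (by
    simp only [ne_eq, reduceCtorEq, not_false_eq_true, Function.update_of_ne]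
    exact hE _ (Or.inl rfl))
  have n7 := n6.update (y := Own.cA) (by simp) (Z [] (oh P.N (P.uval Own.ta)))
  have m8 := mkRegU_spec P Own.cB Own.tb (by decide) (by decide) rfl hbN _
    (n7.mono (by simp)) (by
    simp only [ne_eq, reduceCtorEq, not_false_eq_true, Function.update_of_ne]
    exact hE _ (Or.inl rfl))
  have m9 := copyOver_spec Own.cA Own.rD (by decide) (w := oh P.N P.a) (w' := oh P.N 0)
    (by rw [oh_length_sr _ _ hN0, oh_length_sr _ _ haN]) (blank_notMem_oh_sr _ _)
    (lend_notMem_oh_sr _ _)
    (s := Function.update (Function.update (Function.update (Function.update (Function.update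
      (Function.update (Function.update (Function.update s Own.rS (Z [] (oh P.N 0))) Own.rD
      (Z [] (oh P.N 0))) Own.rF (Z [] (oh P.N 0))) Own.cZ (Z [] (oh P.N 0))) Own.cH
      (Z [] (oh P.N 0))) Own.cO (Z [] (oh P.N (P.uval Own.t1)))) Own.cA
      (Z [] (oh P.N (P.uval Own.ta)))) Own.cB (Z [] (oh P.N (P.uval Own.tb))))
    (by
      simp only [ne_eq, reduceCtorEq, not_false_eq_true, Function.update_of_ne,
        Function.update_self]
      rfl)
    (by
      simp only [ne_eq, reduceCtorEq, not_false_eq_true, Function.update_of_ne,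
        Function.update_self])
  rw [oh_length_sr _ _ haN] at m9
  set S9 : St Own Γ := Function.update (Function.update (Function.update (Function.update
      (Function.update (Function.update (Function.update (Function.update (Function.update s
      Own.rS (Z [] (oh P.N 0))) Own.rD
      (Z [] (oh P.N 0))) Own.rF (Z [] (oh P.N 0))) Own.cZ (Z [] (oh P.N 0))) Own.cH
      (Z [] (oh P.N 0))) Own.cO (Z [] (oh P.N (P.uval Own.t1)))) Own.cA
      (Z [] (oh P.N (P.uval Own.ta)))) Own.cB (Z [] (oh P.N (P.uval Own.tb)))) Own.rD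
      (Z [] (oh P.N P.a)) with hS9
  have hS9cA : S9 Own.cA = Z [] (oh P.N P.a) := by
    simp only [hS9, ne_eq, reduceCtorEq, not_false_eq_true, Function.update_of_ne,
      Function.update_self]
    rfl
  -- the loop
  have m10 := forU_fun Own.tb (seq (addReg Own.cH Own.rD) (addReg Own.rD Own.cA) : Prog Own Γ)
    P.b (20 * P.N + 40 + (20 * P.N + 40) + 1)
    (fun k => Function.update (Function.update S9 Own.cH (Z [] (oh P.N (cHv_sr P.a P.N k))))
      Own.rD (Z [] (oh P.N (rDv_sr P.a P.N k)))) (by
      intro k _
      refine ⟨true, ?_⟩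
      have a1 := addReg_spec Own.cH Own.rD (by decide)
        (Function.update (Function.update (Function.update S9 Own.cH
          (Z [] (oh P.N (cHv_sr P.a P.N k)))) Own.rD (Z [] (oh P.N (rDv_sr P.a P.N k)))) Own.tb
          (Z (un k) (un (P.b - k)))) P.N (cHv_sr P.a P.N k) (rDv_sr P.a P.N k)
        (Nat.mod_lt _ hN0) (Nat.mod_lt _ hN0)
        (by simp only [ne_eq, reduceCtorEq, not_false_eq_true, Function.update_of_ne,
          Function.update_self])
        (by simp only [ne_eq, reduceCtorEq, not_false_eq_true, Function.update_of_ne,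
          Function.update_self])
      have a2 := addReg_spec Own.rD Own.cA (by decide) (N := P.N) (vx := rDv_sr P.a P.N k) (vy := P.a)
        (Nat.mod_lt _ hN0) haN
        (s := Function.update (Function.update (Function.update (Function.update S9 Own.cH
          (Z [] (oh P.N (cHv_sr P.a P.N k)))) Own.rD (Z [] (oh P.N (rDv_sr P.a P.N k)))) Own.tb
          (Z (un k) (un (P.b - k)))) Own.cH
          (Z [] (oh P.N ((cHv_sr P.a P.N k + rDv_sr P.a P.N k) % P.N))))
        (by simp only [ne_eq, reduceCtorEq, not_false_eq_true, Function.update_of_ne,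
          Function.update_self])
        (by
          simp only [ne_eq, reduceCtorEq, not_false_eq_true, Function.update_of_ne]
          exact hS9cA)
      have a3 := seq_sruns a1 a2
      refine Eq.subst (motive := fun t =>
        (seq (addReg Own.cH Own.rD) (addReg Own.rD Own.cA) : Prog Own Γ).SRuns _ _ t true) ?_ a3
      rw [cHv_succ_sr, rDv_succ_sr]
      funext i
      by_cases i1 : i = Own.tb
      · subst i1; simp
      by_cases i2 : i = Own.rD
      · subst i2; simp
      by_cases i3 : i = Own.cH
      · subst i3; simp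
      · simp [i1, i2, i3])
  have e0 : Function.update (Function.update (Function.update S9 Own.cH
      (Z [] (oh P.N (cHv_sr P.a P.N 0)))) Own.rD (Z [] (oh P.N (rDv_sr P.a P.N 0)))) Own.tb
      (Z [] (un P.b)) = S9 := by
    have c0 : cHv_sr P.a P.N 0 = 0 := by simp [cHv_sr]
    have r0 : rDv_sr P.a P.N 0 = P.a := by
      simp only [rDv_sr, Nat.zero_add, Nat.mul_one]
      exact Nat.mod_eq_of_lt haN
    rw [c0, r0]
    funext i
    by_cases i1 : i = Own.tb
    · subst i1; simp [hS9, htb]
    by_cases i2 : i = Own.rD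
    · subst i2; simp [hS9]
    by_cases i3 : i = Own.cH
    · subst i3; simp [hS9]
    · simp [i1, i2, i3]
  rw [e0] at m10
  have e1 : Function.update (Function.update (Function.update S9 Own.cH
      (Z [] (oh P.N (cHv_sr P.a P.N P.b)))) Own.rD (Z [] (oh P.N (rDv_sr P.a P.N P.b)))) Own.tb
      (Z [] (un P.b)) = withRegs P ⟨0, rDv_sr P.a P.N P.b, 0⟩ s := by
    have cb : cHv_sr P.a P.N P.b = P.H := by
      unfold cHv_sr
      rw [hNdef, half_mod P.a P.b (by omega) hb (by omega), hH]
    rw [cb]
    funext i
    cases i <;>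
      simp [hS9, withRegs, setPh, Own.isConst, Par.cval, Par.uval, htb]
  rw [e1] at m10
  have hfin := seqs_cons m1 (seqs_cons m2 (seqs_cons m3 (seqs_cons m4 (seqs_cons m5
    (seqs_cons m6 (seqs_cons m7 (seqs_cons m8 (seqs_cons m9 (seqs_cons m10 (seqs_nil _))))))))))
  refine Prog.SRuns.mono hfin ?_
  have hM : P.b * (20 * P.N + 40 + (20 * P.N + 40) + 1 + 6) = 40 * (P.N * P.b) + 87 * P.b := by
    ring
  have h1 : P.N * 2 ≤ P.N * P.b := Nat.mul_le_mul_left _ hb2
  have h2 : 4 * P.b ≤ P.N * P.b := Nat.mul_le_mul_right _ hN4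
  rw [hM]
  generalize P.N * P.b = M at *
  omega

end Vale.Agent.P338.TM
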