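import Vale.Agent.P338.TM.SpecXGroup

namespace Vale.Agent.P338.TM

open Vale.Agent.P338

variable {Γ : Type} [TapeAlpha Γ]

theorem stageX_cat_zero (f : ℕ → List Bool) (i : ℕ) : cat f i 0 = [] := by
  simp [cat]

theorem stageX_cat_succ (f : ℕ → List Bool) (i k : ℕ) :
    cat f i (k + 1) = cat f i k ++ f (i + k) := by
  simp [cat, List.range_succ, List.flatMap_append]

theorem stageX_cat_add (f : ℕ → List Bool) (i k l : ℕ) :
    cat f i (k + l) = cat f i k ++ cat f (i + k) l := by
  induction l with
  | zero => simp [stageX_cat_zero]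
  | succ l ih =>
    rw [← Nat.add_assoc, stageX_cat_succ, ih, stageX_cat_succ, List.append_assoc, Nat.add_assoc]

theorem stageX_cat_shift (f : ℕ → List Bool) (c k : ℕ) :
    cat (fun n => f (c + n)) 0 k = cat f c k := by
  simp [cat]

theorem stageX_bits_append (u v : List Bool) : (bits (u ++ v) : List Γ) = bits u ++ bits v := by
  simp [bits]

theorem stageX_rows_add (N b E1 E2 E3 : ℕ) (p : Ph) (r r' : ℕ) :
    (p.rows N b E1 E2 E3 r).rows N b E1 E2 E3 r' = p.rows N b E1 E2 E3 (r' + r) := by
  unfold Ph.rows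
  rw [Function.iterate_add_apply]

/-- The shape of the states during the loop. -/
def stageXSt (P : Par) (s : St Own Γ) (tG : Own) (ph : Ph) (zB zU zG : Zip Γ) : St Own Γ :=
  Function.update (setPh P ph (Function.update (Function.update s Own.Bk zB) Own.U zU)) tG zG

/-- The whole first operand. -/
theorem stageX_spec (P : Par) (hV : P.Valid) (tG tR E1 E2 E3 : Own)
    (hGR : LoopPair tG tR) (hE1 : E1.isConst = true)
    (hE2 : E2.isConst = true) (hE3 : E3.isConst = true) (s : St Own Γ)
    (hN : Need P s [tG, tR, Own.tb, Own.tg, Own.tm, E1, E2, E3]) (p : Ph) (hp : p.lt P.N)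
    (hph : HasPh P p s)
    (dB tB dU : List Γ) (blk : ℕ → List Bool) (hblk : ∀ j, (blk j).length = 2 * P.m + 2)
    (hB : s Own.Bk = Z dB (bits (cat blk 0 (P.uval tG * (P.uval tR * P.b))) ++ tB))
    (hU : s Own.U = Z dU []) :
    (stageX tG tR E1 E2 E3 : Prog Own Γ).SRuns s (cStageX P (P.uval tR) (P.uval tG))
      (setPh P (p.rows P.N P.b (P.cval E1) (P.cval E2) (P.cval E3) (P.uval tG * P.uval tR))
        (Function.update
          (Function.update s Own.Bk
            (Z (dB ++ bits (cat blk 0 (P.uval tG * (P.uval tR * P.b)))) tB)) Own.U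
          (Z (dU ++ bits (xOut P (P.cval E1) (P.cval E2) (P.cval E3) blk p (P.uval tR)
            (P.uval tG))) []))) true := by
  have hNpos : 0 < P.N := by
    unfold Par.N
    exact Nat.mul_pos (by have := hV.a2; omega) (by have := hV.b2; omega)
  have htR : tR = Own.ta ∨ tR = Own.t1 := by
    rcases hGR with ⟨_, h⟩ | ⟨_, h⟩
    · exact Or.inl h
    · exact Or.inr h
  have hGun : tG.isUn = true := by
    rcases hGR with ⟨h, _⟩ | ⟨h, _⟩ <;> rw [h] <;> rfl
  have hsG : s tG = Z [] (un (P.uval tG)) := (hN tG (by simp)).1 hGun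
  have hcE : ∀ E : Own, E.isConst = true → ∀ y : Own, y.isConst = false → y ≠ E := by
    intro E hE y hy h
    rw [h, hE] at hy
    cases hy
  have hGc : tG.isConst = false := by
    rcases hGR with ⟨h, _⟩ | ⟨h, _⟩ <;> rw [h] <;> rfl
  have hGnot : tG ∉ [tR, Own.tb, Own.tg, Own.tm, E1, E2, E3] := by
    have h1 := hcE E1 hE1 tG hGc
    have h2 := hcE E2 hE2 tG hGc
    have h3 := hcE E3 hE3 tG hGc
    rcases hGR with ⟨rfl, rfl⟩ | ⟨rfl, rfl⟩ <;> simp [h1, h2, h3]
  have hnot : ∀ y : Own, y.isConst = false → y.isUn = false →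
      y ∉ [tR, Own.tb, Own.tg, Own.tm, E1, E2, E3] := by
    intro y hy hy'
    have h1 := hcE E1 hE1 y hy
    have h2 := hcE E2 hE2 y hy
    have h3 := hcE E3 hE3 y hy
    have h4 : ∀ z : Own, z.isUn = true → y ≠ z := by
      intro z hz h
      rw [h, hz] at hy'
      cases hy'
    have h5 : y ≠ tR := by
      rcases htR with rfl | rfl
      · exact h4 _ rfl
      · exact h4 _ rfl
    simp [h1, h2, h3, h5, h4 Own.tb rfl, h4 Own.tg rfl, h4 Own.tm rfl]
  have hN' : Need P s [tR, Own.tb, Own.tg, Own.tm, E1, E2, E3] :=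
    hN.mono (by intro x hx; exact List.mem_cons_of_mem _ hx)
  -- facts on the states of the loop
  have SNeed : ∀ ph zB zU zG,
      Need P (stageXSt P s tG ph zB zU zG) [tR, Own.tb, Own.tg, Own.tm, E1, E2, E3] := by
    intro ph zB zU zG
    unfold stageXSt setPh
    exact (((((hN'.update (hnot Own.Bk rfl rfl) _).update (hnot Own.U rfl rfl) _).update
      (hnot Own.rS rfl rfl) _).update (hnot Own.rD rfl rfl) _).update
      (hnot Own.rF rfl rfl) _).update hGnot _
  have SPh : ∀ ph zB zU zG, HasPh P ph (stageXSt P s tG ph zB zU zG) := by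
    intro ph zB zU zG
    unfold stageXSt setPh HasPh
    rcases hGR with ⟨rfl, rfl⟩ | ⟨rfl, rfl⟩ <;> simp
  have SB : ∀ ph zB zU zG, stageXSt P s tG ph zB zU zG Own.Bk = zB := by
    intro ph zB zU zG
    unfold stageXSt setPh
    rcases hGR with ⟨rfl, rfl⟩ | ⟨rfl, rfl⟩ <;> simp
  have SU : ∀ ph zB zU zG, stageXSt P s tG ph zB zU zG Own.U = zU := by
    intro ph zB zU zG
    unfold stageXSt setPh
    rcases hGR with ⟨rfl, rfl⟩ | ⟨rfl, rfl⟩ <;> simp
  have Sset : ∀ ph zB zU zG ph' zB' zU',
      setPh P ph' (Function.update (Function.update (stageXSt P s tG ph zB zU zG) Own.Bk zB')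
        Own.U zU') = stageXSt P s tG ph' zB' zU' zG := by
    intro ph zB zU zG ph' zB' zU'
    unfold stageXSt setPh
    funext i
    rcases hGR with ⟨rfl, rfl⟩ | ⟨rfl, rfl⟩ <;>
      simp only [Function.update_apply] <;> split_ifs <;> simp_all
  have SG : ∀ ph zB zU zG zG',
      Function.update (stageXSt P s tG ph zB zU zG) tG zG' = stageXSt P s tG ph zB zU zG' := by
    intro ph zB zU zG zG'
    unfold stageXSt
    rw [Function.update_idem]
  have Sfin : ∀ ph zB zU,
      setPh P ph (Function.update (Function.update s Own.Bk zB) Own.U zU)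
        = stageXSt P s tG ph zB zU (Z [] (un (P.uval tG))) := by
    intro ph zB zU
    unfold stageXSt
    funext i
    by_cases hi : i = tG
    · subst hi
      rw [Function.update_self]
      unfold setPh
      rcases hGR with ⟨rfl, rfl⟩ | ⟨rfl, rfl⟩ <;> simp [hsG]
    · rw [Function.update_of_ne hi]
  have Sini : s = stageXSt P s tG p (s Own.Bk) (s Own.U) (Z [] (un (P.uval tG))) := by
    rw [← Sfin]
    unfold setPh
    rw [Function.update_eq_self, Function.update_eq_self, ← hph.1, Function.update_eq_self,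
      ← hph.2.1, Function.update_eq_self, ← hph.2.2, Function.update_eq_self]
  generalize hG : P.uval tG = G at *
  generalize hR : P.uval tR = R at *
  generalize he1 : P.cval E1 = e1 at *
  generalize he2 : P.cval E2 = e2 at *
  generalize he3 : P.cval E3 = e3 at *
  have h := forU_fun tG (xGroupP tR E1 E2 E3 : Prog Own Γ) G (cXGroup P R)
    (fun k => stageXSt P s tG (p.rows P.N P.b e1 e2 e3 (k * R))
      (Z (dB ++ bits (cat blk 0 (k * (R * P.b))))
        (bits (cat blk (k * (R * P.b)) ((G - k) * (R * P.b))) ++ tB))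
      (Z (dU ++ bits (xOut P e1 e2 e3 blk p R k)) []) (Z [] [])) (by
      intro k hk
      refine ⟨true, ?_⟩
      simp only [SG]
      have hx := xGroup_spec P hV tR E1 E2 E3 htR hE1 hE2 hE3
        (stageXSt P s tG (p.rows P.N P.b e1 e2 e3 (k * R))
          (Z (dB ++ bits (cat blk 0 (k * (R * P.b))))
            (bits (cat blk (k * (R * P.b)) ((G - k) * (R * P.b))) ++ tB))
          (Z (dU ++ bits (xOut P e1 e2 e3 blk p R k)) []) (Z (un k) (un (G - k))))
        (SNeed _ _ _ _) (p.rows P.N P.b e1 e2 e3 (k * R)) (Ph.rows_lt hNpos hp _) (SPh _ _ _ _)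
        (dB ++ bits (cat blk 0 (k * (R * P.b))))
        (bits (cat blk ((k + 1) * (R * P.b)) ((G - (k + 1)) * (R * P.b))) ++ tB)
        (dU ++ bits (xOut P e1 e2 e3 blk p R k))
        (fun n => blk (k * (R * P.b) + n)) (fun j => hblk _)
        (by
          rw [SB, hR, stageX_cat_shift, ← List.append_assoc, ← stageX_bits_append]
          have e : (G - k) * (R * P.b) = R * P.b + (G - (k + 1)) * (R * P.b) := by
            obtain ⟨j, rfl⟩ : ∃ j, G = k + 1 + j := ⟨G - (k + 1), by omega⟩
            have e1 : k + 1 + j - k = j + 1 := by omega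
            have e2 : k + 1 + j - (k + 1) = j := by omega
            rw [e1, e2]; ring
          have e' : k * (R * P.b) + R * P.b = (k + 1) * (R * P.b) := by ring
          rw [e, stageX_cat_add, e'])
        (SU _ _ _ _)
      rw [Sset, hR, he1, he2, he3, stageX_rows_add, stageX_cat_shift] at hx
      have a1 : R + k * R = (k + 1) * R := by ring
      have a2 : dB ++ bits (cat blk 0 (k * (R * P.b))) ++ bits (cat blk (k * (R * P.b)) (R * P.b))
          = dB ++ (bits (cat blk 0 ((k + 1) * (R * P.b))) : List Γ) := by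
        have e : (k + 1) * (R * P.b) = k * (R * P.b) + R * P.b := by ring
        rw [e, stageX_cat_add, stageX_bits_append, List.append_assoc, Nat.zero_add]
      have a3 : dU ++ bits (xOut P e1 e2 e3 blk p R k)
            ++ bits (xGroupOut P e1 e2 e3 (fun n => blk (k * (R * P.b) + n))
              (p.rows P.N P.b e1 e2 e3 (k * R)) R)
          = dU ++ (bits (xOut P e1 e2 e3 blk p R (k + 1)) : List Γ) := by
        unfold xOut
        rw [stageX_cat_succ, stageX_bits_append, List.append_assoc, Nat.zero_add]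
      rw [a1, a2, a3] at hx
      exact hx)
  simp only [SG] at h
  have b0 : stageXSt P s tG (p.rows P.N P.b e1 e2 e3 (0 * R))
      (Z (dB ++ bits (cat blk 0 (0 * (R * P.b))))
        (bits (cat blk (0 * (R * P.b)) ((G - 0) * (R * P.b))) ++ tB))
      (Z (dU ++ bits (xOut P e1 e2 e3 blk p R 0)) []) (Z [] (un G)) = s := by
    conv_rhs => rw [Sini]
    rw [hB, hU]
    have c1 : p.rows P.N P.b e1 e2 e3 (0 * R) = p := by
      rw [Nat.zero_mul]; rfl
    have c2 : xOut P e1 e2 e3 blk p R 0 = [] := by
      unfold xOut; rw [stageX_cat_zero]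
    rw [c1, c2, Nat.zero_mul, stageX_cat_zero, Nat.sub_zero]
    simp [bits]
  have b1 : stageXSt P s tG (p.rows P.N P.b e1 e2 e3 (G * R))
      (Z (dB ++ bits (cat blk 0 (G * (R * P.b))))
        (bits (cat blk (G * (R * P.b)) ((G - G) * (R * P.b))) ++ tB))
      (Z (dU ++ bits (xOut P e1 e2 e3 blk p R G)) []) (Z [] (un G))
      = setPh P (p.rows P.N P.b e1 e2 e3 (G * R))
        (Function.update
          (Function.update s Own.Bk (Z (dB ++ bits (cat blk 0 (G * (R * P.b)))) tB)) Own.U
          (Z (dU ++ bits (xOut P e1 e2 e3 blk p R G)) [])) := by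
    rw [Sfin, Nat.sub_self, Nat.zero_mul, stageX_cat_zero]
    simp [bits]
  rw [b0, b1] at h
  exact h

end Vale.Agent.P338.TM
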