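import Vale.Agent.P338.TM.SpecRewind

namespace Vale.Agent.P338.TM

open Vale.Agent.P338

variable {ι Γ : Type} [TapeAlpha Γ] [DecidableEq ι]

/-- Moving the head of `p` right over a scanned symbol `y`. -/
theorem mv_right_update (p : ι) (s : St ι Γ) (d : List Γ) (y : Γ) (r : List Γ) :
    (mv p Move.right).SRuns (Function.update s p (Z d (y :: r))) 1
      (Function.update s p (Z (d ++ [y]) r)) true := by
  have h := prim_sruns (fun a : ι → Γ => Instr.nil.set p (a p) Move.right)
    (Function.update s p (Z d (y :: r)))
  simp only [Instr.sapp_set, Instr.sapp_nil, sreads_apply, Function.update_self, Z_read_cons,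
    Z_act_right, List.tail_cons, Function.update_idem] at h
  exact h

/-- Loop rule for `sweep`. `F k` is the state before round `k` (its value at `p` is irrelevant);
`τ k` bounds the time of round `k` of the body. -/
theorem sweep_fun (p : ι) (cond : Γ → Bool) (body : Prog ι Γ) (d u t : List Γ)
    (hu : ∀ y ∈ u, cond y = true) (ht : cond (t.headD blank) = false)
    (F : ℕ → St ι Γ) (τ : ℕ → ℕ)
    (hbody : ∀ k, k < u.length → ∃ b,
      body.SRuns (Function.update (F k) p (Z (d ++ u.take k) (u.drop k ++ t))) (τ k)
        (Function.update (F (k + 1)) p (Z (d ++ u.take k) (u.drop k ++ t))) b) :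
    (sweep p cond body).SRuns (Function.update (F 0) p (Z d (u ++ t)))
      ((∑ k ∈ Finset.range u.length, (τ k + 5)) + 2)
      (Function.update (F u.length) p (Z (d ++ u) t)) true := by
  induction u generalizing d F τ with
  | nil =>
    have h1 := test_sruns (fun a : ι → Γ => cond (a p)) (Function.update (F 0) p (Z d t))
    have hr : cond (sreads (Function.update (F 0) p (Z d t)) p) = false := by
      rw [sreads_apply, Function.update_self]
      exact ht
    simp only [hr] at h1
    have h2 := while_sfalse (R := seq body (mv p Move.right)) h1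
    simpa [sweep] using h2
  | cons y u ih =>
    have h1 := test_sruns (fun a : ι → Γ => cond (a p))
      (Function.update (F 0) p (Z d (y :: u ++ t)))
    have hr : cond (sreads (Function.update (F 0) p (Z d (y :: u ++ t))) p) = true := by
      rw [sreads_apply, Function.update_self]
      exact hu y (by simp)
    simp only [hr] at h1
    obtain ⟨b, hb⟩ := hbody 0 (by simp)
    simp only [List.take_zero, List.append_nil, List.drop_zero, zero_add] at hb
    have h2 := seq_sruns hb (mv_right_update p (F 1) d y (u ++ t))
    have h3 := ih (d ++ [y]) (fun z hz => hu z (by simp [hz])) (fun k => F (k + 1))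
      (fun k => τ (k + 1)) (by
        intro k hk
        obtain ⟨b', hb'⟩ := hbody (k + 1) (by simpa using hk)
        refine ⟨b', ?_⟩
        simpa using hb')
    have h4 := while_strue h1 h2 h3
    have hlen : (y :: u).length = u.length + 1 := rfl
    rw [hlen, Finset.sum_range_succ']
    have he : d ++ [y] ++ u = d ++ y :: u := by simp
    rw [he] at h4
    refine Prog.SRuns.mono h4 ?_
    omega

theorem lend_notMem_un (c : ℕ) : (lend : Γ) ∉ (un c : List Γ) := by
  intro h
  have := List.eq_of_mem_replicate h
  exact TapeAlpha.bit_ne_lend true this.symm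

/-- Loop rule for `forU`, round-dependent time. -/
theorem forU_fun' (p : ι) (body : Prog ι Γ) (c : ℕ) (F : ℕ → St ι Γ) (τ : ℕ → ℕ)
    (hbody : ∀ k, k < c → ∃ b,
      body.SRuns (Function.update (F k) p (Z (un k) (un (c - k)))) (τ k)
        (Function.update (F (k + 1)) p (Z (un k) (un (c - k)))) b) :
    (forU p body).SRuns (Function.update (F 0) p (Z [] (un c)))
      ((∑ k ∈ Finset.range c, (τ k + 6)) + 6)
      (Function.update (F c) p (Z [] (un c))) true := by
  have hlen : (un c : List Γ).length = c := by simp [un]
  have h1 := sweep_fun p (fun y => @decide (y = bit true) (Classical.propDecidable _)) body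
    [] (un c) []
    (by
      intro y hy
      have := List.eq_of_mem_replicate hy
      simp [this])
    (by
      have : (blank : Γ) ≠ bit true := fun h => TapeAlpha.bit_ne_blank true h.symm
      simp [this])
    F τ
    (by
      intro k hk
      rw [hlen] at hk
      obtain ⟨b, hb⟩ := hbody k hk
      refine ⟨b, ?_⟩
      have e1 : (un c : List Γ).take k = un k := by
        simp [un, List.take_replicate, Nat.min_eq_left hk.le]
      have e2 : (un c : List Γ).drop k = un (c - k) := by
        simp [un, List.drop_replicate]
      rw [e1, e2]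
      simpa using hb)
  rw [hlen] at h1
  simp only [List.append_nil, List.nil_append] at h1
  have h2 := rewind_spec p (Function.update (F c) p (Z (un c) [])) (un c) []
    (by rw [Function.update_self]) (lend_notMem_un c) (by simp)
  rw [hlen] at h2
  simp only [List.append_nil, Function.update_idem] at h2
  have h3 := seq_sruns h1 h2
  refine Prog.SRuns.mono h3 ?_
  have hs : ∑ k ∈ Finset.range c, (τ k + 6) = (∑ k ∈ Finset.range c, (τ k + 5)) + c := by
    have : ∀ k ∈ Finset.range c, τ k + 6 = (τ k + 5) + 1 := fun _ _ => rfl
    rw [Finset.sum_congr rfl this, Finset.sum_add_distrib]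
    simp
  omega

/-- Loop rule for `forU`, uniform time. -/
theorem forU_fun (p : ι) (body : Prog ι Γ) (c τ : ℕ) (F : ℕ → St ι Γ)
    (hbody : ∀ k, k < c → ∃ b,
      body.SRuns (Function.update (F k) p (Z (un k) (un (c - k)))) τ
        (Function.update (F (k + 1)) p (Z (un k) (un (c - k)))) b) :
    (forU p body).SRuns (Function.update (F 0) p (Z [] (un c))) (c * (τ + 6) + 6)
      (Function.update (F c) p (Z [] (un c))) true := by
  have h := forU_fun' p body c F (fun _ => τ) hbody
  simpa using h

/-- Rule for `rep`. -/
theorem rep_fun (P : Prog ι Γ) (n τ : ℕ) (F : ℕ → St ι Γ)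
    (h : ∀ k, k < n → ∃ b, P.SRuns (F k) τ (F (k + 1)) b) :
    (rep n P).SRuns (F 0) (n * (τ + 1)) (F n) true := by
  induction n generalizing F with
  | zero =>
    simpa [rep] using skip_sruns (F 0)
  | succ n ih =>
    obtain ⟨b, hb⟩ := h 0 (by omega)
    have h2 := ih (fun k => F (k + 1)) (fun k hk => h (k + 1) (by omega))
    have h3 := seq_sruns hb h2
    refine Prog.SRuns.mono h3 ?_
    have : (n + 1) * (τ + 1) = n * (τ + 1) + (τ + 1) := by ring
    omega

end Vale.Agent.P338.TM
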