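import Vale.Agent.P338.TM.SpecXRow

namespace Vale.Agent.P338.TM

open Vale.Agent.P338

variable {Γ : Type} [TapeAlpha Γ]

/-- A `forU` loop whose body only changes tape `x`. -/
theorem xg_forU_one (p x : Own) (hpx : p ≠ x) (body : Prog Own Γ) (c τ : ℕ) (s : St Own Γ)
    (hp : s p = Z [] (un c)) (G : ℕ → Zip Γ) (hx : s x = G 0)
    (hbody : ∀ k, k < c → ∀ z : Zip Γ,
      body.SRuns (Function.update (Function.update s x (G k)) p z) τ
        (Function.update (Function.update s x (G (k + 1))) p z) true) :
    (forU p body).SRuns s (c * (τ + 6) + 6) (Function.update s x (G c)) true := by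
  have h := forU_fun p body c τ (fun k => Function.update s x (G k))
    (fun k hk => ⟨true, hbody k hk _⟩)
  have e0 : Function.update (Function.update s x (G 0)) p (Z [] (un c)) = s := by
    rw [← hx, Function.update_eq_self, ← hp, Function.update_eq_self]
  have e1 : Function.update (Function.update s x (G c)) p (Z [] (un c))
      = Function.update s x (G c) := by
    have : (Function.update s x (G c)) p = Z [] (un c) := by
      rw [Function.update_of_ne hpx]; exact hp
    rw [← this, Function.update_eq_self]
  simp only [e0, e1] at h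
  exact h

/-- `b` zero slots. -/
theorem xg_zeroRow (P : Par) (s : St Own Γ) (hN : Need P s [Own.tb, Own.tm]) (d : List Γ)
    (hU : s Own.U = Z d []) :
    (forU Own.tb (zeroSlot Own.U) : Prog Own Γ).SRuns s (P.b * (cZeroSlot P + 6) + 6)
      (Function.update s Own.U (Z (d ++ bits (zs (P.b * P.w))) [])) true := by
  have hb : s Own.tb = Z [] (un P.b) := (hN Own.tb (by simp)).1 rfl
  refine xg_forU_one Own.tb Own.U (by decide) _ P.b (cZeroSlot P) s hb
    (fun k => Z (d ++ bits (zs (k * P.w))) []) (by simp [hU, bits, zs]) ?_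
  intro k _ z
  have h1 := zeroSlot_spec P Own.U (by decide)
    (Function.update (Function.update s Own.U (Z (d ++ bits (zs (k * P.w))) [])) Own.tb z)
    (by
      apply Need.update _ (by simp)
      apply Need.update _ (by simp)
      exact hN.mono (by simp))
    (d ++ bits (zs (k * P.w)))
    (by rw [Function.update_of_ne (by decide), Function.update_self])
  rw [upd_swap_collapse s Own.U Own.tb (by decide), List.append_assoc, ← bits_zs_add] at h1
  have e : (k + 1) * P.w = k * P.w + P.w := by ring
  simp only [e]
  exact h1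

/-- `R * b` zero slots. -/
theorem zeroSlots_spec (P : Par) (tR : Own) (htR : tR = Own.ta ∨ tR = Own.t1) (s : St Own Γ)
    (hN : Need P s [tR, Own.tb, Own.tm]) (d : List Γ) (hU : s Own.U = Z d []) :
    (forU tR (forU Own.tb (zeroSlot Own.U)) : Prog Own Γ).SRuns s
      (P.uval tR * ((P.b * (cZeroSlot P + 6) + 6) + 6) + 6)
      (Function.update s Own.U (Z (d ++ bits (zs (P.uval tR * (P.b * P.w)))) [])) true := by
  have hun : tR.isUn = true := by rcases htR with rfl | rfl <;> rfl
  have hR : s tR = Z [] (un (P.uval tR)) := (hN tR (by simp)).1 hun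
  have hne : tR ≠ Own.U := by rcases htR with rfl | rfl <;> decide
  have hne1 : tR ∉ [Own.tb, Own.tm] := by rcases htR with rfl | rfl <;> decide
  refine xg_forU_one tR Own.U hne _ (P.uval tR) _ s hR
    (fun k => Z (d ++ bits (zs (k * (P.b * P.w)))) []) (by simp [hU, bits, zs]) ?_
  intro k _ z
  have h1 := xg_zeroRow P
    (Function.update (Function.update s Own.U (Z (d ++ bits (zs (k * (P.b * P.w)))) [])) tR z)
    (by
      apply Need.update _ hne1
      apply Need.update _ (by simp)
      exact hN.mono (by simp))
    (d ++ bits (zs (k * (P.b * P.w))))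
    (by rw [Function.update_of_ne hne.symm, Function.update_self])
  rw [upd_swap_collapse s Own.U tR hne.symm, List.append_assoc, ← bits_zs_add] at h1
  have e : (k + 1) * (P.b * P.w) = k * (P.b * P.w) + P.b * P.w := by ring
  simp only [e]
  exact h1

theorem xg_cat_add (f : ℕ → List Bool) (i k l : ℕ) :
    cat f i (k + l) = cat f i k ++ cat f (i + k) l := by
  induction l with
  | zero => simp [cat]
  | succ l ih =>
    have h1 : ∀ (j n : ℕ), cat f j (n + 1) = cat f j n ++ f (j + n) := by
      intro j n
      simp [cat, List.range_succ, List.flatMap_append]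
    rw [← Nat.add_assoc, h1, ih, h1, List.append_assoc, Nat.add_assoc]

theorem xg_cat_shift (f : ℕ → List Bool) (i k : ℕ) :
    cat f i k = cat (fun j => f (i + j)) 0 k := by
  simp [cat]

theorem xg_bits_append (l1 l2 : List Bool) :
    (bits (l1 ++ l2) : List Γ) = bits l1 ++ bits l2 := by
  simp [bits]

omit [TapeAlpha Γ] in
theorem xg_update_comm (s : St Own Γ) {x y : Own} (h : x ≠ y) (A B : Zip Γ) :
    Function.update (Function.update s x A) y B = Function.update (Function.update s y B) x A :=
  (Function.update_comm h A B s).symm ▸ rfl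

theorem xg_setPh_update (P : Par) (q : Ph) (s : St Own Γ) (y : Own) (h1 : y ≠ Own.rS)
    (h2 : y ≠ Own.rD) (h3 : y ≠ Own.rF) (z : Zip Γ) :
    setPh P q (Function.update s y z) = Function.update (setPh P q s) y z := by
  unfold setPh
  rw [Function.update_comm h1, Function.update_comm h2, Function.update_comm h3]

theorem xg_setPh_setPh (P : Par) (q q' : Ph) (s : St Own Γ) :
    setPh P q (setPh P q' s) = setPh P q s := by
  funext i
  simp only [setPh, Function.update_apply]
  split_ifs <;> rfl

theorem xg_setPh_apply (P : Par) (q : Ph) (s : St Own Γ) (y : Own) (h1 : y ≠ Own.rS)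
    (h2 : y ≠ Own.rD) (h3 : y ≠ Own.rF) : setPh P q s y = s y := by
  unfold setPh
  rw [Function.update_of_ne h3, Function.update_of_ne h2, Function.update_of_ne h1]

theorem xg_hasPh_setPh (P : Par) (q : Ph) (s : St Own Γ) : HasPh P q (setPh P q s) := by
  refine ⟨?_, ?_, ?_⟩ <;> simp [setPh]

theorem xg_need_setPh (P : Par) (q : Ph) (s : St Own Γ) (l : List Own) (h : Need P s l)
    (h1 : Own.rS ∉ l) (h2 : Own.rD ∉ l) (h3 : Own.rF ∉ l) : Need P (setPh P q s) l := by
  unfold setPh
  exact ((h.update h1 _).update h2 _).update h3 _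

theorem xg_setPh_self (P : Par) (q : Ph) (s : St Own Γ) (h : HasPh P q s) : setPh P q s = s := by
  obtain ⟨h1, h2, h3⟩ := h
  unfold setPh
  rw [← h1, Function.update_eq_self, ← h2, Function.update_eq_self, ← h3,
    Function.update_eq_self]

omit [TapeAlpha Γ] in
theorem xg_upd5 (s : St Own Γ) (x y r : Own) (_hxy : x ≠ y) (hxr : x ≠ r) (hyr : y ≠ r)
    (A A' B B' C : Zip Γ) :
    Function.update (Function.update (Function.update (Function.update (Function.update s x A)
      y B) r C) x A') y B'
      = Function.update (Function.update (Function.update s x A') y B') r C := by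
  funext i
  simp only [Function.update_apply]
  split_ifs <;> simp_all

theorem xg_rows_succ (N b E1 E2 E3 : ℕ) (p : Ph) (k : ℕ) :
    p.rows N b E1 E2 E3 (k + 1) = ((p.rows N b E1 E2 E3 k).blks N E1 b).row N E2 E3 := by
  unfold Ph.rows
  rw [Function.iterate_succ_apply']

theorem xg_xRowsOut_succ (P : Par) (E1 E2 E3 : ℕ) (blk : ℕ → List Bool) (p : Ph) (k : ℕ) :
    xRowsOut P E1 E2 E3 blk p (k + 1) = xRowsOut P E1 E2 E3 blk p k ++
      xRowOut P E1 (fun j => blk (k * P.b + j)) (p.rows P.N P.b E1 E2 E3 k) P.b := by
  unfold xRowsOut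
  rw [xg_cat_add]
  simp [cat]

/-- One group of the first operand. -/
theorem xGroup_spec (P : Par) (hV : P.Valid) (tR E1 E2 E3 : Own)
    (htR : tR = Own.ta ∨ tR = Own.t1) (hE1 : E1.isConst = true)
    (hE2 : E2.isConst = true) (hE3 : E3.isConst = true) (s : St Own Γ)
    (hN : Need P s [tR, Own.tb, Own.tg, Own.tm, E1, E2, E3]) (p : Ph) (hp : p.lt P.N)
    (hph : HasPh P p s)
    (dB tB dU : List Γ) (blk : ℕ → List Bool) (hblk : ∀ j, (blk j).length = 2 * P.m + 2)
    (hB : s Own.Bk = Z dB (bits (cat blk 0 (P.uval tR * P.b)) ++ tB)) (hU : s Own.U = Z dU []) :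
    (xGroupP tR E1 E2 E3 : Prog Own Γ).SRuns s (cXGroup P (P.uval tR))
      (setPh P (p.rows P.N P.b (P.cval E1) (P.cval E2) (P.cval E3) (P.uval tR))
        (Function.update
          (Function.update s Own.Bk (Z (dB ++ bits (cat blk 0 (P.uval tR * P.b))) tB)) Own.U
          (Z (dU ++ bits (xGroupOut P (P.cval E1) (P.cval E2) (P.cval E3) blk p (P.uval tR))) [])))
      true := by
  have hun : tR.isUn = true := by rcases htR with rfl | rfl <;> rfl
  have hR : s tR = Z [] (un (P.uval tR)) := (hN tR (by simp)).1 hun
  have hNpos : 0 < P.N := by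
    have h1 := hV.a2
    have h2 := hV.b2
    unfold Par.N
    positivity
  have hRU : tR ≠ Own.U := by rcases htR with rfl | rfl <;> decide
  have hRB : tR ≠ Own.Bk := by rcases htR with rfl | rfl <;> decide
  have hRS : tR ≠ Own.rS := by rcases htR with rfl | rfl <;> decide
  have hRD : tR ≠ Own.rD := by rcases htR with rfl | rfl <;> decide
  have hRF : tR ≠ Own.rF := by rcases htR with rfl | rfl <;> decide
  have hcn : ∀ E : Own, E.isConst = true →
      E ≠ tR ∧ E ≠ Own.U ∧ E ≠ Own.Bk ∧ E ≠ Own.rS ∧ E ≠ Own.rD ∧ E ≠ Own.rF := by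
    intro E hE
    rcases htR with rfl | rfl <;> cases E <;> simp_all [Own.isConst]
  obtain ⟨a1, a2, a3, a4, a5, a6⟩ := hcn E1 hE1
  obtain ⟨b1, b2, b3, b4, b5, b6⟩ := hcn E2 hE2
  obtain ⟨c1, c2, c3, c4, c5, c6⟩ := hcn E3 hE3
  have hRtb : tR ≠ Own.tb := by rcases htR with rfl | rfl <;> decide
  have hRtg : tR ≠ Own.tg := by rcases htR with rfl | rfl <;> decide
  have hRtm : tR ≠ Own.tm := by rcases htR with rfl | rfl <;> decide
  set R := P.uval tR with hRdef
  set e1 := P.cval E1 with he1
  set e2 := P.cval E2 with he2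
  set e3 := P.cval E3 with he3
  -- the rows
  let Bz : ℕ → Zip Γ := fun k =>
    Z (dB ++ bits (cat blk 0 (k * P.b))) (bits (cat blk (k * P.b) ((R - k) * P.b)) ++ tB)
  let Uz : ℕ → Zip Γ := fun k => Z (dU ++ bits (xRowsOut P e1 e2 e3 blk p k)) []
  let F : ℕ → St Own Γ := fun k => setPh P (p.rows P.N P.b e1 e2 e3 k)
    (Function.update (Function.update s Own.Bk (Bz k)) Own.U (Uz k))
  have hrows := forU_fun tR (xRowP E1 E2 E3 : Prog Own Γ) R (cXRow P) F (by
    intro k hk
    refine ⟨true, ?_⟩
    set zk : Zip Γ := Z (un k) (un (R - k)) with hzk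
    set q := p.rows P.N P.b e1 e2 e3 k with hq
    have hσ : Function.update (F k) tR zk = setPh P q (Function.update
        (Function.update (Function.update s Own.Bk (Bz k)) Own.U (Uz k)) tR zk) := by
      rw [xg_setPh_update P q _ tR hRS hRD hRF]
    have hsplit : (R - k) * P.b = P.b + (R - (k + 1)) * P.b := by
      obtain ⟨r, hr⟩ : ∃ r, R = k + 1 + r := ⟨R - (k + 1), by omega⟩
      have h1 : R - k = 1 + r := by omega
      have h2 : R - (k + 1) = r := by omega
      rw [h1, h2]; ring
    have h1 := xRow_spec P hV E1 E2 E3 hE1 hE2 hE3 (Function.update (F k) tR zk)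
      (by
        rw [hσ]
        apply xg_need_setPh
        · apply Need.update _ (by simp [hRtb, hRtg, hRtm, a1.symm, b1.symm, c1.symm])
          apply Need.update _ (by simp [a2.symm, b2.symm, c2.symm])
          apply Need.update _ (by simp [a3.symm, b3.symm, c3.symm])
          exact hN.mono (by simp)
        · simp [a4.symm, b4.symm, c4.symm]
        · simp [a5.symm, b5.symm, c5.symm]
        · simp [a6.symm, b6.symm, c6.symm])
      q (Ph.rows_lt hNpos hp k)
      (by rw [hσ]; exact xg_hasPh_setPh P q _)
      (dB ++ bits (cat blk 0 (k * P.b)))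
      (bits (cat blk ((k + 1) * P.b) ((R - (k + 1)) * P.b)) ++ tB)
      (dU ++ bits (xRowsOut P e1 e2 e3 blk p k))
      (fun j => blk (k * P.b + j)) (fun j => hblk _)
      (by
        rw [hσ, xg_setPh_apply P q _ Own.Bk (by decide) (by decide) (by decide),
          Function.update_of_ne hRB.symm, Function.update_of_ne (by decide),
          Function.update_self]
        show Z _ _ = _
        rw [hsplit, xg_cat_add, xg_bits_append, List.append_assoc,
          ← xg_cat_shift blk (k * P.b) P.b]
        have : k * P.b + P.b = (k + 1) * P.b := by ring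
        rw [this])
      (by
        rw [hσ, xg_setPh_apply P q _ Own.U (by decide) (by decide) (by decide),
          Function.update_of_ne hRU.symm, Function.update_self])
    have hfin : setPh P ((q.blks P.N e1 P.b).row P.N e2 e3)
        (Function.update (Function.update (Function.update (F k) tR zk) Own.Bk
          (Z (dB ++ bits (cat blk 0 (k * P.b)) ++ bits (cat (fun j => blk (k * P.b + j)) 0 P.b))
            (bits (cat blk ((k + 1) * P.b) ((R - (k + 1)) * P.b)) ++ tB))) Own.U
          (Z (dU ++ bits (xRowsOut P e1 e2 e3 blk p k) ++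
            bits (xRowOut P e1 (fun j => blk (k * P.b + j)) q P.b)) []))
        = Function.update (F (k + 1)) tR zk := by
      rw [hσ, ← xg_setPh_update P q _ Own.Bk (by decide) (by decide) (by decide),
        ← xg_setPh_update P q _ Own.U (by decide) (by decide) (by decide), xg_setPh_setPh,
        xg_upd5 s Own.Bk Own.U tR (by decide) hRB.symm hRU.symm,
        xg_setPh_update P _ _ tR hRS hRD hRF]
      show _ = Function.update (setPh P (p.rows P.N P.b e1 e2 e3 (k + 1))
        (Function.update (Function.update s Own.Bk (Bz (k + 1))) Own.U (Uz (k + 1)))) tR zk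
      have hB1 : Bz (k + 1) = Z (dB ++ bits (cat blk 0 (k * P.b)) ++
          bits (cat (fun j => blk (k * P.b + j)) 0 P.b))
            (bits (cat blk ((k + 1) * P.b) ((R - (k + 1)) * P.b)) ++ tB) := by
        show Z _ _ = _
        have : (k + 1) * P.b = k * P.b + P.b := by ring
        rw [List.append_assoc, ← xg_bits_append, ← xg_cat_shift blk (k * P.b) P.b]
        conv_lhs => rw [this, xg_cat_add, Nat.zero_add]
        rw [this]
      have hU1 : Uz (k + 1) = Z (dU ++ bits (xRowsOut P e1 e2 e3 blk p k) ++
            bits (xRowOut P e1 (fun j => blk (k * P.b + j)) q P.b)) [] := by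
        show Z _ _ = _
        rw [xg_xRowsOut_succ, xg_bits_append, List.append_assoc]
      rw [hB1, hU1, xg_rows_succ]
    rw [hfin] at h1
    exact h1)
  have hF0 : Function.update (F 0) tR (Z [] (un R)) = s := by
    have hB0 : Bz 0 = s Own.Bk := by
      show Z _ _ = _
      rw [hB]
      simp [cat, bits]
    have hU0 : Uz 0 = s Own.U := by
      show Z _ _ = _
      rw [hU]
      simp [xRowsOut, cat, bits]
    show Function.update (setPh P (p.rows P.N P.b e1 e2 e3 0)
      (Function.update (Function.update s Own.Bk (Bz 0)) Own.U (Uz 0))) tR (Z [] (un R)) = s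
    rw [hB0, hU0, Function.update_eq_self, Function.update_eq_self]
    have : p.rows P.N P.b e1 e2 e3 0 = p := rfl
    rw [this, xg_setPh_self P p s hph, ← hR, Function.update_eq_self]
  have hFRt : F R tR = Z [] (un R) := by
    show setPh P _ _ tR = _
    rw [xg_setPh_apply P _ _ tR hRS hRD hRF, Function.update_of_ne hRU,
      Function.update_of_ne hRB, hR]
  have hFR : Function.update (F R) tR (Z [] (un R)) = F R := by
    rw [← hFRt, Function.update_eq_self]
  rw [hF0, hFR] at hrows
  -- the zero slots
  have hNF : Need P (F R) [tR, Own.tb, Own.tm] := by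
    apply xg_need_setPh
    · apply Need.update _ (by simp [hRU.symm])
      apply Need.update _ (by simp [hRB.symm])
      exact hN.mono (by simp)
    · simp [hRS.symm]
    · simp [hRD.symm]
    · simp [hRF.symm]
  have hzero := rep_fun (forU tR (forU Own.tb (zeroSlot Own.U)) : Prog Own Γ) 3
    (R * ((P.b * (cZeroSlot P + 6) + 6) + 6) + 6)
    (fun j => Function.update (F R) Own.U
      (Z (dU ++ bits (xRowsOut P e1 e2 e3 blk p R) ++ bits (zs (j * (R * (P.b * P.w))))) []))
    (by
      intro j _
      refine ⟨true, ?_⟩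
      have h1 := zeroSlots_spec P tR htR (Function.update (F R) Own.U
        (Z (dU ++ bits (xRowsOut P e1 e2 e3 blk p R) ++ bits (zs (j * (R * (P.b * P.w))))) []))
        (hNF.update (by simp [hRU.symm]) _)
        (dU ++ bits (xRowsOut P e1 e2 e3 blk p R) ++ bits (zs (j * (R * (P.b * P.w)))))
        (Function.update_self _ _ _)
      rw [Function.update_idem, List.append_assoc _ (bits (zs (j * (R * (P.b * P.w))))),
        ← bits_zs_add] at h1
      have e : (j + 1) * (R * (P.b * P.w)) = j * (R * (P.b * P.w)) + R * (P.b * P.w) := by ring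
      simp only [e]
      exact h1)
  have hz0 : Function.update (F R) Own.U
      (Z (dU ++ bits (xRowsOut P e1 e2 e3 blk p R) ++ bits (zs (0 * (R * (P.b * P.w))))) [])
      = F R := by
    have : F R Own.U = Z (dU ++ bits (xRowsOut P e1 e2 e3 blk p R) ++
        bits (zs (0 * (R * (P.b * P.w))))) [] := by
      show setPh P _ _ Own.U = _
      rw [xg_setPh_apply P _ _ Own.U (by decide) (by decide) (by decide), Function.update_self]
      show Z _ _ = _
      simp [bits, zs]
    rw [← this, Function.update_eq_self]
  simp only [hz0] at hzero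
  have hall := seq_sruns hrows hzero
  have hend : Function.update (F R) Own.U
      (Z (dU ++ bits (xRowsOut P e1 e2 e3 blk p R) ++ bits (zs (3 * (R * (P.b * P.w))))) [])
      = setPh P (p.rows P.N P.b e1 e2 e3 R)
        (Function.update
          (Function.update s Own.Bk (Z (dB ++ bits (cat blk 0 (R * P.b))) tB)) Own.U
          (Z (dU ++ bits (xGroupOut P e1 e2 e3 blk p R)) [])) := by
    show Function.update (setPh P _ (Function.update (Function.update s Own.Bk (Bz R)) Own.U
      (Uz R))) Own.U _ = _
    rw [← xg_setPh_update P _ _ Own.U (by decide) (by decide) (by decide), Function.update_idem]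
    have hBR : Bz R = Z (dB ++ bits (cat blk 0 (R * P.b))) tB := by
      show Z _ _ = _
      simp [cat, bits]
    rw [hBR, List.append_assoc, ← xg_bits_append]
    rfl
  rw [hend] at hall
  refine Prog.SRuns.mono hall ?_
  unfold cXGroup
  omega

end Vale.Agent.P338.TM
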