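import Vale.Agent.P338.TM.SpecXBlock

namespace Vale.Agent.P338.TM

open Vale.Agent.P338

variable {Γ : Type} [TapeAlpha Γ]

theorem Ph.blks_succ_xrow (N E1 : ℕ) (p : Ph) (k : ℕ) :
    p.blks N E1 (k + 1) = (p.blks N E1 k).blk N E1 := by
  unfold Ph.blks
  rw [Function.iterate_succ_apply']

theorem Ph.blks_lt {N E1 : ℕ} (hN : 0 < N) {p : Ph} (hp : p.lt N) (k : ℕ) :
    (p.blks N E1 k).lt N := by
  induction k with
  | zero => exact hp
  | succ k ih =>
    rw [Ph.blks_succ_xrow]
    exact ⟨Nat.mod_lt _ hN, Nat.mod_lt _ hN, ih.2.2⟩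

theorem Ph.rows_lt {N b E1 E2 E3 : ℕ} (hN : 0 < N) {p : Ph} (hp : p.lt N) (r : ℕ) :
    (p.rows N b E1 E2 E3 r).lt N := by
  cases r with
  | zero => exact hp
  | succ r =>
    unfold Ph.rows
    rw [Function.iterate_succ_apply']
    exact ⟨Nat.mod_lt _ hN, Nat.mod_lt _ hN, Nat.mod_lt _ hN⟩

theorem xrow_cat_zero (f : ℕ → List Bool) (i : ℕ) : cat f i 0 = [] := by
  simp [cat]

theorem xrow_cat_succ (f : ℕ → List Bool) (i k : ℕ) :
    cat f i (k + 1) = cat f i k ++ f (i + k) := by
  simp [cat, List.range_succ, List.flatMap_append]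

theorem xrow_cat_succ' (f : ℕ → List Bool) (i k : ℕ) :
    cat f i (k + 1) = f i ++ cat f (i + 1) k := by
  simp only [cat, List.range_succ_eq_map, List.flatMap_cons, List.flatMap_map, Nat.add_zero]
  congr 2
  funext j
  congr 1
  omega

theorem xrow_bits_append (u v : List Bool) : (bits (u ++ v) : List Γ) = bits u ++ bits v := by
  simp [bits]

theorem xrow_const_ne {E : Own} (h : E.isConst = true) :
    E ≠ Own.rS ∧ E ≠ Own.rD ∧ E ≠ Own.rF ∧ E ≠ Own.Bk ∧ E ≠ Own.U ∧ E ≠ Own.tb := by
  cases E <;> simp_all [Own.isConst]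

theorem xrow_good_setPh {P : Par} {s : St Own Γ} {x : Own} (q : Ph) (h : Good P s x)
    (h1 : x ≠ Own.rS) (h2 : x ≠ Own.rD) (h3 : x ≠ Own.rF) : Good P (setPh P q s) x :=
  ((h.update_ne h1 _).update_ne h2 _).update_ne h3 _

/-- The state after `k` blocks of the row. -/
def xrowF (P : Par) (e1 : ℕ) (s : St Own Γ) (p : Ph) (dB tB dU : List Γ) (blk : ℕ → List Bool)
    (k : ℕ) : St Own Γ :=
  setPh P (p.blks P.N e1 k)
    (Function.update (Function.update s Own.Bk
      (Z (dB ++ bits (cat blk 0 k)) (bits (cat blk k (P.b - k)) ++ tB))) Own.U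
      (Z (dU ++ bits (xRowOut P e1 blk p k)) []))

/-- One row of the first operand and the register updates after it. -/
theorem xRow_spec (P : Par) (hV : P.Valid) (E1 E2 E3 : Own) (hE1 : E1.isConst = true)
    (hE2 : E2.isConst = true) (hE3 : E3.isConst = true) (s : St Own Γ)
    (hN : Need P s [Own.tb, Own.tg, Own.tm, E1, E2, E3]) (p : Ph) (hp : p.lt P.N)
    (hph : HasPh P p s)
    (dB tB dU : List Γ) (blk : ℕ → List Bool) (hblk : ∀ j, (blk j).length = 2 * P.m + 2)
    (hB : s Own.Bk = Z dB (bits (cat blk 0 P.b) ++ tB)) (hU : s Own.U = Z dU []) :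
    (xRowP E1 E2 E3 : Prog Own Γ).SRuns s (cXRow P)
      (setPh P ((p.blks P.N (P.cval E1) P.b).row P.N (P.cval E2) (P.cval E3))
        (Function.update (Function.update s Own.Bk (Z (dB ++ bits (cat blk 0 P.b)) tB)) Own.U
          (Z (dU ++ bits (xRowOut P (P.cval E1) blk p P.b)) []))) true := by
  have hNpos : 0 < P.N := lt_of_le_of_lt (Nat.zero_le _) hp.1
  have htb : s Own.tb = Z [] (un P.b) := (hN Own.tb (by simp)).1 rfl
  obtain ⟨a1, a2, a3, a4, a5, a6⟩ := xrow_const_ne hE1
  obtain ⟨b1, b2, b3, b4, b5, b6⟩ := xrow_const_ne hE2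
  obtain ⟨c1, c2, c3, c4, c5, c6⟩ := xrow_const_ne hE3
  have hsE2 : s E2 = Z [] (oh P.N (P.cval E2)) := (hN E2 (by simp)).2 hE2
  have hsE3 : s E3 = Z [] (oh P.N (P.cval E3)) := (hN E3 (by simp)).2 hE3
  -- the loop
  have h1 := forU_fun Own.tb (xBlock E1 : Prog Own Γ) P.b (cXBlock P)
    (xrowF P (P.cval E1) s p dB tB dU blk) (by
      intro k hk
      refine ⟨true, ?_⟩
      obtain ⟨M, hM⟩ : ∃ M, P.b = M + 1 + k := ⟨P.b - 1 - k, by omega⟩
      have m1 : P.b - k = M + 1 := by omega
      have m2 : P.b - (k + 1) = M := by omega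
      have h3 := xBlock_spec P hV E1 hE1
        (Function.update (xrowF P (P.cval E1) s p dB tB dU blk k) Own.tb
          (Z (un k) (un (P.b - k))))
        (by
          intro x hx
          have hx' : x = Own.tg ∨ x = Own.tm ∨ x = E1 := by simpa using hx
          have hg : Good P s x := hN x (by
            rcases hx' with h | h | h <;> simp [h])
          have hne : x ≠ Own.rS ∧ x ≠ Own.rD ∧ x ≠ Own.rF ∧ x ≠ Own.Bk ∧ x ≠ Own.U ∧
              x ≠ Own.tb := by
            rcases hx' with h | h | h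
            · subst h; simp
            · subst h; simp
            · subst h; exact ⟨a1, a2, a3, a4, a5, a6⟩
          obtain ⟨n1, n2, n3, n4, n5, n6⟩ := hne
          exact (xrow_good_setPh _ ((hg.update_ne n4 _).update_ne n5 _) n1 n2 n3).update_ne n6 _)
        (p.blks P.N (P.cval E1) k) (Ph.blks_lt hNpos hp k)
        (by
          refine ⟨?_, ?_, ?_⟩ <;> simp [xrowF, setPh])
        (dB ++ bits (cat blk 0 k)) (bits (cat blk (k + 1) M) ++ tB)
        (dU ++ bits (xRowOut P (P.cval E1) blk p k)) (blk k) (hblk k)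
        (by
          simp only [xrowF, setPh, ne_eq, reduceCtorEq, not_false_eq_true, Function.update_of_ne,
            Function.update_self]
          rw [m1, xrow_cat_succ', xrow_bits_append, List.append_assoc])
        (by
          simp only [xrowF, setPh, ne_eq, reduceCtorEq, not_false_eq_true, Function.update_of_ne,
            Function.update_self])
      refine Eq.subst (motive := fun t => (xBlock E1 : Prog Own Γ).SRuns _ _ t true) ?_ h3
      have x1 : xRowOut P (P.cval E1) blk p (k + 1) = xRowOut P (P.cval E1) blk p k ++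
          slotX P (p.blks P.N (P.cval E1) k).S (blk k) := by
        unfold xRowOut
        rw [xrow_cat_succ, Nat.zero_add]
      unfold xrowF
      rw [m2, x1, xrow_cat_succ blk 0 k, Nat.zero_add, Ph.blks_succ_xrow, xrow_bits_append,
        xrow_bits_append]
      funext i
      by_cases i1 : i = Own.tb
      · subst i1; simp [setPh]
      by_cases i2 : i = Own.rF
      · subst i2; simp [setPh]
      by_cases i3 : i = Own.rD
      · subst i3; simp [setPh]
      by_cases i4 : i = Own.rS
      · subst i4; simp [setPh]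
      by_cases i5 : i = Own.U
      · subst i5; simp [setPh]
      by_cases i6 : i = Own.Bk
      · subst i6; simp [setPh]
      · simp [setPh, i1, i2, i3, i4, i5, i6])
  have e0 : Function.update (xrowF P (P.cval E1) s p dB tB dU blk 0) Own.tb (Z [] (un P.b))
      = s := by
    obtain ⟨q1, q2, q3⟩ := hph
    unfold xrowF xRowOut
    rw [xrow_cat_zero, xrow_cat_zero, Nat.sub_zero]
    funext i
    by_cases i1 : i = Own.tb
    · subst i1; simp [htb]
    by_cases i2 : i = Own.rF
    · subst i2; simp [setPh, q3, Ph.blks]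
    by_cases i3 : i = Own.rD
    · subst i3; simp [setPh, q2, Ph.blks]
    by_cases i4 : i = Own.rS
    · subst i4; simp [setPh, q1, Ph.blks]
    by_cases i5 : i = Own.U
    · subst i5; simp [setPh, hU, bits]
    by_cases i6 : i = Own.Bk
    · subst i6; simp [setPh, hB, bits]
    · simp [setPh, i1, i2, i3, i4, i5, i6]
  rw [e0] at h1
  set q : Ph := p.blks P.N (P.cval E1) P.b with hq
  have hqlt : q.lt P.N := Ph.blks_lt hNpos hp P.b
  set s1 : St Own Γ := Function.update (xrowF P (P.cval E1) s p dB tB dU blk P.b) Own.tb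
    (Z [] (un P.b)) with hs1
  have h2 := addReg_spec Own.rS Own.rF (by decide) s1 P.N q.S q.F hqlt.1 hqlt.2.2
    (by simp [hs1, xrowF, setPh, hq]) (by simp [hs1, xrowF, setPh, hq])
  have h3 := addReg_spec Own.rF E2 b3.symm
    (Function.update s1 Own.rS (Z [] (oh P.N ((q.S + q.F) % P.N)))) P.N q.F (P.cval E2)
    hqlt.2.2 (hV.cval_lt E2)
    (by simp [hs1, xrowF, setPh, hq])
    (by simp [hs1, xrowF, setPh, b1, b2, b3, b4, b5, b6, hsE2])
  have h4 := addReg_spec Own.rD E3 c2.symm
    (Function.update (Function.update s1 Own.rS (Z [] (oh P.N ((q.S + q.F) % P.N)))) Own.rF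
      (Z [] (oh P.N ((q.F + P.cval E2) % P.N)))) P.N q.D (P.cval E3)
    hqlt.2.1 (hV.cval_lt E3)
    (by simp [hs1, xrowF, setPh, hq])
    (by simp [hs1, xrowF, setPh, c1, c2, c3, c4, c5, c6, hsE3])
  have h5 := seq_sruns h1 (seq_sruns h2 (seq_sruns h3 h4))
  have e1 : Function.update (Function.update (Function.update s1 Own.rS
      (Z [] (oh P.N ((q.S + q.F) % P.N)))) Own.rF (Z [] (oh P.N ((q.F + P.cval E2) % P.N))))
      Own.rD (Z [] (oh P.N ((q.D + P.cval E3) % P.N)))
      = setPh P (q.row P.N (P.cval E2) (P.cval E3))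
        (Function.update (Function.update s Own.Bk (Z (dB ++ bits (cat blk 0 P.b)) tB)) Own.U
          (Z (dU ++ bits (xRowOut P (P.cval E1) blk p P.b)) [])) := by
    rw [hs1]
    unfold xrowF
    rw [Nat.sub_self, xrow_cat_zero]
    funext i
    by_cases i1 : i = Own.tb
    · subst i1; simp [setPh, htb]
    by_cases i2 : i = Own.rF
    · subst i2; simp [setPh, Ph.row]
    by_cases i3 : i = Own.rD
    · subst i3; simp [setPh, Ph.row]
    by_cases i4 : i = Own.rS
    · subst i4; simp [setPh, Ph.row]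
    by_cases i5 : i = Own.U
    · subst i5; simp [setPh]
    by_cases i6 : i = Own.Bk
    · subst i6; simp [setPh, bits]
    · simp [setPh, i1, i2, i3, i4, i5, i6]
  rw [e1] at h5
  refine Prog.SRuns.mono h5 ?_
  unfold cXRow
  omega

end Vale.Agent.P338.TM
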