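import Vale.Agent.P338.TM.SpecZseg
import Vale.Agent.P338.TM.SpecAddReg
import Vale.Agent.P338.TM.Model2

namespace Vale.Agent.P338.TM

open Vale.Agent.P338

variable {Γ : Type} [TapeAlpha Γ]

/-- The state `s` with prescribed contents of `rS` and `V`. -/
def stRV (s : St Own Γ) (R W : Zip Γ) : St Own Γ :=
  Function.update (Function.update s Own.rS R) Own.V W

omit [TapeAlpha Γ] in
theorem stRV_rS (s : St Own Γ) (R W : Zip Γ) : stRV s R W Own.rS = R := by
  simp [stRV]

omit [TapeAlpha Γ] in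
theorem stRV_V (s : St Own Γ) (R W : Zip Γ) : stRV s R W Own.V = W := by
  simp [stRV]

omit [TapeAlpha Γ] in
theorem stRV_setR (s : St Own Γ) (R W R' : Zip Γ) :
    Function.update (stRV s R W) Own.rS R' = stRV s R' W := by
  unfold stRV
  rw [Function.update_comm (by decide : Own.rS ≠ Own.V), Function.update_idem,
    Function.update_comm (by decide : Own.V ≠ Own.rS)]

omit [TapeAlpha Γ] in
theorem stRV_setV (s : St Own Γ) (R W W' : Zip Γ) :
    Function.update (stRV s R W) Own.V W' = stRV s R W' := by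
  unfold stRV
  rw [Function.update_idem]

omit [TapeAlpha Γ] in
theorem stRV_self (s : St Own Γ) : stRV s (s Own.rS) (s Own.V) = s := by
  unfold stRV
  rw [Function.update_eq_self, Function.update_eq_self]

omit [TapeAlpha Γ] in
theorem stRV_keepR (s : St Own Γ) (W : Zip Γ) :
    stRV s (s Own.rS) W = Function.update s Own.V W := by
  unfold stRV
  rw [Function.update_eq_self]

theorem stRV_need {P : Par} {s : St Own Γ} {l : List Own} (h : Need P s l)
    (h1 : Own.rS ∉ l) (h2 : Own.V ∉ l) (R W : Zip Γ) : Need P (stRV s R W) l :=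
  (h.update h1 R).update h2 W

theorem wrV_spec (s : St Own Γ) (R : Zip Γ) (d : List Γ) (c : Γ) :
    (wr Own.V c Move.right : Prog Own Γ).SRuns (stRV s R (Z d [])) 1
      (stRV s R (Z (d ++ [c]) [])) true := by
  have h := prim_sruns (fun _ => (Instr.nil : Instr Own Γ).set Own.V c Move.right)
    (stRV s R (Z d []))
  simp only [Instr.sapp_set, Instr.sapp_nil, stRV_V, Z_act_right, List.tail_nil, stRV_setV] at h
  exact h

theorem rend_notMem_ohMid (n : ℕ) :
    (rend : Γ) ∉ bit true :: List.replicate n (bit false) := by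
  intro h
  rcases List.mem_cons.1 h with h | h
  · exact TapeAlpha.bit_ne_rend true h.symm
  · exact TapeAlpha.bit_ne_rend false (List.eq_of_mem_replicate h).symm

theorem slotY_bits (P : Par) (S : ℕ) (dV : List Γ) :
    dV ++ bits (zs ((P.N - S) * P.g)) ++ [bit true] ++ bits (zs (2 * P.m)) ++ [bit false]
      ++ bits (zs (S * P.g)) ++ bits (zs (4 * P.m)) = dV ++ bits (slotY P S) := by
  have e : (bits (zs (2 * P.m + 1)) : List Γ) = bits (zs (2 * P.m)) ++ [bit false] := by
    rw [bits_zs_add]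
    simp [bits, zs]
  have e2 : (bits (slotY P S) : List Γ) = bits (zs ((P.N - S) * P.g)) ++
      (bit true :: bits (zs (2 * P.m + 1))) ++ bits (zs (S * P.g)) ++ bits (zs (4 * P.m)) := by
    simp [slotY, bits]
  rw [e2, e]
  simp

/-- One chirp slot; the register `rS` is left as it was. -/
theorem ySlot_spec (P : Par) (hV : P.Valid) (s : St Own Γ)
    (hN : Need P s [Own.tg, Own.tm]) (S : ℕ) (hS : S < P.N)
    (hrS : s Own.rS = Z [] (oh P.N S)) (dV : List Γ) (hVt : s Own.V = Z dV []) :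
    (ySlot : Prog Own Γ).SRuns s (cYSlot P)
      (Function.update s Own.V (Z (dV ++ bits (slotY P S)) [])) true := by
  have hNg : ∀ R W : Zip Γ, Need P (stRV s R W) [Own.tg] := fun R W =>
    stRV_need (hN.mono (by simp)) (by decide) (by decide) R W
  have hNm : ∀ R W : Zip Γ, Need P (stRV s R W) [Own.tm] := fun R W =>
    stRV_need (hN.mono (by simp)) (by decide) (by decide) R W
  obtain ⟨z0, hz0⟩ : ∃ z0 : List Γ, z0 = List.replicate S (bit false) := ⟨_, rfl⟩
  obtain ⟨u, hu⟩ : ∃ u : List Γ, u = bit true :: List.replicate (P.N - S - 1) (bit false) :=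
    ⟨_, rfl⟩
  have hz0l : z0.length = S := by rw [hz0]; simp
  have hul : u.length = P.N - S := by rw [hu]; simp; omega
  have hoh : (oh P.N S : List Γ) = z0 ++ (u ++ [rend]) := by rw [oh_eq, hz0, hu]; rfl
  have hlz0 : (lend : Γ) ∉ z0 := by rw [hz0]; exact lend_notMem_replicate _ _
  have hlu : (lend : Γ) ∉ u ++ [rend] := by rw [hu]; exact lend_notMem_ohTail _
  have hs0 : s = stRV s (Z [] (oh P.N S)) (Z dV []) := by rw [← hrS, ← hVt, stRV_self]
  -- 1
  have r1 := scanOne_spec Own.rS S (stRV s (Z [] (oh P.N S)) (Z dV [])) []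
    (List.replicate (P.N - S - 1) (bit false) ++ [rend]) (by rw [stRV_rS, oh_eq])
  rw [stRV_setR, List.nil_append, ← hz0] at r1
  -- 2
  have r2 := postZ_spec P Own.V (by decide) (by decide)
    (stRV s (Z z0 (bit true :: (List.replicate (P.N - S - 1) (bit false) ++ [rend]))) (Z dV []))
    (hNg _ _) z0 u dV (by rw [hu]; exact rend_notMem_ohMid _)
    (by rw [stRV_rS, hu]; rfl) (stRV_V _ _ _)
  rw [stRV_setR, stRV_setV, hul] at r2
  -- 3
  have r3 := rewind_spec Own.rS (stRV s (Z (z0 ++ u) [rend])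
    (Z (dV ++ bits (zs ((P.N - S) * P.g))) [])) (z0 ++ u) [rend] (stRV_rS _ _ _)
    (by
      intro h
      rcases List.mem_append.1 h with h | h
      · exact hlz0 h
      · exact hlu (List.mem_append_left _ h))
    (by
      intro h
      exact hlu (List.mem_append_right _ h))
  rw [stRV_setR, List.append_assoc, ← hoh] at r3
  -- 4
  have r4 := wrV_spec s (Z [] (oh P.N S)) (dV ++ bits (zs ((P.N - S) * P.g))) (bit true)
  -- 5
  have r5 := zerosM_spec P 2 Own.V (by decide)
    (stRV s (Z [] (oh P.N S)) (Z (dV ++ bits (zs ((P.N - S) * P.g)) ++ [bit true]) []))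
    (hNm _ _) _ (stRV_V _ _ _)
  rw [stRV_setV] at r5
  -- 6
  have r6 := wrV_spec s (Z [] (oh P.N S))
    (dV ++ bits (zs ((P.N - S) * P.g)) ++ [bit true] ++ bits (zs (2 * P.m))) (bit false)
  -- 7
  have r7 := preZ_spec P Own.V (by decide) (by decide)
    (stRV s (Z [] (oh P.N S))
      (Z (dV ++ bits (zs ((P.N - S) * P.g)) ++ [bit true] ++ bits (zs (2 * P.m)) ++ [bit false]) []))
    (hNg _ _) S [] (u ++ [rend]) _
    (by rw [hu]; exact fun h => bit_false_ne_true h.symm)
    (by rw [stRV_rS, hoh, hz0]) (stRV_V _ _ _)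
  rw [stRV_setR, stRV_setV, List.nil_append, ← hz0] at r7
  -- 8
  have r8 := rewind_spec Own.rS (stRV s (Z z0 (u ++ [rend]))
    (Z (dV ++ bits (zs ((P.N - S) * P.g)) ++ [bit true] ++ bits (zs (2 * P.m)) ++ [bit false]
      ++ bits (zs (S * P.g))) [])) z0 (u ++ [rend]) (stRV_rS _ _ _) hlz0 hlu
  rw [stRV_setR, ← hoh] at r8
  -- 9
  have r9 := zerosM_spec P 4 Own.V (by decide)
    (stRV s (Z [] (oh P.N S))
      (Z (dV ++ bits (zs ((P.N - S) * P.g)) ++ [bit true] ++ bits (zs (2 * P.m)) ++ [bit false]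
      ++ bits (zs (S * P.g))) []))
    (hNm _ _) _ (stRV_V _ _ _)
  rw [stRV_setV, slotY_bits] at r9
  have hfin : stRV s (Z [] (oh P.N S)) (Z (dV ++ bits (slotY P S)) [])
      = Function.update s Own.V (Z (dV ++ bits (slotY P S)) []) := by
    rw [← hrS, stRV_keepR]
  rw [hfin] at r9
  rw [← hs0] at r1
  have q := seq_sruns r1 (seq_sruns r2 (seq_sruns r3 (seq_sruns r4 (seq_sruns r5
    (seq_sruns r6 (seq_sruns r7 (seq_sruns r8 r9)))))))
  refine Prog.SRuns.mono q ?_
  rw [List.length_append, hz0l, hul]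
  unfold cYSlot
  obtain ⟨k, hk⟩ : ∃ k, P.N = S + k := ⟨P.N - S, by omega⟩
  have e1 : P.N - S = k := by omega
  rw [e1, hk]
  ring_nf
  omega

end Vale.Agent.P338.TM
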