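import Vale.Agent.P338.TM.SpecWrs

namespace Vale.Agent.P338.TM

open Vale.Agent.P338

variable {Γ : Type} [TapeAlpha Γ]

theorem bits_zs (n : ℕ) : (bits (zs n) : List Γ) = List.replicate n (bit false) := by
  simp [bits, zs]

theorem bits_zs_add (a b : ℕ) : (bits (zs (a + b)) : List Γ) = bits (zs a) ++ bits (zs b) := by
  rw [bits_zs, bits_zs, bits_zs, List.replicate_add]

omit [TapeAlpha Γ] in
theorem upd_swap_collapse {ι : Type} [DecidableEq ι] (s : St ι Γ) (x r : ι) (hxr : x ≠ r)
    (A A' B : Zip Γ) :
    Function.update (Function.update (Function.update s x A) r B) x A'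
      = Function.update (Function.update s x A') r B := by
  funext i
  by_cases hir : i = r
  · subst hir
    simp [Function.update_of_ne hxr.symm]
  · by_cases hix : i = x
    · subst hix
      simp [Function.update_of_ne hir]
    · simp [Function.update_of_ne hir, Function.update_of_ne hix]

omit [TapeAlpha Γ] in
theorem upd2_collapse {ι : Type} [DecidableEq ι] (s : St ι Γ) (x y : ι) (hxy : x ≠ y)
    (A A' B B' : Zip Γ) :
    Function.update (Function.update (Function.update (Function.update s x A) y B) x A') y B'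
      = Function.update (Function.update s x A') y B' := by
  rw [upd_swap_collapse s x y hxy, Function.update_idem]

theorem sweepZ_spec (P : Par) (cond : Γ → Bool) (x : Own) (hx1 : x ≠ Own.rS) (hx2 : x ≠ Own.tg)
    (s : St Own Γ) (hN : Need P s [Own.tg]) (dS u tS d : List Γ)
    (hu : ∀ y ∈ u, cond y = true) (ht : cond (tS.headD blank) = false)
    (hS : s Own.rS = Z dS (u ++ tS)) (hx : s x = Z d []) :
    (sweep Own.rS cond (zerosU Own.tg x) : Prog Own Γ).SRuns s (u.length * (7 * P.g + 11) + 2)
      (Function.update (Function.update s Own.rS (Z (dS ++ u) tS)) x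
        (Z (d ++ bits (zs (u.length * P.g))) [])) true := by
  have hg : s Own.tg = Z [] (un P.g) := (hN Own.tg (by simp)).1 rfl
  have h := sweep_fun Own.rS cond (zerosU Own.tg x) dS u tS hu ht
    (fun k => Function.update s x (Z (d ++ bits (zs (k * P.g))) [])) (fun _ => 7 * P.g + 6) (by
      intro k _
      refine ⟨true, ?_⟩
      have h1 := zerosU_spec Own.tg x hx2.symm
        (Function.update (Function.update s x (Z (d ++ bits (zs (k * P.g))) [])) Own.rS
          (Z (dS ++ u.take k) (u.drop k ++ tS))) P.g (d ++ bits (zs (k * P.g)))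
        (by
          rw [Function.update_of_ne (by decide), Function.update_of_ne hx2.symm]
          exact hg)
        (by rw [Function.update_of_ne hx1, Function.update_self])
      rw [upd_swap_collapse s x Own.rS hx1, List.append_assoc, ← bits_zs, ← bits_zs_add] at h1
      have e : (k + 1) * P.g = k * P.g + P.g := by ring
      simp only [e]
      exact h1)
  have e0 : Function.update
      ((fun k => Function.update s x (Z (d ++ bits (zs (k * P.g))) [])) 0) Own.rS
      (Z dS (u ++ tS)) = s := by
    have e : (Z (d ++ bits (zs (0 * P.g))) [] : Zip Γ) = s x := by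
      rw [hx]; simp [bits, zs]
    simp only [e]
    rw [Function.update_eq_self, ← hS, Function.update_eq_self]
  have e1 : Function.update
      ((fun k => Function.update s x (Z (d ++ bits (zs (k * P.g))) [])) u.length) Own.rS
      (Z (dS ++ u) tS) = Function.update (Function.update s Own.rS (Z (dS ++ u) tS)) x
        (Z (d ++ bits (zs (u.length * P.g))) []) := by
    simp only []
    rw [Function.update_comm hx1]
  rw [e0, e1] at h
  refine h.mono ?_
  simp [Finset.sum_const]

theorem preZ_spec (P : Par) (x : Own) (hx1 : x ≠ Own.rS) (hx2 : x ≠ Own.tg) (s : St Own Γ)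
    (hN : Need P s [Own.tg]) (c : ℕ) (dS tS d : List Γ) (ht : tS.headD blank ≠ bit false)
    (hS : s Own.rS = Z dS (List.replicate c (bit false) ++ tS)) (hx : s x = Z d []) :
    (preZ x : Prog Own Γ).SRuns s (c * (7 * P.g + 11) + 2)
      (Function.update (Function.update s Own.rS (Z (dS ++ List.replicate c (bit false)) tS)) x
        (Z (d ++ bits (zs (c * P.g))) [])) true := by
  have h := sweepZ_spec P (fun y => @decide (y = bit false) (Classical.propDecidable _)) x hx1 hx2
    s hN dS (List.replicate c (bit false)) tS d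
    (by
      intro y hy
      have := List.eq_of_mem_replicate hy
      simp [this])
    (@decide_eq_false _ (Classical.propDecidable _) ht) hS hx
  rw [List.length_replicate] at h
  exact h

theorem postZ_spec (P : Par) (x : Own) (hx1 : x ≠ Own.rS) (hx2 : x ≠ Own.tg) (s : St Own Γ)
    (hN : Need P s [Own.tg]) (dS u d : List Γ) (hu : rend ∉ u)
    (hS : s Own.rS = Z dS (u ++ [rend])) (hx : s x = Z d []) :
    (postZ x : Prog Own Γ).SRuns s (u.length * (7 * P.g + 11) + 2)
      (Function.update (Function.update s Own.rS (Z (dS ++ u) [rend])) x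
        (Z (d ++ bits (zs (u.length * P.g))) [])) true := by
  unfold postZ
  refine sweepZ_spec P _ x hx1 hx2 s hN dS u [rend] d ?_ ?_ hS hx
  · intro y hy
    have : y ≠ rend := fun h => hu (h ▸ hy)
    simp [this]
  · simp

theorem cp_spec {ι : Type} [DecidableEq ι] (x y : ι) (s : St ι Γ)
    (dx : List Γ) (a : Γ) (tx dy : List Γ)
    (hx : s x = Z dx (a :: tx)) (hy : s y = Z dy []) :
    (cp x y).SRuns s 1
      (Function.update (Function.update s x (Z (dx ++ [a]) tx)) y (Z (dy ++ [a]) [])) true := by
  have h := prim_sruns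
    (fun a => ((Instr.nil : Instr ι Γ).set x (a x) Move.right).set y (a x) Move.right) s
  simp only [Instr.sapp_set, Instr.sapp_nil, sreads_apply, hx, hy, Z_read_cons,
    Z_act_right, List.tail_cons, List.tail_nil] at h
  exact h

theorem cpBlk_spec (P : Par) (x y : Own) (hxy : x ≠ y) (hx1 : x ≠ Own.tm) (hy1 : y ≠ Own.tm)
    (s : St Own Γ) (hN : Need P s [Own.tm]) (dx w tx dy : List Γ) (hw : w.length = 2 * P.m + 2)
    (hx : s x = Z dx (w ++ tx)) (hy : s y = Z dy []) :
    (cpBlk x y : Prog Own Γ).SRuns s (cCpBlk P)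
      (Function.update (Function.update s x (Z (dx ++ w) tx)) y (Z (dy ++ w) [])) true := by
  have hm : s Own.tm = Z [] (un P.m) := (hN Own.tm (by simp)).1 rfl
  obtain ⟨w1, w2, a, b, h1, h2, rfl⟩ : ∃ w1 w2 a b, w1.length = P.m ∧ w2.length = P.m ∧
      w = w1 ++ (w2 ++ [a, b]) := by
    have hl : (w.drop (P.m + P.m)).length = 2 := by rw [List.length_drop]; omega
    obtain ⟨a, b, hab⟩ := List.length_eq_two.mp hl
    refine ⟨w.take P.m, (w.drop P.m).take P.m, a, b, ?_, ?_, ?_⟩
    · rw [List.length_take]; omega
    · rw [List.length_take, List.length_drop]; omega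
    · rw [← hab, ← List.drop_drop, List.take_append_drop, List.take_append_drop]
  have r1 := cpU_spec Own.tm x y hx1.symm hy1.symm hxy s P.m dx w1 (w2 ++ [a, b] ++ tx) dy []
    h1 hm (by rw [hx]; simp) hy
  rw [List.drop_nil] at r1
  have r2 := cpU_spec Own.tm x y hx1.symm hy1.symm hxy
    (Function.update (Function.update s x (Z (dx ++ w1) (w2 ++ [a, b] ++ tx))) y (Z (dy ++ w1) []))
    P.m (dx ++ w1) w2 (a :: b :: tx)
    (dy ++ w1) [] h2
    (by rw [Function.update_of_ne hy1.symm, Function.update_of_ne hx1.symm]; exact hm)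
    (by rw [Function.update_of_ne hxy, Function.update_self]; simp)
    (by rw [Function.update_self])
  rw [List.drop_nil, upd2_collapse s x y hxy] at r2
  have r3 := cp_spec x y
    (Function.update (Function.update s x (Z (dx ++ w1 ++ w2) (a :: b :: tx))) y
      (Z (dy ++ w1 ++ w2) []))
    (dx ++ w1 ++ w2) a (b :: tx) (dy ++ w1 ++ w2)
    (by rw [Function.update_of_ne hxy, Function.update_self])
    (by rw [Function.update_self])
  rw [upd2_collapse s x y hxy] at r3
  have r4 := cp_spec x y
    (Function.update (Function.update s x (Z (dx ++ w1 ++ w2 ++ [a]) (b :: tx))) y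
      (Z (dy ++ w1 ++ w2 ++ [a]) []))
    (dx ++ w1 ++ w2 ++ [a]) b tx (dy ++ w1 ++ w2 ++ [a])
    (by rw [Function.update_of_ne hxy, Function.update_self])
    (by rw [Function.update_self])
  rw [upd2_collapse s x y hxy] at r4
  have q1 := seq_sruns r1 (seq_sruns r2 (skip_sruns _))
  have q2 := seq_sruns r3 (seq_sruns r4 (skip_sruns _))
  have q := seq_sruns q1 q2
  have ex : dx ++ w1 ++ w2 ++ [a] ++ [b] = dx ++ (w1 ++ (w2 ++ [a, b])) := by simp
  have ey : dy ++ w1 ++ w2 ++ [a] ++ [b] = dy ++ (w1 ++ (w2 ++ [a, b])) := by simp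
  rw [ex, ey] at q
  refine Prog.SRuns.mono q ?_
  unfold cCpBlk
  omega

theorem zerosM_spec (P : Par) (n : ℕ) (x : Own) (hx1 : x ≠ Own.tm) (s : St Own Γ)
    (hN : Need P s [Own.tm]) (d : List Γ) (hx : s x = Z d []) :
    (rep n (zerosU Own.tm x) : Prog Own Γ).SRuns s (n * (7 * P.m + 7))
      (Function.update s x (Z (d ++ bits (zs (n * P.m))) [])) true := by
  have hm : s Own.tm = Z [] (un P.m) := (hN Own.tm (by simp)).1 rfl
  have h := rep_fun (zerosU Own.tm x : Prog Own Γ) n (7 * P.m + 6)
    (fun k => Function.update s x (Z (d ++ bits (zs (k * P.m))) [])) (by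
      intro k _
      refine ⟨true, ?_⟩
      have h1 := zerosU_spec Own.tm x hx1.symm
        (Function.update s x (Z (d ++ bits (zs (k * P.m))) [])) P.m (d ++ bits (zs (k * P.m)))
        (by rw [Function.update_of_ne hx1.symm]; exact hm)
        (by rw [Function.update_self])
      rw [Function.update_idem, List.append_assoc, ← bits_zs, ← bits_zs_add] at h1
      have e : (k + 1) * P.m = k * P.m + P.m := by ring
      simp only [e]
      exact h1)
  have e0 : Function.update s x (Z (d ++ bits (zs (0 * P.m))) []) = s := by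
    have e : (Z (d ++ bits (zs (0 * P.m))) [] : Zip Γ) = s x := by
      rw [hx]; simp [bits, zs]
    rw [e, Function.update_eq_self]
  rw [e0] at h
  exact h

theorem zeroSlot_spec (P : Par) (x : Own) (hx1 : x ≠ Own.tm) (s : St Own Γ)
    (hN : Need P s [Own.tm]) (d : List Γ) (hx : s x = Z d []) :
    (zeroSlot x : Prog Own Γ).SRuns s (cZeroSlot P)
      (Function.update s x (Z (d ++ bits (zs P.w)) [])) true := by
  have h1 := zerosM_spec P 8 x hx1 s hN d hx
  have h2 := wrs_spec x (bits [false, false]) _ (d ++ bits (zs (8 * P.m)))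
    (Function.update_self x (Z (d ++ bits (zs (8 * P.m))) []) s)
  rw [Function.update_idem] at h2
  have h3 := seq_sruns h1 h2
  have e : d ++ bits (zs (8 * P.m)) ++ bits [false, false] = d ++ (bits (zs P.w) : List Γ) := by
    have : (bits [false, false] : List Γ) = bits (zs 2) := by simp [bits, zs]
    rw [this, List.append_assoc, ← bits_zs_add]
    rfl
  rw [e] at h3
  refine Prog.SRuns.mono h3 ?_
  simp [cZeroSlot, bits]
  omega

end Vale.Agent.P338.TM
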