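import Vale.Agent.P338.TM.Model5

/-! Running time: auxiliary definitions. -/

namespace Vale.Agent.P338.TM

open Vale.Agent.P338

/-- The length of the numbers that are multiplied in an operation. -/
def nA (op : Op) : ℕ :=
  4 * ((parOf op.1 op.2.1 op.2.2).N * (parOf op.1 op.2.1 op.2.2).w)

/-- The number of address bits of a block of an operation. -/
def jj (op : Op) : ℕ := op.1 + op.2.1 + op.2.2

end Vale.Agent.P338.TM
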