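import Vale.Agent.P338.TM.Timing0

/-! Abstract bounds for the cost functions of the treatment of one matrix. -/

namespace Vale.Agent.P338.TM

open Vale.Agent.P338

/-- The arithmetical hypotheses on the parameters (`x = 2^σ`). -/
structure TPar (P : Par) (x : ℕ) : Prop where
  he : P.e = x
  hm : P.m = 16 * x
  hf : P.f ≤ 15 * x
  hNg : P.a * P.b * P.g = 32 * x
  hN4 : P.a * P.b ≤ 4 * x
  ha : 1 ≤ P.a
  hb : 1 ≤ P.b
  hx : 1 ≤ x

namespace TPar

variable {P : Par} {x : ℕ}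

theorem x_le_bx (h : TPar P x) : x ≤ P.b * x := Nat.le_mul_of_pos_left x h.hb

theorem one_le_bx (h : TPar P x) : 1 ≤ P.b * x := le_trans h.hx h.x_le_bx

theorem bx_le_M (h : TPar P x) : P.b * x ≤ P.a * P.b * x := by
  rw [Nat.mul_assoc]
  exact Nat.le_mul_of_pos_left _ h.ha

theorem one_le_M (h : TPar P x) : 1 ≤ P.a * P.b * x := le_trans h.one_le_bx h.bx_le_M

theorem N_le_M (h : TPar P x) : P.a * P.b ≤ P.a * P.b * x := Nat.le_mul_of_pos_right _ h.hx

theorem cXBlock_le (h : TPar P x) : cXBlock P ≤ 1254 * x := by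
  unfold cXBlock Par.N
  have e : P.a * P.b * (7 * P.g + 11) = 7 * (P.a * P.b * P.g) + 11 * (P.a * P.b) := by ring
  rw [e, h.hNg, h.hm]
  have := h.hN4
  have := h.hx
  omega

theorem cXRow_le (h : TPar P x) : cXRow P ≤ 1629 * (P.b * x) := by
  unfold cXRow Par.N
  have h1 : P.b * (cXBlock P + 6) ≤ P.b * (1260 * x) :=
    Nat.mul_le_mul_left _ (by have := h.cXBlock_le; have := h.hx; omega)
  have e : P.b * (1260 * x) = 1260 * (P.b * x) := by ring
  rw [e] at h1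
  have := h.hN4
  have := h.x_le_bx
  have := h.one_le_bx
  omega

theorem cZeroSlot_le (h : TPar P x) : cZeroSlot P ≤ 957 * x := by
  unfold cZeroSlot
  rw [h.hm]
  have := h.hx
  omega

theorem cLoop2_le (h : TPar P x) (R c γ : ℕ) (hR : 1 ≤ R) (hc : c ≤ γ * x) :
    cLoop2 P R c ≤ (γ + 24) * (R * (P.b * x)) := by
  unfold cLoop2
  have h1 : P.b * (c + 6) ≤ P.b * ((γ + 6) * x) :=
    Nat.mul_le_mul_left _ (by
      have := h.hx
      have e : (γ + 6) * x = γ * x + 6 * x := by ring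
      omega)
  have e1 : P.b * ((γ + 6) * x) = (γ + 6) * (P.b * x) := by ring
  rw [e1] at h1
  have h2 : R * (P.b * (c + 6) + 6 + 6) ≤ R * ((γ + 18) * (P.b * x)) :=
    Nat.mul_le_mul_left _ (by
      have := h.one_le_bx
      have e : (γ + 18) * (P.b * x) = (γ + 6) * (P.b * x) + 12 * (P.b * x) := by ring
      omega)
  have e2 : R * ((γ + 18) * (P.b * x)) = (γ + 18) * (R * (P.b * x)) := by ring
  rw [e2] at h2
  have h3 : 1 ≤ R * (P.b * x) := Nat.mul_pos hR h.one_le_bx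
  have e3 : (γ + 24) * (R * (P.b * x)) = (γ + 18) * (R * (P.b * x)) + 6 * (R * (P.b * x)) := by
    ring
  omega

theorem cXGroup_le (h : TPar P x) (R : ℕ) (hR : 1 ≤ R) :
    cXGroup P R ≤ 4588 * (R * (P.b * x)) := by
  unfold cXGroup
  have h1 : R * (cXRow P + 6) ≤ R * (1635 * (P.b * x)) :=
    Nat.mul_le_mul_left _ (by have := h.cXRow_le; have := h.one_le_bx; omega)
  have e1 : R * (1635 * (P.b * x)) = 1635 * (R * (P.b * x)) := by ring
  rw [e1] at h1
  have h2 := h.cLoop2_le R (cZeroSlot P) 957 hR h.cZeroSlot_le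
  unfold cLoop2 at h2
  have h3 : 1 ≤ R * (P.b * x) := Nat.mul_pos hR h.one_le_bx
  omega

theorem cStageX_le (h : TPar P x) (R G : ℕ) (hR : 1 ≤ R) (hG : 1 ≤ G) :
    cStageX P R G ≤ 4600 * (G * (R * (P.b * x))) := by
  unfold cStageX
  have h3 : 1 ≤ R * (P.b * x) := Nat.mul_pos hR h.one_le_bx
  have h1 : G * (cXGroup P R + 6) ≤ G * (4594 * (R * (P.b * x))) :=
    Nat.mul_le_mul_left _ (by have := h.cXGroup_le R hR; omega)
  have e1 : G * (4594 * (R * (P.b * x))) = 4594 * (G * (R * (P.b * x))) := by ring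
  rw [e1] at h1
  have h4 : 1 ≤ G * (R * (P.b * x)) := Nat.mul_pos hG h3
  omega

theorem cYSlot_le (h : TPar P x) : cYSlot P ≤ 1032 * x := by
  unfold cYSlot Par.N
  have e : P.a * P.b * (7 * P.g + 11) = 7 * (P.a * P.b * P.g) + 11 * (P.a * P.b) := by ring
  rw [e, h.hNg, h.hm]
  have := h.hN4
  have := h.hx
  omega

theorem cYRow_le (h : TPar P x) (s1 : ℕ) : cYRow P s1 ≤ 1281 * ((s1 + 1) * x) := by
  unfold cYRow Par.N
  have h1 : s1 * (cZeroSlot P + 6) ≤ s1 * (963 * x) :=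
    Nat.mul_le_mul_left _ (by have := h.cZeroSlot_le; have := h.hx; omega)
  have e1 : s1 * (963 * x) = 963 * (s1 * x) := by ring
  rw [e1] at h1
  have e2 : (s1 + 1) * x = s1 * x + x := by ring
  rw [e2]
  have := h.cYSlot_le
  have := h.hN4
  have := h.hx
  omega

theorem cStageY_le (h : TPar P x) (l s1 : ℕ) (hl : 1 ≤ l) :
    cStageY P l s1 ≤ 3882 * (l * ((s1 + 1) * x)) := by
  unfold cStageY
  have h0 : 1 ≤ (s1 + 1) * x := Nat.mul_pos (Nat.succ_pos _) h.hx
  have h1 : l * (cYRow P s1 + 6) ≤ l * (1287 * ((s1 + 1) * x)) :=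
    Nat.mul_le_mul_left _ (by have := h.cYRow_le s1; omega)
  have e1 : l * (1287 * ((s1 + 1) * x)) = 1287 * (l * ((s1 + 1) * x)) := by ring
  rw [e1] at h1
  have h4 : 1 ≤ l * ((s1 + 1) * x) := Nat.mul_pos hl h0
  omega

theorem Nw_le (h : TPar P x) : P.N * P.w ≤ 130 * (P.a * P.b * x) := by
  unfold Par.N Par.w
  rw [h.hm]
  have e : P.a * P.b * (8 * (16 * x) + 2) = 128 * (P.a * P.b * x) + 2 * (P.a * P.b) := by ring
  rw [e]
  have := h.N_le_M
  omega

theorem Nm_le (h : TPar P x) : P.N * (2 * P.m + 2) ≤ 34 * (P.a * P.b * x) := by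
  unfold Par.N
  rw [h.hm]
  have e : P.a * P.b * (2 * (16 * x) + 2) = 32 * (P.a * P.b * x) + 2 * (P.a * P.b) := by ring
  rw [e]
  have := h.N_le_M
  omega

theorem cPreMul_le (h : TPar P x) (R G l s1 : ℕ) (hR : 1 ≤ R) (hG : 1 ≤ G) (hl : 1 ≤ l)
    (hGR : G * R = P.a) (hls : l * (s1 + 1) ≤ P.a * P.b) :
    cPreMul P R G l s1 ≤ 10127 * (P.a * P.b * x) := by
  unfold cPreMul cPadSame
  have h1 := h.cStageX_le R G hR hG
  have e1 : G * (R * (P.b * x)) = P.a * P.b * x := by rw [← hGR]; ring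
  rw [e1] at h1
  have h2 := h.cStageY_le l s1 hl
  have h3 : l * ((s1 + 1) * x) ≤ P.a * P.b * x := by
    rw [← Nat.mul_assoc]
    exact Nat.mul_le_mul_right _ hls
  have h4 := h.Nw_le
  have h5 := h.N_le_M
  have h6 := h.one_le_M
  have h7 : P.N = P.a * P.b := rfl
  rw [h7] at h4 ⊢
  omega

theorem cSkipSlot_le (h : TPar P x) : cSkipSlot P ≤ 957 * x := by
  unfold cSkipSlot
  rw [h.hm]
  have := h.hx
  omega

theorem cDemuxSlot_le (h : TPar P x) : cDemuxSlot P ≤ 986 * x := by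
  unfold cDemuxSlot
  rw [h.hm]
  have := h.hx
  omega

theorem cExtract_le (h : TPar P x) (R G : ℕ) (hR : 1 ≤ R) (hG : 1 ≤ G) :
    cExtract P R G ≤ 3969 * (G * (R * (P.b * x))) := by
  unfold cExtract
  have h1 := h.cLoop2_le R (cSkipSlot P) 957 hR h.cSkipSlot_le
  have h2 := h.cLoop2_le R (cDemuxSlot P) 986 hR h.cDemuxSlot_le
  have h3 : 1 ≤ R * (P.b * x) := Nat.mul_pos hR h.one_le_bx
  have h4 : G * (2 * (cLoop2 P R (cSkipSlot P) + 1) + cLoop2 P R (cDemuxSlot P)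
      + cLoop2 P R (cSkipSlot P) + 2 + 6) ≤ G * (3963 * (R * (P.b * x))) :=
    Nat.mul_le_mul_left _ (by omega)
  have e1 : G * (3963 * (R * (P.b * x))) = 3963 * (G * (R * (P.b * x))) := by ring
  rw [e1] at h4
  have h5 : 1 ≤ G * (R * (P.b * x)) := Nat.mul_pos hG h3
  omega

theorem cPostMul_le (h : TPar P x) (R G : ℕ) (hR : 1 ≤ R) (hG : 1 ≤ G) (hGR : G * R = P.a) :
    cPostMul P R G ≤ 9802 * (P.a * P.b * x) := by
  unfold cPostMul cFoldAdd
  have h1 := h.cExtract_le R G hR hG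
  have e1 : G * (R * (P.b * x)) = P.a * P.b * x := by rw [← hGR]; ring
  rw [e1] at h1
  have h4 := h.Nw_le
  have h5 := h.Nm_le
  have h6 := h.one_le_M
  omega

theorem cConv_le (h : TPar P x) (t R G l s1 : ℕ) (hR : 1 ≤ R) (hG : 1 ≤ G) (hl : 1 ≤ l)
    (hGR : G * R = P.a) (hls : l * (s1 + 1) ≤ P.a * P.b) :
    cConv P t R G l s1 ≤ 32511 * (P.a * P.b * x) + 4 * t := by
  unfold cConv cMulA
  have h1 := h.cPreMul_le R G l s1 hR hG hl hGR hls
  have h2 := h.cPostMul_le R G hR hG hGR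
  have h4 := h.Nw_le
  have h6 := h.one_le_M
  omega

theorem cEncEntry_le (h : TPar P x) : cEncEntry P ≤ 335 * x := by
  unfold cEncEntry
  rw [h.he]
  have := h.hf
  have := h.hx
  omega

theorem cSkipMat_le (h : TPar P x) : cSkipMat P ≤ 37 * (P.a * P.b * x) := by
  unfold cSkipMat
  rw [h.he]
  have h1 : P.b * (7 * x + 12) ≤ P.b * (19 * x) :=
    Nat.mul_le_mul_left _ (by have := h.hx; omega)
  have e1 : P.b * (19 * x) = 19 * (P.b * x) := by ring
  rw [e1] at h1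
  have h2 : P.a * (P.b * (7 * x + 12) + 12) ≤ P.a * (31 * (P.b * x)) :=
    Nat.mul_le_mul_left _ (by have := h.one_le_bx; omega)
  have e2 : P.a * (31 * (P.b * x)) = 31 * (P.a * P.b * x) := by ring
  rw [e2] at h2
  have := h.one_le_M
  omega

theorem cEncMat_le (h : TPar P x) : cEncMat P ≤ 435 * (P.a * P.b * x) := by
  unfold cEncMat
  have h0 := h.cSkipMat_le
  have h1 : P.b * (cEncEntry P + 6) ≤ P.b * (341 * x) :=
    Nat.mul_le_mul_left _ (by have := h.cEncEntry_le; have := h.hx; omega)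
  have e1 : P.b * (341 * x) = 341 * (P.b * x) := by ring
  rw [e1] at h1
  have h2 : P.a * (P.b * (cEncEntry P + 6) + 12) ≤ P.a * (353 * (P.b * x)) :=
    Nat.mul_le_mul_left _ (by have := h.one_le_bx; omega)
  have e2 : P.a * (353 * (P.b * x)) = 353 * (P.a * P.b * x) := by ring
  rw [e2] at h2
  have := h.one_le_M
  omega

theorem cLastStage_le (h : TPar P x) : cLastStage P ≤ 7837 * (P.a * P.b * x) := by
  unfold cLastStage cFoldAdd
  have h1 := h.cStageX_le P.a 1 h.ha le_rfl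
  have e1 : 1 * (P.a * (P.b * x)) = P.a * P.b * x := by ring
  rw [e1] at h1
  have h2 := h.cLoop2_le P.a (cDemuxSlot P) 986 h.ha h.cDemuxSlot_le
  have e2 : P.a * (P.b * x) = P.a * P.b * x := by ring
  rw [e2] at h2
  have h4 := h.Nw_le
  have h5 := h.Nm_le
  have h6 := h.one_le_M
  have h7 := h.N_le_M
  have h8 : P.N = P.a * P.b := rfl
  rw [h8] at h4 h5 ⊢
  omega

theorem cDecBlock_le (h : TPar P x) : cDecBlock P ≤ 470 * x := by
  unfold cDecBlock cCpBlk
  rw [h.he, h.hm]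
  have := h.hx
  omega

theorem cDecMat_le (h : TPar P x) : cDecMat P ≤ 568 * (P.a * P.b * x) := by
  unfold cDecMat
  have h2 := h.cLoop2_le P.a (cDecBlock P) 470 h.ha h.cDecBlock_le
  have e2 : P.a * (P.b * x) = P.a * P.b * x := by ring
  rw [e2] at h2
  have h5 := h.Nm_le
  have h6 := h.one_le_M
  omega

theorem cMatPipe_le (h : TPar P x) (t : ℕ) :
    cMatPipe P t ≤ 106416 * (P.a * P.b * x) + 12 * t := by
  unfold cMatPipe
  have hN1 : 1 ≤ P.a * P.b := Nat.mul_pos h.ha h.hb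
  have c1 := h.cConv_le t P.a 1 (P.a * P.b) 0 h.ha le_rfl hN1 (by ring) (by omega)
  have c2 := h.cConv_le t P.a 1 P.a (P.b - 1) h.ha le_rfl h.ha (by ring) (by
    have : P.b - 1 + 1 = P.b := Nat.sub_add_cancel h.hb
    rw [this])
  have c3 := h.cConv_le t 1 P.a P.b 0 le_rfl h.ha h.hb (by ring) (by
    have : P.b * (0 + 1) = 1 * P.b := by ring
    rw [this]
    exact Nat.mul_le_mul_right _ h.ha)
  have h1 := h.cEncMat_le
  have h2 := h.cLastStage_le
  have h3 := h.cDecMat_le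
  have h5 := h.Nm_le
  have h6 := h.one_le_M
  omega

end TPar

end Vale.Agent.P338.TM
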