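import Vale.Agent.P338.TM.Timing0
import Vale.Agent.P338.TM.Timing1a

/-! Running time of one matrix and of one operation: linear, apart from the calls of the
multiplier. -/

namespace Vale.Agent.P338.TM

open Vale.Agent.P338

theorem nA_eq (op : Op) : nA op = 512 * 2 ^ jj op + 8 * 2 ^ (op.2.1 + op.2.2) := by
  unfold nA jj Par.N Par.w parOf
  simp only [pow_add]
  ring

theorem nA_le (op : Op) : nA op ≤ 520 * 2 ^ jj op := by
  rw [nA_eq]
  have h : 2 ^ (op.2.1 + op.2.2) ≤ 2 ^ jj op := by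
    apply Nat.pow_le_pow_right (by norm_num)
    unfold jj
    omega
  omega

theorem nA_pos (op : Op) : 1 ≤ nA op := by
  rw [nA_eq]
  have h : 1 ≤ 2 ^ jj op := Nat.one_le_two_pow
  omega

/-- The treatment of one matrix. -/
theorem cMatPipe_le : ∃ C : ℕ, ∀ (σ lo up t : ℕ), lo + up ≤ σ + 2 →
    cMatPipe (parOf σ lo up) t ≤ C * 2 ^ (σ + lo + up) + 12 * t := by
  refine ⟨106416, fun σ lo up t h => ?_⟩
  have hT : TPar (parOf σ lo up) (2 ^ σ) :=
    { he := rfl
      hm := rfl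
      hf := by
        change 16 * 2 ^ σ - 7 - 2 ^ σ ≤ 15 * 2 ^ σ
        omega
      hNg := by
        change 2 ^ lo * 2 ^ up * 2 ^ (σ + 5 - lo - up) = 32 * 2 ^ σ
        rw [← pow_add, ← pow_add]
        have e : lo + up + (σ + 5 - lo - up) = σ + 5 := by omega
        rw [e, pow_add]
        norm_num
        ring
      hN4 := by
        change 2 ^ lo * 2 ^ up ≤ 4 * 2 ^ σ
        rw [← pow_add]
        have e : 4 * 2 ^ σ = 2 ^ (σ + 2) := by rw [pow_add]; norm_num; ring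
        rw [e]
        exact Nat.pow_le_pow_right (by norm_num) h
      ha := Nat.one_le_two_pow
      hb := Nat.one_le_two_pow
      hx := Nat.one_le_two_pow }
  have h1 := hT.cMatPipe_le t
  have e : (parOf σ lo up).a * (parOf σ lo up).b * 2 ^ σ = 2 ^ (σ + lo + up) := by
    change 2 ^ lo * 2 ^ up * 2 ^ σ = 2 ^ (σ + lo + up)
    rw [pow_add, pow_add]
    ring
  rw [e] at h1
  exact h1

/-- One operation on `q` matrices. -/
theorem cOpStep_le : ∃ C : ℕ, ∀ (tA : ℕ → ℕ) (σ lo up q : ℕ), lo + up ≤ σ + 2 →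
    cOpStep tA σ lo up q ≤ C * ((q + 1) * 2 ^ (σ + lo + up)) + 12 * (q * tA (nA (σ, lo, up))) := by
  obtain ⟨C0, h0⟩ := cMatPipe_le
  refine ⟨C0 + 30000, ?_⟩
  intro tA σ lo up q hlu
  have ht : tA (4 * ((parOf σ lo up).N * (parOf σ lo up).w)) = tA (nA (σ, lo, up)) := rfl
  unfold cOpStep cFatOp cSetPar cClearPar
  rw [ht]
  set t := tA (nA (σ, lo, up)) with htdef
  have hM := h0 σ lo up t hlu
  set M := cMatPipe (parOf σ lo up) t with hMdef
  have hNe : (parOf σ lo up).N * (parOf σ lo up).e = 2 ^ (σ + lo + up) := by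
    unfold Par.N parOf
    simp only [pow_add]
    ring
  rw [hNe]
  have hX : 2 ^ (σ + lo + up) = 2 ^ σ * 2 ^ lo * 2 ^ up := by simp only [pow_add]
  have hA1 : 1 ≤ 2 ^ lo := Nat.one_le_two_pow
  have hB1 : 1 ≤ 2 ^ up := Nat.one_le_two_pow
  have hS1 : 1 ≤ 2 ^ σ := Nat.one_le_two_pow
  have hAB : 2 ^ lo * 2 ^ up ≤ 4 * 2 ^ σ := by
    rw [← pow_add]
    calc 2 ^ (lo + up) ≤ 2 ^ (σ + 2) := Nat.pow_le_pow_right (by norm_num) hlu
      _ = 4 * 2 ^ σ := by rw [pow_add]; ring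
  have hG : 2 ^ (σ + 5 - lo - up) ≤ 32 * 2 ^ σ := by
    calc 2 ^ (σ + 5 - lo - up) ≤ 2 ^ (σ + 5) := Nat.pow_le_pow_right (by norm_num) (by omega)
      _ = 32 * 2 ^ σ := by rw [pow_add]; ring
  have hσ : σ ≤ 2 ^ σ := Nat.lt_two_pow_self.le
  set A := 2 ^ lo with hA
  set B := 2 ^ up with hB
  set S := 2 ^ σ with hS
  set G := 2 ^ (σ + 5 - lo - up) with hGd
  set X := 2 ^ (σ + lo + up) with hXd
  have hSX : S ≤ X := by
    rw [hX]
    calc S = S * 1 * 1 := by ring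
      _ ≤ S * A * B := by gcongr
  have hABX : A * B ≤ X := by
    rw [hX]
    calc A * B = 1 * A * B := by ring
      _ ≤ S * A * B := by gcongr
  have hABB : A * B * B ≤ 4 * X := by
    rw [hX]
    calc A * B * B ≤ 4 * S * B := by gcongr
      _ = 4 * (S * 1 * B) := by ring
      _ ≤ 4 * (S * A * B) := by gcongr
  have hX1 : 1 ≤ X := le_trans hS1 hSX
  have hqM : q * M ≤ C0 * (q * X) + 12 * (q * t) := by
    calc q * M ≤ q * (C0 * X + 12 * t) := Nat.mul_le_mul_left _ hM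
      _ = C0 * (q * X) + 12 * (q * t) := by ring
  have hq : q ≤ q * X := Nat.le_mul_of_pos_right _ hX1
  have hC0 : 0 ≤ C0 * X := Nat.zero_le _
  nlinarith [hqM, hq, hC0, hABB, hABX, hSX, hG, hσ, hX1]

end Vale.Agent.P338.TM
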